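import Vale.Agent.P269.Ch.Hev
import Vale.Agent.P269.Orb.Ori

/-! Values of cohomology classes at points, nilpotence, open and closed pieces. -/

namespace Vale.Agent.P269.LG.TopP

open Set Function Topology Filter Vale.Agent.P291Z Vale.Agent.P269.Ch Vale.Agent.P269.Orb

variable {A A' : Type} [TopologicalSpace A] [TopologicalSpace A']

theorem bij_pt : Bijective (Algebra.ofId ℂ (H Unit)) := by
  have : Nontrivial (H Unit) := ⟨1, 0, hcls_one_ne_zero⟩
  refine ⟨(algebraMap ℂ (H Unit)).injective, fun c => ?_⟩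
  obtain ⟨z, rfl⟩ := acyc_of_subsingleton c
  exact ⟨z, Algebra.algebraMap_eq_smul_one z⟩

theorem map_const_hcls (a : A) {t : Coch A} (ht : supp (δ t) = ∅) :
    H.map (ContinuousMap.const A' a) (hcls t) = t.1 [a] • 1 := by
  rw [H.map_hcls _ ht, ← hcls_one, ← hcls_smul _ cocycle_one]
  refine hcls_eq_of_cohom (c := pull (ContinuousMap.const A' a) (coneOp a t))
    (cocycle_smul _ cocycle_one) (supp_eq_empty.2 fun x => ?_)
  have := Van.pull (f := ContinuousMap.const A' a) (x := x) continuousAt_const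
    (local_cocycle (supp_eq_empty.1 ht a))
  rwa [map_sub, map_sub, map_smul (pull _), map_one, ← δ_pull] at this

theorem val_hcls (e : H Unit →ₐ[ℂ] ℂ) (a : A) {t : Coch A} (ht : supp (δ t) = ∅) :
    e (H.map (ContinuousMap.const Unit a) (hcls t)) = t.1 [a] := by
  rw [map_const_hcls a ht, map_smul, map_one, smul_eq_mul, mul_one]

theorem lc_val {t : Coch A} (ht : supp (δ t) = ∅) : IsLocallyConstant fun a => t.1 [a] := by
  have h := cocycle_comp ht 0
  rw [(isDeg_comp 0 t).eq_fn, cocycle_fn] at h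
  simpa only [comp_val, List.length_singleton, Nat.cast_one, zero_add, if_true] using h

theorem isLocallyConstant_val (e : H Unit →ₐ[ℂ] ℂ) (c : H A) :
    IsLocallyConstant fun a => e (H.map (ContinuousMap.const Unit a) c) := by
  obtain ⟨t, ht, rfl⟩ := hcls_surj c
  simpa only [val_hcls e _ ht] using lc_val ht

/-- a class that vanishes at all points of a compact space is nilpotent -/
theorem isNilpotent_hcls [CompactSpace A] {t : Coch A} (ht : supp (δ t) = ∅)
    (h : ∀ a, t.1 [a] = 0) : IsNilpotent (hcls t) := by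
  have key : ∃ n s, supp (δ s) = ∅ ∧ hcls s = hcls t ^ n ∧ ∀ x ∈ (univ : Set A), s ∈ Van x := by
    refine isCompact_univ.induction_on
      (p := fun S => ∃ n s, supp (δ s) = ∅ ∧ hcls s = hcls t ^ n ∧ ∀ x ∈ S, s ∈ Van x)
      ⟨0, 1, cocycle_one, by rw [hcls_one, pow_zero], fun _ h => h.elim⟩ ?_ ?_ fun a _ => ?_
    · rintro S T hST ⟨n, s, h1, h2, h3⟩
      exact ⟨n, s, h1, h2, fun x hx => h3 x (hST hx)⟩
    · rintro S T ⟨n, s, h1, h2, h3⟩ ⟨n', s', h1', h2', h3'⟩
      exact ⟨n + n', s * s', cocycle_mul h1 h1', by rw [hcls_mul h1 h1', h2, h2', pow_add],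
        fun x hx => hx.elim (fun hx => Van.mul_right (h3 x hx) _)
          fun hx => Van.mul_left (h3' x hx) _⟩
    · have h1 := local_cocycle (supp_eq_empty.1 ht a)
      rw [h a, zero_smul, sub_zero] at h1
      refine ⟨_, mem_nhdsWithin_of_mem_nhds (eventually_van h1), 1, _,
        cocycle_sub ht (cocycle_δ _), ?_, fun x hx => hx⟩
      rw [pow_one]
      exact hcls_eq_of_cohom (c := -coneOp a t) ht (by
        rw [map_neg, sub_sub_cancel_left, sub_self, supp_zero])
  obtain ⟨n, s, h1, h2, h3⟩ := key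
  refine ⟨n, h2 ▸ (hcls_eq_zero h1).2 ⟨0, ?_⟩⟩
  rw [map_zero, sub_zero]
  exact supp_eq_empty.2 fun x => h3 x trivial

theorem isNilpotent_of_val [CompactSpace A] (e : H Unit →ₐ[ℂ] ℂ) {c : H A}
    (h : ∀ a, e (H.map (ContinuousMap.const Unit a) c) = 0) : IsNilpotent c := by
  obtain ⟨t, ht, rfl⟩ := hcls_surj c
  exact isNilpotent_hcls ht fun a => (val_hcls e a ht).symm.trans (h a)

omit [TopologicalSpace A] in
theorem fn_mul (g g' : A → ℂ) : fn (g * g') = fn g * fn g' :=
  (isDeg_fn _).ext_zero (((isDeg_fn g).mul (isDeg_fn g')).cast (add_zero _)) fun x =>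
    (mul_val_of_isDeg (p := 0) (isDeg_fn g) (fn g') [x] Nat.one_pos).symm

omit [TopologicalSpace A] in
theorem fn_smul (c : ℂ) (g : A → ℂ) : fn (c • g) = c • fn g :=
  (isDeg_fn _).ext_zero ((isDeg_fn g).smul c) fun _ => rfl

omit [TopologicalSpace A] in
theorem fn_zero : fn (0 : A → ℂ) = 0 := (isDeg_fn _).ext_zero (isDeg_zero 0) fun _ => rfl

theorem map_fn' (f : C(A', A)) {g : A → ℂ} (hg : IsLocallyConstant g) :
    H.map f (hcls (fn g)) = hcls (fn (g ∘ f)) := by
  rw [H.map_hcls _ (cocycle_fn.2 hg), pull_fn]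

theorem lc_ind {U : Set A} (hU : IsClopen U) : IsLocallyConstant (U.indicator 1 : A → ℂ) :=
  ((LocallyConstant.const A (1 : ℂ)).indicator hU).isLocallyConstant

omit [TopologicalSpace A'] in
theorem pull_sub_van {f g : A → A'} {x : A} (h : f =ᶠ[𝓝 x] g) (t : Coch A') :
    pull f t - pull g t ∈ Van x :=
  notMem_supp.2 ⟨_, h, fun l hl => by
    rw [Coch.sub_val, Pi.sub_apply, pull_val, pull_val, List.map_congr_left hl, sub_self]⟩

/-- maps that agree on a piece induce the same map on the piece -/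
theorem ind_mul_map {U : Set A} (hU : IsClopen U) {f g : C(A, A')} (h : ∀ x ∈ U, f x = g x)
    (c : H A') : hcls (fn (U.indicator 1)) * H.map f c = hcls (fn (U.indicator 1)) * H.map g c := by
  obtain ⟨t, ht, rfl⟩ := hcls_surj c
  have h1 := cocycle_fn.2 (lc_ind hU)
  have hf := cocycle_pull f.continuous ht
  have hg := cocycle_pull g.continuous ht
  rw [H.map_hcls _ ht, H.map_hcls _ ht, ← hcls_mul h1 hf, ← hcls_mul h1 hg]
  refine hcls_eq_of_null (cocycle_mul h1 hg) fun x => ?_
  rw [← mul_sub]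
  by_cases hx : x ∈ U
  · exact Van.mul_left (pull_sub_van (mem_of_superset (hU.isOpen.mem_nhds hx) h) t) _
  · exact Van.mul_right (fn_van.2 (mem_of_superset (hU.compl.isOpen.mem_nhds hx)
      fun y hy => indicator_of_notMem hy _)) _

/-- an embedding with open and closed range has a retraction -/
theorem exists_retr [Nonempty A] {φ : C(A, A')} (hφ : IsEmbedding φ) (hU : IsClopen (range φ)) :
    ∃ r : C(A', A), ∀ y ∈ range φ, φ (r y) = y := by
  classical
  refine ⟨⟨invFun φ, hφ.continuous_iff.2 ?_⟩, fun y hy => invFun_eq hy⟩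
  have : φ ∘ invFun φ = (range φ).piecewise id fun _ => φ (Classical.arbitrary A) :=
    funext fun y => by
      by_cases hy : y ∈ range φ
      · rw [piecewise_eq_of_mem _ _ _ hy]
        exact invFun_eq hy
      · rw [piecewise_eq_of_notMem _ _ _ hy]
        exact congrArg φ (invFun_neg hy)
  rw [this]
  exact Continuous.piecewise (fun a ha => by rw [hU.frontier_eq] at ha; exact ha.elim)
    continuous_id continuous_const

end Vale.Agent.P269.LG.TopP
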