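import Vale.Agent.P269.LG.LT
import Vale.Agent.P269.LG.TopA

/-! Classes with coefficients: parity, values at points, idempotents, the unit criterion. -/

set_option linter.unusedSectionVars false
set_option maxSynthPendingDepth 3

namespace Vale.Agent.P269.LG

open Set Function Topology Filter TensorProduct B Vale.Agent.P291Z Vale.Agent.P269.Ch
  Vale.Agent.P269.Loc

section cls

variable {A A' A'' : Type} [TopologicalSpace A] [TopologicalSpace A'] [TopologicalSpace A'']

theorem inF_tmul (k : F) (c : Hev A) : inF A (k ⊗ₜ c) = k ⊗ₜ c.1 := rfl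

theorem pbE_tmul (φ : C(A', A)) (k : F) (c : Hev A) : pbE φ (k ⊗ₜ c) = k ⊗ₜ Hev.map φ c := rfl

theorem parH_deg {k : ℤ} {c : H A} (h : H.IsDeg k c) : (parH A).σ c = ((-1 : ℂ) ^ k) • c := by
  obtain ⟨a, ha, h1, rfl⟩ := H.isDeg_iff.1 h
  rw [parH_hcls ha, h1.par_eq, hcls_smul _ ha]

theorem parH_mul (c c' : H A) :
    (parH A).σ (c * c') = (parH A).σ c * (parH A).σ c' := by
  refine H.induction_deg (P := fun c => (parH A).σ (c * c') =
    (parH A).σ c * (parH A).σ c') c (by simp)
    (fun a b ha hb => by simp only [add_mul, map_add, ha, hb]) fun k => ?_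
  refine H.induction_deg (P := fun c' => (parH A).σ (H.comp k c * c') =
    (parH A).σ (H.comp k c) * (parH A).σ c') c' (by simp)
    (fun a b ha hb => by simp only [mul_add, map_add, ha, hb]) fun l => ?_
  rw [parH_deg ((H.isDeg_comp k c).mul (H.isDeg_comp l c')), parH_deg (H.isDeg_comp k c),
    parH_deg (H.isDeg_comp l c'), smul_mul_smul_comm, zpow_add₀ (by norm_num)]

theorem parH_map (φ : C(A', A)) (c : H A) :
    (parH A').σ (H.map φ c) = H.map φ ((parH A).σ c) :=
  H.induction_deg (P := fun c => (parH A').σ (H.map φ c) = H.map φ ((parH A).σ c)) c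
    (by simp) (fun a b ha hb => by simp only [map_add, ha, hb]) fun k => by
      rw [parH_deg (H.isDeg_comp k c), parH_deg ((H.isDeg_comp k c).map φ), H.map_smulC]

theorem parH_ev {c : H A} (hc : c ∈ Hev A) : (parH A).σ c = c :=
  Hev.induction (P := fun c => (parH A).σ c = c) hc
    (fun k _ h => by rw [parH_deg h, (even_two_mul k).neg_one_zpow, one_smul])
    fun a b ha hb => by rw [map_add, ha, hb]

theorem add_parH_mem (c : H A) : c + (parH A).σ c ∈ Hev A :=
  H.induction_deg (P := fun c => c + (parH A).σ c ∈ Hev A) c (by simp)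
    (fun a b ha hb => by rw [map_add, add_add_add_comm]; exact add_mem ha hb) fun k => by
      rw [parH_deg (H.isDeg_comp k c)]
      rcases Int.even_or_odd k with ⟨l, hl⟩ | hk
      · have : H.comp k c ∈ Hev A :=
          mem_Hev (k := l) (by rw [two_mul, ← hl]; exact H.isDeg_comp _ c)
        exact add_mem this (Subalgebra.smul_mem _ this _)
      · rw [hk.neg_one_zpow, neg_one_smul, add_neg_cancel]
        exact zero_mem _

theorem sub_parH_comm (c c' : H A) : (c - (parH A).σ c) * (c' - (parH A).σ c') =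
    -((c' - (parH A).σ c') * (c - (parH A).σ c)) := by
  refine H.induction_deg (P := fun c => (c - (parH A).σ c) * (c' - (parH A).σ c') =
    -((c' - (parH A).σ c') * (c - (parH A).σ c))) c (by simp)
    (fun a b ha hb => by rw [map_add, add_sub_add_comm, add_mul, mul_add, ha, hb, neg_add])
    fun k => ?_
  refine H.induction_deg (P := fun c' => (H.comp k c - (parH A).σ (H.comp k c)) *
    (c' - (parH A).σ c') = -((c' - (parH A).σ c') *
      (H.comp k c - (parH A).σ (H.comp k c)))) c' (by simp)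
    (fun a b ha hb => by rw [map_add, add_sub_add_comm, add_mul, mul_add, ha, hb, neg_add])
    fun l => ?_
  rw [parH_deg (H.isDeg_comp k c), parH_deg (H.isDeg_comp l c')]
  rcases Int.even_or_odd k with hk | hk
  · simp [hk.neg_one_zpow]
  rcases Int.even_or_odd l with hl | hl
  · simp [hl.neg_one_zpow]
  have := (H.isDeg_comp k c).comm (H.isDeg_comp l c')
  rw [(hk.mul hl).neg_one_zpow, neg_one_smul] at this
  simp only [hk.neg_one_zpow, hl.neg_one_zpow, neg_one_smul, sub_neg_eq_add, add_mul, mul_add,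
    this, neg_add]

theorem inF_comm (x : F ⊗[ℂ] Hev A) (y : F ⊗[ℂ] H A) : inF A x * y = y * inF A x := by
  induction x with
  | zero => rw [map_zero, zero_mul, mul_zero]
  | add a b ha hb => rw [map_add, add_mul, mul_add, ha, hb]
  | tmul k c =>
    induction y with
    | zero => rw [zero_mul, mul_zero]
    | add a b ha hb => rw [add_mul, mul_add, ha, hb]
    | tmul k' c' =>
      rw [inF_tmul, Algebra.TensorProduct.tmul_mul_tmul, Algebra.TensorProduct.tmul_mul_tmul,
        Hev.commute c.2, mul_comm k]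

theorem inF_injective : Injective (inF A) :=
  Module.Flat.lTensor_preserves_injective_linearMap (M := F) (Hev A).val.toLinearMap
    Subtype.val_injective

theorem pb_inF (φ : C(A', A)) (x : F ⊗[ℂ] Hev A) : pb F φ (inF A x) = inF A' (pbE φ x) := by
  induction x with
  | zero => simp only [map_zero]
  | add a b ha hb => simp only [map_add, ha, hb]
  | tmul k c => rfl

theorem pbE_pbE (φ : C(A', A)) (ψ : C(A'', A')) (x : F ⊗[ℂ] Hev A) :
    pbE ψ (pbE φ x) = pbE (φ.comp ψ) x :=
  inF_injective (by rw [← pb_inF, ← pb_inF, pb_pb, pb_inF])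

theorem pb_id (x : F ⊗[ℂ] H A) : pb F (.id A) x = x := by
  induction x with
  | zero => simp only [map_zero]
  | add a b ha hb => simp only [map_add, ha, hb]
  | tmul k c => rw [pb_tmul, H.map_id fun _ => rfl]

theorem pbE_id (x : F ⊗[ℂ] Hev A) : pbE (.id A) x = x := inF_injective (by rw [← pb_inF, pb_id])

theorem isEv_pb (φ : C(A', A)) :
    Fock.IsEv ((parH A).bc F) ((parH A').bc F) (pb F φ).toLinearMap := fun x => by
  induction x with
  | zero => simp only [map_zero]
  | add a b ha hb => simp only [map_add, ha, hb]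
  | tmul k c => exact congrArg (k ⊗ₜ[ℂ] ·) (parH_map φ c)

theorem par_mul (x y : F ⊗[ℂ] H A) : ((parH A).bc F).σ (x * y) =
    ((parH A).bc F).σ x * ((parH A).bc F).σ y := by
  induction x with
  | zero => simp only [map_zero, zero_mul]
  | add a b ha hb => simp only [map_add, add_mul, ha, hb]
  | tmul k c =>
    induction y with
    | zero => simp only [map_zero, mul_zero]
    | add a b ha hb => simp only [map_add, mul_add, ha, hb]
    | tmul k' c' => simp only [Algebra.TensorProduct.tmul_mul_tmul, Fock.Par.bc_σ, parH_mul]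

theorem par_inF (x : F ⊗[ℂ] Hev A) : ((parH A).bc F).σ (inF A x) = inF A x := by
  induction x with
  | zero => simp only [map_zero]
  | add a b ha hb => simp only [map_add, ha, hb]
  | tmul k c => rw [inF_tmul, Fock.Par.bc_σ, parH_ev c.2]

theorem add_par_mem (x : F ⊗[ℂ] H A) : x + ((parH A).bc F).σ x ∈ (inF A).range := by
  induction x with
  | zero => rw [map_zero, add_zero]; exact zero_mem _
  | add a b ha hb => rw [map_add, add_add_add_comm]; exact add_mem ha hb
  | tmul k c => exact ⟨k ⊗ₜ ⟨_, add_parH_mem c⟩, tmul_add _ _ _⟩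

theorem half_add_self (x : F ⊗[ℂ] H A) : (2⁻¹ : F) • (x + x) = x := by
  have : (2 : F) ≠ 0 := by
    rw [← map_ofNat (algebraMap ℂ F) 2]
    exact (map_ne_zero_iff _ (algebraMap ℂ F).injective).2 two_ne_zero
  rw [← two_smul F x, smul_smul, inv_mul_cancel₀ this, one_smul]

theorem mem_range_inF {x : F ⊗[ℂ] H A} : x ∈ range (inF A) ↔ ((parH A).bc F).σ x = x := by
  refine ⟨fun ⟨y, hy⟩ => hy ▸ par_inF y, fun h => ?_⟩
  obtain ⟨y, hy⟩ := add_par_mem x
  refine ⟨(2⁻¹ : F) • y, ?_⟩
  rw [map_smul, show inF A y = _ from hy, h, half_add_self]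

theorem comm_ev {y : F ⊗[ℂ] H A} (h : ((parH A).bc F).σ y = y) (x : F ⊗[ℂ] H A) :
    y * x = x * y := by
  obtain ⟨y, rfl⟩ := mem_range_inF.2 h
  exact inF_comm y x

theorem sub_par_comm (x y : F ⊗[ℂ] H A) :
    (x - ((parH A).bc F).σ x) * (y - ((parH A).bc F).σ y) =
      -((y - ((parH A).bc F).σ y) * (x - ((parH A).bc F).σ x)) := by
  induction x with
  | zero => simp only [map_zero, sub_zero, zero_mul, mul_zero, neg_zero]
  | add a b ha hb => rw [map_add, add_sub_add_comm, add_mul, mul_add, ha, hb, neg_add]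
  | tmul k c =>
    induction y with
    | zero => simp only [map_zero, sub_zero, zero_mul, mul_zero, neg_zero]
    | add a b ha hb => rw [map_add, add_sub_add_comm a, add_mul, mul_add, ha, hb, neg_add]
    | tmul k' c' =>
      rw [Fock.Par.bc_σ, Fock.Par.bc_σ, ← tmul_sub, ← tmul_sub,
        Algebra.TensorProduct.tmul_mul_tmul, Algebra.TensorProduct.tmul_mul_tmul, sub_parH_comm,
        tmul_neg, mul_comm k]

theorem comm_od {x y : F ⊗[ℂ] H A} (hx : ((parH A).bc F).σ x = -x)
    (hy : ((parH A).bc F).σ y = -y) : x * y = -(y * x) := by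
  have := sub_par_comm x y
  rw [hx, hy, sub_neg_eq_add, sub_neg_eq_add] at this
  conv_lhs => rw [← half_add_self x, ← half_add_self y, smul_mul_smul_comm, this]
  conv_rhs => rw [← half_add_self x, ← half_add_self y, smul_mul_smul_comm, ← smul_neg]

theorem exists_pt : ∃ e : H Unit →ₐ[ℂ] ℂ, Bijective e :=
  ⟨(AlgEquiv.ofBijective _ TopP.bij_pt).symm, (AlgEquiv.ofBijective _ TopP.bij_pt).symm.bijective⟩

/-- the value at a point -/
noncomputable def ptE (a : A) : F ⊗[ℂ] Hev A →ₐ[F] F :=
  Algebra.TensorProduct.lift (AlgHom.id F F) ((Algebra.ofId ℂ F).comp (exists_pt.choose.comp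
    ((H.mapA (.const Unit a)).comp (Hev A).val))) fun _ _ => Commute.all _ _

theorem ptE_tmul (a : A) (k : F) (c : Hev A) : ptE a (k ⊗ₜ c) =
    k * algebraMap ℂ F (exists_pt.choose (H.map (ContinuousMap.const Unit a) c.1)) := rfl

theorem ptE_pbE (φ : C(A', A)) (a : A') (x : F ⊗[ℂ] Hev A) : ptE a (pbE φ x) = ptE (φ a) x := by
  induction x with
  | zero => simp only [map_zero]
  | add a b ha hb => simp only [map_add, ha, hb]
  | tmul k c =>
    rw [pbE_tmul, ptE_tmul, ptE_tmul, Hev.coe_map, H.map_map]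
    rfl

theorem ptE_deg (a : A) (k : F) {d : ℤ} (hd : d ≠ 0) {c : Hev A} (hc : c ∈ Hev.deg A d) :
    ptE a (k ⊗ₜ c) = 0 := by
  rw [ptE_tmul, H.map_const_eq_zero a (mul_ne_zero two_ne_zero hd) (Hev.mem_deg.1 hc), map_zero,
    map_zero, mul_zero]

variable [Nice A] [Nice A'] {g g' : A → ℂ} {U U' : Set A}

theorem inF_fnE (g : A → ℂ) : inF A (fnE g) = 1 ⊗ₜ hcls (fn g) := rfl

theorem ptE_fnE (hg : IsLocallyConstant g) (a : A) : ptE a (fnE g) = algebraMap ℂ F (g a) := by
  rw [fnE, ptE_tmul, one_mul, TopP.val_hcls _ a (Orb.cocycle_fn.2 hg), fn_val]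

theorem isLocallyConstant_ptE (x : F ⊗[ℂ] Hev A) : IsLocallyConstant fun a => ptE a x := by
  induction x with
  | zero => simp only [map_zero]; exact IsLocallyConstant.const 0
  | add a b ha hb => simp only [map_add]; exact ha.add hb
  | tmul k c =>
    exact (TopP.isLocallyConstant_val exists_pt.choose c.1).comp fun z => k * algebraMap ℂ F z

theorem pbE_fnE (φ : C(A', A)) (hg : IsLocallyConstant g) : pbE φ (fnE g) = fnE (g ∘ φ) :=
  inF_injective (by rw [← pb_inF, inF_fnE, inF_fnE, pb_tmul, map_fn φ hg])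

theorem fnE_mul (hg : IsLocallyConstant g) (hg' : IsLocallyConstant g') :
    fnE (g * g') = fnE g * fnE g' := inF_injective (by
  rw [map_mul, inF_fnE, inF_fnE, inF_fnE, Algebra.TensorProduct.tmul_mul_tmul, one_mul,
    TopP.fn_mul, hcls_mul (Orb.cocycle_fn.2 hg) (Orb.cocycle_fn.2 hg')])

theorem fnE_add (hg : IsLocallyConstant g) (hg' : IsLocallyConstant g') :
    fnE (g + g') = fnE g + fnE g' := inF_injective (by
  rw [map_add, inF_fnE, inF_fnE, inF_fnE, ← tmul_add, fn_add,
    hcls_add (Orb.cocycle_fn.2 hg) (Orb.cocycle_fn.2 hg')])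

theorem fnE_smul (hg : IsLocallyConstant g) (c : ℂ) : fnE (c • g) = c • fnE g := by
  rw [fnE, fnE, ← tmul_smul]
  refine congrArg ((1 : F) ⊗ₜ[ℂ] ·) (Subtype.ext ?_)
  exact (congrArg hcls (TopP.fn_smul c g)).trans (hcls_smul c (Orb.cocycle_fn.2 hg))

theorem fnE_zero : fnE (0 : A → ℂ) = 0 :=
  inF_injective (by rw [inF_fnE, TopP.fn_zero, hcls_zero, tmul_zero, map_zero])

theorem fnE_one : fnE (1 : A → ℂ) = 1 := inF_injective (by
  rw [inF_fnE, map_one, show fn (1 : A → ℂ) = 1 from fn_one, hcls_one]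
  rfl)

theorem fnE_sum {α : Type} (s : Finset α) {g : α → A → ℂ} (hg : ∀ i ∈ s, IsLocallyConstant (g i)) :
    fnE (∑ i ∈ s, g i) = ∑ i ∈ s, fnE (g i) := inF_injective (by
  rw [map_sum, inF_fnE, fn_sum, hcls_sum _ fun i hi => Orb.cocycle_fn.2 (hg i hi), tmul_sum]
  rfl)

theorem isLocallyConstant_ind (hU : IsClopen U) : IsLocallyConstant (U.indicator 1 : A → ℂ) :=
  TopP.lc_ind hU

theorem pbE_idE (φ : C(A', A)) (hU : IsClopen U) : pbE φ (idE U) = idE (φ ⁻¹' U) :=
  pbE_fnE φ (isLocallyConstant_ind hU)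

theorem idE_mul (hU : IsClopen U) (hU' : IsClopen U') : idE U * idE U' = idE (U ∩ U') := by
  rw [idE, idE, idE, ← fnE_mul (isLocallyConstant_ind hU) (isLocallyConstant_ind hU'),
    inter_indicator_one]

theorem idE_mul_self (hU : IsClopen U) : idE U * idE U = idE U := by rw [idE_mul hU hU, inter_self]

theorem idE_univ : idE (univ : Set A) = 1 := by rw [idE, indicator_univ, fnE_one]

theorem idE_empty : idE (∅ : Set A) = 0 := by rw [idE, indicator_empty', fnE_zero]

theorem idE_compl (hU : IsClopen U) : idE Uᶜ = 1 - idE U := by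
  rw [eq_sub_iff_add_eq, idE, idE,
    ← fnE_add (isLocallyConstant_ind hU.compl) (isLocallyConstant_ind hU), indicator_compl_add_self,
    fnE_one]

theorem ptE_idE_mem (hU : IsClopen U) {a : A} (ha : a ∈ U) : ptE a (idE U) = 1 := by
  rw [idE, ptE_fnE (isLocallyConstant_ind hU), indicator_of_mem ha, Pi.one_apply, map_one]

theorem ptE_idE_notMem (hU : IsClopen U) {a : A} (ha : a ∉ U) : ptE a (idE U) = 0 := by
  rw [idE, ptE_fnE (isLocallyConstant_ind hU), indicator_of_notMem ha, map_zero]

omit [Nice A'] in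
/-- maps that agree on a piece induce the same map on the piece -/
theorem idE_mul_pb (hU : IsClopen U) {f f' : C(A, A')} (h : ∀ a ∈ U, f a = f' a)
    (x : F ⊗[ℂ] H A') : inF A (idE U) * pb F f x = inF A (idE U) * pb F f' x := by
  induction x with
  | zero => simp only [map_zero]
  | add a b ha hb => simp only [map_add, mul_add, ha, hb]
  | tmul k c =>
    rw [idE, inF_fnE, pb_tmul, pb_tmul, Algebra.TensorProduct.tmul_mul_tmul,
      Algebra.TensorProduct.tmul_mul_tmul, TopP.ind_mul_map hU h]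

omit [Nice A] in
theorem piece_eq_zero_embH {φ : C(A, A')} (hφ : IsEmbedding φ) (hU' : IsClopen (range φ))
    {x : F ⊗[ℂ] H A'} (h : pb F φ x = 0) : inF A' (idE (range φ)) * x = 0 := by
  rcases isEmpty_or_nonempty A with hA | hA
  · rw [range_eq_empty, idE_empty, map_zero, zero_mul]
  obtain ⟨r, hr⟩ := TopP.exists_retr hφ hU'
  rw [← pb_id x, ← idE_mul_pb hU' (f := φ.comp r) (f' := .id A') hr, ← pb_pb, h, map_zero,
    mul_zero]

variable [CompactSpace A]

theorem isNilpotent_iff {x : F ⊗[ℂ] Hev A} : IsNilpotent x ↔ ∀ a, ptE a x = 0 := by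
  refine ⟨fun h a => (h.map (ptE a)).eq_zero, fun h => ?_⟩
  let b := Module.Basis.ofVectorSpace ℂ F
  obtain ⟨c, rfl⟩ := eq_repr_basis_left b x
  refine isNilpotent_sum fun i hi => ?_
  have : IsNilpotent (c i).1 := TopP.isNilpotent_of_val exists_pt.choose fun a => by
    refine linearIndependent_iff'.1 b.linearIndependent c.support
      (fun i => exists_pt.choose (H.map (ContinuousMap.const Unit a) (c i).1)) ?_ i hi
    rw [← h a, Finsupp.sum, map_sum]
    exact Finset.sum_congr rfl fun j _ => by rw [ptE_tmul, Algebra.smul_def, mul_comm]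
  obtain ⟨n, hn⟩ := this
  refine ⟨n, ?_⟩
  rw [Algebra.TensorProduct.tmul_pow, show c i ^ n = 0 from Subtype.ext hn, tmul_zero]

/-- **the unit criterion** -/
theorem isUnit_iff {x : F ⊗[ℂ] Hev A} : IsUnit x ↔ ∀ a, ptE a x ≠ 0 := by
  refine ⟨fun h a => (h.map (ptE a)).ne_zero, fun h => by_contra fun hx => ?_⟩
  obtain ⟨m, hm, hxm⟩ := exists_max_ideal_of_mem_nonunits hx
  have hf := (isLocallyConstant_ptE x).range_finite
  obtain ⟨n, hn⟩ : IsNilpotent (∏ y ∈ hf.toFinset, (algebraMap F _ y - x)) :=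
    isNilpotent_iff.2 fun a => by
      rw [map_prod]
      exact Finset.prod_eq_zero (hf.mem_toFinset.2 ⟨a, rfl⟩) (by
        rw [map_sub, AlgHom.commutes, Algebra.algebraMap_self, RingHom.id_apply, sub_self])
  obtain ⟨y, hy, h1⟩ := (Ideal.IsPrime.prod_mem_iff (hp := hm.isPrime)).1
    (hm.isPrime.mem_of_pow_mem n (hn ▸ m.zero_mem))
  obtain ⟨a, rfl⟩ := hf.mem_toFinset.1 hy
  have h2 := m.add_mem h1 hxm
  rw [sub_add_cancel] at h2
  exact hm.ne_top (m.eq_top_of_isUnit_mem h2 ((h a).isUnit.map _))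

theorem isUnit_piece (hU : IsClopen U) {x : F ⊗[ℂ] Hev A} (h : ∀ a ∈ U, ptE a x ≠ 0) :
    IsUnit (idE U * x + 1 - idE U) := isUnit_iff.2 fun a => by
  rw [map_sub, map_add, map_mul, map_one]
  by_cases ha : a ∈ U
  · rw [ptE_idE_mem hU ha, one_mul, add_sub_cancel_right]
    exact h a ha
  · rw [ptE_idE_notMem hU ha, zero_mul, zero_add, sub_zero]
    exact one_ne_zero

/-- a class vanishes on a piece if its pull-back under a homeomorphism onto the piece vanishes -/
theorem piece_eq_zero {φ : C(A, A')} (hU : IsClopen U) (hi : InjOn φ U) (hU' : IsClopen (φ '' U))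
    {x : F ⊗[ℂ] H A'} (h : inF A (idE U) * pb F φ x = 0) : inF A' (idE (φ '' U)) * x = 0 := by
  let i : C(U, A) := ⟨Subtype.val, continuous_subtype_val⟩
  have : CompactSpace U := isCompact_iff_compactSpace.1 hU.isClosed.isCompact
  have : Nice U := Nice.of_isLocallyClosed hU.isClosed.isLocallyClosed
  have e : range (φ.comp i) = φ '' U := (image_eq_range φ U).symm
  have h1 := congrArg (pb F i) h
  rw [map_mul, map_zero, pb_inF, pbE_idE i hU, show i ⁻¹' U = univ from Subtype.coe_preimage_self U,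
    idE_univ, map_one, one_mul, pb_pb] at h1
  rw [← e] at hU' ⊢
  exact piece_eq_zero_embH
    ((φ.comp i).continuous.isClosedEmbedding (injOn_iff_injective.1 hi)).isEmbedding hU' h1

theorem piece_eq_zero' {φ : C(A, A')} (hU : IsClopen U) (hi : InjOn φ U) (hU' : IsClopen (φ '' U))
    {x : F ⊗[ℂ] Hev A'} (h : idE U * pbE φ x = 0) : idE (φ '' U) * x = 0 := inF_injective (by
  rw [map_mul, map_zero]
  exact piece_eq_zero hU hi hU' (by rw [pb_inF, ← map_mul, h, map_zero]))

omit [Nice A] [CompactSpace A] in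
theorem piece_eq_zero_emb {φ : C(A, A')} (hφ : IsEmbedding φ) (hU' : IsClopen (range φ))
    {x : F ⊗[ℂ] Hev A'} (h : pbE φ x = 0) : idE (range φ) * x = 0 := inF_injective (by
  rw [map_mul, map_zero]
  exact piece_eq_zero_embH hφ hU' (by rw [pb_inF, h, map_zero]))

end cls

end Vale.Agent.P269.LG
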