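import Vale.Agent.P269.LG.Alg
import Vale.Agent.P269.LG.Top
import Vale.Agent.P269.PA.Prd
import Vale.Agent.P269.B.Nat

/-! Algebra for the fixed loci without edges. -/

set_option linter.unusedSectionVars false
set_option maxSynthPendingDepth 3

namespace Vale.Agent.P269.LG.Loc2P

open Set Function TensorProduct B Fock Finset Vale.Agent.P291Z Vale.Agent.P269.Ch

section conv

variable {k : Type} [Field k]

/-- the iterated convolution -/
noncomputable def conv : List (ℤ → k) → ℤ → k
  | [], j => if j = 0 then 1 else 0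
  | z :: s, j => ∑ᶠ i, z i * conv s (j - i)

theorem conv_single (z : ℤ → k) (j : ℤ) : conv [z] j = z j := by
  rw [conv, finsum_eq_single _ j]
  · simp [conv]
  · intro i hi
    simp [conv, sub_eq_zero, hi.symm]

theorem finite_box (n : ℕ) (B j : ℤ) :
    {jv : Fin n → ℤ | ∑ i, jv i = j ∧ ∀ i, B ≤ jv i}.Finite := by
  refine (Set.Finite.pi' fun _ : Fin n => Set.finite_Icc B (j - n * B + B)).subset ?_
  rintro jv ⟨h1, h2⟩ i
  refine ⟨h2 i, ?_⟩
  have := Finset.single_le_sum (f := fun l => jv l - B) (fun l _ => sub_nonneg.2 (h2 l))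
    (Finset.mem_univ i)
  rw [Finset.sum_sub_distrib, h1, Finset.sum_const, Finset.card_univ, Fintype.card_fin,
    nsmul_eq_mul] at this
  linarith

theorem finite_prod {n : ℕ} {z : Fin n → ℤ → k} {B : ℤ} (hz : ∀ i l, l < B → z i l = 0) (j : ℤ) :
    {jv : Fin n → ℤ | ∑ i, jv i = j ∧ ∏ i, z i (jv i) ≠ 0}.Finite :=
  (finite_box n B j).subset fun _ h => ⟨h.1, fun i => not_lt.1 fun hl =>
    h.2 (Finset.prod_eq_zero (Finset.mem_univ i) (hz i _ hl))⟩

theorem fin_cond {α : Type} {c : α → Prop} {t : α → k} (h : {x | c x ∧ t x ≠ 0}.Finite) :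
    HasFiniteSupport fun x => ∑ᶠ _ : c x, t x := h.subset fun x hx => by
  by_cases hc : c x
  · exact ⟨hc, by simpa [hc] using hx⟩
  · simp [hc] at hx

theorem conv_ofFn {n : ℕ} (z : Fin n → ℤ → k) {B : ℤ} (hz : ∀ i l, l < B → z i l = 0) (j : ℤ) :
    conv (List.ofFn z) j = ∑ᶠ (jv : Fin n → ℤ) (_ : ∑ i, jv i = j), ∏ i, z i (jv i) := by
  induction n generalizing j with
  | zero =>
    rw [finsum_unique]
    by_cases h : j = 0
    · simp [conv, h]
    · simp [conv, h, Ne.symm h]
  | succ n ih =>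
    have e := finsum_comp_equiv (Fin.consEquiv fun _ : Fin (n + 1) => ℤ)
      (f := fun jv : Fin (n + 1) → ℤ => ∑ᶠ _ : ∑ i, jv i = j, ∏ i, z i (jv i))
    rw [← e, finsum_curry _ ((fin_cond (finite_prod hz j)).fun_comp_of_injective
      (Equiv.injective _)), List.ofFn_succ, conv]
    refine finsum_congr fun i => ?_
    rw [ih _ fun i => hz i.succ, mul_finsum]
    refine finsum_congr fun jv => ?_
    have h1 : ∑ l, (Fin.consEquiv fun _ : Fin (n + 1) => ℤ) (i, jv) l = i + ∑ l, jv l := by
      simp [Fin.consEquiv, Fin.sum_univ_succ]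
    have h2 : ∏ l, z l ((Fin.consEquiv fun _ : Fin (n + 1) => ℤ) (i, jv) l) =
        z 0 i * ∏ l, z l.succ (jv l) := by
      simp [Fin.consEquiv, Fin.prod_univ_succ]
    rw [h1, h2]
    by_cases hc : i + ∑ l, jv l = j
    · simp [eq_sub_iff_add_eq'.2 hc]
    · simp [hc, mt eq_sub_iff_add_eq'.1 hc]

/-- the vectors on which a functional is the finite sum of given functionals -/
def fsum {M α : Type} [AddCommGroup M] [Module k M] (Z : M →ₗ[k] k) (c : α → Prop)
    (t : α → M →ₗ[k] k) : Submodule k M where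
  carrier := {y | {x | c x ∧ t x y ≠ 0}.Finite ∧ Z y = ∑ᶠ (x) (_ : c x), t x y}
  zero_mem' := ⟨by simp, by simp⟩
  add_mem' := fun {y y'} hy hy' => by
    refine ⟨(hy.1.union hy'.1).subset fun x hx => ?_, ?_⟩
    · by_contra hh
      simp only [Set.mem_union, Set.mem_ofPred_eq, hx.1, true_and, not_or, not_not] at hh
      exact hx.2 (by rw [map_add, hh.1, hh.2, add_zero])
    · rw [map_add, hy.2, hy'.2, ← finsum_add_distrib (fin_cond hy.1) (fin_cond hy'.1)]
      refine finsum_congr fun x => ?_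
      by_cases hc : c x <;> simp [hc]
  smul_mem' := fun b y hy => by
    refine ⟨hy.1.subset fun x hx => ⟨hx.1, fun hh => hx.2 (by rw [map_smul, hh, smul_zero])⟩, ?_⟩
    rw [map_smul, hy.2, smul_eq_mul, mul_finsum]
    refine finsum_congr fun x => ?_
    by_cases hc : c x <;> simp [hc]

end conv

section ring

theorem central_prod {A α : Type} [Monoid A] {e : A} (he : ∀ y, e * y = y * e) {f f' : α → A}
    {L : List α} (h : ∀ x ∈ L, e * f x = e * f' x) :
    e * (L.map f).prod = e * (L.map f').prod := by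
  induction L with
  | nil => rfl
  | cons x L ih =>
    rw [List.map_cons, List.map_cons, List.prod_cons, List.prod_cons, ← mul_assoc,
      h x List.mem_cons_self, he, mul_assoc, ih fun y hy => h y (List.mem_cons_of_mem _ hy),
      ← mul_assoc, ← he, mul_assoc]

theorem geom {A : Type} [CommRing A] {u s c ψ q q' : A} {N : ℕ} (h1 : s * (ψ - q) = c)
    (h2 : q * q' = 1) (h3 : u * ψ ^ N = 0) :
    u * s = -∑ k ∈ range N, u * (c * ψ ^ k * q' ^ (k + 1)) := by
  have h4 : (ψ - q) * ∑ k ∈ range N, ψ ^ k * q' ^ (k + 1) = ψ ^ N * q' ^ N - 1 := by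
    clear h3
    induction N with
    | zero => simp
    | succ N ih =>
      rw [sum_range_succ, mul_add, ih]
      linear_combination (-ψ ^ N * q' ^ N) * h2
  have h5 : ∑ k ∈ range N, u * (c * ψ ^ k * q' ^ (k + 1)) =
      u * s * ((ψ - q) * ∑ k ∈ range N, ψ ^ k * q' ^ (k + 1)) := by
    rw [mul_sum, mul_sum]
    exact sum_congr rfl fun k _ => by rw [← h1]; ring
  rw [h5, h4]
  linear_combination (s * q' ^ N) * h3

variable {A : Type} [TopologicalSpace A] [Nice A]

theorem piece_sum {U U' : Set A} (hU : IsClopen U) (hU' : IsClopen U') {α : Type} (G : Finset α)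
    {f : α → A → ℂ} (hf : ∀ i, IsLocallyConstant (f i))
    (h : ∀ x ∈ U', ∑ i ∈ G, f i x = U.indicator 1 x) :
    (∑ i ∈ G, fnE (f i)) * idE U' = idE U * idE U' := by
  have h1 : IsLocallyConstant (∑ i ∈ G, f i) :=
    Finset.sum_induction f IsLocallyConstant (fun _ _ a b => a.add b)
      (IsLocallyConstant.const 0) fun i _ => hf i
  rw [← fnE_sum G fun i _ => hf i, idE, idE, ← fnE_mul h1 (isLocallyConstant_ind hU'),
    ← fnE_mul (isLocallyConstant_ind hU) (isLocallyConstant_ind hU')]
  refine congrArg fnE (funext fun x => ?_)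
  by_cases hx : x ∈ U'
  · rw [Pi.mul_apply, Pi.mul_apply, Finset.sum_apply, h x hx]
  · simp [hx]

theorem sum_piece (I : F ⊗[ℂ] H A →ₗ[F] F) {α : Type} {G : Finset α} {f : α → F ⊗[ℂ] Hev A}
    {e u : F ⊗[ℂ] Hev A} {x : F ⊗[ℂ] H A} (h : inF A e * x = x) (h' : (∑ i ∈ G, f i) * e = u * e) :
    I (inF A u * x) = ∑ i ∈ G, I (inF A (f i) * x) := by
  rw [← map_sum, ← Finset.sum_mul, ← map_sum, ← h, ← mul_assoc, ← mul_assoc, ← map_mul, ← map_mul,
    h']

theorem piece_prod {α : Type} (L : List α) {U : α → Set A} (hU : ∀ y, IsClopen (U y))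
    {w : α → F ⊗[ℂ] H A} (hw : ∀ y, inF A (idE (U y)) * w y = w y) :
    IsClopen {x | ∀ y ∈ L, x ∈ U y} ∧
      inF A (idE {x | ∀ y ∈ L, x ∈ U y}) * (L.map w).prod = (L.map w).prod := by
  induction L with
  | nil =>
    have : {x | ∀ y ∈ ([] : List α), x ∈ U y} = Set.univ := by simp
    rw [this, idE_univ, map_one, one_mul]
    exact ⟨isClopen_univ, rfl⟩
  | cons y L ih =>
    have : {x | ∀ z ∈ y :: L, x ∈ U z} = {x | ∀ z ∈ L, x ∈ U z} ∩ U y := by
      ext x
      simp [and_comm]
    rw [this, ← idE_mul ih.1 (hU y), map_mul, List.map_cons, List.prod_cons, mul_assoc,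
      ← mul_assoc (inF A (idE (U y))), hw, ← mul_assoc, inF_comm, mul_assoc, ih.2]
    exact ⟨ih.1.inter (hU y), rfl⟩

end ring

section emb

variable {K : Type} [CommRing K] {W : Type} [AddCommGroup W] [Module K W] {σ : Type} [Fintype σ]
  [DecidableEq σ]

variable (K W σ) in
/-- descendant insertions as symbols -/
noncomputable def emb : VV (σ → W) →ₗ[K] (Sym σ →₀ W) :=
  Finsupp.lsum K fun k => ∑ i, Finsupp.lsingle (.inl (i, k)) ∘ₗ LinearMap.proj i

theorem emb_single (k : ℕ) (i : σ) (v : W) :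
    emb K W σ (Finsupp.single k (Pi.single i v)) = Finsupp.single (.inl (i, k)) v := by
  simp only [emb, Finsupp.lsum_single, LinearMap.sum_apply, LinearMap.comp_apply,
    LinearMap.proj_apply, Finsupp.lsingle_apply]
  rw [Finset.sum_eq_single i (fun l _ hl => by simp [hl]) (by simp), Pi.single_eq_same]

theorem isEv_emb (p : Par K W) : IsEv ((p.pi σ).fs ℕ) (p.fs _) (emb K W σ) := fun v => by
  induction v using Finsupp.induction_linear with
  | zero => simp
  | add a b ha hb => simp only [map_add, ha, hb]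
  | single s v => simp [emb, map_sum]

end emb

section mon

variable {V : Type} [AddCommGroup V] [Module ℂ V] (p : Par ℂ V) {σ : Type}

/-- a monomial in descendant insertions -/
noncomputable def mn (l : List (ℕ × V)) : S (p.fs ℕ) :=
  (l.map fun y => Fock.ι _ (Finsupp.single y.1 y.2)).prod

/-- the insertion of a class with a power of `ψ` over a component -/
noncomputable def sg (y : σ × ℕ × V) : Sym σ →₀ F ⊗[ℂ] V :=
  Finsupp.single (.inl (y.1, y.2.1)) (1 ⊗ₜ y.2.2)

theorem span_mn : Submodule.span ℂ (Set.range (mn p)) = ⊤ := by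
  have h : Submodule.span ℂ {v : ℕ →₀ V | ∃ y : ℕ × V, v = Finsupp.single y.1 y.2} = ⊤ := by
    refine eq_top_iff.2 fun v hv => ?_
    clear hv
    induction v using Finsupp.induction_linear with
    | zero => simp
    | add a b ha hb => exact add_mem ha hb
    | single s v => exact Submodule.subset_span ⟨(s, v), rfl⟩
  refine eq_top_iff.2 ((span_mon (p := p.fs ℕ) h).ge.trans (Submodule.span_mono ?_))
  rintro _ ⟨n, L, -, hL, rfl⟩
  obtain ⟨l, e⟩ := exists_map_eq (fun y : ℕ × V => Finsupp.single y.1 y.2) (L.map Prod.snd)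
    fun x hx => by
      obtain ⟨z, hz, rfl⟩ := List.mem_map.1 hx
      exact hL z hz
  exact ⟨l, by rw [mon_eq, e, List.map_map]; rfl⟩

theorem prd_mn {r : ℕ} {Q : S ((p.pi (Fin r)).fs ℕ) → Prop}
    (h : ∀ l : Fin r → List (ℕ × V), Q (prd p fun n => mn p (l n)))
    (hadd : ∀ x y, Q x → Q y → Q (x + y)) (hsmul : ∀ (a : ℂ) x, Q x → Q (a • x)) (y) : Q y := by
  refine prd_ind (fun x => ?_) hadd hsmul y
  have key : ∀ (T : Finset (Fin r)) (x : Fin r → S (p.fs ℕ)),
      (∀ n ∉ T, x n ∈ Set.range (mn p)) → Q (prd p x) := by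
    intro T
    induction T using Finset.induction_on with
    | empty =>
      intro x hx
      choose l hl using fun n => hx n (Finset.notMem_empty n)
      rw [← funext hl]
      exact h l
    | insert n T _ ih =>
      intro x hx
      rw [← update_eq_self n x]
      have hv : x n ∈ Submodule.span ℂ (Set.range (mn p)) := span_mn p ▸ Submodule.mem_top
      generalize x n = v at hv
      have h1 : ∀ w ∈ Set.range (mn p), Q (prd p (update x n w)) := fun w hw => ih _ fun m hm => by
        by_cases e : m = n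
        · rw [e, update_self]; exact hw
        · rw [update_of_ne e]; exact hx m (by simp [e, hm])
      induction hv using Submodule.span_induction with
      | mem w hw => exact h1 w hw
      | zero =>
        have := hsmul 0 _ (h1 _ ⟨[], rfl⟩)
        rwa [← prd_smul, zero_smul] at this
      | add a b _ _ ha hb => rw [prd_add]; exact hadd _ _ ha hb
      | smul c a _ ha => rw [prd_smul]; exact hsmul _ _ ha
  exact key Finset.univ x fun n hn => absurd (Finset.mem_univ n) hn

/-- the blocks of insertions -/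
def blk (l : σ → List (ℕ × V)) (s : List σ) : List (σ × ℕ × V) :=
  s.flatMap fun i => (l i).map fun y => (i, y)

theorem emb_prd {r : ℕ} (l : Fin r → List (ℕ × V)) :
    Fock.map _ (isEv_emb (p.bc F)) (bcS _ (isEvS_jV p F) (prd p fun n => mn p (l n))) =
      ((blk l (List.ofFn id)).map fun y => Fock.ι ((p.bc F).fs _) (sg y)).prod := by
  rw [blk, List.map_flatMap, List.flatMap, List.prod_flatten, prd, map_list_prod, map_list_prod,
    List.map_ofFn, List.map_ofFn, List.map_ofFn, List.map_ofFn]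
  refine congrArg List.prod (congrArg List.ofFn (funext fun n => ?_))
  simp only [comp_apply, id, mn, map_list_prod, List.map_map]
  refine congrArg List.prod (List.map_congr_left fun y _ => ?_)
  simp only [comp_apply, inc, map_ι, bcS_ι, jV_eq, Finsupp.mapRange.linearMap_apply,
    Finsupp.mapRange_single, fsS_single, LinearMap.coe_single, piS_single, emb_single, j1_apply, sg]

theorem bc_ind {r : ℕ} (M : Submodule F (S (((p.bc F).pi (Fin r)).fs ℕ)))
    (h : ∀ l : Fin r → List (ℕ × V), bcS _ (isEvS_jV p F) (prd p fun n => mn p (l n)) ∈ M) (y) :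
    y ∈ M := by
  have hs : Submodule.span F (Set.range (jV (K := ℂ) V (Fin r) F)) = ⊤ := by
    rw [jV_eq]
    exact span_fsS (span_piS span_j1 _) ℕ
  refine bcS_induction (hj := isEvS_jV p F) (P := (· ∈ M)) hs (fun x => ?_) (fun _ _ => add_mem)
    (fun c _ => M.smul_mem c) y
  refine prd_mn p (Q := fun x => bcS _ (isEvS_jV p F) x ∈ M) h (fun x y hx hy => ?_)
    (fun c x hx => ?_) x
  · rw [map_add]; exact add_mem hx hy
  · rw [bcS_smul]; exact M.smul_mem _ hx

end mon

end Vale.Agent.P269.LG.Loc2P
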