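import Vale.Agent.P269.LG.Cmb

/-! Relabelling of ends, the genus of the vertices. -/

namespace Vale.Agent.P269.LG

open Cv

variable {R J σ ν ν' : Type}

/-- relabelling of ends -/
def En.map (f : ν → ν') : En ν → En ν'
  | .node => .node
  | .bare => .bare
  | .mark n => .mark (f n)

/-- twice the genus minus two of the vertices over `i` -/
noncomputable def vgen (m : AM0 R J σ ν) (i : σ) : ℤ := degOn (omega m.R m.N ∅) (Vx m i)

end Vale.Agent.P269.LG
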