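import Vale.Agent.P269.LG.Bas
import Vale.Agent.P269.LG.Ops0
import Vale.Agent.P269.Pt.Bnd

/-! Finiteness of the numerical types of fixed maps. -/

set_option linter.unusedSectionVars false

namespace Vale.Agent.P269.LG

open Set Function Topology Filter Cv B

variable {R J K σ ν : Type} [Fintype R] [Fintype J] [Fintype K] [Fintype σ] [Fintype ν]
  {P : PB R J K σ} {m : AM0 R J σ ν} {T : Set σ}

section fin

variable [DecidableEq R]

theorem finite_edge (hE : (P.E ∅).Good) (ν : Type) [Fintype ν] (g : ℤ) (d : Option R → ℤ) :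
    {e | ∃ m : AM0 R J σ ν, Fx m P g d ∧ ∃ a b, Eg m e a b}.Finite := by
  refine Finite.of_injOn (f := fun e : Edge σ => (e.src, e.tgt, (e.deg : ℤ) + 1)) ?_
    (fun e _ e' _ h => ?_) (finite_univ.prod (finite_univ.prod
      ((AM.finite_part (ν := ν) (κ := Fin 0) hE g d).image fun x => x.2 none)))
  · rintro e ⟨m, h, a, b, k⟩
    exact ⟨trivial, trivial, (_, fun o => degOn (m.L o) (connectedComponent a)),
      ⟨m, h.sol, h.stable, h.typ, _, (exists_comp (R := m.R) a).1, rfl, fun _ => rfl⟩, k.deg⟩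
  · simp only [Prod.mk.injEq] at h
    exact Edge.ext h.1 h.2.1 (by omega)

theorem finite_nfl (hE : (P.E ∅).Good) (ν : Type) [Fintype ν] (g : ℤ) (d : Option R → ℤ) :
    {k | ∃ m : AM0 R J σ ν, Fx m P g d ∧ nfl m = k}.Finite := by
  obtain ⟨c, hc⟩ := AM.exists_bound (ν := ν) (κ := Fin 0) hE g d
  have f := finite_edge hE ν g d
  refine (finite_Iic ({e | ∃ m : AM0 R J σ ν, Fx m P g d ∧ ∃ a b, Eg m e a b}.ncard * c)).subset ?_
  rintro _ ⟨m, h, rfl⟩
  refine (ncard_le_ncard_of_injOn (fun x => (x.1, connectedComponent x.2.1)) ?_ ?_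
    (f.prod m.finite_clopen)).trans ?_
  · exact fun x k => ⟨⟨m, h, _, _, k⟩, (exists_comp (R := m.R) _).1⟩
  · rintro ⟨e, a, b⟩ k ⟨e', a', b'⟩ k' q
    obtain ⟨rfl, q⟩ := Prod.mk.inj q
    exact Prod.ext rfl (Prod.ext ((k'.tgt a (q ▸ mem_connectedComponent)).1
      ((k.tgt a mem_connectedComponent).2 rfl)) ((k'.src b (q ▸ k.mem)).1 ((k.src b k.mem).2 rfl)))
  · rw [ncard_prod]
    exact Nat.mul_le_mul_left _ (hc m h.sol h.stable h.typ).2.2

theorem finite_vgen (hE : (P.E ∅).Good) (ν : Type) [Fintype ν] (g : ℤ) (d : Option R → ℤ) (i : σ) :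
    {c | ∃ m : AM0 R J σ ν, Fx m P g d ∧ vgen m i = c}.Finite := by
  refine ((AM.finite_part (ν := ν) (κ := Fin 0) hE g d).image Prod.fst).subset ?_
  rintro _ ⟨m, h, rfl⟩
  exact ⟨(_, fun o => degOn (m.L o) (Vx m i)),
    ⟨m, h.sol, h.stable, h.typ, _, isClopen_Vx i, rfl, fun _ => rfl⟩, rfl⟩

theorem Vert.even_vgen (hs : m.Sol (P.E ∅)) (h : Vert m T) (i : σ) : Even (vgen m i) := by
  have f : {V | ∃ z ∈ Vx m i, V = m.cmp z}.Finite :=
    m.finite_cmp.subset fun _ ⟨z, _, e⟩ => ⟨z, e.symm⟩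
  rw [vgen, (h.sat hs i).degOn_eq_sum _ (T := f.toFinset) fun _ => f.mem_toFinset]
  refine Finset.even_sum _ fun V hV => ?_
  obtain ⟨z, -, rfl⟩ := f.mem_toFinset.1 hV
  obtain ⟨k, e⟩ := AC.degOn_omega_cmp z
  exact ⟨k - 1, by rw [e]; ring⟩

theorem exists_tup (hF : P.F.Good) (hB : P.F.B = univ) (hA : P.F.Abs) :
    ∃ tup : (R → ℤ) → Finset (σ → R → ℤ), tup 0 = {0} ∧ (∀ β, ∀ x ∈ tup β, ∑ i, x i = β) ∧
      ∀ (ν : Type) [Fintype ν] (m : AM0 R J σ ν) g d, Fx m P g d →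
        vdeg m ∈ tup fun r => d (some r) := by
  obtain ⟨θ, N, hN⟩ := hF.ample
  let A : (R → ℤ) → Set (σ → R → ℤ) := fun β => {x | ∑ i, x i = β ∧ ∀ i,
    0 ≤ ∑ r, θ r * x i r ∧ ∀ r, |x i r| ≤ N * ∑ r, θ r * x i r}
  have k : ∀ β, ∀ x ∈ A β, ∀ i r, |x i r| ≤ N * ∑ r, θ r * β r := fun β x hx i r => by
    refine ((hx.2 i).2 r).trans (mul_le_mul_of_nonneg_left ?_ (Nat.cast_nonneg N))
    simp only [← hx.1, Finset.sum_apply, Finset.mul_sum]
    rw [Finset.sum_comm]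
    exact Finset.single_le_sum (fun j _ => (hx.2 j).1) (Finset.mem_univ i)
  have f : ∀ β, (A β).Finite := fun β => (Finite.pi' fun _ : σ => Finite.pi' fun _ : R =>
    finite_Icc (-(N * ∑ r, θ r * β r)) (N * ∑ r, θ r * β r)).subset
      fun x hx i r => abs_le.1 (k β x hx i r)
  refine ⟨fun β => (f β).toFinset, Finset.eq_singleton_iff_unique_mem.2 ⟨?_, fun x hx => ?_⟩,
    fun β x hx => ((f β).mem_toFinset.1 hx).1, fun ν _ m g d h => (f _).mem_toFinset.2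
      ⟨funext fun r => (Finset.sum_apply ..).trans (h.sum_vdeg r), fun i => ?_⟩⟩
  · simp [A]
  · exact funext₂ fun i r => by simpa using k 0 x ((f 0).mem_toFinset.1 hx) i r
  · have s := ((sol_iff hB hA).1 h.sol).1
    have a := s.degOn_nonneg hN (Vx m i)
    have b := s.abs_degOn_le hN (Vx m i)
    rw [degOn_bz] at a b
    exact ⟨a, b⟩

end fin

end Vale.Agent.P269.LG
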