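import Vale.Agent.P269.LG.WtB
import Vale.Agent.P269.LG.OpsD
import Vale.Agent.P269.LG.Loc2a
import Vale.Agent.P269.PA.Low

/-! Localisation: the fixed loci without edges. -/

set_option linter.unusedSectionVars false
set_option maxSynthPendingDepth 3

namespace Vale.Agent.P269.LG

open Set Function TensorProduct B Fock Finset Vale.Agent.P291Z

variable {V : Type} [AddCommGroup V] [Module ℂ V] {p : Fock.Par ℂ V} {ι : Type} [Fintype ι]
  {fr : Fock.Frame p ι} {C : Type} [CommRing C] [Algebra ℂ C] {R J K : Type} [Fintype R]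
  [Fintype J] [Fintype K] {X : Type} [TopologicalSpace X] {ac : Act fr C} [DecidableEq R] {r : ℕ}
  {P : PB R J K (Fin (r + 1))} {T : Th P X} {D : Dic ac X} {a : Fin (r + 1) → ℂ}
  {c : Fin (r + 1) → C} {ZV : Fin (r + 1) → (R → ℤ) → ℤ → ℕ → Fock.S (p.fs ℕ) →ₗ[ℂ] ℂ}
  {ZE : (Option R → ℤ) → ℤ → Fock.S ((p.pi (Fin (r + 1))).fs ℕ) →ₗ[ℂ] ℂ}
  {ZZ : ℕ → (Fin (r + 1) → R → ℤ) → ℤ → ℤ → S ((p.bc F).fs (Sym (Fin (r + 1)))) →ₗ[F] F}
  {ν ν' : Type} [Fintype ν] [Fintype ν'] {g g' : ℤ} {d d' : Option R → ℤ}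

namespace Loc2P

/-- the correlator on the part selected by `Q` -/
noncomputable def val (τ : Md P X ν g d) (D : Dic ac X) (χ : Fin (r + 1) → F ⊗[ℂ] C)
    (Q : AM0 R J (Fin (r + 1)) ν → Prop) (L : List (ν × Fin (r + 1) × ℕ × V)) : F :=
  τ.I (inF _ (τ.id Q) * (L.map fun y => τ.ins D χ y.1 (sg y.2)).prod)

variable (P a ZV) in
/-- the contribution of a vertex -/
noncomputable def zv (i : Fin (r + 1)) (β : R → ℤ) (l : List (ℕ × V)) (k : ℤ) : F :=
  lamV P a i β * (∏ l ∈ univ.erase i, (a l - a i) • tt) ^ k *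
    Hat.ofPS ℂ (PowerSeries.mk fun m => ZV i β k m (mn p l))

theorem ins_sg (τ : Md P X ν g d) (χ : Fin (r + 1) → F ⊗[ℂ] C) (n : ν) (y) :
    τ.ins D χ n (sg y) =
      inF _ (τ.id (Cm · n y.1)) * (inF _ (τ.ψ n ^ y.2.1) * τ.evH D n (1 ⊗ₜ y.2.2)) := by
  rw [sg, Md.ins_single, Md.sy, map_mul, mul_assoc]

variable (h : Hy T D a c ZV ZE)
include h

theorem vert_val {i β} (hd : d = vxD P i β) {L : List (ν × Fin (r + 1) × ℕ × V)} (hL : Enum L)
    {l : List (ℕ × V)} (e : L.map Prod.snd = l.map fun y => (i, y)) :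
    val (T ν g d) D (chi a c) (Vert · {i}) L = zv P a ZV i β l (g - 1) := by
  obtain ⟨h1, -, h2⟩ := h.hV ν g d i
  have h3 := h2 β hd (L.map fun y => (y.1, y.2.2)) (hL.map_snd _)
  have h4 : ((L.map fun y => (y.1, y.2.2)).map fun x =>
      Fock.ι (p.fs ℕ) (Finsupp.single x.2.1 x.2.2)).prod = mn p l := by
    have := congrArg (List.map fun y : Fin (r + 1) × ℕ × V =>
      Fock.ι (p.fs ℕ) (Finsupp.single y.2.1 y.2.2)) e
    rw [List.map_map, List.map_map] at this
    rw [List.map_map]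
    exact congrArg List.prod this
  rw [h4, List.map_map] at h3
  refine Eq.trans (congrArg (T ν g d).I (central_prod (inF_comm _) fun y hy => ?_)) h3
  have hi : y.2.1 = i := by
    obtain ⟨z, -, hz⟩ := List.mem_map.1 (e ▸ List.mem_map_of_mem (f := Prod.snd) hy)
    exact (congrArg Prod.fst hz).symm
  have h5 : (T ν g d).sel (Vert · {i}) ⊆ (T ν g d).sel (Cm · y.1 i) := fun x ⟨m, hm, hv⟩ =>
    ⟨m, hm, by obtain ⟨_, rfl, b⟩ := hv (m.p (.inl y.1)); exact Vx.ov b⟩
  rw [ins_sg, hi, ← mul_assoc, ← map_mul, Md.id, Md.id, idE_mul h1 (h.clopen_cm _ _),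
    Set.inter_eq_left.2 h5]
  rfl

theorem zv_low (i β l) : ∃ B, ∀ k < B, zv P a ZV i β l k = 0 := by
  obtain ⟨L, hL, e⟩ := exists_enum (l.map fun y => (i, y))
  generalize (l.map fun y => (i, y)).length = n at L hL e
  refine ⟨-|Fintype.card (Ch.Mk (Fin n) (Fin 0)) + ∑ s, P.θ s * vxD P i β s|, fun k hk => ?_⟩
  have h1 := vert_val h (g := k + 1) (β := β) rfl hL e
  have h2 : (T (Fin n) (k + 1) (vxD P i β)).sel (Vert · {i}) = ∅ :=
    Set.eq_empty_of_forall_notMem fun x ⟨m, hm, _⟩ => by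
      have b := (T _ _ _).fx hm
      have h3 := St.low m P.θ _ _ b.stable b.typ
      rw [add_assoc] at h3
      generalize (Fintype.card (Ch.Mk (Fin n) (Fin 0)) : ℤ) + ∑ s, P.θ s * vxD P i β s = z at h3 hk
      linarith [le_abs_self z, abs_nonneg z]
  rw [add_sub_cancel_right] at h1
  rw [← h1, val, Md.id, h2, idE_empty, map_zero, zero_mul, map_zero]

theorem step {ν₁ ν₂ : Type} [Fintype ν₁] [Fintype ν₂] (φ : ν₁ ⊕ ν₂ ≃ ν) {i} {s : Finset (Fin (r + 1))}
    (hi : i ∉ s) {β : Fin (r + 1) → R → ℤ} (hβ : β i = 0) (β₁) {d₂} (hd : d = vxD P i β₁ + d₂)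
    {L₁ : List (ν₁ × Fin (r + 1) × ℕ × V)} {L₂ : List (ν₂ × Fin (r + 1) × ℕ × V)} (hL₁ : Enum L₁)
    (hL₂ : Enum L₂) (h₁ : ∀ y ∈ L₁, y.2.1 = i) (h₂ : ∀ y ∈ L₂, y.2.1 ≠ i) :
    val (T ν g d) D (chi a c) (fun m => Vert m ↑(insert i s) ∧ vdeg m = update β i β₁)
      (L₁.map (Prod.map (fun n => φ (.inl n)) id) ++ L₂.map (Prod.map (fun n => φ (.inr n)) id)) =
    ∑ᶠ k, val (T ν₁ (k + 1) (vxD P i β₁)) D (chi a c) (Vert · {i}) L₁ *
      val (T ν₂ (g - k) d₂) D (chi a c) (fun m => Vert m ↑s ∧ vdeg m = β) L₂ := by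
  classical
  generalize hL : L₁.map (Prod.map (fun n => φ (.inl n)) id) ++
    L₂.map (Prod.map (fun n => φ (.inr n)) id) = L
  let f : ℤ → (T ν g d).A → ℂ := fun k => (T ν g d).cf (cntS · φ
    (fun m => m.Typ (k + 1) (vxD P i β₁) ∧ Vert m {i}) fun m => Vert m ↑s ∧ vdeg m = β)
  have key : ∀ k, IsLocallyConstant (f k) ∧ (T ν g d).I (inF _ (fnE (f k)) *
      (L.map fun y => (T ν g d).ins D (chi a c) y.1 (sg y.2)).prod) =
      val (T ν₁ (k + 1) (vxD P i β₁)) D (chi a c) (Vert · {i}) L₁ *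
        val (T ν₂ (g - k) d₂) D (chi a c) (fun m => Vert m ↑s ∧ vdeg m = β) L₂ := fun k => by
    have hg : g = k + 1 + (g - k) - 1 := by ring
    obtain ⟨u, I, hS⟩ := h.hS ν ν₁ ν₂ φ g (k + 1) (g - k) d _ d₂ hg hd
    obtain ⟨e₁, e₂⟩ := h.spl_ins hg hd hS
    obtain ⟨b₁, b₂⟩ := hS.eq (Vert · {i}) (fun m => Vert m ↑s ∧ vdeg m = β) inv_vert
      (inv_vert.and inv_vdeg) (h.hV _ _ _ i).1 (h.clopen_vert s β)
    refine ⟨b₁, (b₂ _).trans ?_⟩
    rw [val, val, ← hS.mul, ← hL, List.map_append, List.prod_append]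
    refine congrArg I ?_
    rw [map_mul, map_mul, map_mul, map_mul, pb_inF, pb_inF, map_list_prod, map_list_prod,
      map_list_prod, map_list_prod]
    simp only [List.map_map, Function.comp_def, Prod.map_fst, Prod.map_snd, id_eq, e₁, e₂]
    rw [mul_assoc, mul_assoc, ← mul_assoc (inF _ (pbE .snd _)), inF_comm (pbE .snd _), mul_assoc]
  have hf : ∀ k x, f k x = if (Vert ((T ν g d).ex x).choose ↑(insert i s) ∧
      vdeg ((T ν g d).ex x).choose = update β i β₁) ∧
      (∀ n, Cm ((T ν g d).ex x).choose n i ↔ ∃ n₁, n = φ (.inl n₁)) ∧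
        vgen ((T ν g d).ex x).choose i = 2 * k then 1 else 0 := fun k x => by
    have := cntS_vert (φ := φ) (g₁ := k + 1) ((T ν g d).fx ((T ν g d).ex x).choose_spec).sol
      (T := ↑s) (i := i) hi hβ β₁
    rw [← Finset.coe_insert, show 2 * (k + 1) - 2 = 2 * k by ring] at this
    refine (congrArg Nat.cast this).trans ?_
    split_ifs <;> simp
  have hG := (finite_vgen h.goodE ν g d i).preimage
    (mul_right_injective₀ (two_ne_zero (α := ℤ))).injOn
  obtain ⟨c₁, c₂⟩ := piece_prod L (U := fun y => (T ν g d).sel (Cm · y.1 y.2.1))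
    (fun y => h.clopen_cm _ _) (w := fun y => (T ν g d).ins D (chi a c) y.1 (sg y.2)) fun y => by
      rw [ins_sg, ← mul_assoc, ← map_mul, Md.id, idE_mul_self (h.clopen_cm _ _)]
  have c₃ := piece_sum (h.clopen_vert (insert i s) (update β i β₁)) c₁ hG.toFinset
    (fun k => (key k).1) fun x hx => by
      simp only [hf]
      have hm := ((T ν g d).ex x).choose_spec
      generalize ((T ν g d).ex x).choose = m at hm
      have hQ := (T ν g d).mem_sel (Q := fun m => Vert m ↑(insert i s) ∧ vdeg m = update β i β₁)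
        (inv_vert.and inv_vdeg) hm
      by_cases hq : Vert m ↑(insert i s) ∧ vdeg m = update β i β₁
      · have hc : ∀ y ∈ L, Cm m y.1 y.2.1 := fun y hy =>
          ((T ν g d).mem_sel (inv_cm _ _) hm).1 (hx y hy)
        have hM : ∀ n, Cm m n i ↔ ∃ n₁, n = φ (.inl n₁) := fun n => by
          obtain ⟨n | n, rfl⟩ := φ.surjective n
          · obtain ⟨y, hy, rfl⟩ := List.mem_map.1 (hL₁.2 n)
            refine ⟨fun _ => ⟨_, rfl⟩, fun _ => h₁ y hy ▸ hc (φ (.inl y.1), y.2) ?_⟩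
            exact hL ▸ List.mem_append_left _ (List.mem_map_of_mem hy)
          · obtain ⟨y, hy, rfl⟩ := List.mem_map.1 (hL₂.2 n)
            refine ⟨fun b => absurd (Ov.unique ((T ν g d).fx hm).sol
              (hc (φ (.inr y.1), y.2) ?_) b) (h₂ y hy), fun ⟨_, b⟩ => ?_⟩
            · exact hL ▸ List.mem_append_right _ (List.mem_map_of_mem hy)
            · exact absurd (φ.injective b) Sum.inr_ne_inl
        obtain ⟨k, hk⟩ := hq.1.even_vgen ((T ν g d).fx hm).sol i
        rw [← two_mul] at hk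
        rw [Set.indicator_of_mem (hQ.2 hq), Finset.sum_eq_single k, if_pos ⟨hq, hM, hk⟩,
          Pi.one_apply]
        · exact fun k' _ hk' => if_neg fun b => hk' (by have := b.2.2; omega)
        · exact fun b => absurd (hG.mem_toFinset.2 ⟨m, (T ν g d).fx hm, hk⟩) b
      · rw [Set.indicator_of_notMem (mt hQ.1 hq)]
        exact Finset.sum_eq_zero fun k _ => if_neg fun b => hq b.1
  rw [finsum_eq_sum_of_support_subset (s := hG.toFinset)]
  · rw [val, Md.id, sum_piece _ c₂ c₃]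
    exact Finset.sum_congr rfl fun k _ => (key k).2
  · intro k hk
    by_contra b
    have : f k = 0 := funext fun x => (hf k x).trans (if_neg fun b' => b
      (hG.mem_toFinset.2 ⟨_, (T ν g d).fx ((T ν g d).ex x).choose_spec, b'.2.2⟩))
    refine hk ((key k).2.symm.trans ?_)
    rw [this, fnE_zero, map_zero, zero_mul, map_zero]

theorem blk_val (β : Fin (r + 1) → R → ℤ) (l : Fin (r + 1) → List (ℕ × V))
    {s : List (Fin (r + 1))} (hs : s.Nodup) (hne : s ≠ []) (ν : Type) [Fintype ν] (g : ℤ)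
    {d : Option R → ℤ} (hd : d = (s.map fun i => vxD P i (β i)).sum)
    {L : List (ν × Fin (r + 1) × ℕ × V)} (hL : Enum L) (e : L.map Prod.snd = blk l s) :
    val (T ν g d) D (chi a c)
      (fun m => Vert m ↑s.toFinset ∧ vdeg m = fun i => if i ∈ s then β i else 0) L =
      conv (s.map fun i => zv P a ZV i (β i) (l i)) (g - 1) := by
  classical
  induction s generalizing ν g d with
  | nil => exact absurd rfl hne
  | cons i s ih =>
    obtain ⟨hi, hs⟩ := List.nodup_cons.1 hs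
    rcases eq_or_ne s [] with rfl | hne
    · have hd' : d = vxD P i (β i) := by simpa using hd
      rw [List.map_singleton, conv_single, ← vert_val h hd' hL (by simpa [blk] using e), val, val,
        Md.id, Md.id, (T ν g d).sel_congr (Q' := (Vert · {i})) fun m hm => ?_]
      rw [List.toFinset_cons, List.toFinset_nil, insert_empty_eq, Finset.coe_singleton]
      refine ⟨And.left, fun b => ⟨b, funext fun n => ?_⟩⟩
      by_cases hn : n = i
      · rw [if_pos (by simp [hn]), hn]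
        refine funext fun r => ?_
        have := hm.sum_vdeg r
        rwa [Finset.sum_eq_single i (fun n _ hn => congrFun (b.vdeg hm.sol hn) r) (by simp),
          hd'] at this
      · rw [if_neg (by simp [hn])]
        exact b.vdeg hm.sol hn
    · obtain ⟨M₁, M₂, rfl, e₁, e₂⟩ := List.map_eq_append_iff.1 (e.trans List.flatMap_cons)
      obtain ⟨L₁, L₂, hL₁, hL₂, e₃, e₄⟩ := hL.split (Equiv.sumCompl (· ∈ M₁.map Prod.fst))
        fun n => ⟨fun hn => ⟨⟨n, hn⟩, rfl⟩, fun ⟨n₁, hn⟩ => hn ▸ n₁.2⟩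
      have e₅ : L₁.map Prod.snd = (l i).map fun y => (i, y) := by
        rw [← e₁, congrArg (List.map Prod.snd) e₃, List.map_map]; rfl
      have e₆ : L₂.map Prod.snd = blk l s := by
        rw [blk, ← e₂, congrArg (List.map Prod.snd) e₄, List.map_map]; rfl
      have := step h (g := g) (Equiv.sumCompl (· ∈ M₁.map Prod.fst)) (s := s.toFinset) (i := i)
        (by simpa using hi) (β := fun n => if n ∈ s then β n else 0) (if_neg hi) (β i)
        (hd.trans List.sum_cons) hL₁ hL₂ (fun y hy => by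
          obtain ⟨z, -, hz⟩ := List.mem_map.1 (e₅ ▸ List.mem_map_of_mem (f := Prod.snd) hy)
          exact (congrArg Prod.fst hz).symm) fun y hy b => by
          obtain ⟨n, hn, hz⟩ := List.mem_flatMap.1
            (show y.2 ∈ blk l s from e₆ ▸ List.mem_map_of_mem (f := Prod.snd) hy)
          obtain ⟨z, -, hz⟩ := List.mem_map.1 hz
          exact hi (((congrArg Prod.fst hz).trans b) ▸ hn)
      have e₇ : update (fun n => if n ∈ s then β n else 0) i (β i) =
          fun n => if n ∈ i :: s then β n else 0 := funext fun n => by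
        by_cases hn : n = i
        · simp [hn]
        · simp [hn]
      rw [← e₃, ← e₄, e₇, ← List.toFinset_cons] at this
      rw [this, List.map_cons, conv]
      refine finsum_congr fun k => ?_
      rw [vert_val h rfl hL₁ e₅, ih hs hne _ (g - k) rfl hL₂ e₆, add_sub_cancel_right,
        sub_right_comm]

theorem partA (hZ : IsZZ T D (chi a c) ZZ) {ZF : (Fin (r + 1) → R → ℤ) → (Fin (r + 1) → ℤ) →
      S (((p.bc F).pi (Fin (r + 1))).fs ℕ) →ₗ[F] F}
    (hF : ∀ β jv x, ZF β jv (bcS _ (isEvS_jV p F) (prd p x)) =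
      ∏ n, Hat.ofPS ℂ (PowerSeries.mk fun m => ZV n (β n) (jv n) m (x n))) (β j y) :
    ZZ 0 β 0 j (Fock.map _ (isEv_emb (p.bc F)) y) =
      (∏ i, lamV P a i (β i)) * ∑ᶠ (jv) (_ : ∑ i, jv i = j),
        (∏ i, (∏ l ∈ univ.erase i, (a l - a i) • tt) ^ jv i) * ZF β jv y := by
  have := bc_ind p (fsum (ZZ 0 β 0 j ∘ₗ (Fock.map _ (isEv_emb (p.bc F))).toLinearMap)
    (fun jv : Fin (r + 1) → ℤ => ∑ i, jv i = j) fun jv => ((∏ i, lamV P a i (β i)) *
      ∏ i, (∏ l ∈ univ.erase i, (a l - a i) • tt) ^ jv i) • ZF β jv) (fun l => ?_) y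
  · refine this.2.trans ?_
    rw [mul_finsum]
    refine finsum_congr fun jv => ?_
    by_cases hc : ∑ i, jv i = j
    · simp only [hc, finsum_true, LinearMap.smul_apply, smul_eq_mul, mul_assoc]
    · simp only [hc, finsum_false, mul_zero]
  choose B hB using fun i => zv_low h i (β i) (l i)
  have hB' : ∀ i k, k < univ.inf' univ_nonempty B → zv P a ZV i (β i) (l i) k = 0 :=
    fun i k hk => hB i k (hk.trans_le (inf'_le _ (mem_univ i)))
  have e : ∀ jv : Fin (r + 1) → ℤ, (((∏ i, lamV P a i (β i)) *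
      ∏ i, (∏ l ∈ univ.erase i, (a l - a i) • tt) ^ jv i) • ZF β jv)
        (bcS _ (isEvS_jV p F) (prd p fun n => mn p (l n))) =
      ∏ i, zv P a ZV i (β i) (l i) (jv i) := fun jv => by
    rw [LinearMap.smul_apply, hF, smul_eq_mul, ← prod_mul_distrib, ← prod_mul_distrib]
    rfl
  refine ⟨?_, ?_⟩
  · simp only [e]
    exact finite_prod hB' j
  · simp only [e]
    obtain ⟨L, hL, e'⟩ := exists_enum (blk l (List.ofFn id))
    generalize (blk l (List.ofFn id)).length = n at L hL e'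
    have h1 := hZ 0 β 0 j _ _ (hL.map_snd fun y => sg y.2)
    have h2 := blk_val h β l (List.nodup_ofFn.2 injective_id) (by simp) _ (j + 1)
      (d := totD P β 0) (by
        rw [List.map_ofFn, List.sum_ofFn]
        funext o
        cases o <;> simp [totD, vxD, Finset.sum_apply]) hL e'
    rw [List.map_ofFn, Function.comp_id, add_sub_cancel_right, conv_ofFn _ hB'] at h2
    refine Eq.trans ?_ h2
    rw [LinearMap.comp_apply, AlgHom.toLinearMap_apply, emb_prd, ← e', List.map_map]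
    rw [mon, List.map_map] at h1
    refine h1.trans ?_
    rw [Md.Wp, Md.W, Md.fnE_ite _ inv_pcs, List.map_map, val, Md.id, Md.id,
      Md.sel_congr _ (Q := Pcs 0 β) fun m hm => ?_]
    · rfl
    · have h3 : ∀ i : Fin (r + 1), i ∈ List.ofFn id := fun i => (List.mem_ofFn' _ _).2 ⟨i, rfl⟩
      rw [Finset.eq_univ_of_forall fun i => List.mem_toFinset.2 (h3 i), Finset.coe_univ,
        hm.str.vert]
      simp only [h3, if_true]
      rfl

theorem ins_exN (β) : ∀ᶠ N in Filter.atTop, ∀ n v,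
    inF _ ((T ν g d).id (Pcs 0 β)) * (T ν g d).ins D (chi a c) n v =
      inF _ ((T ν g d).id (Pcs 0 β)) *
        (T ν g d).ins D (chi a c) n (emb F (F ⊗[ℂ] V) (Fin (r + 1)) (exN (ac.bc F) (chi a c) N v)) := by
  refine Filter.eventually_all.2 fun n => ?_
  have hc := h.clopen_pcs (ν := ν) (g := g) (d := d) 0 β
  obtain ⟨N₀, hN⟩ : IsNilpotent ((T ν g d).id (Pcs 0 β) * (T ν g d).ψ n) :=
    isNilpotent_iff.2 fun x => by
      rw [map_mul]
      by_cases hx : x ∈ (T ν g d).sel (Pcs 0 β)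
      · obtain ⟨m, hm, hp⟩ := hx
        obtain ⟨i, -, hi⟩ := ((T ν g d).fx hm).str.vert.2 hp.1 (m.p (.inl n))
        rw [h.ptE_vx hm hi, mul_zero]
      · rw [Md.id, ptE_idE_notMem hc hx, zero_mul]
  filter_upwards [Filter.eventually_ge_atTop (N₀ + 1)] with N hN' v
  have h0 : (T ν g d).id (Pcs 0 β) * (T ν g d).ψ n ^ N = 0 := by
    have : IsIdempotentElem ((T ν g d).id (Pcs 0 β)) := idE_mul_self hc
    rw [← this.pow_eq (n := N) (by omega), ← mul_pow]
    exact pow_eq_zero_of_le (by omega) hN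
  induction v using Finsupp.induction_linear with
  | zero => simp only [map_zero]
  | add u v hu hv => simp only [map_add, mul_add, hu, hv]
  | single s v =>
    rcases s with x | e
    · rw [exN, Finsupp.lsum_single]
      exact congrArg _ (congrArg _ (emb_single x.2 x.1 v).symm)
    · have h1 := geom (h.sy_mul n e) (q' := (T ν g d).evC D n (Ring.inverse (pe F (chi a c) e)))
        (by rw [← map_mul, Ring.mul_inverse_cancel _ (h.isUnit_pe e), map_one]) h0
      rw [Md.ins_single, ← mul_assoc, ← map_mul, h1, exN, Finsupp.lsum_single]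
      simp only [LinearMap.neg_apply, LinearMap.sum_apply, LinearMap.comp_apply,
        Finsupp.lsingle_apply, LinearMap.coe_single, map_neg, map_sum, emb_single, Md.ins_single,
        Md.evH_act]
      simp only [mul_neg, neg_mul, Finset.mul_sum, Finset.sum_mul, Md.sy, map_mul, map_pow,
        mul_assoc]

theorem partB (hZ : IsZZ T D (chi a c) ZZ) (β j x) : ∀ᶠ N in Filter.atTop, ZZ 0 β 0 j x =
    ZZ 0 β 0 j (Fock.map _ (isEv_emb (p.bc F)) (Fock.map _ (isEv_exN (ac.bc F) (chi a c) N) x)) := by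
  have hx : x ∈ Submodule.span F _ :=
    (span_mon (p := (p.bc F).fs (Sym (Fin (r + 1)))) Submodule.span_univ).symm ▸ Submodule.mem_top
  induction hx using Submodule.span_induction with
  | mem y hy =>
    obtain ⟨n, L, hL, -, rfl⟩ := hy
    filter_upwards [ins_exN h (ν := Fin n) (g := j + 1) (d := totD P β 0) β] with N hN
    have h1 := hZ 0 β 0 j _ _ (hL.map_snd fun y => emb F (F ⊗[ℂ] V) (Fin (r + 1)) (exN (ac.bc F) (chi a c) N y.2))
    have h2 : Fock.map _ (isEv_emb (p.bc F)) (Fock.map _ (isEv_exN (ac.bc F) (chi a c) N)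
        (mon _ L)) = mon _ (L.map fun y => (y.1, emb F (F ⊗[ℂ] V) (Fin (r + 1)) (exN (ac.bc F) (chi a c) N y.2))) := by
      simp only [mon, map_list_prod, List.map_map, Function.comp_def, map_ι]
    rw [h2, h1, hZ 0 β 0 j _ _ hL, Md.Wp, Md.W, Md.W, Md.fnE_ite _ inv_pcs, List.map_map]
    exact congrArg _ (central_prod (inF_comm _) fun y _ => hN y.1 y.2)
  | zero => simp only [map_zero, Filter.eventually_true]
  | add u v _ _ hu hv =>
    filter_upwards [hu, hv] with N h1 h2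
    rw [map_add, map_add, map_add, map_add, ← h1, ← h2]
  | smul b u _ hu =>
    filter_upwards [hu] with N h1
    rw [map_smul, map_smul, map_smul, map_smul, ← h1]

end Loc2P

namespace Hy

variable (h : Hy T D a c ZV ZE)
include h

theorem loc2' (hZ : IsZZ T D (chi a c) ZZ) (β e j) (he : e ≠ 0) : ZZ 0 β e j = 0 := by
  refine ext_mon Submodule.span_univ fun n L hL _ => ?_
  have : (T (Fin n) (j + 1) (totD P β e)).sel (Pcs 0 β) = ∅ :=
    Set.eq_empty_of_forall_notMem fun x ⟨m, hm, hp⟩ => he (by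
      have := ((T _ _ _).fx hm).deg_none hp.1
      rw [hp.2] at this
      exact sub_eq_neg_self.1 this)
  rw [hZ 0 β e j _ _ hL, Md.Wp, Md.W, Md.fnE_ite _ inv_pcs, Md.id, this, idE_empty, map_zero,
    zero_mul, map_zero, LinearMap.zero_apply]

theorem loc2 (hZ : IsZZ T D (chi a c) ZZ) {ZF : (Fin (r + 1) → R → ℤ) → (Fin (r + 1) → ℤ) →
      S (((p.bc F).pi (Fin (r + 1))).fs ℕ) →ₗ[F] F}
    (hF : ∀ β jv x, ZF β jv (bcS _ (isEvS_jV p F) (prd p x)) =
      ∏ n, Hat.ofPS ℂ (PowerSeries.mk fun m => ZV n (β n) (jv n) m (x n))) (β j x) :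
    ∀ᶠ N in Filter.atTop, ZZ 0 β 0 j x = (∏ i, lamV P a i (β i)) * ∑ᶠ (jv) (_ : ∑ i, jv i = j),
      (∏ i, (∏ l ∈ univ.erase i, (a l - a i) • tt) ^ jv i) *
        ZF β jv (Fock.map _ (isEv_exN (ac.bc F) (chi a c) N) x) :=
  (Loc2P.partB h hZ β j x).mono fun _ hN => hN.trans (Loc2P.partA h hZ hF β j _)

end Hy

end Vale.Agent.P269.LG
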