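import Vale.Agent.P269.LG.Alg
import Vale.Agent.P269.B.PF

/-! The algebra of the edge recursion. -/

namespace Vale.Agent.P269.LG.L3

open Fock Finset B

section sw

variable {K V ν : Type} [CommRing K] [Algebra ℚ K] [AddCommGroup V] [Module K V] {p : Par K V}
  {W : List (ν × V) → K}

theorem swap_od (h : SW p W) (L₁ L₂ : List (ν × V)) {x : ν × V} (hx : p.σ x.2 = -x.2) (n : ν)
    (v : V) : W (L₁ ++ x :: (n, v) :: L₂) = W (L₁ ++ (n, p.σ v) :: x :: L₂) := by
  induction v using p.induction with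
  | hev v hv => rw [hv, h.ev L₁ x (n, v) L₂ hv]
  | hod v hv => rw [h.od L₁ x (n, v) L₂ hx hv, hv, ← neg_one_smul K v, h.smul, neg_one_mul]
  | hadd v w hv hw =>
    have := h.add (L₁ ++ [x]) n v w L₂
    simp only [List.append_assoc, List.singleton_append] at this
    rw [this, hv, hw, map_add, h.add]

/-- a homogeneous insertion in front of a marked point -/
theorem pre1 (h : SW p W) {Z : S p →ₗ[K] K} {δ : V →ₗ[K] S p}
    (hδ : ∀ v, par p (δ v) = δ (p.σ v)) {x : ν × V} (hx : p.σ x.2 = x.2 ∨ p.σ x.2 = -x.2) {n : ν}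
    {L : List (ν × V)} {y : S p} (e : ∀ v, W ((n, v) :: x :: L) = Z (δ v * (ι p x.2 * y))) (v : V) :
    W (x :: (n, v) :: L) = Z (ι p x.2 * δ v * y) := by
  rcases hx with hx | hx
  · rw [ι_comm_ev hx, mul_assoc, ← e]
    exact (h.ev [] (n, v) x L hx).symm
  · rw [ι_comm_od hx, hδ, mul_assoc, ← e]
    exact swap_od h [] L hx n v

theorem pre0 (h : SW p W) {φ : Module.Dual K V} (hφ : ∀ v, φ (p.σ v) = φ v) {x : ν × V}
    (hx : p.σ x.2 = x.2 ∨ p.σ x.2 = -x.2) {n : ν} {L : List (ν × V)} {z : K}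
    (e : ∀ v, W ((n, v) :: x :: L) = φ v * z) (v : V) : W (x :: (n, v) :: L) = φ v * z := by
  rcases hx with hx | hx
  · exact (h.ev [] (n, v) x L hx).symm.trans (e v)
  · exact (swap_od h [] L hx n v).trans ((e _).trans (by rw [hφ]))

/-- a homogeneous insertion in front of two marked points -/
theorem pre2 (h : SW p W) {Q : V →ₗ[K] Module.Dual K V} (hQ : ∀ v w, Q (p.σ v) (p.σ w) = Q v w)
    {x : ν × V} (hx : p.σ x.2 = x.2 ∨ p.σ x.2 = -x.2) {n n' : ν} {L : List (ν × V)} {z : K}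
    (e : ∀ v w, W ((n, v) :: (n', w) :: x :: L) = Q v w * z) (v w : V) :
    W (x :: (n, v) :: (n', w) :: L) = Q v w * z := by
  rcases hx with hx | hx
  · rw [← e]
    exact (h.ev [] (n, v) x _ hx).symm.trans (h.ev [(n, v)] (n', w) x L hx).symm
  · rw [← hQ, ← e]
    exact (swap_od h [] _ hx n v).trans (swap_od h [(n, p.σ v)] L hx n' w)

theorem enum_qq {α : Type} {L : List (ν × α)} (h : Enum L) (a b : α) :
    Enum ((.inr ((), false), a) :: (.inr ((), true), b) ::
      L.map (Prod.map (Sum.inl : ν → ν ⊕ Unit × Bool) id)) := by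
  have h1 : Enum [(((), false), a), (((), true), b)] := ⟨by simp, by simp⟩
  exact (h.append h1).perm List.perm_append_comm

omit [Algebra ℚ K] in
theorem finsum_ext {α : Type} {Z : S p →ₗ[K] K} {G : α → S p →ₗ[K] K}
    (h : ∀ (n : ℕ) (L : List (Fin n × V)), Enum L →
      (Function.support fun a => G a (mon p L)).Finite ∧ Z (mon p L) = ∑ᶠ a, G a (mon p L))
    (x : S p) : Z x = ∑ᶠ a, G a x := by
  have hx : x ∈ Submodule.span K _ := span_mon (p := p) Submodule.span_univ ▸ Submodule.mem_top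
  refine And.right (a := (Function.support fun a => G a x).Finite) ?_
  induction hx using Submodule.span_induction with
  | mem y hy =>
    obtain ⟨n, L, hL, -, rfl⟩ := hy
    exact h n L hL
  | zero => simp
  | add y z _ _ hy hz =>
    simp only [map_add]
    exact ⟨(hy.1.union hz.1).subset (Function.support_add _ _),
      by rw [finsum_add_distrib hy.1 hz.1, hy.2, hz.2]⟩
  | smul c y _ hy =>
    simp only [map_smul]
    exact ⟨hy.1.subset (Function.support_const_smul_subset c _), by rw [hy.2, smul_finsum' c hy.1]⟩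

end sw

variable {K : Type} [CommRing K] [Algebra ℚ K] {H : Type} [AddCommGroup H] [Module K H]
  {p : Par K H} {ι : Type} [Fintype ι] {fr : Frame p ι} {C : Type} [CommRing C] [Algebra K C]
  {σ : Type} [Fintype σ] [DecidableEq σ] (ac : Act fr C) (χ : σ → C) (e : Edge σ)

/-- the contribution of an edge as a bilinear form -/
noncomputable def qf : (Sym σ →₀ H) →ₗ[K] Module.Dual K (Sym σ →₀ H) :=
  fr.η.compl₁₂ (ac.act (ee K χ e) ∘ₗ evp ac χ e.rev) (evp ac χ e)

theorem qf_apply (v w : Sym σ →₀ H) :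
    qf ac χ e v w = fr.η (ac.act (ee K χ e) (evp ac χ e.rev v)) (evp ac χ e w) := rfl

theorem qf_σ (v w : Sym σ →₀ H) : qf ac χ e ((p.fs _).σ v) ((p.fs _).σ w) = qf ac χ e v w := by
  rw [qf_apply, qf_apply, ← isEv_evp, ← isEv_evp, ← ac.ev, fr.η_σ_σ]

theorem qf_rev (v w : Sym σ →₀ H) : qf ac χ e.rev v w = qf ac χ e ((p.fs _).σ w) v := by
  rw [qf_apply, qf_apply, ee_rev, ac.adj, fr.η_symm, ac.ev, isEv_evp, Edge.rev_rev]

theorem we_eq (v w : Sym σ →₀ H) : (We ac χ e).1 v w = qf ac χ e v w + qf ac χ e.rev v w := by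
  rw [qf_apply, qf_apply, ee_rev]
  rfl

omit [Algebra ℚ K] [DecidableEq σ] in
theorem σ_dil : (p.fs _).σ (dilR fr σ) = dilR fr σ := by simp [dilR, map_sum, fr.hone]

theorem qf_dil (v : Sym σ →₀ H) : (qf ac χ e).flip (-dilR fr σ) ((p.fs _).σ v) =
    (qf ac χ e).flip (-dilR fr σ) v := by
  rw [LinearMap.flip_apply, LinearMap.flip_apply, ← qf_σ ac χ e v, map_neg (p.fs _).σ, σ_dil]

theorem X0_eq (x : S (p.fs _)) : X0 ac χ e x = dv _ (Ae ac χ e) x + dv _ (Ae ac χ e.rev) x +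
    Fock.ι _ (Ae ac χ e (-dilR fr σ)) * x + Fock.ι _ (Ae ac χ e.rev (-dilR fr σ)) * x := by
  simp only [X0, Q0_apply, map_add, LinearMap.add_apply, map_neg, neg_mul]
  abel

theorem Xm_eq (x : S (p.fs _)) : Xm ac χ e x = con2 _ (We ac χ e) x +
    con _ ((qf ac χ e).flip (-dilR fr σ)) x + con _ ((qf ac χ e.rev).flip (-dilR fr σ)) x +
    qf ac χ e (-dilR fr σ) (-dilR fr σ) • x := by
  have h1 : (We ac χ e).1 (dilR fr σ) =
      -((qf ac χ e).flip (-dilR fr σ) + (qf ac χ e.rev).flip (-dilR fr σ)) := by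
    refine LinearMap.ext fun v => ?_
    rw [← σ_dil, ← (We ac χ e).2, we_eq, σ_dil]
    simp [add_comm]
  have h2 : hf K * (We ac χ e).1 (dilR fr σ) (dilR fr σ) =
      qf ac χ e (-dilR fr σ) (-dilR fr σ) := by
    rw [we_eq, qf_rev, σ_dil, mul_add, ← add_mul, hf_add]
    simp
  rw [Xm, LinearMap.add_apply, Qm_apply, h2, h1, map_neg, map_add]
  simp only [LinearMap.neg_apply, LinearMap.add_apply, LinearMap.smul_apply, Module.End.one_apply]
  abel

theorem isEv_Ae : IsEv (p.fs _) (p.fs _) (Ae ac χ e) := fun v => by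
  simp only [Ae, LinearMap.comp_apply, Finsupp.lsingle_apply, Par.fs_σ_single, ac.ev _ _,
    isEv_evp ac χ e v]

/-- the insertion on the vertex -/
noncomputable abbrev vA (x : ι) : Sym σ →₀ H :=
  Finsupp.single (.inr e) (ac.act (-eu χ e.src) (fr.e x))

variable (fr) in
/-- the insertion on the edge -/
noncomputable abbrev vB (x : ι) : Sym σ →₀ H := Finsupp.single (.inl (e.src, 0)) (fr.f x)

omit [Algebra ℚ K] in
theorem hom_vA (x : ι) :
    (p.fs _).σ (vA ac χ e x) = vA ac χ e x ∨ (p.fs _).σ (vA ac χ e x) = -vA ac χ e x := by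
  rw [Par.fs_σ_single, ac.ev, fr.he]
  rcases neg_one_pow_eq_or K (fr.π x) with h | h <;> simp [h, vA]

omit [Fintype σ] in
theorem evp_vB (x : ι) : evp ac χ e.rev (vB fr e x) = fr.f x := by simp [evp, sv, Sym.cmp]

theorem sum_A (z : (Sym σ →₀ H) →ₗ[K] K) (w : Sym σ →₀ H) :
    ∑ x, qf ac χ e (vB fr e x) w * z (vA ac χ e x) = z (Ae ac χ e w) := by
  have h : Ae ac χ e w = Finsupp.lsingle (R := K) (.inr e)
      (ac.act (-eu χ e.src) (ac.act (ee K χ e) (evp ac χ e w))) := by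
    rw [← Module.End.mul_apply, ← map_mul, neg_mul]
    rfl
  rw [h, ← fr.left (ac.act (ee K χ e) _), map_sum, map_sum, map_sum]
  refine sum_congr rfl fun x _ => ?_
  rw [qf_apply, evp_vB, ac.adj, map_smul, map_smul, map_smul]
  rfl

theorem sum_C : ∑ x, Fock.ι (p.fs _) (vA ac χ e x) * Fock.ι (p.fs _) (Ae ac χ e.rev (vB fr e x)) =
    Ce ac χ e := by
  have h : ∀ x, Ae ac χ e.rev (vB fr e x) = ∑ y, fr.η (ac.act (-(eu χ e.tgt * ee K χ e)) (fr.f x))
      (fr.e y) • Finsupp.single (.inr e.rev) (fr.f y) := fun x => by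
    rw [Ae, LinearMap.comp_apply, LinearMap.comp_apply, evp_vB, ee_rev, ← fr.right (ac.act _ _),
      map_sum]
    simp only [map_smul, Finsupp.lsingle_apply, Edge.rev_src]
  simp only [h, map_sum, map_smul, mul_sum, mul_smul_comm]
  rw [sum_comm]
  refine sum_congr rfl fun y _ => ?_
  have h2 : ac.act (eu χ e.src * eu χ e.tgt * ee K χ e) (fr.e y) =
      ac.act (-eu χ e.src) (ac.act (-(eu χ e.tgt * ee K χ e)) (fr.e y)) := by
    rw [← Module.End.mul_apply, ← map_mul, neg_mul_neg, mul_assoc]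
  rw [h2, ← fr.left (ac.act (-(_ * _)) _), map_sum, Finsupp.single_finsetSum, map_sum, sum_mul]
  refine sum_congr rfl fun x _ => ?_
  rw [ac.adj, map_smul, ← Finsupp.smul_single, map_smul, smul_mul_assoc]

end Vale.Agent.P269.LG.L3
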