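import Vale.Agent.P269.LG.All
import Vale.Agent.P269.LG.Fam
import Vale.Agent.P269.Pt.Sel
import Vale.Agent.P269.Loc.E1

/-! The fixed loci in the moduli spaces of maps to a projective bundle. -/

set_option linter.unusedSectionVars false

namespace Vale.Agent.P269

open Set Function Topology TensorProduct B Vale.Agent.P291Z Vale.Agent.P269.Ch Vale.Agent.P269.Loc

variable {S Λ R J K σ ν κ : Type} [Fintype S] [Fintype Λ] [Fintype R] [Fintype J] [Fintype K]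
  [Fintype σ] [Fintype ν] [Fintype κ] [DecidableEq R]

namespace Fam

variable (F : Fam S Λ R J K) {k D : ℕ} {g : ℤ} {d : R → ℤ} {u : ν → J → ℕ}

/-- the point `y` of the moduli space is represented by the abstract map `m` -/
def At (y : F.Mod κ k D g d u) (m : AM Λ R J ν κ) : Prop :=
  ∃ x, y = Quo.mk _ x ∧ Ch.Rep ℓs univ x.1 m

variable {F} {y y' : F.Mod κ k D g d u} {m m' : AM Λ R J ν κ}

theorem at_out (h : Ch.Rep ℓs univ (Quo.out y).1 m) : F.At y m := ⟨_, (Quot.out_eq y).symm, h⟩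

theorem exists_at (hD : F.BigD k D) (y : F.Mod κ k D g d u) : ∃ m, F.At y m :=
  let ⟨x, m, a, b⟩ := exists_mk hD y
  ⟨m, x, a, b⟩

theorem At.sol (hF : F.Inv) (h : F.At y m) : m.Sol F :=
  let ⟨x, _, b⟩ := h
  (b.mem_solF x.2.1.1.2.1 hF chart_wd').1 x.2.1

theorem At.stable (hD : F.BigD k D) (h : F.At y m) : m.Stable F.θ :=
  let ⟨x, _, b⟩ := h
  rep_stable hD b x.2.1.1.2.1

theorem At.typ (h : F.At y m) : m.Typ g d :=
  let ⟨x, _, b⟩ := h
  rep_typ b x.2.1.1.2.1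

theorem At.eq_iff (hD : F.BigD k D) (h : F.At y m) (h' : F.At y' m') :
    y = y' ↔ AM.Iso F.toWt univ m m' := by
  obtain ⟨x, rfl, b⟩ := h
  obtain ⟨x', rfl, b'⟩ := h'
  exact Ch.mk_eq_iff_iso (chart_lat hD) (chart_cuts hD).ne chart_tight
    (fun _ a => a.1.1.2.1) b b'

theorem At.of_iso (hF : F.Inv) (hD : F.BigD k D) (h : F.At y m) (e : AM.Iso F.toWt univ m m') :
    F.At y m' := by
  obtain ⟨x, rfl, b⟩ := h
  obtain ⟨e, t, τ, a⟩ := AM.iso_iff.1 e.symm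
  obtain ⟨u, rfl⟩ := a.unit
  have hu : IsUnit ((↑u⁻¹, 1) : (F.sch ν κ k D g d).AF ν κ S) :=
    Prod.isUnit_iff.2 ⟨u⁻¹.isUnit, isUnit_one⟩
  refine ⟨⟨_, Ch.actF_mem_solF hF hu x.2.1, Ch.actF_mem_cyc hF hu x.2.2⟩,
    Ch.mk_eq_iff.2 ⟨_, hu, rfl⟩, ((b.actF x.2.1.1.2.1 hu).of_isoD
      (Ch.actF_mem_solF hF hu x.2.1).1.2.1 (chart_lat hD) (e := e) (t := t)
      ⟨a.liso, isUnit_one, a.node, a.mark, a.mem, a.ne, a.mt, ?_, fun j hj z => ?_⟩)⟩
  · change F.actL ↑u⁻¹ m.l = _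
    rw [a.l, ← Wt.actL_mul, Units.inv_mul]
  · change (∏ i, (↑u⁻¹ : S → ℂ) i ^ F.wt j i) * m.y j (e z) = _
    rw [a.y j hj z]
    simp only [Wt.actT]
    rw [← mul_assoc, ← mul_assoc, ← prod_zpow_mul, Units.inv_mul]

theorem at_iff_out [IsEmpty S] (hF : F.Inv) (hD : F.BigD k D) :
    F.At y m ↔ Ch.Rep ℓs univ (Quo.out y).1 m := by
  refine ⟨fun ⟨x, a, b⟩ => ?_, at_out⟩
  obtain ⟨s, hs, e⟩ := Ch.exists_out (W := F.toWt) x
  rw [a, e]
  obtain ⟨f, t, τ, c⟩ := AM.iso_iff.1 (AM.iso_scl (F := F.toWt) (A := univ) (m := m) (Prod.isUnit_iff.1 hs).1)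
  exact (b.actF x.2.1.1.2.1 hs).of_isoD (Ch.actF_mem_solF hF hs x.2.1).1.2.1 (chart_lat hD)
    (Subsingleton.elim τ 1 ▸ c)

theorem exists_at_of (hF : F.Inv) (hA : F.Abs) (hk : F.Big k) (hD : F.BigD k D) (hs : m.Sol F)
    (hb : m.Stable F.θ) (ht : m.Typ g d) : ∃ y : F.Mod κ k D g d u, F.At y m := by
  obtain ⟨x, a, b⟩ := exists_rep hF hk hD hs hb ht
  have c := Ch.mem_solF.1 a
  refine ⟨_, ⟨x, a, subset_closure ⟨(b.mem_adm a.1.2.1 hF chart_wd' (subset_univ _)).2 ⟨hs.1,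
    fun _ => hA.2 ▸ trivial, fun j hj => funext fun z => (hs.2.2 z).2.1.2.2 j hj, fun j hj q => ?_⟩,
    fun j h1 h2 => (h2 (hA.1 h1)).elim⟩, a.1⟩, rfl, b⟩
  exact ((hs.2.2 _).2.1.2.2 j (hA.1 hj)).trans ((hs.2.2 _).2.1.2.2 j (hA.1 hj)).symm

end Fam

namespace LG

variable (P : PB R J K σ) (ν) (k D : ℕ) (g : ℤ) (d : Option R → ℤ)

/-- the moduli space of maps to the projective bundle -/
abbrev PB.X0 : Type := (P.E ∅).Mod (Fin 0) k D g d (0 : ν → J ⊕ σ → ℕ)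

variable [DecidableEq σ]

/-- the moduli space of maps to the Borel construction -/
abbrev PB.XM (M : ℕ) : Type := (P.EM ∅ M).Mod (Fin 0) k D g d (0 : ν → J ⊕ σ → ℕ)

/-- the virtual class -/
noncomputable abbrev PB.vM (M : ℕ) : BM (P.XM ν k D g d M) := (P.EM ∅ M).vir (Fin 0) k D g d 0

/-- the specialisation of the equivariant parameters -/
noncomputable def chiA (a : σ → ℂ) : Loc.R σ →ₐ[ℂ] F := MvPolynomial.aeval fun i => a i • tt

variable {P ν g d}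

/-- `τ` is the fixed locus in the moduli space -/
structure Geo (a : σ → ℂ) (τ : Md P P.X ν g d) where
  /-- the inclusion -/
  g0 : C(τ.A, P.X0 ν k D g d)
  emb : IsClosedEmbedding g0
  rp : ∀ x m, τ.Rp x m ↔ (P.E ∅).At (g0 x) m
  [nice : ∀ M, Nice (P.XM ν k D g d M)]
  /-- the inclusion in the Borel construction -/
  i : ∀ M, C(τ.A × Bs σ M, P.XM ν k D g d M)
  pt : ∀ M x p m, τ.Rp x m → (P.EM ∅ M).At (i M (x, bp p)) (par (uncurry p.val) m)
  loc : IsLoc (chiA a) (P.vM ν k D g d) i τ.I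
  psi : ∀ n, ∃ x : Loc.R σ ⊗[ℂ] Hev τ.A, bc _ (chiA a) x = τ.ψ n ∧
    ∀ M, H.map (i M) (hcls (psiF (.inl n))) = evA _ M (inH _ x)
  ev : ∀ n x m, τ.Rp x m → ∃ h, τ.ev n x = Quo.mk _ ⟨(bas m).vl (m.p (.inl n)), h⟩

/-- the system of all fixed loci -/
abbrev GeoT (a : σ → ℂ) (T : Th P P.X) : Type 1 :=
  ∀ (ν : Type) [Fintype ν] (g : ℤ) (d : Option R → ℤ), Geo k D a (T ν g d)

theorem inF_bc {A : Type} [TopologicalSpace A] (χ : Loc.R σ →ₐ[ℂ] F) (x : Loc.R σ ⊗[ℂ] Hev A) :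
    inF A (bc _ χ x) = bc _ χ (inH A x) := by
  induction x with
  | zero => simp only [map_zero]
  | add a b ha hb => simp only [map_add, ha, hb]
  | tmul k c => rfl

theorem pbE_bc {A A' : Type} [TopologicalSpace A] [TopologicalSpace A'] (χ : Loc.R σ →ₐ[ℂ] F)
    (φ : C(A', A)) (x : Loc.R σ ⊗[ℂ] Hev A) : pbE φ (bc _ χ x) =
      bc _ χ (Algebra.TensorProduct.map (AlgHom.id ℂ _) (Hev.map φ) x) := by
  induction x with
  | zero => simp only [map_zero]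
  | add a b ha hb => simp only [map_add, ha, hb]
  | tmul k c => rfl

theorem chiA_X (a : σ → ℂ) (i : σ) : chiA a (MvPolynomial.X i) = a i • tt :=
  MvPolynomial.aeval_X _ _

theorem chiA_lin (a : σ → ℂ) (w : σ → ℤ) : chiA a (Loc.lin w) = (∑ i, w i * a i) • tt := by
  simp only [Loc.lin, map_sum, map_smul, chiA_X, smul_smul]
  exact (Finset.sum_smul (R := ℂ) (M := F)).symm

theorem chiA_lin_ne {a : σ → ℂ} (ha : LinearIndependent ℚ a) (w : σ → ℤ) (hw : w ≠ 0) :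
    chiA a (Loc.lin w) ≠ 0 := by
  have h : ∑ i, w i * a i ≠ 0 := fun h => hw (funext fun i => Int.cast_eq_zero.1
    (Fintype.linearIndependent_iff.1 ha (fun i => (w i : ℚ)) (by simpa [Rat.smul_def] using h) i))
  refine (chiA_lin a w).trans_ne ((Algebra.smul_def _ tt).trans_ne
    (mul_ne_zero ((map_ne_zero _).2 h) fun e => ?_))
  simpa [tt] using congrArg (fun x : F => x.co (-1)) e

variable {k D}

theorem Cx.ok {V : Type} [AddCommGroup V] [Module ℂ V] {p : Fock.Par ℂ V} {ι : Type} [Fintype ι]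
    {fr : Fock.Frame p ι} {r : ℕ} {P : PB R J K (Fin (r + 1))} {ac : Act fr (Hev P.X)}
    {E : Dic ac P.X} {w c i₀ iP} (h : Cx P k E w c i₀ iP) (hD : (P.E ∅).BigD k D) :
    P.Ok univ k D :=
  ⟨h.tg.toGood, h.tg.reg, ⟨by rw [h.tg.mov, compl_univ]; exact empty_subset _, h.tg.E⟩, h.tg.B,
    h.goodE, h.big, hD⟩

end LG

end Vale.Agent.P269
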