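import Vale.Agent.P269.LG.BorV

/-! The localisation formula for a chart. -/

set_option linter.unusedSectionVars false
set_option linter.style.haveILetI false

namespace Vale.Agent.P269.LG

open Set Function Topology Filter Module TensorProduct Vale.Agent.P291Z Vale.Agent.P269.Ch
  Vale.Agent.P269.Orb Vale.Agent.P269.Loc Vale.Agent.P269.Mono

variable {σ : Type} [Fintype σ] {A B W W' P : Type} [NormedRing A] [NormedAlgebra ℂ A] [NormedRing B]
  [NormedAlgebra ℂ B] [NormedAddCommGroup W] [NormedSpace ℂ W] [NormedAddCommGroup W']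
  [NormedSpace ℂ W'] [AddCommGroup P] [Module ℂ P]
  [TopologicalSpace P] [FiniteDimensional ℂ A] [FiniteDimensional ℂ B] [FiniteDimensional ℂ W]
  [FiniteDimensional ℂ W'] {act₀ : A → W → W} {act : B → W → W}
  {D : KD B W P} {Z : Set W} [IsTopologicalAddGroup P] [ContinuousSMul ℂ P] [T2Space P]
  {c : TC σ act₀ act D Z} {M : ℕ} {act' : B → W' → W'} {Z' : Set W'}

section tw

variable {X : ℕ → Type} [∀ M, TopologicalSpace (X M)]

/-- sums of homogeneous compatible systems of classes -/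
noncomputable def Tws (k : ∀ M, C(X M, X (M + 1))) : Submodule ℂ (∀ M, H (X M)) :=
  Submodule.span ℂ {α | (∀ M, H.map (k M) (α (M + 1)) = α M) ∧ ∃ n, ∀ M, H.IsDeg n (α M)}

variable {k : ∀ M, C(X M, X (M + 1))}

theorem Tws.of {α : ∀ M, H (X M)} (h : ∀ M, H.map (k M) (α (M + 1)) = α M) {n : ℤ}
    (hn : ∀ M, H.IsDeg n (α M)) : α ∈ Tws k := Submodule.subset_span ⟨h, n, hn⟩

theorem Tws.map {α : ∀ M, H (X M)} (h : α ∈ Tws k) (M : ℕ) : H.map (k M) (α (M + 1)) = α M := by
  induction h using Submodule.span_induction with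
  | mem x hx => exact hx.1 M
  | zero => exact map_zero _
  | add x y _ _ hx hy => exact (map_add _ _ _).trans (congrArg₂ (· + ·) hx hy)
  | smul z x _ hx => exact (H.map_smulC _ _ _).trans (congrArg (z • ·) hx)

theorem Tws.one : (1 : ∀ M, H (X M)) ∈ Tws k := Tws.of (fun _ => map_one _) fun _ => H.isDeg_one

theorem Tws.mul {α α' : ∀ M, H (X M)} (h : α ∈ Tws k) (h' : α' ∈ Tws k) : α * α' ∈ Tws k := by
  induction h using Submodule.span_induction with
  | zero => rw [zero_mul]; exact zero_mem _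
  | add x y _ _ hx hy => rw [add_mul]; exact add_mem hx hy
  | smul z x _ hx => rw [smul_mul_assoc]; exact Submodule.smul_mem _ _ hx
  | mem x hx =>
    induction h' using Submodule.span_induction with
    | zero => rw [mul_zero]; exact zero_mem _
    | add x y _ _ hx hy => rw [mul_add]; exact add_mem hx hy
    | smul z x _ hx => rw [mul_smul_comm]; exact Submodule.smul_mem _ _ hx
    | mem y hy =>
      obtain ⟨n, hn⟩ := hx.2
      obtain ⟨m, hm⟩ := hy.2
      exact Tws.of (fun M => (map_mul _ _ _).trans (congrArg₂ (· * ·) (hx.1 M) (hy.1 M)))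
        fun M => (hn M).mul (hm M)

theorem Tws.pow {α : ∀ M, H (X M)} (h : α ∈ Tws k) (n : ℕ) : α ^ n ∈ Tws k := by
  induction n with
  | zero => rw [pow_zero]; exact Tws.one
  | succ n ih => rw [pow_succ]; exact Tws.mul ih h

theorem Tws.prod {l : List (∀ M, H (X M))} (h : ∀ α ∈ l, α ∈ Tws k) : l.prod ∈ Tws k :=
  List.prod_induction _ (fun _ _ => Tws.mul) Tws.one h

/-- pull-backs from a fixed space -/
theorem Tws.pull {T : Type} [TopologicalSpace T] [Nice T] (f : ∀ M, C(X M, T))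
    (hf : ∀ M x, f (M + 1) (k M x) = f M x) (a : H T) : (fun M => H.map (f M) a) ∈ Tws k := by
  refine H.induction_deg (P := fun a => (fun M => H.map (f M) a) ∈ Tws k) a ?_ (fun b c hb hc => ?_)
    fun n => Tws.of (fun M => ?_) fun M => (H.isDeg_comp n a).map _
  · exact mem_of_eq_of_mem (funext fun M => map_zero _) (zero_mem _)
  · exact mem_of_eq_of_mem (funext fun M => map_add _ _ _) (add_mem hb hc)
  · rw [H.map_map]
    exact congrArg (H.map · _) (ContinuousMap.ext (hf M))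

variable [∀ M, Nice (X M)] [∀ M, CompactSpace (X M)]
  {Y : Ch.Sp} {a : TS σ Y} {Zs : Set Y.T} {j : ∀ M, C(X M, (a.B M).X)} {d : ℤ} {β : ∀ M, BM (X M)}

theorem IsTw.push_inc (hβ : IsTw a j d β) (hj : ∀ M, IsClosedEmbedding (j M))
    (hr : ∀ M x, (a.B M).π x ∈ range (j M) ↔ x.1 ∈ Zs)
    (hk : ∀ M x, j (M + 1) (k M x) = (a.inc M).map (j M x)) (M : ℕ) :
    push (k M) (β M) = cap (H.map (j (M + 1)) (a.e (M + 1) (∏ i, MvPolynomial.X i))) (β (M + 1)) := by
  have a2 := IsCo.mono' (IsCo.pull' (a.isCo_col M) (j (M + 1)).continuous)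
    (preimage_inc hj hr (hk M))
  rw [← hβ.step M (k M) (hk M), push_gys_eq_cap (isClosedEmbedding_of_comp (hj _).isEmbedding (hk M)
    ((a.isClosedEmbedding_inc M).comp (hj M))) a2.cocycle a2.supp, ← TS.hcls_col,
    H.map_hcls _ (a.isCo_col M).cocycle]

/-- **existence of equivariant integrals** -/
theorem IsTw.exists_rep (hβ : IsTw a j d β) (hj : ∀ M, IsClosedEmbedding (j M))
    (hr : ∀ M x, (a.B M).π x ∈ range (j M) ↔ x.1 ∈ Zs)
    (hk : ∀ M x, j (M + 1) (k M x) = (a.inc M).map (j M x)) {α : ∀ M, H (X M)} (hα : α ∈ Tws k) :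
    ∃ Q, Rep (fun M f => intg (β M) (α M * H.map (j M) (a.e M f))) Q := by
  induction hα using Submodule.span_induction with
  | zero => exact ⟨0, rep_zero.congr fun M f => by rw [Pi.zero_apply, zero_mul, map_zero]⟩
  | add x y _ _ hx hy =>
    obtain ⟨_, hx⟩ := hx
    obtain ⟨_, hy⟩ := hy
    exact ⟨_, (hx.add hy).congr fun M f => by rw [Pi.add_apply, add_mul, map_add]⟩
  | smul z x _ hx =>
    obtain ⟨_, hx⟩ := hx
    exact ⟨_, (hx.smul z).congr fun M f => by
      rw [Pi.smul_apply, smul_mul_assoc, map_smul, smul_eq_mul]⟩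
  | mem α hα =>
    obtain ⟨hα, n, hn⟩ := hα
    refine Loc.exists_rep (φ := fun M => intg (β M) ∘ₗ LinearMap.mulLeft ℂ (α M) ∘ₗ
      ((H.mapA (j M)).comp (a.e M)).toLinearMap) (fun M f => ?_) (fun M i f => ?_)
      (D := (n - 2 * d).toNat) fun M l hl => ?_
    · change intg (β M) (α M * H.map (j M) (a.e M f)) =
        intg (β (M + 1)) (α (M + 1) * H.map (j (M + 1)) (a.e (M + 1) (_ * f)))
      have : H.map (j M) (a.e M f) = H.map (k M) (H.map (j (M + 1)) (a.e (M + 1) f)) := by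
        rw [← a.map_inc_e M f, H.map_map, H.map_map]
        exact congrArg (H.map · _) (ContinuousMap.ext fun x => (hk M x).symm)
      rw [← hα M, this, ← map_mul, ← intg_push, hβ.push_inc hj hr hk, intg_cap, mul_comm _ f,
        map_mul (a.e (M + 1)), map_mul (H.map (j (M + 1))), mul_assoc]
    · change intg (β M) (α M * H.map (j M) (a.e M (_ * f))) = 0
      rw [map_mul (a.e M), TS.e_X_pow, zero_mul, map_zero, mul_zero, map_zero]
    · refine intg_deg (hβ.deg M) ((hn M).mul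
        ((a.e_deg M (MvPolynomial.isHomogeneous_monomial (d := l) 1 rfl)).map (j M))) ?_
      have : ((l.degree + (n - 2 * d).toNat : ℕ) : ℤ) < (Fintype.card σ * M : ℕ) := by
        exact_mod_cast hl
      push_cast at this
      omega

end tw

namespace TC

variable {V : ℕ → Type}
  [∀ M, NormedAddCommGroup (V M)] [∀ M, NormedSpace ℂ (V M)] [∀ M, FiniteDimensional ℂ (V M)]
  {ac : ∀ M, B → V M → V M} {ZM : ∀ M, Set (V M)} (L : ∀ M, c.Lv M (ac M) (ZM M))
  [∀ M, Nice (Quo (ac M) (ZM M))] {K : Type} [Field K] [Algebra ℂ K] {χ : R σ →ₐ[ℂ] K}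

/-- **the localisation formula** -/
theorem loc (hχ : ∀ w ≠ 0, χ (Loc.lin w) ≠ 0) {I : K ⊗[ℂ] H c.F →ₗ[K] K}
    (hI : IsLoc χ (fun M => (L M).β) (fun M => (L M).i) I) {α : ∀ M, H (Quo (ac M) (ZM M))}
    (hα : α ∈ Tws fun M => (L M).inc (L (M + 1))) {x : R σ ⊗[ℂ] H c.F}
    (hx : ∀ M, H.map (L M).i (α M) = evA c.F M x) : ∃ Q : R σ, χ Q = I (bc _ χ x) ∧
      MvPolynomial.constantCoeff Q = intg c.β₀ (H.map (L 0).base (α 0)) := by
  haveI := fun M => (L M).compactSpace
  haveI := c.niceZ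
  haveI := c.cZ
  obtain ⟨Q, hQ⟩ := (isTw L).exists_rep (pc L).emb (pc L).rng (fun M => (L M).j_inc _) hα
  obtain ⟨p, u, hp, hu, h⟩ := (pc L).exists_glob hχ c.range_g.ge
  refine ⟨Q, hI.sum hp hu (fun M => (h M).1) (fun M => (h M).2.1) (e := fun M => (L M).e)
    (fun M => (h M).2.2) (map_i_e L) hx hQ, ?_⟩
  rw [hQ.constantCoeff, map_one, map_one, mul_one, ← (L 0).res_base, ← intg_push,
    push_res_homeo (L 0).isHomeomorph_base]

end TC

end Vale.Agent.P269.LG
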