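import Vale.Agent.P269.Map.SQ
import Vale.Agent.P269.Map.Gy
import Vale.Agent.P269.Prj.Quo

set_option linter.unusedSectionVars false

/-!
# Sections of bundles as Kuranishi data, Euler classes of twisted bundles
-/

namespace Vale.Agent.P269.Ch

open Set Function Topology Filter Module Vale.Agent.P291Z Vale.Agent.P269.Orb Holo

variable {A A' W W' P : Type} [NormedRing A] [NormedAlgebra ℂ A] [NormedAddCommGroup W]
  [NormedSpace ℂ W] [NormedRing A'] [NormedAlgebra ℂ A'] [NormedAddCommGroup W'] [NormedSpace ℂ W']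
  [AddCommGroup P] [Module ℂ P] [TopologicalSpace P] [IsTopologicalAddGroup P]
  [ContinuousSMul ℂ P] [T2Space P] [FiniteDimensional ℂ A] [FiniteDimensional ℂ W]
  [FiniteDimensional ℂ A'] [FiniteDimensional ℂ W'] {act : A → W → W} {act' : A' → W' → W'}
  {Z O S : Set W} {S' : Set W'} {θ : A → A'} {f : W → W'}

theorem VB.eu_tw_sum {Y Y' : Sp} (V : VB Y) (m : Mor Y' Y) (χ : Y'.G →ₜ* ℂˣ) :
    (V.tw m χ).eu = ∑ j ∈ Finset.range (V.r + 1), c1 χ ^ (V.r - j) *
      Hev.map m.map (PowerSeries.coeff j V.chR) := by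
  rw [VB.eu_tw, evP, Polynomial.coe_eval₂RingHom, Polynomial.eval₂_eq_sum_range' _
    (Nat.lt_succ_of_le V.chern_mon.le), ← Finset.sum_range_reflect]
  refine Finset.sum_congr rfl fun j hj => ?_
  rw [V.coeff_chR, if_pos (Nat.le_of_lt_succ (Finset.mem_range.1 hj)), mul_comm]
  rfl

namespace SD

/-- The Kuranishi data of a section of a bundle. -/
@[reducible] def kds (E : SD A W P) (s : W → P) : KD A W P := ⟨E.ρ, E.P₀, E.N, E.B, s⟩

variable {E : SD A W P} {E' : SD A' W' P} {r r' n q : ℕ} {s : W → P}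

theorem Ok.kds_ok (h : E.Ok act O r r') (hs : ∀ x ∈ O, s x ∈ E.B x) (hc : ContinuousOn s O)
    (he : ∀ x ∈ O, ∀ a, IsUnit a → s (act a x) = E.ρ a (s x)) :
    (E.kds s).Ok act O r' (r - r') := by
  refine ⟨h.fin, h.rep, h.famN, fun x hx => h.famB.le x hx (hs x hx), hc, he, ?_,
    fun x hx _ => ?_, fun x hx _ => h.famB.inv x hx, fun x hx _ => h.le x hx,
    fun x hx _ => h.famB.le x hx, fun x hx _ w y c u hy hl hu hw => ?_⟩
  · exact (h.famN.closed.preimage (f := fun z : O × P => (z.1, s z.1)) (continuous_fst.prodMk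
      (hc.domRestrict.comp continuous_fst))).inter h.famB.closed
  · have := h.rank_le hx
    exact (h.famB.rank x hx).trans (by omega)
  · exact h.famB.closed.mem_of_tendsto (f := fun m => ((⟨y m, hy m⟩ : O), c m • s (y m) + u m))
      (x := (⟨x, hx⟩, w)) ((tendsto_subtype_rng.2 hl).prodMk_nhds hw) (.of_forall fun m =>
        add_mem (Submodule.smul_mem _ _ (hs _ (hy m))) (h.le _ (hy m) (hu m)))

/-- the virtual pull-back is the Gysin map of an Euler cocycle -/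
theorem Ok.vr_kds (h : E.Ok act O r r') (hs : ∀ x ∈ O, s x ∈ E.B x)
    (hG : (E.kds s).Gd act Z O n q) [Nice (Quo act O)] : ∃ (d : ℕ) (t : Coch (Quo act O)),
      IsCo (range (Quo.incl act hG.dom.sub)) d t ∧ hcls t = hcls (E.eu act O) ∧
      ∀ β, (E.kds s).vr act Z O β = gys (Quo.incl act hG.dom.sub) t β := by
  obtain ⟨k, i, hk, -, -, h1⟩ := hG.exists_isKP
  obtain ⟨V, M, h2, h3, -⟩ := exists_isMod_of_rep hG.dom.pres h.famB h.famN h.le k.P hk.emb
    hk.range hk.eqv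
  have h4 : ∀ t w, i w ∈ E.B (hG.dom.pres.i t) →
      (h3.hom.clm t w = 0 ↔ i w ∈ E.N (hG.dom.pres.i t)) := fun t w hw => by
    rw [h3.hom.clm_eq hw]
    exact h3.ker t w hw
  have h5 : k.Pre (Mor.id _) V fun t => (h3.hom.clm t).toLinearMap :=
    ⟨Hom.of_continuous (fun t w _ => h3.hom.mem t _ ((h.famB.vb _ _ hk.emb hk.range hk.eqv).P_mem t w))
      ((h3.hom.continuous_clm.comp continuous_fst).clm_apply continuous_snd)
      fun g t w _ => h3.hom.clm_smul g t w,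
    fun t w hw => (h4 t w (h3.le t ((hk.van t w).1 hw))).2 ((hk.van t w).1 hw),
    fun t ht w hw e => (hk.van t w).2 ((h4 t w ((hk.obs t ht w).1 hw)).1 e)⟩
  have h6 : hG.dom.sp.π '' {t | h3.hom.clm t (k.s t) = 0} ⊆ range (Quo.incl act hG.dom.sub) :=
    (image_mono fun t ht => (hk.van t _).2 ((h4 t _ (hk.sec t ▸ hs _ (hG.dom.pres.mem t))).1
      ht)).trans (hG.dom.range_incl hk).ge
  have h7 : LCoh k.Z k.eul h5.isSec.eul := by
    rcases eq_empty_or_nonempty k.Zs with e | ⟨t, ht⟩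
    · exact LCoh.of_van (by simp [KP.Z, e])
    have a := hk.finrank_van t
    have b := hk.finrank_obs ht
    have m := hG.dom.pres.mem t
    rw [inf_eq_left.2 (h.famN.le _ m), h.famN.rank _ m] at a
    rw [inf_eq_left.2 (h.famB.le _ m), h.famB.rank _ m] at b
    exact KP.Model.lcoh' ⟨h5, by omega⟩
  have h8 := h5.isSec.isCo
  refine ⟨V.r, h5.isSec.eul, ⟨h8.cocycle, h8.deg, h8.supp.trans h6⟩, ?_, fun β => ?_⟩
  · have := hG.dom.isAct
    exact h5.isSec.hcls_eul.trans (hcls_presA hG.dom.orb h3).symm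
  · rw [h1, (hG.dom.isZ hk).vir_eq h7, lgys_eq_gys (hG.dom.isZ hk).emb h8.cocycle (h8.supp.trans h6)]
    rfl

/-- the zero section -/
theorem Ok.vr_zero (h : E.Ok act O r r') (hG : (E.kds fun _ => 0).Gd act O O n q)
    (β : BM (Quo act O)) : (E.kds fun _ => 0).vr act O O β = cap (hcls (E.eu act O)) β := by
  have := hG.nice
  obtain ⟨d, t, h1, h2, h3⟩ := h.vr_kds (fun _ _ => zero_mem _) hG
  rw [h3, ← h2, ← gys_id_eq_cap h1.cocycle, show Quo.incl act hG.dom.sub = id from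
    funext fun z => Quot.inductionOn z fun _ => rfl]

/-- **the Euler class of a twisted pull-back** -/
theorem Ok.eu_tw [IsAct act S] [IsAct act' S'] (h : E.Ok act S r r') (h' : E'.Ok act' S' r r')
    (ho : Orb Aˣ (Holo.Sp act S)) (ho' : Orb A'ˣ (Holo.Sp act' S')) (hf : EqM act act' S S' θ f)
    {c : A → ℂ} (hc : Tq.Hm c) (hB : ∀ x ∈ S, E'.B (f x) = E.B x)
    (hN : ∀ x ∈ S, E'.N (f x) = E.N x)
    (hρ : ∀ x ∈ S, ∀ a, IsUnit a → ∀ w ∈ E.B x, E.ρ a w = c a • E'.ρ (θ a) w) :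
    hcls (E.eu act S) = ∑ m ∈ Finset.range (r - r' + 1), Tq.lcq act S c ^ (r - r' - m) *
      H.map hf.map (PowerSeries.coeff m (E'.ch act' S')).1 := by
  obtain ⟨U, V, ι, M, -, h0, h1, -, h2⟩ := h'.exists_isMod ho'
  obtain ⟨θ', h3, h4⟩ := hf.hom
  let m : Mor (spA ho) (spA ho') := ⟨θ', fun t => Holo.Sp.of act' (f t.val) (hf.maps t.val_mem), h3,
    (hf.cont.comp_continuous Holo.Sp.continuous_val fun t => t.val_mem).subtype_mk _,
    fun g t => Holo.Sp.ext ((hf.eqv _ g.isUnit _ t.val_mem).trans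
      (congrArg (act' · (f t.val)) (h4 g).symm))⟩
  have h5 : ∀ t : Holo.Sp act S, (U.F (m.f t)).map ι = E.B t.val := fun t =>
    (h1.map _).trans (hB _ t.val_mem)
  have h6 : IsMod (presA ho) E.ρ E.B E.N (U.tw m hc.ρ) (V.tw m hc.ρ) ι fun t => M (m.f t) :=
    ⟨h1.emb, h5, fun (g : Aˣ) (t : Holo.Sp act S) (w : U.W) hw => by
      have e : ι (c g • m.ρ g • w) = E.ρ g (ι w) := by
        rw [map_smul, h2, hρ _ t.val_mem _ g.isUnit _ ((h5 t).le ⟨w, hw, rfl⟩), ← h4]
        rfl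
      exact (sub_eq_zero.2 e).symm ▸ zero_mem _,
    fun t => h.le _ ((presA ho).mem t), h1.hom.tw m hc.ρ, fun t => h1.surj (m.f t),
    fun t w hw => (h1.ker (m.f t) w hw).trans
      (Iff.of_eq (congrArg (ι w ∈ ·) (hN _ ((presA ho).mem t))))⟩
  have h8 : m.map = hf.map := ContinuousMap.ext fun z => Quot.inductionOn z fun x => m.map_π x
  have h9 : Tq.lcq act S c = (c1 (Y := spA ho) hc.ρ).1 :=
    (Tq.lcq_eq (presA ho) (χ := hc.ρ) fun _ => rfl).trans (H.map_id (fun _ => rfl) _)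
  rw [eu, hcls_presA ho h6, V.eu_tw_sum m hc.ρ, ch, chernT_presA ho' h1, h9, ← h0, ← h8]
  exact (map_sum (Hev (Quo act S)).val _ _).trans (Finset.sum_congr rfl fun j _ => rfl)

end SD

/-- naturality of the classes of characters for locally free actions -/
theorem map_lcq [IsAct act S] [IsAct act' S'] (ho : Orb Aˣ (Holo.Sp act S))
    (ho' : Orb A'ˣ (Holo.Sp act' S')) (h : Tq.Eqh act act' S S' θ f) {c : A' → ℂ} (hc : Tq.Hm c) :
    H.map h.toEqv.qm (Tq.lcq act' S' c) = Tq.lcq act S fun a => c (θ a) := by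
  let m : Mor (spA ho) (spA ho') := ⟨h.hm.ρ.toMonoidHom,
    fun x => Holo.Sp.of act' (f x.val) (h.maps x.val_mem), h.hm.ρ.continuous,
    (h.cont.domRestrict.subtype_mk _ :), fun g x => Holo.Sp.ext (h.eqv _ g.isUnit _ x.val_mem)⟩
  have h1 : m.map = h.toEqv.qm :=
    (DFunLike.coe_injective (m.map_eq (φ := h.toEqv.qm) fun _ => rfl)).symm
  rw [(Tq.lcq_eq (presA ho') (χ := hc.ρ) fun _ => rfl).trans (H.map_id (fun _ => rfl) _),
    (Tq.lcq_eq (presA ho) (χ := m.chr hc.ρ) fun _ => rfl).trans (H.map_id (fun _ => rfl) _), ← h1]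
  exact congrArg Subtype.val (map_c1 m hc.ρ)

end Vale.Agent.P269.Ch
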