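import Vale.Agent.P269.Loc.EV

/-! Equivariant classes on a space with the trivial action. -/

namespace Vale.Agent.P269.LG

open Set Function TensorProduct Vale.Agent.P291Z Vale.Agent.P269.Ch Vale.Agent.P269.Orb
  Vale.Agent.P269.Loc

variable {σ : Type} [Fintype σ] {A : Type} [TopologicalSpace A] [Nice A]

namespace Kun

open Classical in
/-- splitting off the factor `i` -/
noncomputable def spl (i : σ) (M : ℕ) : Mor ((TS.triv σ pt).B M)
    (trivB ((TS.triv {j // j ≠ i} pt).B M) (Fin (M + 1) → ℂ)).PS where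
  ρ := ⟨⟨fun g => ((g.1, fun j => g.2 j.1), g.2 i), rfl⟩, fun _ _ => rfl⟩
  f x := VB.PT.mk (x.1, ⟨fun j => x.2.val j.1, fun j => x.2.ne j.1⟩) (x.2.val i) trivial (x.2.ne i)
  cρ := show Continuous fun g : PUnit × Tor σ =>
    (((g.1, fun j => g.2 j.1), g.2 i) : (PUnit × Tor {j // j ≠ i}) × ℂˣ) by fun_prop
  cf := VB.PT.continuous_mk (continuous_fst.prodMk (Continuous.subtype_mk (show Continuous
    fun (x : Unit × PM σ M) (j : {j // j ≠ i}) => x.2.val j.1 by fun_prop) _))
      (show Continuous fun x : Unit × PM σ M => x.2.val i by fun_prop) _ _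
  eqv _ _ := rfl

open Classical in
theorem isHomeomorph_spl (i : σ) (M : ℕ) : IsHomeomorph (spl i M).map := by
  refine isHomeomorph_iff_continuous_bijective.2 ⟨(spl i M).map.continuous, fun x y h => ?_,
    fun x => ?_⟩
  · obtain ⟨x, rfl⟩ := ((TS.triv σ pt).B M).surj x
    obtain ⟨y, rfl⟩ := ((TS.triv σ pt).B M).surj y
    rw [Mor.map_π, Mor.map_π] at h
    obtain ⟨g, e⟩ := (Sp.fib _ _ _).1 h
    refine (Sp.fib _ _ _).2 ⟨(g.1.1, (Equiv.funSplitAt i ℂˣ).symm (g.2, g.1.2)),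
      Prod.ext rfl (PM.ext (funext fun j => ?_))⟩
    change ((Equiv.funSplitAt i ℂˣ).symm (g.2, g.1.2) j : ℂ) • x.2.val j = _
    by_cases a : j = i
    · subst a
      simpa using show (g.2 : ℂ) • x.2.val j = y.2.val j from congrArg VB.PT.w e
    · simpa [a] using show (g.1.2 ⟨j, a⟩ : ℂ) • x.2.val j = y.2.val j from
        congrArg (fun z => z.t.2.val ⟨j, a⟩) e
  · obtain ⟨x, rfl⟩ := Sp.surj _ x
    refine ⟨((TS.triv σ pt).B M).π ((), ⟨(Equiv.funSplitAt i _).symm (x.w, x.t.2.val), fun j => ?_⟩),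
      (Mor.map_π _ _).trans (congrArg _ (VB.PT.ext (Prod.ext rfl (PM.ext (funext fun j => ?_))) ?_))⟩
    · by_cases a : j = i
      · exact (dif_pos a).trans_ne (by subst a; exact x.ne)
      · simpa [a] using x.t.2.ne ⟨j, a⟩
    · exact dif_neg j.2
    · exact dif_pos rfl

theorem isBasis_lam (M n : ℕ) : ∀ (σ : Type) [Fintype σ], Fintype.card σ = n →
    Fl.IsBasis fun k : σ → Fin (M + 1) => lam M (∏ i, MvPolynomial.X i ^ (k i : ℕ) : R σ) := by
  classical
  induction n with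
  | zero =>
    intro σ _ h
    have := Fintype.card_eq_zero_iff.1 h
    have : Nonempty (Bs σ M) := ⟨bp ⟨isEmptyElim, isEmptyElim⟩⟩
    have : Subsingleton (Bs σ M) := ⟨fun x y => by
      obtain ⟨x, rfl⟩ := ((TS.triv σ pt).B M).surj x
      obtain ⟨y, rfl⟩ := ((TS.triv σ pt).B M).surj y
      exact congrArg _ (Prod.ext rfl (PM.ext (funext isEmptyElim)))⟩
    simp only [Finset.univ_eq_empty, Finset.prod_empty, map_one]
    refine .mk (linearIndependent_unique_iff.2 hcls_one_ne_zero) fun c _ => ?_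
    obtain ⟨z, rfl⟩ := acyc_of_subsingleton c
    exact Submodule.smul_mem _ _ (Submodule.subset_span ⟨default, rfl⟩)
  | succ n ih =>
    intro σ _ h
    obtain ⟨i⟩ := Fintype.card_pos_iff.1 (n.succ_pos.trans_eq h.symm)
    let E := trivB ((TS.triv {j // j ≠ i} pt).B M) (Fin (M + 1) → ℂ)
    have a := E.lh_bijective
    rw [show E.r = M + 1 from Module.finrank_fin_fun ℂ] at a
    have b := (Fl.IsBasis.lh a (ih {j // j ≠ i} (by simp [h]))).map
      (φ := (H.mapA (spl i M).map).toLinearMap)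
      (H.map_bijective_of_homeomorph (isHomeomorph_spl i M).homeomorph)
    have c : (H.mapA (spl i M).map).comp ((H.mapA E.pp.map).comp (lam M)) =
        (lam M).comp (MvPolynomial.rename Subtype.val) := MvPolynomial.algHom_ext fun j => by
      simp only [AlgHom.comp_apply, MvPolynomial.rename_X, lam, TS.e_apply, TS.ev_X]
      exact congrArg Subtype.val ((congrArg _ (map_c1 _ _)).trans (map_c1 (spl i M) _))
    have d : H.mapA (spl i M).map E.xi.1 = lam M (MvPolynomial.X i) := by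
      simp only [lam, TS.e_apply, TS.ev_X]
      exact congrArg Subtype.val (map_c1 (spl i M) _)
    refine .of_comp (Equiv.funSplitAt i _).symm.bijective ((congrArg Fl.IsBasis
      (funext fun q => ?_)).mp b)
    rw [AlgHom.toLinearMap_apply, map_mul, map_pow, d, ← map_pow,
      Fintype.prod_eq_mul_prod_subtype_ne _ i, mul_comm (_ ^ _ : R σ), map_mul]
    rw [← H.mapA_apply, ← AlgHom.comp_apply _ (lam M), ← AlgHom.comp_apply, c, AlgHom.comp_apply]
    simp [fun j : {j // j ≠ i} => j.2]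

end Kun

/-- the monomials of degree at most `M` in each variable are a basis -/
theorem isBasis_lam (M : ℕ) : Fl.IsBasis fun k : σ → Fin (M + 1) =>
    lam M (∏ i, MvPolynomial.X i ^ (k i : ℕ) : R σ) := Kun.isBasis_lam M _ σ rfl

namespace Kun

/-- monomials -/
noncomputable def mon (k : σ → ℕ) : R σ := ∏ i, MvPolynomial.X i ^ k i

theorem mon_deg (M : ℕ) (k : σ → ℕ) : H.IsDeg (2 * (∑ i, k i : ℕ)) (lam M (mon k)) :=
  (TS.triv σ pt).e_deg M (.prod _ _ _ fun i _ => MvPolynomial.isHomogeneous_X_pow i _)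

open Classical in
variable (A) in
/-- polynomials of degree at most `M` in each variable -/
noncomputable def Φ (M : ℕ) : ((σ → Fin (M + 1)) → H A) →ₗ[ℂ] R σ ⊗[ℂ] H A :=
  ∑ k, TensorProduct.mk ℂ _ _ (mon fun i => k i) ∘ₗ LinearMap.proj k

variable {M : ℕ}

omit [Nice A] in
open Classical in
theorem Φ_apply (a : (σ → Fin (M + 1)) → H A) : Φ A M a = ∑ k, mon (fun i => k i) ⊗ₜ a k :=
  LinearMap.sum_apply _ _ _

omit [Nice A] in
open Classical in
theorem evA_Φ (a : (σ → Fin (M + 1)) → H A) : evA A M (Φ A M a) = ∑ k,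
    H.map ContinuousMap.fst (a k) * H.map ContinuousMap.snd (lam M (mon fun i => k i)) := by
  rw [Φ_apply, map_sum]
  exact Finset.sum_congr rfl fun k _ => Hev.commute (map_mem_Hev _ (lam_mem M _)) _

omit [Nice A] in
theorem mon_mem {k : σ → ℕ} (h : ∀ i, k i ≤ M) (c : H A) :
    mon k ⊗ₜ c ∈ LinearMap.range (Φ A M) := by
  classical
  refine ⟨Pi.single (fun i => ⟨k i, Nat.lt_succ_of_le (h i)⟩) c, ?_⟩
  rw [Φ_apply, Finset.sum_eq_single _ (fun l _ e => by rw [Pi.single_eq_of_ne e, tmul_zero])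
    (by simp), Pi.single_eq_same]

/-- **the Künneth formula** -/
theorem bij (M : ℕ) : Bijective fun a : (σ → Fin (M + 1)) → H A => evA A M (Φ A M a) := by
  classical
  have h := Fl.lh_bijective (p := (ContinuousMap.fst : C(A × Bs σ M, A)))
    (i := fun b => ContinuousMap.prodMk (.const _ b) (.id _)) isPr_fst (fun b => isFib_fst b)
    (T := fun k : σ → Fin (M + 1) => H.map ContinuousMap.snd (lam M (mon fun i => k i)))
    (fun k => (mon_deg M _).map _) (fun _ => by positivity) fun b =>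
      (congrArg Fl.IsBasis (funext fun k => ((H.map_map _ _ _).trans
        (H.map_id (fun _ => rfl) _)).symm)).mp (LG.isBasis_lam M)
  refine (congrArg Bijective (funext fun a => ?_)).mp
    (h.comp Finsupp.equivFunOnFinite.symm.bijective)
  rw [evA_Φ, comp_apply, ← Finsupp.univ_sum_single (Finsupp.equivFunOnFinite.symm a), map_sum]
  exact Finset.sum_congr rfl fun k _ => H.lh_single _ _ _ _

omit [Nice A] in
theorem exists_mem (x : R σ ⊗[ℂ] H A) : ∃ M, ∀ M' ≥ M, x ∈ LinearMap.range (Φ A M') := by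
  have ad : ∀ {x y : R σ ⊗[ℂ] H A}, (∃ M, ∀ M' ≥ M, x ∈ LinearMap.range (Φ A M')) →
      (∃ M, ∀ M' ≥ M, y ∈ LinearMap.range (Φ A M')) →
        ∃ M, ∀ M' ≥ M, x + y ∈ LinearMap.range (Φ A M') := fun ⟨M, a⟩ ⟨N, b⟩ =>
    ⟨max M N, fun _ e => add_mem (a _ (le_of_max_le_left e)) (b _ (le_of_max_le_right e))⟩
  induction x with
  | zero => exact ⟨0, fun _ _ => zero_mem _⟩
  | add x y a b => exact ad a b
  | tmul f c =>
    induction f using MvPolynomial.induction_on' with
    | add f g a b => exact add_tmul (R := ℂ) f g c ▸ ad a b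
    | monomial k z =>
      refine ⟨∑ i, k i, fun M e => ?_⟩
      rw [MvPolynomial.monomial_eq, Finsupp.prod_fintype _ _ fun _ => pow_zero _,
        MvPolynomial.C_mul', smul_tmul]
      exact mon_mem (fun i => (Finset.single_le_sum (fun _ _ => Nat.zero_le _)
        (Finset.mem_univ i)).trans e) _

theorem deg {a : (σ → Fin (M + 1)) → H A} {d : ℤ} (h : H.IsDeg d (evA A M (Φ A M a)))
    (k : σ → Fin (M + 1)) : H.IsDeg (d - 2 * (∑ i, (k i : ℕ) : ℕ)) (a k) := by
  have e : a = fun k => H.comp (d - 2 * (∑ i, (k i : ℕ) : ℕ)) (a k) := (bij M).1 (by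
    dsimp only
    rw [← h.comp_eq, evA_Φ, evA_Φ, map_sum]
    refine Finset.sum_congr rfl fun k _ => ?_
    rw [← H.comp_map, ← H.comp_mul_right ((mon_deg M _).map _), sub_add_cancel])
  rw [e]
  exact H.isDeg_comp _ _

omit [Nice A] in
theorem map_inc (M : ℕ) (x : R σ ⊗[ℂ] H A) : H.map (incA A M) (evA A (M + 1) x) = evA A M x := by
  induction x with
  | zero => simp only [map_zero]
  | add a b ha hb => simp only [map_add, ha, hb]
  | tmul f c =>
    rw [evA_tmul, evA_tmul, map_mul, lam, lam, ← (TS.triv σ pt).map_inc_e M f, H.map_map, H.map_map,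
      H.map_map]
    rfl

theorem exists_Φ {c : ∀ M, H (A × Bs σ M)} {d : ℤ} (hd : ∀ M, H.IsDeg d (c M))
    (hc : ∀ M, H.map (incA A M) (c (M + 1)) = c M) : ∃ (N : ℕ) (a : (σ → Fin (N + 1)) → H A),
      (∀ k, H.IsDeg (d - 2 * (∑ i, (k i : ℕ) : ℕ)) (a k)) ∧ ∀ M, evA A M (Φ A N a) = c M := by
  classical
  choose a ha using fun M => (bij (σ := σ) (A := A) M).2 (c M)
  dsimp only at ha
  have h1 := fun M => deg (a := a M) ((ha M).symm ▸ hd M)
  have h2 : ∀ M ≥ d.toNat, Φ A (M + 1) (a (M + 1)) = Φ A M (a M) := fun M e => by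
    obtain ⟨b, hb⟩ : Φ A (M + 1) (a (M + 1)) ∈ LinearMap.range (Φ A M) := by
      rw [Φ_apply]
      refine sum_mem fun k _ => ?_
      by_cases f : ∀ i, (k i : ℕ) ≤ M
      · exact mon_mem f _
      · obtain ⟨i, f⟩ := not_forall.1 f
        have := Finset.single_le_sum (f := fun i => (k i : ℕ)) (fun _ _ => Nat.zero_le _)
          (Finset.mem_univ i)
        rw [(h1 _ k).eq_zero (by omega), tmul_zero]
        exact zero_mem _
    rw [← hb, (bij M).1 (a₁ := b) (a₂ := a M) (by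
      dsimp only
      rw [hb, ← map_inc, ha, ha, hc])]
  have h3 : ∀ M ≥ d.toNat, evA A M (Φ A d.toNat (a d.toNat)) = c M := fun M e => by
    rw [← ha M]
    exact congrArg _ (Nat.le_induction rfl (fun M e b => b.trans (h2 M e).symm) M e)
  refine ⟨_, a d.toNat, h1 _, fun M => (le_total d.toNat M).elim (h3 M) fun e => ?_⟩
  exact Nat.decreasingInduction (fun M _ b => by rw [← map_inc, b, hc]) (ha _) e

end Kun

theorem evA_surj (M : ℕ) : Surjective (evA (σ := σ) A M) := .of_comp (Kun.bij M).2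

theorem evA_ext {x y : R σ ⊗[ℂ] H A} (h : ∀ M, evA A M x = evA A M y) : x = y := by
  obtain ⟨M, a⟩ := Kun.exists_mem x
  obtain ⟨N, b⟩ := Kun.exists_mem y
  obtain ⟨a, rfl⟩ := a _ (le_max_left M N)
  obtain ⟨b, rfl⟩ := b _ (le_max_right M N)
  rw [(Kun.bij _).1 (h _)]

/-- a compatible family of classes of bounded degree -/
theorem exists_evA {c : ∀ M, H (A × Bs σ M)} {d : ℤ} (hd : ∀ M, H.IsDeg d (c M))
    (hc : ∀ M, H.map (incA A M) (c (M + 1)) = c M) :
    ∃ x : R σ ⊗[ℂ] H A, ∀ M, evA A M x = c M :=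
  let ⟨_, _, _, h⟩ := Kun.exists_Φ hd hc; ⟨_, h⟩

theorem exists_evA_ev {c : ∀ M, H (A × Bs σ M)} {d : ℤ} (hd : ∀ M, H.IsDeg (2 * d) (c M))
    (hc : ∀ M, H.map (incA A M) (c (M + 1)) = c M) :
    ∃ x : R σ ⊗[ℂ] Hev A, ∀ M, evA A M (inH A x) = c M := by
  classical
  obtain ⟨N, a, h1, h2⟩ := Kun.exists_Φ hd hc
  refine ⟨∑ k, Kun.mon (fun i => k i) ⊗ₜ ⟨a k, mem_Hev (mul_sub 2 d _ ▸ h1 k)⟩, fun M => ?_⟩
  rw [← h2, Kun.Φ_apply, map_sum (inH A)]
  rfl

end Vale.Agent.P269.LG
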