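import Vale.Agent.P269.LG.Amb
import Vale.Agent.P269.LG.BorR
import Vale.Agent.P269.LG.Kun
import Vale.Agent.P269.LG.HVs
import Vale.Agent.P269.Bas.Lv
import Vale.Agent.P269.Prj.Tgt

/-! Tautological classes on the approximations of the Borel construction. -/

set_option linter.unusedSectionVars false
set_option linter.style.haveILetI false

namespace Vale.Agent.P269.LG

open Set Function Topology Filter Module TensorProduct Vale.Agent.P291Z Vale.Agent.P269.Ch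
  Vale.Agent.P269.Orb Vale.Agent.P269.Loc

variable {R J K σ ι ν κ : Type} [Fintype R] [Fintype J] [Fintype K] [Fintype σ] [Fintype ι]
  [DecidableEq ι] [Fintype ν] [Fintype κ] [DecidableEq σ] {P : PB R J K σ} {ch : Ch ι (J ⊕ σ)}
  {e : K → ι → ℕ} {K₀ : Set K} {ℓ : Option R → ι → ℤ} {Z : Set σ} {O : Set (ch.WF ν κ Empty)}
  {n : ℕ}

namespace Lev

variable {S S' Λ Λ' T T' : Type} [Fintype S] [Fintype S'] [Fintype Λ] [Fintype Λ'] [Fintype T]
  [Fintype T'] {wt : σ → S → ℤ} {wl : Λ → S → ℤ} {B : Set (Λ → ℂ)}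

/-- the projection to the base -/
theorem eqv_pr (hB : P.F.B = univ) (hA : P.F.Abs) :
    Tq.Eqv (P.fam wt wl B Z).actT P.F.actT (P.fam wt wl B Z).cone P.F.cone
      fun z => (Empty.elim, fun j => z.2 (.inl j)) :=
  ⟨fun _ hz => ((PB.mem_cone hB hA).1 hz).2.1, PB.cont.continuousOn, fun t ht z _ =>
    ⟨(1, fun r => t.2 (some r)), Prod.isUnit_iff.2 ⟨isUnit_one, isUnit_pi_iff.2 fun _ =>
      isUnit_pi_iff.1 (Prod.isUnit_iff.1 ht).2 _⟩, Prod.ext (Subsingleton.elim _ _)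
      (funext fun j => by simp [Wt.actT, PB.w])⟩⟩

theorem eqv (hB : P.F.B = univ) (hA : P.F.Abs) {Y : Set (ch.WF ν κ Λ)}
    (g : GZ (P.fam wt wl B Z) ℓ Y) (q : Mk ν κ) : Tq.Eqv (actF (P.fam wt wl B Z).toWt) P.F.actT Y
      P.F.cone fun x => (Empty.elim, fun j => (vl x q).2 (.inl j)) :=
  (g.eqh_vl q fun _ hx => vl_mem (g.sol hx) q).toEqv.comp (eqv_pr hB hA)

variable {J' : Type} [Fintype J'] {ch : Ch ι J'} {F : Wt S Λ T J'} {F' : Wt S' Λ' T' J'}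
  {Y : Set (ch.WF ν κ Λ)} {Y' : Set (ch.WF ν κ Λ')} {θ : ch.AF ν κ S → ch.AF ν κ S'}
  {f : ch.WF ν κ Λ → ch.WF ν κ Λ'}

theorem hm_ξ (ℓ : T → ι → ℤ) (q : Mk ν κ) (r : T) :
    Tq.Hm fun s : ch.AF ν κ S => (θv ℓ q s).2 r :=
  have a := hm_θv (ch := ch) (S := S) ℓ q
  ⟨congrArg (·.2 r) a.one, fun s t hs ht => congrArg (·.2 r) (a.mul s t hs ht),
    fun s hs => (continuous_apply r).continuousAt.comp (a.cont s hs).snd⟩

theorem lcq_deg (g : OZ F Y) {c : ch.AF ν κ S → ℂ} (hc : Tq.Hm c) :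
    H.IsDeg 2 (Tq.lcq (actF F) Y c) := by
  haveI := g.act
  rw [Tq.lcq_eq (presA g.orb) (χ := hc.ρ) fun _ => rfl]
  exact (Hev.mem_deg.1 (c1_deg _)).map _

theorem map_ξ (g : OZ F Y) (g' : OZ F' Y') (hf : Tq.Eqh (actF F) (actF F') Y Y' θ f)
    (h1 : ∀ a, (θ a).2 = a.2) {T'' : Type} [Fintype T''] (ℓ : T'' → ι → ℤ) (q : Mk ν κ) (r : T'') :
    H.map hf.toEqv.qm (Tq.lcq (actF F') Y' fun s => (θv ℓ q s).2 r) =
      Tq.lcq (actF F) Y fun s => (θv ℓ q s).2 r :=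
  haveI := g.act
  haveI := g'.act
  (map_lcq g.orb g'.orb hf (hm_ξ ℓ q r)).trans
    (congrArg (Tq.lcq (actF F) Y) (funext fun a => by simp only [θv, h1]))

/-- maps that do not change the curve -/
theorem map_psi (g : OZ F Y) (g' : OZ F' Y') (hf : Tq.Eqh (actF F) (actF F') Y Y' θ f)
    (h1 : ∀ a, (θ a).2 = a.2) (h2 : ∀ x ∈ Y, (f x).2 = x.2) (q : Mk ν κ) :
    H.map hf.toEqv.qm (hcls (psiF q)) = hcls (psiF q) := by
  haveI := g.act
  haveI := g'.act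
  have k : EqM (actF F) (actF F') Y Y' θ f :=
    ⟨⟨hf.hm.ρ.toMonoidHom, hf.hm.ρ.continuous, fun _ => rfl⟩, hf.maps, hf.cont, hf.eqv⟩
  have hB : ∀ x ∈ Y, (ch.sdψ S' Λ' q).B (f x) = (ch.sdψ S Λ q).B x := fun x hx => by
    simp only [h2 x hx]
  have hN : ∀ x ∈ Y, (ch.sdψ S' Λ' q).N (f x) = (ch.sdψ S Λ q).N x := fun x hx => by
    simp only [h2 x hx]
  have o := g.cuts.okψ (S := S) (F := F) g.base q
  have o' := g'.cuts.okψ (S := S') (F := F') g'.base q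
  rw [show hf.toEqv.qm = k.map from rfl, H.map_hcls _ (psiF_cocycle g'.orb g'.cuts g'.base q),
    psiF_eq, psiF_eq, map_neg, hcls_neg (o.cocycle g.orb),
    hcls_neg (cocycle_pull k.map.continuous (o'.cocycle g'.orb))]
  exact congrArg Neg.neg (o.pull g.orb g'.orb o' k (L := fun _ => .id)
    ⟨fun _ _ => continuousOn_const, fun x hx _ h => (hB x hx).ge h, fun x hx _ h => (hN x hx).ge h,
      fun x hx a ha w hw => mem_of_eq_of_mem (sub_eq_zero.2 (by simp only [h1, LinearMap.id_apply]))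
        (zero_mem _)⟩ (fun x hx _ _ h => (hN x hx).le h)
    fun x hx w hw => ⟨w, (hB x hx).le hw, (sub_self w).symm ▸ zero_mem _⟩).1.symm

end Lev

namespace PB.Am

variable (h : P.Am e K₀ ℓ Z O n)

section
include h

theorem gz0 : GZ (P.E Z) ℓ (P.Z0 ν κ ch Z) :=
  haveI := h.tc.gd.isActZ
  h.std_E.gz inter_subset_left
    (inter_subset_right.trans (h.std.cuts.cyc_subset_adm h.std_E.inv 0)) h.tc.gd.orbZ

theorem gzM (M : ℕ) : GZ (P.EM Z M) ℓ (P.ZM ν κ ch Z M) :=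
  haveI := (h.lv M).gd.isActZ
  h.std_EM.gz inter_subset_left
    (inter_subset_right.trans (h.std.cuts.cyc_subset_adm h.std_EM.inv 0)) (h.lv M).gd.orbZ

theorem eqv0 (q : Mk ν κ) : Tq.Eqv (actF (P.E Z).toWt) P.F.actT (P.Z0 ν κ ch Z) P.F.cone
    fun x => (Empty.elim, fun j => (vl x q).2 (.inl j)) := Lev.eqv h.B h.abs h.gz0 q

theorem eqvM (M : ℕ) (q : Mk ν κ) : Tq.Eqv (actF (P.EM Z M).toWt) P.F.actT (P.ZM ν κ ch Z M)
    P.F.cone fun x => (Empty.elim, fun j => (vl x q).2 (.inl j)) := Lev.eqv h.B h.abs (h.gzM M) q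

end

/-- the evaluation map to the base -/
noncomputable def ev0 (q : Mk ν κ) : C(Quo (actF (P.E Z).toWt) (P.Z0 ν κ ch Z), P.X) :=
  (h.eqv0 q).qm

/-- the evaluation map to the base -/
noncomputable def evM (M : ℕ) (q : Mk ν κ) :
    C(Quo (actF (P.EM Z M).toWt) (P.ZM ν κ ch Z M), P.X) := (h.eqvM M q).qm

/-- the hyperplane class at a marked point -/
noncomputable def ξ0 (_ : P.Am e K₀ ℓ Z O n) (q : Mk ν κ) :
    H (Quo (actF (P.E Z).toWt) (P.Z0 ν κ ch Z)) := Tq.lcq _ _ fun s => (θv ℓ q s).2 none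

/-- the equivariant hyperplane class at a marked point -/
noncomputable def ξM (_ : P.Am e K₀ ℓ Z O n) (M : ℕ) (q : Mk ν κ) :
    H (Quo (actF (P.EM Z M).toWt) (P.ZM ν κ ch Z M)) := Tq.lcq _ _ fun s => (θv ℓ q s).2 none

variable (M : ℕ) (q : Mk ν κ)

theorem evM_cl (x hx p) : h.evM M q ((h.lv M).cl x hx p) = h.ev0 q (Quo.mk _ ⟨x, hx⟩) := rfl

theorem evM_inc (z) : h.evM (M + 1) q ((h.lv M).inc (h.lv (M + 1)) z) = h.evM M q z := by
  obtain ⟨x, hx, p, rfl⟩ := (h.lv M).cl_surj z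
  rw [TC.Lv.inc_cl, evM_cl, evM_cl]

theorem evM_base (z) : h.evM 0 q ((h.lv 0).base z) = h.ev0 q z := by
  obtain ⟨⟨x, hx⟩, rfl⟩ := Tq.mk_surj z
  rw [TC.Lv.base_cl, evM_cl]

theorem evM_i (z b) : h.evM M q ((h.lv M).i (z, b)) = h.ev0 q (h.tc.g₀ z) := by
  obtain ⟨x, hx, rfl⟩ := h.tc.cl_surj z
  obtain ⟨p, rfl⟩ := isOpenQuotientMap_bp.surjective b
  rw [TC.Lv.i_cl, evM_cl, TC.g₀_cl]

theorem ξM_deg : H.IsDeg 2 (h.ξM M q) := Lev.lcq_deg (h.gzM M).toOZ (Lev.hm_ξ ℓ q none)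

theorem inc_ξ : H.map ((h.lv M).inc (h.lv (M + 1))) (h.ξM (M + 1) q) = h.ξM M q :=
  Lev.map_ξ (h.gzM M).toOZ (h.gzM (M + 1)).toOZ ((h.lv M).eqh_inc (h.lv (M + 1)))
    (fun _ => rfl) ℓ q none

theorem base_ξ : H.map (h.lv 0).base (h.ξM 0 q) = h.ξ0 q :=
  Lev.map_ξ h.gz0.toOZ (h.gzM 0).toOZ (h.lv 0).eqh_base (fun _ => rfl) ℓ q none

include h in
theorem psi_deg :
    H.IsDeg 2 (hcls (psiF q : Coch (Quo (actF (P.EM Z M).toWt) (P.ZM ν κ ch Z M)))) :=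
  hcls_isDeg ((h.gzM M).psi_deg q)

theorem inc_psi : H.map ((h.lv M).inc (h.lv (M + 1))) (hcls (psiF q)) = hcls (psiF q) :=
  Lev.map_psi (h.gzM M).toOZ (h.gzM (M + 1)).toOZ ((h.lv M).eqh_inc (h.lv (M + 1)))
    (fun _ => rfl) (fun _ _ => rfl) q

theorem base_psi : H.map (h.lv 0).base (hcls (psiF q)) = hcls (psiF q) :=
  Lev.map_psi h.gz0.toOZ (h.gzM 0).toOZ (h.lv 0).eqh_base (fun _ => rfl) (fun _ _ => rfl) q

theorem ξ_tws : (fun M => h.ξM M q) ∈ Tws fun M => (h.lv M).inc (h.lv (M + 1)) :=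
  Tws.of (fun M => h.inc_ξ M q) fun M => h.ξM_deg M q

theorem psi_tws : (fun M => hcls (psiF q)) ∈ Tws fun M => (h.lv M).inc (h.lv (M + 1)) :=
  Tws.of (fun M => h.inc_psi M q) fun M => h.psi_deg M q

theorem ev_tws [Nice P.X] (c : H P.X) :
    (fun M => H.map (h.evM M q) c) ∈ Tws fun M => (h.lv M).inc (h.lv (M + 1)) :=
  Tws.pull (fun M => h.evM M q) (fun M => h.evM_inc M q) c

/-- the equivariant cotangent line class on the fixed locus -/
theorem exists_psi : ∃ x : Loc.R σ ⊗[ℂ] Hev h.tc.F,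
    ∀ M, H.map (h.lv M).i (hcls (psiF q)) = evA _ M (inH _ x) := by
  refine (exists_evA_ev (c := fun M => H.map (h.lv M).i (hcls (psiF q))) (d := 1)
    (fun M => (h.psi_deg M q).map _) fun M => ?_).imp fun _ a M => (a M).symm
  rw [← h.inc_psi M q, H.map_map, H.map_map]
  exact congrArg (H.map · _) (ContinuousMap.ext fun z => ((h.lv M).inc_i _ z).symm)

end PB.Am

end Vale.Agent.P269.LG
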