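import Vale.Agent.P269.LG.Fam
import Vale.Agent.P269.Pt.Iso
import Vale.Agent.P269.Pt.Glue
import Vale.Agent.P269.Pt.Cmp

/-! Vertices and edges of fixed maps: elementary properties. -/

set_option linter.unusedSectionVars false

namespace Vale.Agent.P269.LG

open Set Function Topology Filter Cv B

variable {R J K σ S Λ ν ν' κ : Type} [Fintype R] [Fintype J] [Fintype K] [Fintype σ] [Fintype S]
  [Fintype Λ] [Fintype ν] [Fintype ν'] [Fintype κ] {P : PB R J K σ}

section cc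

variable {X : Type} [TopologicalSpace X] [T2Space X] [CompactSpace X]

theorem finite_cc (C : RS X) : (range (connectedComponent : X → Set X)).Finite :=
  (finite_clopen C).subset (range_subset_iff.2 fun x => (exists_comp (R := C) x).1)

theorem isClopen_of_cc (C : RS X) {U : Set X}
    (h : ∀ x, ∀ y ∈ connectedComponent x, y ∈ U ↔ x ∈ U) : IsClopen U :=
  isClopen_iff_frontier_eq_empty.2 (eq_empty_of_forall_notMem fun x hx => by
    have a := (exists_comp (R := C) x).1.isOpen.mem_nhds mem_connectedComponent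
    by_cases b : x ∈ U
    · exact hx.2 (mem_interior_iff_mem_nhds.2 (mem_of_superset a fun y c => (h x y c).2 b))
    · obtain ⟨y, c, d⟩ := mem_closure_iff_nhds.1 hx.1 _ a
      exact b ((h x y c).1 d))

theorem degOn_eq_zero_of_cc {C : RS X} {L : LB C} {U : Set X} (hU : IsClopen U)
    (h : ∀ x ∈ U, degOn L (connectedComponent x) = 0) : degOn L U = 0 := by
  have f := (finite_cc C).subset (image_subset_range connectedComponent U)
  have a := (degOn_sUnion L (T := f.toFinset) (fun V hV => by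
    obtain ⟨x, -, rfl⟩ := f.mem_toFinset.1 hV
    exact (exists_comp (R := C) x).1) (by
    rw [f.coe_toFinset]
    rintro _ ⟨x, -, rfl⟩ _ ⟨y, -, rfl⟩ e
    exact connectedComponent_disjoint e)).2
  rw [f.coe_toFinset, sUnion_image, hU.biUnion_connectedComponent_eq] at a
  refine a.trans (Finset.sum_eq_zero fun V hV => ?_)
  obtain ⟨x, b, rfl⟩ := f.mem_toFinset.1 hV
  exact h x b

theorem degOn_biUnion {C : RS X} (L : LB C) {α : Type} {U : α → Set X} (h : ∀ i, IsClopen (U i))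
    (d : Pairwise (Disjoint on U)) (T : Finset α) :
    degOn L (⋃ i ∈ T, U i) = ∑ i ∈ T, degOn L (U i) := by
  induction T using Finset.cons_induction with
  | empty => simpa using degOn_empty
  | cons i T hi ih =>
    rw [Finset.sum_cons, ← ih, ← degOn_union (h i) (isClopen_biUnion_finset fun j _ => h j)
      (disjoint_iUnion₂_right.2 fun j hj => d fun e => hi (e ▸ hj))]
    simp only [Finset.mem_cons, iUnion_iUnion_eq_or_left]

end cc

variable {m m' : AM0 R J σ ν} {e e' : Edge σ} {a b a' b' z z' : m.X} {i i' : σ} {s t : En ν}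
  {g : ℤ} {d : Option R → ℤ}

theorem sol_iff (hB : P.F.B = univ) (hA : P.F.Abs) {Z : Set σ} : m.Sol (P.E Z) ↔
    (bas m).Sol P.F ∧ (∀ i, m.y (.inr i) ∈ H0 m.N (bz m.L (P.w (.inr i)))) ∧
      (∀ z, ∃ i, m.y (.inr i) z ≠ 0) ∧ ∀ i ∈ Z, m.y (.inr i) = 0 := by
  have k : ∀ z, (bas m).vl z = (Empty.elim, fun j => (m.vl z).2 (.inl j)) := fun z =>
    Prod.ext (Subsingleton.elim _ _) rfl
  simp only [AM.Sol, AM.Sec, PB.mem_cone hB hA, k, hB, mem_univ, true_and, Sum.forall, bz_inl,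
    forall_and]
  exact ⟨fun ⟨⟨a, b⟩, c, d, e⟩ => ⟨⟨a, c⟩, b, d, fun i hi => funext fun z => e z i hi⟩,
    fun ⟨⟨a, c⟩, b, d, e⟩ => ⟨⟨a, b⟩, c, d, fun z i hi => congrFun (e i hi) z⟩⟩

theorem sol_ne (h : m.Sol (P.E ∅)) (z : m.X) : ∃ i, m.y (.inr i) z ≠ 0 := (h.2.2 z).2.1.1.2

theorem Ov.ne (h : m.Sol (P.E ∅)) (a : Ov m z i) : m.y (.inr i) z ≠ 0 := by
  obtain ⟨l, b⟩ := sol_ne h z
  exact (not_not.1 fun c => b (a l c) : l = i) ▸ b

theorem Ov.unique (h : m.Sol (P.E ∅)) (a : Ov m z i) (b : Ov m z i') : i = i' :=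
  not_not.1 fun c => a.ne h (b i c)

theorem Ov.jn (h : m.Sol (P.E ∅)) (a : Ov m z i) (j : Jn m.N z z') : Ov m z' i := fun l hl =>
  ((mem_H0_iff.1 (h.2.1 (.inr l))).2 _ _ j).symm.trans (a l hl)

theorem Vx.ov (h : z ∈ Vx m i) : Ov m z i := h z mem_connectedComponent

theorem mem_Vx_congr (h : z' ∈ connectedComponent z) : z' ∈ Vx m i ↔ z ∈ Vx m i := by
  simp only [Vx, mem_ofPred_eq, connectedComponent_eq h]

theorem isClopen_Vx (i : σ) : IsClopen (Vx m i) := isClopen_of_cc m.R fun _ _ => mem_Vx_congr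

theorem disjoint_Vx (h : m.Sol (P.E ∅)) (hi : i ≠ i') : Disjoint (Vx m i) (Vx m i') :=
  disjoint_left.2 fun _ a b => hi ((Vx.ov a).unique h (Vx.ov b))

theorem degOn_Vx (h : m.Sol (P.E ∅)) (i : σ) :
    degOn (m.L none) (Vx m i) = -∑ r, P.wL i r * vdeg m i r := by
  have := degOn_of_ne (U := Vx m i) (fun x _ => (h.2.1 (.inr i)).1 x) fun x a => (Vx.ov a).ne h
  rw [show (P.E ∅).w (.inr i) = P.w (.inr i) from rfl, bz_inr, degOn_mul, degOn_bz] at this
  exact eq_neg_of_add_eq_zero_left this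

theorem spc_iff : Spc m z ↔ (∃ n, m.p (.inl n) = z) ∨ ¬Sm m.N z := by
  simp [Spc]

theorem End.sm (h : End m s z) (hs : s ≠ .node) : Sm m.N z :=
  match s, h, hs with
  | .node, _, a => (a rfl).elim
  | .bare, a, _ => not_not.1 fun b => a (.inr b)
  | .mark _, a, _ => a ▸ m.sm _

theorem End.unique (h : End m s z) (h' : End m t z) : s = t :=
  match s, t, h, h' with
  | .node, .node, _, _ => rfl
  | .bare, .bare, _, _ => rfl
  | .mark _, .mark _, a, b => congrArg _ (Sum.inl_injective (m.inj (a.trans b.symm)))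
  | .node, .bare, a, b => (a (b.sm nofun)).elim
  | .node, .mark _, a, b => (a (b.sm nofun)).elim
  | .bare, .node, a, b => (b (a.sm nofun)).elim
  | .mark _, .node, a, b => (b (a.sm nofun)).elim
  | .bare, .mark _, a, b => (a (.inl ⟨_, b⟩)).elim
  | .mark _, .bare, a, b => (b (.inl ⟨_, a⟩)).elim

theorem exists_end (z : m.X) : ∃! s, End m s z := by
  refine existsUnique_of_exists_of_unique ?_ fun _ _ => End.unique
  by_cases h : Spc m z
  · exact (spc_iff.1 h).elim (fun ⟨n, a⟩ => ⟨.mark n, a⟩) fun a => ⟨.node, a⟩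
  · exact ⟨.bare, h⟩

/-- the kinds of ends, enumerated -/
def En.eqv (ν : Type) : Option (Option ν) ≃ En ν where
  toFun o := o.elim .node fun o => o.elim .bare .mark
  invFun
    | .node => none
    | .bare => some none
    | .mark n => some (some n)
  left_inv
    | none => rfl
    | some none => rfl
    | some (some _) => rfl
  right_inv
    | .node => rfl
    | .bare => rfl
    | .mark _ => rfl

instance : Fintype (En ν) := Fintype.ofEquiv _ (En.eqv ν)

theorem En.sum_univ {M : Type} [AddCommMonoid M] (f : En ν → M) :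
    ∑ s, f s = f .node + f .bare + ∑ n, f (.mark n) := by
  rw [← (En.eqv ν).sum_comp, Fintype.sum_option, Fintype.sum_option, add_assoc]
  rfl

namespace Eg

theorem rev (h : Eg m e a b) : Eg m e.rev b a := by
  have k := connectedComponent_eq h.mem
  refine ⟨h.ne.symm, ?_, ?_, ?_, ?_, ?_, ?_, ?_, ?_⟩ <;> rw [← k]
  exacts [mem_connectedComponent, h.rat, fun z c d => (h.spc z c d).symm, h.tgt, h.src,
    fun z c l d f => h.oth z c l f d, h.deg, h.deg0]

theorem ov_src (h : Eg m e a b) : Ov m a e.src := fun l hl => by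
  by_cases c : l = e.tgt
  · exact c ▸ (h.tgt a mem_connectedComponent).2 rfl
  · exact h.oth a mem_connectedComponent l hl c

theorem ov_tgt (h : Eg m e a b) : Ov m b e.tgt := h.rev.ov_src

theorem eq_of_ov (h : Eg m e a b) (hz : z ∈ connectedComponent a) (o : Ov m z i) :
    z = a ∧ i = e.src ∨ z = b ∧ i = e.tgt := by
  by_cases c : i = e.src
  · exact .inl ⟨(h.tgt z hz).1 (o _ (c ▸ e.ne.symm)), c⟩
  · have d := (h.src z hz).1 (o _ (Ne.symm c))
    exact .inr ⟨d, not_not.1 fun f => h.ne (((h.tgt z hz).1 (o _ (Ne.symm f))).symm.trans d)⟩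

theorem notMem_Vx (h : Eg m e a b) (hz : z ∈ connectedComponent a) (i : σ) : z ∉ Vx m i := by
  rw [mem_Vx_congr hz]
  intro c
  rcases h.eq_of_ov mem_connectedComponent (Vx.ov c) with ⟨-, d⟩ | ⟨d, -⟩
  · rcases h.eq_of_ov h.mem (c b h.mem) with ⟨f, -⟩ | ⟨-, f⟩
    exacts [h.ne f.symm, e.ne (d.symm.trans f)]
  · exact h.ne d

theorem unique (h : Eg m e a b) (h' : Eg m e' a' b') (hz : a' ∈ connectedComponent a) :
    e' = e ∧ a' = a ∧ b' = b ∨ e' = e.rev ∧ a' = b ∧ b' = a := by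
  have k := connectedComponent_eq hz
  have d : e'.deg = e.deg := by
    have := h'.deg.symm.trans (k ▸ h.deg)
    omega
  rcases h.eq_of_ov hz h'.ov_src with ⟨c, f⟩ | ⟨c, f⟩ <;>
    rcases h.eq_of_ov (k ▸ h'.mem) h'.ov_tgt with ⟨c', f'⟩ | ⟨c', f'⟩
  exacts [(h'.ne (c.trans c'.symm)).elim, .inl ⟨Edge.ext f f' d, c, c'⟩,
    .inr ⟨Edge.ext f f' d, c, c'⟩, (h'.ne (c.trans c'.symm)).elim]

theorem sm (h : Eg m e a b) (ha : Sm m.N a) (hb : Sm m.N b) (hz : z ∈ connectedComponent a) :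
    Sm m.N z := not_not.1 fun c => (h.spc z hz (.inr c)).elim (fun d => c (d ▸ ha)) fun d => c (d ▸ hb)

theorem sat (h : Eg m e a b) (ha : Sm m.N a) (hb : Sm m.N b) : m.Sat (connectedComponent a) :=
  ⟨h.rat.clopen, fun _ c y d => (sm_iff.1 (h.sm ha hb c) y d).elim⟩

end Eg

theorem finite_fl (m : AM0 R J σ ν) :
    {x : Edge σ × m.X × m.X | Eg m x.1 x.2.1 x.2.2}.Finite := by
  refine Finite.of_finite_fibers (fun x => connectedComponent x.2.1) ((finite_cc m.R).subset ?_) ?_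
  · rintro _ ⟨x, -, rfl⟩
    exact mem_range_self _
  · rintro _ ⟨x, h, rfl⟩
    refine (toFinite {x, (x.1.rev, x.2.2, x.2.1)}).subset fun y hy => ?_
    have c : connectedComponent y.2.1 = connectedComponent x.2.1 := hy.2
    exact (Eg.unique h hy.1 (c ▸ mem_connectedComponent)).imp
      (fun d => Prod.ext d.1 (Prod.ext d.2.1 d.2.2)) fun d => Prod.ext d.1 (Prod.ext d.2.1 d.2.2)

theorem finite_cnt (m : AM0 R J σ ν) (e : Edge σ) (s t : En ν) :
    {x : m.X × m.X | Eg m e x.1 x.2 ∧ End m s x.1 ∧ End m t x.2}.Finite :=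
  ((finite_fl m).preimage (Prod.mk_right_injective e).injOn).subset fun _ h => h.1

theorem cnt_rev : cnt m e.rev t s = cnt m e s t :=
  ncard_congr (fun x _ => x.swap) (fun _ h => ⟨h.1.rev, h.2.2, h.2.1⟩)
    (fun _ _ _ _ h => Prod.swap_injective h) fun x h => ⟨x.swap, ⟨h.1.rev, h.2.2, h.2.1⟩, rfl⟩

theorem cnt_mark_le (n : ν) : cnt m e (.mark n) t ≤ 1 :=
  (ncard_le_one (finite_cnt m e _ t)).2 fun x h y h' => by
    have c : x.1 = y.1 := h.2.1.symm.trans h'.2.1
    rcases h'.1.unique h.1 (c ▸ mem_connectedComponent) with d | d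
    exacts [Prod.ext d.2.1 d.2.2, (h'.1.ne (c.symm.trans d.2.1)).elim]

theorem cnt_ne_zero : cnt m e s t ≠ 0 ↔ ∃ a b, Eg m e a b ∧ End m s a ∧ End m t b :=
  (ncard_eq_zero (finite_cnt m e s t)).not.trans
    (nonempty_iff_ne_empty.symm.trans Prod.exists)

theorem cnt_mark_self (n : ν) : cnt m e (.mark n) (.mark n) = 0 :=
  not_not.1 fun h => let ⟨_, _, a, b, c⟩ := cnt_ne_zero.1 h; a.ne (b.symm.trans c)

theorem nfl_eq {T : Finset (Edge σ)} (hT : ∀ e a b, Eg m e a b → e ∈ T) :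
    nfl m = ∑ e ∈ T, ∑ s, ∑ t, cnt m e s t := by
  classical
  choose k hk hk' using fun z : m.X => exists_end z
  have k2 : ∀ z s, End m s z ↔ k z = s := fun z s => ⟨fun h => (hk' z s h).symm, fun h => h ▸ hk z⟩
  rw [nfl, ncard_eq_toFinset_card _ (finite_fl m), Finset.card_eq_sum_card_fiberwise
    (f := fun x => (x.1, k x.2.1, k x.2.2)) (t := T ×ˢ Finset.univ) fun x h => by
      simpa using hT _ _ _ ((finite_fl m).mem_toFinset.1 h), Finset.sum_product]
  refine Finset.sum_congr rfl fun e _ => (Fintype.sum_prod_type _).trans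
    (Finset.sum_congr rfl fun s _ => Finset.sum_congr rfl fun t _ => ?_)
  refine (ncard_coe_finset _).symm.trans ((congrArg ncard (Set.ext fun x => ?_)).trans
    (ncard_image_of_injective _ (Prod.mk_right_injective e)))
  simp only [Finset.coe_filter, Finite.mem_toFinset, mem_ofPred_eq, Prod.mk.injEq, mem_image, k2]
  exact ⟨fun ⟨a, b, c⟩ => ⟨x.2, ⟨b ▸ a, c⟩, b ▸ rfl⟩, by
    rintro ⟨y, ⟨a, c⟩, rfl⟩
    exact ⟨a, rfl, c⟩⟩

theorem even_nfl (m : AM0 R J σ ν) : Even (nfl m) := by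
  rw [nfl, ncard_eq_toFinset_card _ (finite_fl m), ← ZMod.natCast_eq_zero_iff_even,
    Finset.card_eq_sum_ones, Nat.cast_sum]
  exact Finset.sum_involution (fun x _ => (x.1.rev, x.2.2, x.2.1)) (fun _ _ => by decide)
    (fun x h _ c => ((finite_fl m).mem_toFinset.1 h).ne (congrArg (·.2.2) c))
    (fun x h => (finite_fl m).mem_toFinset.2 ((finite_fl m).mem_toFinset.1 h).rev) fun _ _ => rfl

theorem nfl_eq_zero : nfl m = 0 ↔ ∀ e a b, ¬Eg m e a b :=
  (ncard_eq_zero (finite_fl m)).trans (eq_empty_iff_forall_notMem.trans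
    ⟨fun h e a b => h (e, a, b), fun h _ => h _ _ _⟩)

theorem Str.ov (h : Str m) (hz : Spc m z) : ∃ i, Ov m z i := by
  rcases h z with ⟨i, c⟩ | ⟨e, a, b, c, d⟩
  · exact ⟨i, Vx.ov c⟩
  · rcases c.spc z d hz with rfl | rfl
    exacts [⟨_, c.ov_src⟩, ⟨_, c.ov_tgt⟩]

theorem Str.cm (h : Str m) (n : ν) : ∃ i, Cm m n i := h.ov (.inl ⟨_, rfl⟩)

theorem Vert.str {T : Set σ} (h : Vert m T) : Str m := fun z => .inl ((h z).imp fun _ a => a.2)

theorem Vert.nfl {T : Set σ} (h : Vert m T) : nfl m = 0 := nfl_eq_zero.2 fun _ a _ c =>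
  let ⟨i, _, d⟩ := h a; c.notMem_Vx mem_connectedComponent i d

theorem Str.vert (h : Str m) : Vert m univ ↔ nfl m = 0 :=
  ⟨Vert.nfl, fun c z => (h z).elim (fun ⟨i, d⟩ => ⟨i, trivial, d⟩)
    fun ⟨_, _, _, d, _⟩ => (nfl_eq_zero.1 c _ _ _ d).elim⟩

theorem vert_single : Vert m {i} ↔ ∀ l ≠ i, m.y (.inr l) = 0 :=
  ⟨fun h l hl => funext fun z => let ⟨_, a, b⟩ := h z; Vx.ov b l (a ▸ hl),
    fun h _ => ⟨i, rfl, fun z _ l hl => congrFun (h l hl) z⟩⟩

theorem Vert.sat (hs : m.Sol (P.E ∅)) {T : Set σ} (h : Vert m T) (i : σ) : m.Sat (Vx m i) :=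
  ⟨isClopen_Vx i, fun _ a y b =>
    let ⟨_, _, c⟩ := h y; (Vx.ov c).unique hs ((Vx.ov a).jn hs b) ▸ c⟩

theorem Vert.vdeg (hs : m.Sol (P.E ∅)) {T : Set σ} (h : Vert m T) (hi : i ∉ T) :
    vdeg m i = 0 := funext fun _ => by
  rw [LG.vdeg, eq_empty_of_forall_notMem (s := Vx m i) fun z a =>
    let ⟨_, b, c⟩ := h z; hi ((Vx.ov c).unique hs (Vx.ov a) ▸ b)]
  exact degOn_empty

theorem Edg.str (h : Edg m e s t) : Str m := fun _ =>
  let ⟨a, b, c, _, _, d⟩ := h; .inr ⟨e, a, b, c, d ▸ trivial⟩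

theorem Edg.nfl (h : Edg m e s t) : nfl m = 2 := by
  obtain ⟨a, b, c, -, -, d⟩ := h
  rw [LG.nfl, ← ncard_pair (a := (e, a, b)) (b := (e.rev, b, a)) fun f => c.ne (congrArg (·.2.1) f)]
  refine congrArg ncard (Set.ext fun x => ⟨fun hx => (c.unique hx (d ▸ trivial)).imp
    (fun d => Prod.ext d.1 (Prod.ext d.2.1 d.2.2)) fun d => Prod.ext d.1 (Prod.ext d.2.1 d.2.2), ?_⟩)
  rintro (rfl | rfl)
  exacts [c, c.rev]

theorem Edg.vdeg (h : Edg m e s t) : vdeg m = 0 := funext₂ fun i _ => by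
  obtain ⟨a, b, c, -, -, d⟩ := h
  rw [LG.vdeg, eq_empty_of_forall_notMem (s := Vx m i) fun z => c.notMem_Vx (d ▸ trivial) i]
  exact degOn_empty

theorem Edg.typ (h : Edg m e s t) (hs : s ≠ .node) (ht : t ≠ .node) :
    m.Typ 0 fun o => o.elim (e.deg + 1) 0 := by
  obtain ⟨a, b, c, ha, hb, d⟩ := h
  refine ⟨?_, fun o => ?_⟩
  · have k := c.rat.deg
    rw [d, degOn_univ, deg_K] at k
    rw [gen, Finset.eq_empty_of_forall_notMem fun n hn =>
      (c.sm (ha.sm hs) (hb.sm ht) (d ▸ trivial) n hn).1 rfl, Finset.card_empty]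
    omega
  · rw [← degOn_univ, ← d]
    cases o
    exacts [c.deg, c.deg0 _]

theorem Fx.sum_vdeg (h : Fx m P g d) (r : R) : ∑ i, vdeg m i r = d (some r) := by
  have c := isClopen_biUnion_finset (s := Finset.univ) fun i _ => isClopen_Vx (m := m) i
  rw [← h.typ.2, ← degOn_add_compl c, degOn_biUnion _ isClopen_Vx fun _ _ => disjoint_Vx h.sol,
    degOn_eq_zero_of_cc c.compl fun z hz => ?_, add_zero]
  · rfl
  · rcases h.str z with ⟨i, a⟩ | ⟨e, a, b, f, k⟩
    · exact (hz (mem_biUnion (Finset.mem_univ i) a)).elim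
    · exact connectedComponent_eq k ▸ f.deg0 r

theorem Fx.deg_none (h : Fx m P g d) (h0 : nfl m = 0) :
    d none = -∑ i, ∑ r, P.wL i r * vdeg m i r := by
  have c : ⋃ i ∈ Finset.univ, Vx m i = univ := eq_univ_of_forall fun z =>
    let ⟨i, _, a⟩ := h.str.vert.2 h0 z; mem_biUnion (Finset.mem_univ i) a
  rw [← h.typ.2, ← degOn_univ, ← c, degOn_biUnion _ isClopen_Vx fun _ _ => disjoint_Vx h.sol,
    ← Finset.sum_neg_distrib]
  exact Finset.sum_congr rfl fun i _ => degOn_Vx h.sol i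

end Vale.Agent.P269.LG
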