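import Vale.Agent.P269.LG.Cmb
import Vale.Agent.P269.Pt.Iso

/-! Vertices and edges are fixed by the torus; uniqueness of edges. -/

set_option linter.unusedSectionVars false

namespace Vale.Agent.P269.LG

open Set Function Topology Filter Cv B

namespace FixB

theorem poly_cst {q : Polynomial ℂ} (h : ∀ z, q.eval z ≠ 0) : ∃ c ≠ 0, q = Polynomial.C c :=
  have e := Polynomial.eq_C_of_degree_le_zero
    (not_lt.1 fun a => let ⟨z, hz⟩ := Complex.exists_root a; h z hz)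
  ⟨_, fun a => h 0 (by rw [e, a]; simp), e⟩

theorem poly_mon {q : Polynomial ℂ} {d : ℕ} (h : ∀ z ≠ 0, q.eval z ≠ 0) (hd : q.coeff d ≠ 0) :
    ∃ c ≠ 0, ∀ z, q.eval z = c * z ^ d := by
  obtain ⟨r, e, a⟩ := Polynomial.exists_eq_pow_rootMultiplicity_mul_and_not_dvd q
    (fun a => hd (by simp [a])) 0
  generalize Polynomial.rootMultiplicity 0 q = n at e
  subst e
  obtain ⟨c, hc, rfl⟩ := poly_cst (q := r) fun z b => by
    by_cases hz : z = 0
    · exact a (Polynomial.dvd_iff_isRoot.2 (hz ▸ b))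
    · exact h z hz (by simp [b])
  obtain rfl : d = n := by_contra fun b => hd (by
    rw [map_zero, sub_zero, Polynomial.coeff_mul_C, Polynomial.coeff_X_pow, if_neg b, zero_mul])
  exact ⟨c, hc, fun z => by rw [mul_comm]; simp⟩

section p1

variable {L L' : LB P1} {s s' t t' : OnePoint ℂ → ℂ} {d : ℕ}

theorem exists_ratio (hL : deg L = d) (hs : s ∈ L.Γ) (ht : t ∈ L.Γ) (h0 : ∀ z : ℂ, s z ≠ 0)
    (h1 : ∀ z, z ≠ ((0 : ℂ) : OnePoint ℂ) → t z ≠ 0) :
    ∃ c ≠ 0, ∀ z : ℂ, t z = c * z ^ d * s z := by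
  have r := isRat_range (LIso.id P1) injective_id
  rw [range_id] at r
  obtain ⟨u, a, b, -⟩ := r.exists_triv (L := L / P1.pt .infty ^ d)
    (by rw [degOn_univ, deg_div, deg_pow, deg_pt, hL, mul_one, sub_self])
  have k : ∀ s ∈ L.Γ, s * u⁻¹ ∈ (P1.pt .infty ^ d).Γ := fun s hs => by
    have := LB.mul_mem hs (LB.inv_mem a fun x => b x trivial)
    rwa [inv_div, mul_div_cancel] at this
  obtain ⟨q, -, e, -⟩ := P1_mem_iff.1 (k s hs)
  obtain ⟨q', -, e', e''⟩ := P1_mem_iff.1 (k t ht)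
  obtain ⟨c, hc, rfl⟩ := poly_cst (q := q) fun z =>
    e z ▸ mul_ne_zero (h0 z) (inv_ne_zero (b _ trivial))
  obtain ⟨c', hc', f⟩ := poly_mon (q := q') (d := d) (fun z hz =>
    e' z ▸ mul_ne_zero (h1 z (by simpa using hz)) (inv_ne_zero (b _ trivial)))
    (e'' ▸ mul_ne_zero (h1 _ (by simp)) (inv_ne_zero (b _ trivial)))
  refine ⟨c' / c, div_ne_zero hc' hc, fun z => ?_⟩
  have e1 := e z
  have e2 := (e' z).trans (f z)
  have := b z trivial
  simp only [Pi.mul_apply, Pi.inv_apply, Polynomial.eval_C] at e1 e2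
  field_simp at e1 e2 ⊢
  rw [e1, e2]
  ring

theorem exists_cmp (hs : s ∈ L.Γ) (ht : t ∈ L.Γ) (hs' : s' ∈ L'.Γ) (ht' : t' ∈ L'.Γ)
    (h0 : ∀ z, s z = 0 ↔ z = .infty) (h0' : ∀ z, s' z = 0 ↔ z = .infty) (h1 : t .infty ≠ 0) (h1' : t' .infty ≠ 0)
    (e : ∀ z : ℂ, t z = z ^ d * s z) (e' : ∀ z : ℂ, t' z = z ^ d * s' z) :
    ∃ v ∈ (L' / L).Γ, ∀ z, v z ≠ 0 ∧ s' z = v z * s z ∧ t' z = v z * t z := by
  let v : OnePoint ℂ → ℂ := fun x => x.elim (t' .infty / t .infty) fun z => s' z / s z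
  have n : ∀ z : ℂ, s z ≠ 0 := fun z a => by simpa using (h0 z).1 a
  have k : ∀ z, v z ≠ 0 ∧ s' z = v z * s z ∧ t' z = v z * t z := fun z => by
    induction z using OnePoint.rec with
    | infty =>
      exact ⟨div_ne_zero h1' h1, by rw [(h0 _).2 rfl, (h0' _).2 rfl, mul_zero],
        (div_mul_cancel₀ _ h1).symm⟩
    | coe z =>
      refine ⟨div_ne_zero (fun a => by simpa using (h0' z).1 a) (n z),
        (div_mul_cancel₀ _ (n z)).symm, ?_⟩
      rw [e, e', mul_left_comm]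
      exact congrArg _ (div_mul_cancel₀ _ (n z)).symm
  refine ⟨v, fun x => ?_, k⟩
  induction x using OnePoint.rec with
  | infty =>
    exact ((ht' _).div (ht _) h1).congr (((ht _).ev_ne h1).mono fun z hz =>
      (div_eq_iff hz).2 (k z).2.2)
  | coe x =>
    exact ((hs' _).div (hs _) (n x)).congr (((hs _).ev_ne (n x)).mono fun z hz =>
      (div_eq_iff hz).2 (k z).2.1)

end p1

section cv

variable {X X' : Type} [TopologicalSpace X] [TopologicalSpace X'] {R : RS X} {R' : RS X'}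

theorem exists_std [T2Space X] [CompactSpace X] {E : Set X} (h : IsRat R E) {a b : X} (ha : a ∈ E)
    (hb : b ∈ E) (hab : a ≠ b) {L : LB R} {d : ℕ} (hL : degOn L E = (d + 1 : ℕ)) {s t : X → ℂ}
    (hs : ∀ x ∈ E, L.Sec s x) (ht : ∀ x ∈ E, L.Sec t x) (h0 : ∀ x ∈ E, s x = 0 → x = b)
    (h1 : ∀ x ∈ E, t x = 0 → x = a) : ∃ k : OnePoint ℂ → X, LIso P1 R k ∧ Injective k ∧
      range k = E ∧ k (0 : ℂ) = a ∧ k .infty = b ∧ ∀ z : ℂ, t (k z) = z ^ (d + 1) * s (k z) := by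
  have key : ∀ r ∈ E, r ≠ a → r ≠ b → ∃ k : OnePoint ℂ → X, LIso P1 R k ∧ Injective k ∧
      range k = E ∧ k (0 : ℂ) = a ∧ k .infty = b ∧ k (1 : ℂ) = r ∧
      ∃ c ≠ 0, ∀ z : ℂ, t (k z) = c * z ^ (d + 1) * s (k z) := fun r hr r1 r2 => by
    obtain ⟨k, k1, k2, k3, k4, k5, k6⟩ := h.exists_param ha hb hr hab r1.symm r2.symm
    have m : ∀ z, k z ∈ E := fun z => k3 ▸ mem_range_self z
    exact ⟨k, k1, k2, k3, k4, k5, k6, exists_ratio (L := k1.pb L) (s := fun z => s (k z))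
      (t := fun z => t (k z)) (by rw [← degOn_univ, k1.degOn_pb k2 isClopen_univ, image_univ, k3, hL])
      (fun z => k1.sec_pb.2 (hs _ (m z))) (fun z => k1.sec_pb.2 (ht _ (m z)))
      (fun z e => OnePoint.coe_ne_infty z (k2 ((h0 _ (m z) e).trans k5.symm)))
      fun z hz e => hz (k2 ((h1 _ (m z) e).trans k4.symm))⟩
  have := R.neBot a
  obtain ⟨r, ⟨r1, r2⟩, r3⟩ := ((Eventually.and (h.clopen.isOpen.mem_nhds ha)
    (eventually_ne_nhds hab)).filter_mono (nhdsWithin_le_nhds (s := {a}ᶜ))).and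
      self_mem_nhdsWithin |>.exists
  obtain ⟨k, -, k2, k3, k4, k5, -, c, hc, e⟩ := key r r1 r3 r2
  obtain ⟨l, hl⟩ := IsAlgClosed.exists_pow_nat_eq c⁻¹ d.succ_pos
  have l0 : l ≠ 0 := fun a => inv_ne_zero hc (by simp [← hl, a])
  have m : k l ∈ E := k3 ▸ mem_range_self _
  have l1 : k l ≠ b := fun a => OnePoint.coe_ne_infty l (k2 (a.trans k5.symm))
  obtain ⟨k', j1, j2, j3, j4, j5, j6, c', -, e'⟩ := key (k l) m
    (fun a => l0 (by simpa using k2 (a.trans k4.symm))) l1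
  have e1 := e' 1
  rw [j6, e, hl, mul_inv_cancel₀ hc, one_pow, mul_one] at e1
  obtain rfl := mul_right_cancel₀ (fun a => l1 (h0 _ m a)) e1
  exact ⟨k', j1, j2, j3, j4, j5, fun z => by rw [e', one_mul]⟩

theorem exists_glue {α ι : Type} {Y : α → Type} [∀ a, TopologicalSpace (Y a)] {Q : ∀ a, RS (Y a)}
    {k : ∀ a, Y a → X} {k' : ∀ a, Y a → X'} (h : ∀ a, LIso (Q a) R (k a))
    (h' : ∀ a, LIso (Q a) R' (k' a)) (hb : Bijective fun z : Σ a, Y a => k z.1 z.2)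
    (hb' : Bijective fun z : Σ a, Y a => k' z.1 z.2) {L : ι → LB R} {L' : ι → LB R'}
    {T : ∀ a, ι → Y a → ℂ} (hT : ∀ a i, T a i ∈ ((h' a).pb (L' i) / (h a).pb (L i)).Γ) :
    ∃ (e : X ≃ X') (he : LIso R R' e) (t : ι → X → ℂ), (∀ i, t i ∈ (he.pb (L' i) / L i).Γ) ∧
      ∀ a w, e (k a w) = k' a w ∧ ∀ i, t i (k a w) = T a i w := by
  let E := Equiv.ofBijective _ hb
  let e := E.symm.trans (Equiv.ofBijective _ hb')
  let t : ι → X → ℂ := fun i x => T (E.symm x).1 i (E.symm x).2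
  have v : ∀ a w, e (k a w) = k' a w := fun a w =>
    congrArg (fun z : Σ a, Y a => k' z.1 z.2) (E.symm_apply_apply ⟨a, w⟩)
  have v' : ∀ a w i, t i (k a w) = T a i w := fun a w i =>
    congrArg (fun z : Σ a, Y a => T z.1 i z.2) (E.symm_apply_apply ⟨a, w⟩)
  have H : ∀ a w, R.Hol (fun y => R'.e (e (k a w)) (e y)) (k a w) := fun a w =>
    (h a).hol_iff.1 (by simpa only [v] using (h' a).hol w)
  have he : LIso R R' e := ⟨continuous_iff_continuousAt.2 (hb.2.forall.2 fun z => by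
      rw [ContinuousAt, ← (h z.1).map_nhds, tendsto_map'_iff, v, show e ∘ k z.1 = k' z.1 from
        funext (v z.1)]
      exact (h' z.1).cont.continuousAt), hb.2.forall.2 fun z => H z.1 z.2,
    hb.2.forall.2 fun z b => by
      have := (h z.1).d_comp (H z.1 z.2)
      rw [b, mul_zero] at this
      simp only [v] at this
      exact (h' z.1).ne _ this⟩
  refine ⟨e, he, t, fun i => hb.2.forall.2 fun z => (h z.1).sec_pb.1 ?_, fun a w => ⟨v a w, v' a w⟩⟩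
  rw [map_div, show (h z.1).pb (he.pb (L' i)) = (h' z.1).pb (L' i) from
    LB.ext (funext₂ fun x y => by simp only [LIso.pb_φ, v])]
  simpa only [v'] using hT z.1 i z.2

theorem bij_cmp {Y : ConnectedComponents X → Type} {k : ∀ a, Y a → X} (h : ∀ a, Injective (k a))
    (h' : ∀ a, range (k a) = ConnectedComponents.mk ⁻¹' {a}) :
    Bijective fun z : Σ a, Y a => k z.1 z.2 := by
  have m : ∀ a w, ConnectedComponents.mk (k a w) = a := fun a w => (h' a).le (mem_range_self w)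
  refine ⟨?_, fun x => ?_⟩
  · rintro ⟨a, w⟩ ⟨a', w'⟩ e
    obtain rfl : a = a' := (m a w).symm.trans ((congrArg _ e).trans (m a' w'))
    exact congrArg _ (h a e)
  · obtain ⟨w, hw⟩ := (h' (ConnectedComponents.mk x)).ge rfl
    exact ⟨⟨_, w⟩, hw⟩

end cv

variable {R J K σ ν : Type} [Fintype R] [Fintype J] [Fintype K] [Fintype σ] [Fintype ν]
  {P : PB R J K σ} {m m' : AM0 R J σ ν} {e : Edge σ}

theorem prod_inl {G : Type} [DivisionCommMonoid G] (t : Option R → G) (j : J) :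
    ∏ o, t o ^ P.w (.inl j) o = ∏ r, t (some r) ^ P.F.w j r := by
  simp [Fintype.prod_option, PB.w]

theorem prod_inr {G : Type} [DivisionCommMonoid G] (t : Option R → G) (i : σ) :
    ∏ o, t o ^ P.w (.inr i) o = t none * ∏ r, t (some r) ^ P.wL i r := by
  simp [Fintype.prod_option, PB.w]

/-- trivialisations of the bundles `L (some r)` over `E` -/
def Tv (m : AM0 R J σ ν) (E : Set m.X) (τ : R → m.X → ℂ) : Prop :=
  ∀ x ∈ E, ∀ r, (m.L (some r)).Sec (τ r) x ∧ τ r x ≠ 0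

variable {a b : m.X} {a' b' : m'.X} {τ : R → m.X → ℂ} {τ' : R → m'.X → ℂ}

theorem Tv.sec {E : Set m.X} (h : Tv m E τ) {x : m.X} (hx : x ∈ E) (w : R → ℤ) :
    (∏ r, m.L (some r) ^ w r).Sec (fun z => ∏ r, τ r z ^ w r) x :=
  (LB.Sec.prod fun r _ => (h x hx r).1.zpow (h x hx r).2 (w r)).congr
    (.of_forall fun z => by simp)

theorem Tv.ne {E : Set m.X} (h : Tv m E τ) {x : m.X} (hx : x ∈ E) (w : R → ℤ) :
    ∏ r, τ r x ^ w r ≠ 0 := prod_zpow_ne (fun r => (h x hx r).2) w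

theorem exists_tv (h : Eg m e a b) : ∃ τ, Tv m (connectedComponent a) τ := by
  choose τ h1 h2 _ using fun r => h.rat.exists_triv (h.deg0 r)
  exact ⟨τ, fun x hx r => ⟨h1 r x, h2 r x hx⟩⟩

theorem Tv.base (hs : m.Sec (P.E ∅).toWt) (h : Eg m e a b) (hτ : Tv m (connectedComponent a) τ)
    (j : J) : ∃ c, ∀ x ∈ connectedComponent a, m.y (.inl j) x = c * ∏ r, τ r x ^ P.F.w j r :=
  exists_const h.rat.clopen h.rat.conn (fun _ hx => hτ.sec hx _)
    (fun x _ => prod_inl (P := P) m.L j ▸ (hs (.inl j)).1 x) fun _ hx => hτ.ne hx _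

theorem Tv.fib (hs : m.Sec (P.E ∅).toWt) {E : Set m.X} (hτ : Tv m E τ) (i : σ) :
    ∀ x ∈ E, (m.L none).Sec (fun z => m.y (.inr i) z / ∏ r, τ r z ^ P.wL i r) x := fun x hx => by
  have := LB.Sec.div (L := ∏ o, m.L o ^ P.w (.inr i) o) ((hs (.inr i)).1 x) (hτ.sec hx (P.wL i))
    (hτ.ne hx _)
  rwa [prod_inr, mul_div_cancel_right] at this

theorem Tv.std (hs : m.Sec (P.E ∅).toWt) (h : Eg m e a b) (hτ : Tv m (connectedComponent a) τ) :
    ∃ k : OnePoint ℂ → m.X, LIso P1 m.R k ∧ Injective k ∧ range k = connectedComponent a ∧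
      k (0 : ℂ) = a ∧ k .infty = b ∧ ∀ z : ℂ, m.y (.inr e.tgt) (k z) / ∏ r, τ r (k z) ^ P.wL e.tgt r =
        z ^ (e.deg + 1) * (m.y (.inr e.src) (k z) / ∏ r, τ r (k z) ^ P.wL e.src r) :=
  exists_std h.rat mem_connectedComponent h.mem h.ne h.deg (hτ.fib hs e.src) (hτ.fib hs e.tgt)
    (fun x hx a => (h.src x hx).1 ((div_eq_zero_iff.1 a).resolve_right (hτ.ne hx _)))
    fun x hx a => (h.tgt x hx).1 ((div_eq_zero_iff.1 a).resolve_right (hτ.ne hx _))

theorem piece (hs : m.Sec (P.E ∅).toWt) (hs' : m'.Sec (P.E ∅).toWt) (h : Eg m e a b)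
    (h' : Eg m' e a' b') (hτ : Tv m (connectedComponent a) τ)
    (hτ' : Tv m' (connectedComponent a') τ')
    (hb : ∀ j, ∃ c, (∀ x ∈ connectedComponent a, m.y (.inl j) x = c * ∏ r, τ r x ^ P.F.w j r) ∧
      ∀ x ∈ connectedComponent a', m'.y (.inl j) x = c * ∏ r, τ' r x ^ P.F.w j r) :
    ∃ (k : OnePoint ℂ → m.X) (k' : OnePoint ℂ → m'.X) (hk : LIso P1 m.R k) (hk' : LIso P1 m'.R k')
      (T : Option R → OnePoint ℂ → ℂ), Injective k ∧ Injective k' ∧
      range k = connectedComponent a ∧ range k' = connectedComponent a' ∧ k (0 : ℂ) = a ∧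
      k .infty = b ∧ k' (0 : ℂ) = a' ∧ k' .infty = b' ∧
      (∀ o, T o ∈ (hk'.pb (m'.L o) / hk.pb (m.L o)).Γ) ∧ ∀ w, (∀ o, T o w ≠ 0) ∧
        (∀ r, T (some r) w = τ' r (k' w) / τ r (k w)) ∧
        ∀ j, m'.y j (k' w) = (∏ o, T o w ^ P.w j o) * m.y j (k w) := by
  obtain ⟨k, k1, k2, k3, k4, k5, k6⟩ := hτ.std hs h
  obtain ⟨k', j1, j2, j3, j4, j5, j6⟩ := hτ'.std hs' h'
  have u : ∀ z, k z ∈ connectedComponent a := fun z => k3 ▸ mem_range_self z
  have u' : ∀ z, k' z ∈ connectedComponent a' := fun z => j3 ▸ mem_range_self z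
  obtain ⟨v, v1, v2⟩ := exists_cmp (fun z => k1.sec_pb.2 (hτ.fib hs e.src _ (u z)))
    (fun z => k1.sec_pb.2 (hτ.fib hs e.tgt _ (u z)))
    (fun z => j1.sec_pb.2 (hτ'.fib hs' e.src _ (u' z)))
    (fun z => j1.sec_pb.2 (hτ'.fib hs' e.tgt _ (u' z)))
    (fun z => by rw [div_eq_zero_iff, or_iff_left (hτ.ne (u z) _), h.src _ (u z), ← k5, k2.eq_iff])
    (fun z => by
      rw [div_eq_zero_iff, or_iff_left (hτ'.ne (u' z) _), h'.src _ (u' z), ← j5, j2.eq_iff])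
    (div_ne_zero (fun c => h.ne (((h.tgt _ (u _)).1 c).symm.trans k5)) (hτ.ne (u _) _))
    (div_ne_zero (fun c => h'.ne (((h'.tgt _ (u' _)).1 c).symm.trans j5)) (hτ'.ne (u' _) _)) k6 j6
  refine ⟨k, k', k1, j1, fun o => o.elim v fun r w => τ' r (k' w) / τ r (k w), k2, j2, k3, j3, k4,
    k5, j4, j5, ?_, fun w => ⟨?_, fun _ => rfl, ?_⟩⟩
  · rintro (_ | r)
    exacts [v1, fun w => (j1.sec_pb.2 (hτ' _ (u' w) r).1).div (k1.sec_pb.2 (hτ _ (u w) r).1)
      (hτ _ (u w) r).2]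
  · rintro (_ | r)
    exacts [(v2 w).1, div_ne_zero (hτ' _ (u' w) r).2 (hτ _ (u w) r).2]
  have n := hτ.ne (u w)
  have n' := hτ'.ne (u' w)
  rintro (j | i)
  · obtain ⟨c, c1, c2⟩ := hb j
    simp only [prod_inl, Option.elim_some, div_zpow, Finset.prod_div_distrib, c1 _ (u w),
      c2 _ (u' w)]
    field_simp [n (P.F.w j)]
  have : m'.y (.inr i) (k' w) / ∏ r, τ' r (k' w) ^ P.wL i r =
      v w * (m.y (.inr i) (k w) / ∏ r, τ r (k w) ^ P.wL i r) := by
    by_cases i1 : i = e.src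
    · exact i1 ▸ (v2 w).2.1
    by_cases i2 : i = e.tgt
    · exact i2 ▸ (v2 w).2.2
    rw [h.oth _ (u w) i i1 i2, h'.oth _ (u' w) i i1 i2, zero_div, zero_div, mul_zero]
  simp only [prod_inr, Option.elim_some, Option.elim_none, div_zpow, Finset.prod_div_distrib,
    (div_eq_iff (n' _)).1 this]
  ring

theorem act_iff {x : m.X} {x' : m'.X} {t : Option R → ℂ} {j : J ⊕ σ} :
    m'.y j x' = ((P.E ∅).actT (1, t) (m.vl x)).2 j ↔
      m'.y j x' = (∏ o, t o ^ P.w j o) * m.y j x := by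
  simp [Wt.actT, AM.vl]

theorem bas_iff {x : m.X} {x' : m'.X} {u : R → ℂ} :
    (bas m').vl x' = P.F.actT (1, u) ((bas m).vl x) ↔
      ∀ j, m'.y (.inl j) x' = (∏ r, u r ^ P.F.w j r) * m.y (.inl j) x := by
  simp [Wt.actT, AM.vl, funext_iff]

theorem eg_tor {s : σ → ℂ} (h0 : ∀ i, s i ≠ 0) (h : Eg m e a b) :
    Eg (tor (Sum.elim 1 s) m) e a b :=
  ⟨h.ne, h.mem, h.rat, h.spc, fun z hz => by simp [h0, h.src z hz],
    fun z hz => by simp [h0, h.tgt z hz], fun z hz l c d => by simp [h.oth z hz l c d], h.deg,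
    h.deg0⟩

theorem exists_piece (hs : m.Sec (P.E ∅).toWt) (h : Str m) {s : σ → ℂ} (h0 : ∀ i, s i ≠ 0)
    (z : m.X) : ∃ (Y : Type) (_ : TopologicalSpace Y) (Q : RS Y) (k k' : Y → m.X)
      (hk : LIso Q m.R k) (hk' : LIso Q m.R k') (T : Option R → Y → ℂ), Injective k ∧
      Injective k' ∧ range k = connectedComponent z ∧ range k' = connectedComponent z ∧
      (∀ o, T o ∈ (hk'.pb (m.L o) / hk.pb (m.L o)).Γ) ∧ ∀ w, (∀ o, T o w ≠ 0) ∧
        (Spc m (k w) → k' w = k w ∧ ∀ r, T (some r) w = 1) ∧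
        ∀ j, Sum.elim (1 : J → ℂ) s j * m.y j (k' w) = (∏ o, T o w ^ P.w j o) * m.y j (k w) := by
  rcases h z with ⟨i, hi⟩ | ⟨e, a, b, h, hz⟩
  · obtain ⟨Q, hQ⟩ := m.R.exists_sub (exists_comp (R := m.R) z).1.isOpen
    refine ⟨_, _, Q, _, _, hQ, hQ, fun o _ => o.elim (s i) 1, Subtype.val_injective,
      Subtype.val_injective, Subtype.range_coe, Subtype.range_coe, fun o w => ?_,
      fun w => ⟨?_, fun _ => ⟨rfl, fun _ => rfl⟩, ?_⟩⟩
    · rw [div_self']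
      exact LB.sec_one.2 (RS.hol_const _)
    · rintro (_ | r)
      exacts [h0 i, one_ne_zero]
    rintro (j | l)
    · simp [PB.w]
    by_cases c : l = i
    · simp [PB.w, c]
    · simp [hi w.1 w.2 l c]
  obtain ⟨τ, hτ⟩ := exists_tv h
  obtain ⟨k, k', hk, hk', T, k1, k2, k3, k4, k5, k6, k7, k8, k9, k10⟩ :=
    piece (m' := tor (Sum.elim 1 s) m) hs (fun j => Submodule.smul_mem _ _ (hs j)) h (eg_tor h0 h)
      hτ hτ fun j => (hτ.base hs h j).imp fun c hc => ⟨hc, fun x hx => (one_mul _).trans (hc x hx)⟩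
  rw [← connectedComponent_eq hz]
  refine ⟨_, _, P1, k, k', hk, hk', T, k1, k2, k3, k4, k9, fun w => ⟨(k10 w).1, fun c => ?_,
    (k10 w).2.2⟩⟩
  have u : k w ∈ connectedComponent a := k3 ▸ mem_range_self w
  have : k' w = k w := by
    rcases h.spc _ u c with d | d
    · rw [k1 (d.trans k5.symm), k5, k7]
    · rw [k1 (d.trans k6.symm), k6, k8]
  exact ⟨this, fun r => by rw [(k10 w).2.1, this, div_self (hτ _ u r).2]⟩

theorem exists_ne (hs : m.Sol (P.E ∅)) (z : m.X) : ∃ i, m.y (.inr i) z ≠ 0 :=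
  (hs.2.2 z).2.1.1.2

theorem end_mark {s : En ν} {z : m.X} (h : End m s z) (h1 : s ≠ .node) (c : Spc m z) :
    ∃ n, s = .mark n := by
  cases s with
  | node => exact (h1 rfl).elim
  | bare => exact (h c).elim
  | mark n => exact ⟨n, rfl⟩

end FixB

open FixB

variable {R J K σ ν : Type} [Fintype R] [Fintype J] [Fintype K] [Fintype σ] [Fintype ν]
  {P : PB R J K σ} {m m' : AM0 R J σ ν}

theorem Str.exists_isoD (hs : m.Sol (P.E ∅)) (h : Str m) {s : σ → ℂ} (h0 : ∀ i, s i ≠ 0) :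
    ∃ e t, AM.IsoD (P.E ∅).toWt univ m (tor (Sum.elim 1 s) m) e t 1 ∧
      (∀ z, Spc m z → e z = z) ∧ ∀ z, e z ∈ connectedComponent z := by
  choose Y _ Q k k' hk hk' T k1 k2 k3 k4 k5 k6 using fun a : ConnectedComponents m.X =>
    exists_piece hs.2.1 h h0 (Quotient.out a)
  have c : ∀ a : ConnectedComponents m.X,
      connectedComponent (Quotient.out a) = ConnectedComponents.mk ⁻¹' {a} := fun a => by
    rw [← connectedComponents_preimage_singleton]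
    exact congrArg (fun a => ConnectedComponents.mk ⁻¹' {a}) (Quotient.out_eq a)
  have b := bij_cmp k1 fun a => (k3 a).trans (c a)
  obtain ⟨e, he, t, t1, t2⟩ := exists_glue hk hk' b (bij_cmp k2 fun a => (k4 a).trans (c a)) k5
  have f : ∀ z, Spc m z → e z = z ∧ ∀ r, t (some r) z = 1 := b.2.forall.2 fun z c => by
    simpa only [t2] using (k6 z.1 z.2).2.1 c
  have y : ∀ j z, Sum.elim (1 : J → ℂ) s j * m.y j (e z) = (∏ o, t o z ^ P.w j o) * m.y j z :=
    fun j => b.2.forall.2 fun z => by simpa only [t2] using (k6 z.1 z.2).2.2 j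
  have g : ∀ z i, Spc m z → m.y (.inr i) z ≠ 0 → t none z = s i := fun z i c d => by
    have := y (.inr i) z
    simp only [prod_inr, f z c, one_zpow, Finset.prod_const_one, mul_one] at this
    exact (mul_right_cancel₀ d this).symm
  refine ⟨e, t, ⟨he, isUnit_one, fun x y => ⟨fun j => ?_, fun j => ?_⟩,
    fun n => (f _ (.inl ⟨n, rfl⟩)).1, fun o => mem_H0_iff.2 ⟨t1 o, fun x y j => ?_⟩,
    fun o => b.2.forall.2 fun z => ?_, fun _ q => q.elim0, Subsingleton.elim _ _,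
    fun j _ x => act_iff.2 (y j x)⟩, fun z c => (f z c).1, b.2.forall.2 fun z => ?_⟩
  · rwa [(f x (.inr j.not_sm)).1, (f y (.inr j.symm.not_sm)).1]
  · rwa [e.injective (f _ (.inr j.not_sm)).1, e.injective (f _ (.inr j.symm.not_sm)).1] at j
  · rcases o with _ | r
    · obtain ⟨i, hi⟩ := exists_ne hs x
      rw [g x i (.inr j.not_sm) hi, g y i (.inr j.symm.not_sm)
        ((mem_H0_iff.1 (hs.2.1 (.inr i))).2 x y j ▸ hi)]
    · rw [(f x (.inr j.not_sm)).2, (f y (.inr j.symm.not_sm)).2]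
  · exact ((t2 z.1 z.2).2 o).trans_ne ((k6 z.1 z.2).1 o)
  · rw [(t2 z.1 z.2).1, ← connectedComponent_eq ((k3 z.1).le (mem_range_self z.2))]
    exact (k4 z.1).le (mem_range_self z.2)

theorem Str.fixd (hs : m.Sol (P.E ∅)) (h : Str m) : Fixd m P := fun _ h1 =>
  let ⟨_, _, a, _⟩ := h.exists_isoD hs fun i => norm_ne_zero_iff.1 ((h1 i).trans_ne one_ne_zero)
  a.iso

theorem FixB.edg_sm {e : Edge σ} {s t : En ν} (h : Edg m e s t) (h1 : s ≠ .node) (h2 : t ≠ .node)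
    (z : m.X) : Sm m.N z := by_contra fun c => by
  obtain ⟨a, b, h, ha, hb, hu⟩ := h
  rcases h.spc z (hu ▸ mem_univ z) (.inr c) with rfl | rfl
  · obtain ⟨n, rfl⟩ := end_mark ha h1 (.inr c)
    exact c (ha ▸ m.sm _)
  · obtain ⟨n, rfl⟩ := end_mark hb h2 (.inr c)
    exact c (hb ▸ m.sm _)

/-- an edge is determined by its image in the base -/
theorem Edg.iso {e : Edge σ} {s t : En ν} (hs : m.Sol (P.E ∅)) (hs' : m'.Sol (P.E ∅))
    (h : Edg m e s t) (h' : Edg m' e s t) (h1 : s ≠ .node) (h2 : t ≠ .node) {z : m.X} {z' : m'.X}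
    {u : R → ℂ} (hu : IsUnit u) (hz : (bas m').vl z' = P.F.actT (1, u) ((bas m).vl z)) :
    AM.Iso (P.E ∅).toWt univ m m' := by
  have n := fun x y (j : Jn m.N x y) => j.not_sm (edg_sm h h1 h2 x)
  have n' := fun x y (j : Jn m'.N x y) => j.not_sm (edg_sm h' h1 h2 x)
  obtain ⟨a, b, h, ha, hb, hU⟩ := h
  obtain ⟨a', b', h', ha', hb', hU'⟩ := h'
  have w : ∀ x, x ∈ connectedComponent a := fun x => hU ▸ mem_univ x
  have w' : ∀ x, x ∈ connectedComponent a' := fun x => hU' ▸ mem_univ x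
  obtain ⟨τ, hτ⟩ := exists_tv h
  obtain ⟨τ₀, hτ₀⟩ := exists_tv h'
  have hτ' : Tv m' (connectedComponent a') fun r => (u r * τ r z / τ₀ r z') • τ₀ r :=
    fun x hx r => ⟨(hτ₀ x hx r).1.smul _, mul_ne_zero (div_ne_zero (mul_ne_zero
      (isUnit_pi_iff.1 hu r) (hτ z (w z) r).2) (hτ₀ z' (w' z') r).2) (hτ₀ x hx r).2⟩
  obtain ⟨k, k', hk, hk', T, k1, k2, k3, k4, k5, k6, k7, k8, k9, k10⟩ :=
    piece hs.2.1 hs'.2.1 h h' hτ hτ' fun j => by
      obtain ⟨c, hc⟩ := hτ.base hs.2.1 h j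
      obtain ⟨c', hc'⟩ := hτ'.base hs'.2.1 h' j
      have e1 := (hc' z' (w' z')).symm.trans (bas_iff.1 hz j)
      simp only [hc z (w z), Pi.smul_apply, smul_eq_mul,
        div_mul_cancel₀ _ (hτ₀ z' (w' z') _).2, mul_zpow, Finset.prod_mul_distrib] at e1
      rw [mul_left_comm _ c] at e1
      exact ⟨c, hc, mul_right_cancel₀ (mul_ne_zero (prod_zpow_ne (isUnit_pi_iff.1 hu) _)
        (hτ.ne (w z) _)) e1 ▸ hc'⟩
  have s1 : Surjective k := range_eq_univ.1 (k3.trans hU)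
  have bij : ∀ {X : Type} {k : OnePoint ℂ → X}, Injective k → range k = univ →
      Bijective fun z : Σ _ : Unit, OnePoint ℂ => k z.2 := fun c d =>
    ⟨fun _ _ x => Sigma.ext rfl (heq_of_eq (c x)), fun x => (d.ge (mem_univ x)).elim fun y f =>
      ⟨⟨(), y⟩, f⟩⟩
  obtain ⟨E, he, t, t1, t2⟩ := exists_glue (α := Unit) (fun _ => hk) (fun _ => hk')
    (bij k1 (k3.trans hU)) (bij k2 (k4.trans hU')) fun _ => k9
  replace t2 := t2 ()
  refine AM.IsoD.iso (e := E) (t := t) (τ := 1) ⟨he, isUnit_one,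
    fun x y => iff_of_false (n _ _) (n' _ _), ?_,
    fun o => mem_H0_iff.2 ⟨t1 o, fun x y j => (n _ _ j).elim⟩,
    fun o => s1.forall.2 fun x => ((t2 x).2 o).trans_ne ((k10 x).1 o), fun _ q => q.elim0,
    Subsingleton.elim _ _, fun j _ => s1.forall.2 fun x => act_iff.2 ?_⟩
  · rintro (q | q)
    swap
    · exact q.1.elim0
    rcases h.spc _ (w _) (.inl ⟨.inl q, rfl⟩) with d | d
    · obtain ⟨q', rfl⟩ := end_mark ha h1 (.inl ⟨_, d⟩)
      rw [m.inj (d.trans (Eq.symm ha)), show m.p (.inl q') = k (0 : ℂ) from ha.trans k5.symm,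
        (t2 _).1, k7]
      exact Eq.symm ha'
    · obtain ⟨q', rfl⟩ := end_mark hb h2 (.inl ⟨_, d⟩)
      rw [m.inj (d.trans (Eq.symm hb)), show m.p (.inl q') = k _ from hb.trans k6.symm,
        (t2 _).1, k8]
      exact Eq.symm hb'
  · simpa only [t2] using (k10 x).2.2 j

/-- the map to the base is constant on an edge -/
theorem Eg.const {e : Edge σ} {a b z z' : m.X} (hs : m.Sol (P.E ∅)) (h : Eg m e a b)
    (hz : z ∈ connectedComponent a) (hz' : z' ∈ connectedComponent a) :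
    ∃ u : R → ℂ, IsUnit u ∧ (bas m).vl z' = P.F.actT (1, u) ((bas m).vl z) := by
  obtain ⟨τ, hτ⟩ := exists_tv h
  refine ⟨fun r => τ r z' / τ r z, isUnit_pi_iff.2 fun r =>
    div_ne_zero (hτ _ hz' r).2 (hτ _ hz r).2, bas_iff.2 fun j => ?_⟩
  obtain ⟨c, hc⟩ := hτ.base hs.2.1 h j
  simp only [hc _ hz, hc _ hz', div_zpow, Finset.prod_div_distrib]
  field_simp [hτ.ne hz (P.F.w j)]

end Vale.Agent.P269.LG
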