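import Vale.Agent.P269.LG.KunD
import Vale.Agent.P269.LG.TopA

/-! Open and closed parts and products of local contributions. -/

set_option linter.unusedSectionVars false

namespace Vale.Agent.P269.LG

open Set Function Topology Filter MvPolynomial TensorProduct Vale.Agent.P291Z Vale.Agent.P269.Ch
  Vale.Agent.P269.Orb Vale.Agent.P269.Loc

variable {σ : Type} [Fintype σ] {A A' A₁ A₂ : Type} [TopologicalSpace A] [Nice A] [CompactSpace A]
  [TopologicalSpace A'] [Nice A'] [CompactSpace A'] [TopologicalSpace A₁] [Nice A₁]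
  [CompactSpace A₁] [TopologicalSpace A₂] [Nice A₂] [CompactSpace A₂]

namespace KB

theorem clopen {e : C(A', A)} (he : IsOpenEmbedding e) : IsClopen (range e) :=
  ⟨(isCompact_range e.continuous).isClosed, he.isOpen_range⟩

theorem ind_comp (e : A' → A) : ((range e).indicator 1 : A → ℂ) ∘ e = fun _ => 1 :=
  funext fun z => indicator_of_mem (mem_range_self z) _

theorem intg_res {e : C(A', A)} (he : IsOpenEmbedding e) (β : BM A) (y : H A) :
    intg (res e β) (H.map e y) = intg β (y * hcls (fn ((range e).indicator 1))) := by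
  obtain ⟨t, ht, rfl⟩ := hcls_surj y
  have h1 := cocycle_fn.2 (TopP.lc_ind (clopen he))
  have h2 := cocycle_mul ht h1
  rw [← hcls_mul ht h1, H.map_hcls _ ht, intg_hcls _ (cocycle_pull e.continuous ht), intg_hcls _ h2,
    ← ev_res he β ⟨(isClosed_supp _).isCompact, h2⟩ fun x hx => by_contra fun h =>
      fn_van.2 (mem_of_superset ((clopen he).compl.isOpen.mem_nhds h) fun z hz =>
        indicator_of_notMem hz _) (supp_mul _ _ hx).2, map_mul, pull_fn, ind_comp, fn_one, mul_one]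

/-- extension by zero -/
theorem exists_ex {e : C(A', A)} (he : IsOpenEmbedding e) : ∃ ex : H A' →ₗ[ℂ] H A,
    (∀ y, H.map e (ex y) = y) ∧ ∀ y, ex (H.map e y) = y * hcls (fn ((range e).indicator 1)) := by
  rcases isEmpty_or_nonempty A' with hA | hA
  · refine ⟨0, fun y => ?_, fun y => ?_⟩
    · obtain ⟨t, ht, rfl⟩ := hcls_surj y
      rw [LinearMap.zero_apply, map_zero, ← hcls_zero]
      exact hcls_eq_of_null ht fun x => isEmptyElim x
    · rw [range_eq_empty, indicator_empty', TopP.fn_zero, hcls_zero, mul_zero, LinearMap.zero_apply]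
  obtain ⟨r, hr⟩ := TopP.exists_retr he.isEmbedding (clopen he)
  refine ⟨LinearMap.mulLeft ℂ (hcls (fn ((range e).indicator 1))) ∘ₗ (H.mapA r).toLinearMap,
    fun y => ?_, fun y => ?_⟩
  · change H.map e (_ * H.map r y) = y
    rw [map_mul, map_fn _ (TopP.lc_ind (clopen he)), ind_comp, fn_one, hcls_one, one_mul, H.map_map,
      H.map_id fun x => he.injective (hr _ ⟨x, rfl⟩)]
  · change _ * H.map r (H.map e y) = _
    rw [H.map_map, TopP.ind_mul_map (clopen he) (g := .id A) hr, H.map_id fun _ => rfl]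
    exact Hev.commute (fn_mem_Hev _) y

theorem pb_surj (K : Type) [CommRing K] [Algebra ℂ K] {e : C(A', A)} (he : IsOpenEmbedding e) :
    Surjective (pb K e) :=
  let ⟨ex, h, _⟩ := exists_ex he
  LinearMap.lTensor_surjective K (g := (H.mapA e).toLinearMap) fun y => ⟨ex y, h y⟩

theorem hp : IsHomeomorph fun x : A₁ × A₂ => (x.1, x.2) := IsHomeomorph.id

/-- the Kuenneth theorem for compact spaces -/
theorem exists_kun : ∃ e : H A₁ ⊗[ℂ] H A₂ ≃ₗ[ℂ] H (A₁ × A₂),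
    ∀ c₁ c₂, e (c₁ ⊗ₜ c₂) = H.map .fst c₁ * H.map .snd c₂ := by
  let t₁ := LinearEquiv.ofBijective (Fl.toH (X := A₁)) Fl.toH_bijective
  let t₂ := LinearEquiv.ofBijective (Fl.toH (X := A₂)) Fl.toH_bijective
  refine ⟨(TensorProduct.congr t₁ t₂).symm.trans ((LinearEquiv.ofBijective _ (Hc.kunneth hp)).trans
    (LinearEquiv.ofBijective Fl.toH Fl.toH_bijective)), fun c₁ c₂ => ?_⟩
  obtain ⟨a, ha, rfl⟩ := hcls_surj c₁
  obtain ⟨b, hb, rfl⟩ := hcls_surj c₂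
  have ha' : a ∈ Zc A₁ := ⟨(isClosed_supp _).isCompact, ha⟩
  have hb' : b ∈ Zc A₂ := ⟨(isClosed_supp _).isCompact, hb⟩
  rw [LinearEquiv.trans_apply, show (TensorProduct.congr t₁ t₂).symm (hcls a ⊗ₜ hcls b) =
    cls a ⊗ₜ cls b from (LinearEquiv.symm_apply_eq _).2
      (congrArg₂ (· ⊗ₜ[ℂ] ·) (Fl.toH_cls ha') (Fl.toH_cls hb')).symm]
  change Fl.toH (Hc.cross (IsPr.of_isHomeomorph hp) (cls a) (cls b)) = _
  rw [Hc.cross_cls _ ha' hb', Fl.toH_cls (cross_Zc (IsPr.of_isHomeomorph hp) ha' hb'),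
    H.map_hcls _ ha, H.map_hcls _ hb,
    hcls_mul (cocycle_pull continuous_fst ha) (cocycle_pull continuous_snd hb)]
  rfl

theorem intg_cross (β₁ : BM A₁) (β₂ : BM A₂) (c₁ : H A₁) (c₂ : H A₂) :
    intg (cross Prod.fst Prod.snd β₁ β₂) (H.map .fst c₁ * H.map .snd c₂) =
      intg β₁ c₁ * intg β₂ c₂ := by
  obtain ⟨a, ha, rfl⟩ := hcls_surj c₁
  obtain ⟨b, hb, rfl⟩ := hcls_surj c₂
  have h1 := cocycle_pull (ContinuousMap.fst : C(A₁ × A₂, A₁)).continuous ha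
  have h2 := cocycle_pull (ContinuousMap.snd : C(A₁ × A₂, A₂)).continuous hb
  rw [H.map_hcls _ ha, H.map_hcls _ hb, ← hcls_mul h1 h2, intg_hcls _ (cocycle_mul h1 h2),
    intg_hcls _ ha, intg_hcls _ hb]
  exact cross_spec hp β₁ β₂ a ⟨(isClosed_supp _).isCompact, ha⟩ b ⟨(isClosed_supp _).isCompact, hb⟩

omit [TopologicalSpace A] [Nice A] [CompactSpace A] in
theorem deg_nat {u : Coch A} {d : ℤ} (h : IsDeg (2 * d) u) : ∃ n : ℕ, IsDeg (2 * n) u := by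
  rcases le_or_gt 0 d with e | e
  · exact ⟨d.toNat, by rwa [Int.toNat_of_nonneg e]⟩
  · exact ⟨0, h.eq_zero (by omega) ▸ isDeg_zero _⟩

variable {K : Type} [Field K] [Algebra ℂ K] {χ : R σ →ₐ[ℂ] K}

theorem pb_mul {L : Type} [CommRing L] [Algebra ℂ L] (k₁ k₂ : L) (c₁ : H A₁) (c₂ : H A₂) :
    pb L .fst (k₁ ⊗ₜ c₁) * pb L .snd (k₂ ⊗ₜ c₂) =
      (k₁ * k₂) ⊗ₜ (H.map (.fst : C(A₁ × A₂, A₁)) c₁ * H.map .snd c₂) :=
  Algebra.TensorProduct.tmul_mul_tmul _ _ _ _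

theorem exists_prod (J₁ : K ⊗[ℂ] H A₁ →ₗ[K] K) (J₂ : K ⊗[ℂ] H A₂ →ₗ[K] K) :
    ∃ J : K ⊗[ℂ] H (A₁ × A₂) →ₗ[K] K, ∀ x₁ x₂, J (pb K .fst x₁ * pb K .snd x₂) = J₁ x₁ * J₂ x₂ := by
  obtain ⟨e, he⟩ := exists_kun (A₁ := A₁) (A₂ := A₂)
  refine ⟨LinearMap.liftBaseChange K (TensorProduct.lift ((LinearMap.mul ℂ K).compl₁₂
    (J₁.restrictScalars ℂ ∘ₗ TensorProduct.mk ℂ K _ 1)
    (J₂.restrictScalars ℂ ∘ₗ TensorProduct.mk ℂ K _ 1)) ∘ₗ e.symm.toLinearMap), fun x₁ x₂ => ?_⟩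
  induction x₁ with
  | zero => simp only [map_zero, zero_mul]
  | add a b ha hb => simp only [map_add, add_mul, ha, hb]
  | tmul k₁ c₁ =>
    induction x₂ with
    | zero => simp only [map_zero, mul_zero]
    | add a b ha hb => simp only [map_add, mul_add, ha, hb]
    | tmul k₂ c₂ =>
      rw [pb_mul, LinearMap.liftBaseChange_tmul, ← he, LinearMap.comp_apply, LinearEquiv.coe_coe,
        e.symm_apply_apply, tmul_eq_smul_one_tmul k₁, tmul_eq_smul_one_tmul k₂, map_smul, map_smul,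
        smul_mul_smul_comm]
      rfl

open Classical in
theorem fn_prod {γ₁ : ∀ M, BM (A₁ × Bs σ M)} {γ₂ : ∀ M, BM (A₂ × Bs σ M)}
    {J₁ : K ⊗[ℂ] H A₁ →ₗ[K] K} {J₂ : K ⊗[ℂ] H A₂ →ₗ[K] K} (h₁ : Fn χ γ₁ J₁) (h₂ : Fn χ γ₂ J₂)
    {γ : ∀ M, BM ((A₁ × A₂) × Bs σ M)} (e : ∀ M x₁ x₂,
      intg (γ M) (evA _ M (pb _ .fst x₁ * pb _ .snd x₂)) =
        ∑ q ∈ Finset.HasAntidiagonal.antidiagonal (topM σ M),
          intg (γ₁ M) (evA _ M (x₁ * monomial q.1 1 ⊗ₜ 1)) *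
            intg (γ₂ M) (evA _ M (x₂ * monomial q.2 1 ⊗ₜ 1)))
    {J : K ⊗[ℂ] H (A₁ × A₂) →ₗ[K] K} (hJ : ∀ x₁ x₂, J (pb K .fst x₁ * pb K .snd x₂) = J₁ x₁ * J₂ x₂) :
    Fn χ γ J := fun x => by
  have add : ∀ a b : R σ ⊗[ℂ] H (A₁ × A₂),
      Frc χ (fun M f => intg (γ M) (evA _ M (a * f ⊗ₜ 1))) (J (bc _ χ a)) →
      Frc χ (fun M f => intg (γ M) (evA _ M (b * f ⊗ₜ 1))) (J (bc _ χ b)) →
      Frc χ (fun M f => intg (γ M) (evA _ M ((a + b) * f ⊗ₜ 1))) (J (bc _ χ (a + b))) :=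
    fun a b ha hb => by
      rw [map_add, map_add]
      exact (ha.add hb).congr fun M f => by rw [add_mul, map_add, map_add]
  have zero : Frc χ (fun M f => intg (γ M) (evA _ M ((0 : R σ ⊗[ℂ] H (A₁ × A₂)) * f ⊗ₜ 1)))
      (J (bc _ χ 0)) := by
    rw [map_zero, map_zero]
    exact Frc.zero.congr fun M f => by rw [zero_mul, map_zero, map_zero]
  induction x with
  | zero => exact zero
  | add a b ha hb => exact add a b ha hb
  | tmul g c =>
    obtain ⟨k, hk⟩ := exists_kun (A₁ := A₁) (A₂ := A₂)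
    obtain ⟨c, rfl⟩ := k.surjective c
    induction c with
    | zero => rw [map_zero k, tmul_zero]; exact zero
    | add a b ha hb => rw [map_add k, tmul_add]; exact add _ _ ha hb
    | tmul c₁ c₂ =>
      obtain ⟨q₁, P₁, a₁, b₁, d₁⟩ := h₁ (g ⊗ₜ c₁)
      obtain ⟨q₂, P₂, a₂, b₂, d₂⟩ := h₂ (1 ⊗ₜ c₂)
      refine ⟨q₁ * q₂, P₁ * P₂, ne_mul a₁ a₂, fun M f => ?_, ?_⟩
      · have := e M ((g * (q₁ * f)) ⊗ₜ c₁) (q₂ ⊗ₜ c₂)
        rw [pb_mul, ← hk] at this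
        beta_reduce
        rw [Algebra.TensorProduct.tmul_mul_tmul, mul_one,
          show g * (q₁ * q₂ * f) = g * (q₁ * f) * q₂ by ring, this,
          show P₁ * P₂ * f = P₂ * (P₁ * f) by ring, coeff_mul]
        refine Finset.sum_congr rfl fun q hq => ?_
        have e₁ := b₁ M (f * monomial q.1 1)
        have e₂ := b₂ M (monomial q.2 1)
        have hq' := Finset.HasAntidiagonal.mem_antidiagonal.1 hq
        beta_reduce at e₁ e₂
        rw [Algebra.TensorProduct.tmul_mul_tmul] at e₁ e₂ ⊢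
        rw [Algebra.TensorProduct.tmul_mul_tmul, mul_assoc g, mul_assoc q₁, e₁, ← one_mul (q₂ * _), e₂,
          ← mul_assoc P₁, mul_comm, ← hq', coeff_mul_monomial, add_comm, coeff_mul_monomial, mul_one,
          mul_one]
      · rw [map_mul, map_mul, d₁, d₂, hk, ← mul_one g, ← pb_mul, map_mul (bc _ χ), bc_pb, bc_pb, hJ,
          mul_one g]
        ring

/-- the fibre product over the classifying space -/
noncomputable def κ (A₁ A₂ : Type) [TopologicalSpace A₁] [TopologicalSpace A₂] (σ : Type)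
    [Fintype σ] (M : ℕ) : C((A₁ × A₂) × Bs σ M, (A₁ × Bs σ M) × (A₂ × Bs σ M)) :=
  (pr .fst M).prodMk (pr .snd M)

theorem evA_mul (M : ℕ) (x₁ : R σ ⊗[ℂ] H A₁) (x₂ : R σ ⊗[ℂ] H A₂) :
    evA _ M (pb _ .fst x₁ * pb _ .snd x₂) =
      H.map (κ A₁ A₂ σ M) (H.map .fst (evA _ M x₁) * H.map .snd (evA _ M x₂)) := by
  rw [map_mul, map_mul, ← map_evA, ← map_evA, H.map_map, H.map_map]
  rfl

theorem mul_dg {B : Type} [TopologicalSpace B] (y₁ : H (A₁ × B)) (y₂ : H (A₂ × B)) {l₁ : H B}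
    (h : l₁ ∈ Hev B) (l₂ : H B) : H.map (.fst : C((A₁ × B) × A₂ × B, _)) y₁ * H.map .snd y₂ *
      H.map (ContinuousMap.snd.prodMap .snd) (H.map .fst l₁ * H.map .snd l₂) =
      H.map .fst (y₁ * H.map .snd l₁) * H.map .snd (y₂ * H.map .snd l₂) := by
  rw [map_mul, map_mul, map_mul, H.map_map, H.map_map, H.map_map, H.map_map, mul_assoc, mul_assoc,
    ← mul_assoc (H.map _ y₂), ← Hev.commute (map_mem_Hev _ h) (H.map _ y₂), mul_assoc]
  rfl

end KB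

variable {K : Type} [Field K] [Algebra ℂ K] {χ : R σ →ₐ[ℂ] K} {X X₁ X₂ : ℕ → Type}
  [∀ M, TopologicalSpace (X M)] [∀ M, Nice (X M)] [∀ M, TopologicalSpace (X₁ M)]
  [∀ M, Nice (X₁ M)] [∀ M, TopologicalSpace (X₂ M)] [∀ M, Nice (X₂ M)]

/-- open and closed parts of the fixed locus -/
theorem IsLoc.part {β : ∀ M, BM (X M)} {i : ∀ M, C(A × Bs σ M, X M)} {I : K ⊗[ℂ] H A →ₗ[K] K}
    (h : IsLoc χ β i I) {e : C(A', A)} (he : IsOpenEmbedding e) :
    ∃ I', IsLoc χ β (fun M => (i M).comp (pr e M)) I' ∧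
      ∀ x, I' (pb K e x) = I (x * 1 ⊗ₜ hcls (fn ((range e).indicator 1))) := by
  obtain ⟨ex, -, h2⟩ := KB.exists_ex he
  have h3 : ∀ x, (I ∘ₗ ex.baseChange K) (pb K e x) =
      I (x * 1 ⊗ₜ hcls (fn ((range e).indicator 1))) := fun x => congrArg I (by
    induction x with
    | zero => simp only [map_zero, zero_mul]
    | add a b ha hb => simp only [map_add, add_mul, ha, hb]
    | tmul k c => rw [pb_tmul, LinearMap.baseChange_tmul, h2, Algebra.TensorProduct.tmul_mul_tmul,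
        mul_one])
  obtain ⟨p, u, hp, hu, h⟩ := h
  have ho : ∀ M, IsOpenEmbedding (pr e M : A' × Bs σ M → _) := fun M => he.prodMap .id
  refine ⟨_, ⟨p, _, hp, hu.pull (f := fun _ => id) (φ := e) (fun _ => continuous_id)
    (fun M => (hu.emb M).comp ⟨(ho M).isEmbedding, (KB.clopen (ho M)).isClosed⟩) (fun _ _ => rfl)
    fun M => ?_, fun x => ?_⟩, h3⟩
  · have := (Isol.of_isOpen (B := univ) (ho M).isOpen_range Subset.rfl inter_subset_left).image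
      (B := univ) (hu.emb M).isInducing
    rwa [inter_univ, ← range_comp] at this
  · obtain ⟨x, rfl⟩ := KB.pb_surj _ he x
    rw [bc_pb, LinearMap.smul_apply, h3]
    have := h.cap (1 ⊗ₜ hcls (fn ((range e).indicator 1))) x
    rw [bc_tmul, map_one] at this
    refine this.congr fun M f => ?_
    beta_reduce
    rw [ContinuousMap.coe_comp, pull_id, ← res_lgys_part (hu.emb M) (hu.lco M) (ho M)
      (KB.clopen (ho M)).isClosed, ← map_one (H.map e), ← pb_tmul, ← map_mul, ← map_evA,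
      KB.intg_res (ho M), intg_cap, evA_tmul, map_one, map_one, one_mul,
      map_fn _ (TopP.lc_ind (KB.clopen he))]
    rw [show range (pr e M) = Prod.fst ⁻¹' range e from range_prodMap.trans
      (by rw [ContinuousMap.coe_id, range_id, prod_univ])]
    rfl

theorem pb_surj {e : C(A', A)} (he : IsOpenEmbedding e) : Surjective (pb K e) := KB.pb_surj K he

/-- products -/
theorem IsLoc.prod {β₁ : ∀ M, BM (X₁ M)} {i₁ : ∀ M, C(A₁ × Bs σ M, X₁ M)}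
    {I₁ : K ⊗[ℂ] H A₁ →ₗ[K] K} {β₂ : ∀ M, BM (X₂ M)} {i₂ : ∀ M, C(A₂ × Bs σ M, X₂ M)}
    {I₂ : K ⊗[ℂ] H A₂ →ₗ[K] K} (h₁ : IsLoc χ β₁ i₁ I₁) (h₂ : IsLoc χ β₂ i₂ I₂)
    {k : ∀ M, X M → X₁ M × X₂ M} (hk : ∀ M, IsClosedEmbedding (k M))
    {θ : ∀ M, Coch (X₁ M × X₂ M)} {d : ℕ → ℕ} (hθ : ∀ M, IsCo (range (k M)) (d M) (θ M))
    {i : ∀ M, C((A₁ × A₂) × Bs σ M, X M)}
    (hi : ∀ M a₁ a₂ b, k M (i M ((a₁, a₂), b)) = (i₁ M (a₁, b), i₂ M (a₂, b)))
    (hr : ∀ M x, (k M x).1 ∈ range (i₁ M) → (k M x).2 ∈ range (i₂ M) → x ∈ range (i M))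
    (hc : ∀ M, H.map ((i₁ M).prodMap (i₂ M)) (hcls (θ M)) =
      H.map (ContinuousMap.snd.prodMap ContinuousMap.snd) (dgB σ M)) :
    ∃ I, IsLoc χ (fun M => gys (k M) (θ M) (cross Prod.fst Prod.snd (β₁ M) (β₂ M))) i I ∧
      ∀ x₁ x₂, I (pb K .fst x₁ * pb K .snd x₂) = I₁ x₁ * I₂ x₂ := by
  obtain ⟨I, hI⟩ := KB.exists_prod I₁ I₂
  obtain ⟨p₁, u₁, hp₁, hu₁, h₁⟩ := h₁
  obtain ⟨p₂, u₂, hp₂, hu₂, h₂⟩ := h₂
  have hsq : ∀ M z, k M (i M z) = (i₁ M).prodMap (i₂ M) (KB.κ A₁ A₂ σ M z) := fun M z =>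
    hi M z.1.1 z.1.2 z.2
  have e₁₂ : ∀ M, IsClosedEmbedding ((i₁ M).prodMap (i₂ M)) := fun M =>
    (hu₁.emb M).prodMap (hu₂.emb M)
  have eκ : ∀ M, IsClosedEmbedding (KB.κ A₁ A₂ σ M) := fun M =>
    (KB.κ A₁ A₂ σ M).continuous.isClosedEmbedding fun z z' e => Prod.ext
      (Prod.ext (congrArg (·.1.1) e) (congrArg (·.2.1) e)) (congrArg (·.1.2) e)
  have ei : ∀ M, IsClosedEmbedding (i M) := fun M => (i M).continuous.isClosedEmbedding
    fun z z' e => (eκ M).injective ((e₁₂ M).injective (by rw [← hsq, ← hsq, e]))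
  have hU : ∀ M, LCo (range ((i₁ M).prodMap (i₂ M)))
      (pull Prod.fst (u₁ M) * pull Prod.snd (u₂ M)) := fun M => by
    rw [show range ((i₁ M).prodMap (i₂ M)) = _ from range_prodMap]
    exact ((hu₁.lco M).pull continuous_fst).mul ((hu₂.lco M).pull continuous_snd)
  have hr' : ∀ M, k M ⁻¹' range ((i₁ M).prodMap (i₂ M)) ⊆ range (i M) := by
    rintro M x ⟨z, hz⟩
    exact hr M x ⟨z.1, congrArg Prod.fst hz⟩ ⟨z.2, congrArg Prod.snd hz⟩
  refine ⟨I, ⟨p₁ * p₂, fun M => pull (k M) (pull Prod.fst (u₁ M) * pull Prod.snd (u₂ M)),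
    ne_mul hp₁ hp₂, ⟨ei, fun M => ((hU M).pull (hk M).continuous).mono ?_ (Isol.of_subset (hr' M)),
      fun M => ?_, fun M => ?_⟩, KB.fn_prod h₁ h₂ (fun M x₁ x₂ => ?_) fun x₁ x₂ => ?_⟩, hI⟩
  · rintro _ ⟨z, rfl⟩
    exact ⟨_, (hsq M z).symm⟩
  · obtain ⟨d₁, e₁⟩ := hu₁.deg M
    obtain ⟨d₂, e₂⟩ := hu₂.deg M
    exact ⟨d₁ + d₂, (((e₁.pull _).mul (e₂.pull _)).pull _).cast (mul_add _ _ _).symm⟩
  · have c₁ : supp (δ (pull (i₁ M) (u₁ M))) = ∅ := supp_eq_empty.2 fun z =>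
      van_δ_pull (i₁ M).continuous.continuousAt ((hu₁.lco M).cyc _ ⟨z, rfl⟩)
    have c₂ : supp (δ (pull (i₂ M) (u₂ M))) = ∅ := supp_eq_empty.2 fun z =>
      van_δ_pull (i₂ M).continuous.continuousAt ((hu₂.lco M).cyc _ ⟨z, rfl⟩)
    have := KB.pb_mul p₁ p₂ (1 : H A₁) (1 : H A₂)
    rw [map_one, map_one, mul_one] at this
    rw [← this, map_mul (evA _ M), ← map_evA, ← map_evA, ← hu₁.cls, ← hu₂.cls, H.map_hcls _ c₁,
      H.map_hcls _ c₂, ← hcls_mul (cocycle_pull (ContinuousMap.continuous _) c₁)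
        (cocycle_pull (ContinuousMap.continuous _) c₂), pull_pull,
      show k M ∘ i M = _ from funext (hsq M), map_mul]
    simp only [pull_pull]
    rfl
  · obtain ⟨d₁, e₁⟩ := hu₁.deg M
    obtain ⟨d₂, e₂⟩ := hu₂.deg M
    obtain ⟨n₁, e₁⟩ := KB.deg_nat e₁
    obtain ⟨n₂, e₂⟩ := KB.deg_nat e₂
    have h3 := IsCo.mono' (IsCo.pull' (hθ M) ((i₁ M).prodMap (i₂ M)).continuous)
      (B := range (KB.κ A₁ A₂ σ M)) (by
        rintro z ⟨x, hx⟩
        obtain ⟨w, rfl⟩ := hr' M ⟨z, hx.symm⟩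
        exact ⟨w, (e₁₂ M).injective ((hsq M w).symm.trans hx)⟩)
    beta_reduce
    rw [← lgys_eq_gys (hk M) (hθ M).cocycle (hθ M).supp, lgys_comm (hk M) (e₁₂ M) (eκ M) (ei M)
      (hsq M) (Isol.of_subset (hr' M)) (LCo.of_isCo (hθ M)) (hU M) (hθ M).deg,
      lgys_cross (p₁ := Prod.fst) (p₂ := Prod.snd) IsHomeomorph.id (q₁ := Prod.fst)
        (q₂ := Prod.snd) IsHomeomorph.id (f := (i₁ M).prodMap (i₂ M)) (f₁ := i₁ M) (f₂ := i₂ M)
        (fun _ => rfl) (fun _ => rfl) (hu₁.emb M) (hu₂.emb M) (hu₁.lco M) (hu₂.lco M) e₁ e₂,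
      lgys_eq_gys (eκ M) h3.cocycle h3.supp, KB.evA_mul, ← intg_push,
      push_gys_eq_cap (eκ M) h3.cocycle h3.supp, intg_cap, ← H.map_hcls _ (hθ M).cocycle, hc, dgB,
      map_sum, Finset.mul_sum, map_sum]
    refine Finset.sum_congr rfl fun q _ => ?_
    rw [← KB.intg_cross, map_mul (evA _ M), map_mul (evA _ M), evA_one, evA_one,
      KB.mul_dg _ _ (lam_mem M _)]
  · rw [LinearMap.smul_apply, LinearMap.smul_apply, LinearMap.smul_apply, hI, map_mul,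
      smul_mul_smul_comm]

end Vale.Agent.P269.LG
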