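import Vale.Agent.P269.LG.Enum
import Vale.Agent.P269.Deg.Fn

/-! Functionals from correlators; derivations and contractions on lists of insertions. -/

namespace Vale.Agent.P269.LG

open Fock Finset

variable {K V ν ν' : Type} [CommRing K] [Algebra ℚ K] [AddCommGroup V] [Module K V] {p : Par K V}

omit [Algebra ℚ K] in
theorem mon_nil : mon p ([] : List (ν × V)) = 1 := rfl

omit [Algebra ℚ K] in
theorem mon_cons (x : ν × V) (L : List (ν × V)) : mon p (x :: L) = ι p x.2 * mon p L := by
  simp [mon]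

omit [Algebra ℚ K] in
theorem mon_append (L L' : List (ν × V)) : mon p (L ++ L') = mon p L * mon p L' := by
  simp [mon]

omit [Algebra ℚ K] in
theorem mon_map (φ : ν → ν') (L : List (ν × V)) : mon p (L.map (Prod.map φ id)) = mon p L := by
  simp [mon, Function.comp_def]

omit [Algebra ℚ K] in
theorem mon_eq (L : List (ν × V)) : mon p L = ((L.map Prod.snd).map (ι p)).prod := by
  simp [mon, Function.comp_def]

theorem map_fst_map {α : Type} (φ : ν → ν') (L : List (ν × α)) :
    (L.map (Prod.map φ id)).map Prod.fst = (L.map Prod.fst).map φ := by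
  simp [Function.comp_def]

theorem Enum.congr {α β : Type} {L : List (ν × α)} {L' : List (ν × β)} (h : Enum L)
    (e : L.map Prod.fst = L'.map Prod.fst) : Enum L' := by
  unfold Enum at h ⊢
  rwa [← e]

theorem Enum.perm {α : Type} {L L' : List (ν × α)} (h : Enum L) (e : L.Perm L') : Enum L' :=
  ⟨(e.map _).nodup_iff.mp h.1, fun n => (e.map _).subset (h.2 n)⟩

theorem Enum.map {α : Type} {L : List (ν × α)} (h : Enum L) (φ : ν ≃ ν') :
    Enum (L.map (Prod.map φ id)) := by
  constructor
  · rw [map_fst_map]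
    exact h.1.map φ.injective
  · intro n
    rw [map_fst_map]
    exact List.mem_map.mpr ⟨φ.symm n, h.2 _, φ.apply_symm_apply n⟩

theorem Enum.map_snd {α β : Type} {L : List (ν × α)} (h : Enum L) (f : ν × α → β) :
    Enum (L.map fun x => (x.1, f x)) :=
  h.congr (by simp [Function.comp_def])

theorem Enum.append {α : Type} {L : List (ν × α)} {L' : List (ν' × α)} (h : Enum L) (h' : Enum L') :
    Enum (L.map (Prod.map Sum.inl id) ++ L'.map (Prod.map Sum.inr id)) := by
  constructor
  · rw [List.map_append, map_fst_map, map_fst_map, List.nodup_append]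
    refine ⟨h.1.map Sum.inl_injective, h'.1.map Sum.inr_injective, fun a ha b hb e => ?_⟩
    obtain ⟨a, -, rfl⟩ := List.mem_map.mp ha
    obtain ⟨b, -, rfl⟩ := List.mem_map.mp hb
    exact Sum.inl_ne_inr e
  · intro n
    rw [List.map_append, map_fst_map, map_fst_map, List.mem_append]
    cases n with
    | inl n => exact Or.inl (List.mem_map_of_mem (h.2 n))
    | inr n => exact Or.inr (List.mem_map_of_mem (h'.2 n))

theorem exists_map_eq {α β : Type} (f : α → β) (L : List β) (h : ∀ x ∈ L, ∃ y, x = f y) :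
    ∃ L' : List α, L = L'.map f := by
  induction L with
  | nil => exact ⟨[], rfl⟩
  | cons x L ih =>
    obtain ⟨y, rfl⟩ := h x List.mem_cons_self
    obtain ⟨L', rfl⟩ := ih fun z hz => h z (List.mem_cons_of_mem _ hz)
    exact ⟨y :: L', rfl⟩

/-- an enumeration that starts with the points of `ν₁` -/
theorem Enum.split {α ν₁ ν₂ : Type} {L L' : List (ν × α)} (h : Enum (L ++ L')) (φ : ν₁ ⊕ ν₂ ≃ ν)
    (e : ∀ n, n ∈ L.map Prod.fst ↔ ∃ n₁, n = φ (.inl n₁)) :
    ∃ (L₁ : List (ν₁ × α)) (L₂ : List (ν₂ × α)), Enum L₁ ∧ Enum L₂ ∧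
      L = L₁.map (Prod.map (fun n => φ (.inl n)) id) ∧
      L' = L₂.map (Prod.map (fun n => φ (.inr n)) id) := by
  obtain ⟨hn, ha⟩ := h
  rw [List.map_append] at hn ha
  obtain ⟨h1, h2, h3⟩ := List.nodup_append.mp hn
  obtain ⟨L₁, rfl⟩ := exists_map_eq (Prod.map (fun n => φ (.inl n)) id) L fun x hx => by
    obtain ⟨n, hn⟩ := (e x.1).mp (List.mem_map_of_mem hx)
    exact ⟨(n, x.2), Prod.ext hn rfl⟩
  obtain ⟨L₂, rfl⟩ := exists_map_eq (Prod.map (fun n => φ (.inr n)) id) L' fun x hx => by
    obtain ⟨y, hy⟩ := φ.surjective x.1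
    cases y with
    | inl n => exact absurd rfl (h3 _ ((e x.1).mpr ⟨n, hy.symm⟩) _ (List.mem_map_of_mem hx))
    | inr n => exact ⟨(n, x.2), Prod.ext hy.symm rfl⟩
  rw [map_fst_map] at h1 h2 e
  rw [map_fst_map, map_fst_map] at ha
  refine ⟨L₁, L₂, ⟨h1.of_map _, fun n => ?_⟩, ⟨h2.of_map _, fun n => ?_⟩, rfl, rfl⟩
  · obtain ⟨m, hm, em⟩ := List.mem_map.mp ((e _).mpr ⟨n, rfl⟩)
    rwa [← Sum.inl_injective (φ.injective em)]
  · rcases List.mem_append.mp (ha (φ (.inr n))) with hm | hm
    · obtain ⟨m, -, em⟩ := List.mem_map.mp hm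
      exact absurd (φ.injective em) Sum.inl_ne_inr
    · obtain ⟨m, hm, em⟩ := List.mem_map.mp hm
      rwa [← Sum.inr_injective (φ.injective em)]

/-- the standard enumeration of a list -/
def std {α : Type} (l : List α) : List (Fin l.length × α) := List.ofFn fun i => (i, l.get i)

theorem enum_std {α : Type} (l : List α) : Enum (std l) := by
  have : (std l).map Prod.fst = List.ofFn id := by rw [std, List.map_ofFn]; rfl
  constructor
  · rw [this]
    exact List.nodup_ofFn.mpr Function.injective_id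
  · intro n
    rw [this]
    exact (List.mem_ofFn' _ _).mpr ⟨n, rfl⟩

theorem std_snd {α : Type} (l : List α) : (std l).map Prod.snd = l := by
  rw [std, List.map_ofFn]
  exact List.ofFn_get l

theorem exists_enum {α : Type} (l : List α) :
    ∃ L : List (Fin l.length × α), Enum L ∧ L.map Prod.snd = l :=
  ⟨std l, enum_std l, std_snd l⟩

theorem Enum.exists_equiv' {α : Type} {L : List (ν × α)} (h : Enum L) :
    ∃ φ : Fin (L.map Prod.snd).length ≃ ν,
      L = List.ofFn fun i => (φ i, (L.map Prod.snd).get i) := by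
  have hl : (L.map Prod.snd).length = (L.map Prod.fst).length := by simp
  have hb : Function.Bijective (L.map Prod.fst).get :=
    ⟨List.nodup_iff_injective_get.mp h.1, fun n => List.get_of_mem (h.2 n)⟩
  refine ⟨(finCongr hl).trans (Equiv.ofBijective _ hb), ?_⟩
  refine List.ext_getElem (by simp) fun i h1 h2 => ?_
  simp

/-- every enumeration is a relabelling of the standard one -/
theorem Enum.exists_equiv {α : Type} {L : List (ν × α)} (h : Enum L) :
    ∃ φ : Fin (L.map Prod.snd).length ⊕ Fin 0 ≃ ν,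
      L = List.ofFn fun i => (φ (.inl i), (L.map Prod.snd).get i) := by
  obtain ⟨φ, e⟩ := h.exists_equiv'
  exact ⟨(Equiv.sumEmpty _ _).trans φ, e⟩

omit [Algebra ℚ K] in
theorem span_mon {G : Set V} (hG : Submodule.span K G = ⊤) :
    Submodule.span K {y | ∃ (n : ℕ) (L : List (Fin n × V)), Enum L ∧ (∀ x ∈ L, x.2 ∈ G) ∧
      y = mon p L} = ⊤ := by
  set M := Submodule.span K {y | ∃ (n : ℕ) (L : List (Fin n × V)), Enum L ∧ (∀ x ∈ L, x.2 ∈ G) ∧
      y = mon p L} with hM
  have hl : ∀ l : List V, (∀ v ∈ l, v ∈ G) → (l.map (ι p)).prod ∈ M := fun l hl =>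
    Submodule.subset_span ⟨_, std l, enum_std l, fun x hx => hl _
      ((congrArg (x.2 ∈ ·) (std_snd l)).mp (List.mem_map_of_mem hx)), by rw [mon_eq, std_snd]⟩
  rw [eq_top_iff]
  rintro x -
  induction x using Fock.induction with
  | h1 => exact hl [] (by simp)
  | hι v x hx =>
    induction hx using Submodule.span_induction with
    | mem y hy =>
      obtain ⟨n, L, -, hL, rfl⟩ := hy
      have hv : v ∈ Submodule.span K G := hG ▸ Submodule.mem_top
      induction hv using Submodule.span_induction with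
      | mem w hw =>
        have := hl (w :: L.map Prod.snd) fun u hu => by
          rcases List.mem_cons.mp hu with rfl | hu
          · exact hw
          · obtain ⟨z, hz, rfl⟩ := List.mem_map.mp hu
            exact hL z hz
        rwa [List.map_cons, List.prod_cons, ← mon_eq] at this
      | zero => simp
      | add a b _ _ ha hb => rw [map_add, add_mul]; exact add_mem ha hb
      | smul c a _ ha => rw [map_smul, smul_mul_assoc]; exact M.smul_mem c ha
    | zero => simp
    | add a b _ _ ha hb => rw [mul_add]; exact add_mem ha hb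
    | smul c a _ ha => rw [mul_smul_comm]; exact M.smul_mem c ha
  | hadd x y hx hy => exact add_mem hx hy
  | hsmul c x hx => exact M.smul_mem c hx

omit [Algebra ℚ K] in
/-- functionals are determined by their values on monomials in a spanning set -/
theorem ext_mon {M : Type} [AddCommGroup M] [Module K M] {Z Z' : S p →ₗ[K] M} {G : Set V}
    (hG : Submodule.span K G = ⊤) (h : ∀ (n : ℕ) (L : List (Fin n × V)), Enum L →
      (∀ x ∈ L, x.2 ∈ G) → Z (mon p L) = Z' (mon p L)) : Z = Z' := by
  refine LinearMap.ext_on (span_mon (p := p) hG) ?_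
  rintro y ⟨n, L, h1, h2, rfl⟩
  exact h n L h1 h2

omit [Algebra ℚ K] in
theorem SW.of_sc {A : Type} [Ring A] [Algebra K A] (f : ν → V →ₗ[K] A)
    (hev : ∀ n n' v w, p.σ w = w → f n' w * f n v = f n v * f n' w)
    (hod : ∀ n n' v w, p.σ v = -v → p.σ w = -w → f n v * f n' w = -(f n' w * f n v))
    (I : A →ₗ[K] K) (u : A) : SW p fun L => I (u * (L.map fun x => f x.1 x.2).prod) := by
  constructor
  · intro L₁ n v w L₂
    simp only [List.map_append, List.map_cons, List.prod_append, List.prod_cons, map_add, mul_add,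
      add_mul]
  · intro L₁ n c v L₂
    simp only [List.map_append, List.map_cons, List.prod_append, List.prod_cons, map_smul,
      mul_smul_comm, smul_mul_assoc, smul_eq_mul]
  · intro L₁ x y L₂ h
    simp only [List.map_append, List.map_cons, List.prod_append, List.prod_cons]
    rw [← mul_assoc (f x.1 x.2), ← hev _ _ _ _ h, mul_assoc (f y.1 y.2)]
  · intro L₁ x y L₂ hx hy
    simp only [List.map_append, List.map_cons, List.prod_append, List.prod_cons]
    rw [← mul_assoc (f x.1 x.2), hod _ _ _ _ hx hy, neg_mul, mul_assoc (f y.1 y.2), mul_neg,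
      mul_neg, map_neg]

omit [Algebra ℚ K] in
theorem sw_mon (Z : S p →ₗ[K] K) : SW p fun L : List (ν × V) => Z (mon p L) := by
  have := SW.of_sc (p := p) (fun _ : ν => ι p) (fun _ _ => (sc_ι p).ev) (fun _ _ => (sc_ι p).od) Z 1
  simpa only [one_mul, mon] using this

omit [Algebra ℚ K] in
theorem SW.cons {W : List (ν × V) → K} (h : SW p W) (x : ν × V) : SW p fun L => W (x :: L) :=
  ⟨fun L => h.add (x :: L), fun L => h.smul (x :: L), fun L => h.ev (x :: L),
    fun L => h.od (x :: L)⟩

omit [Algebra ℚ K] in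
theorem SW.sum {β : Type} (s : Finset β) {W : β → List (ν × V) → K} (h : ∀ i ∈ s, SW p (W i)) :
    SW p fun L => ∑ i ∈ s, W i L := by
  constructor
  · intro L₁ n v w L₂
    rw [← sum_add_distrib]
    exact sum_congr rfl fun i hi => (h i hi).add ..
  · intro L₁ n c v L₂
    rw [mul_sum]
    exact sum_congr rfl fun i hi => (h i hi).smul ..
  · exact fun L₁ x y L₂ hy => sum_congr rfl fun i hi => (h i hi).ev _ _ _ _ hy
  · intro L₁ x y L₂ hx hy
    rw [← sum_neg_distrib]
    exact sum_congr rfl fun i hi => (h i hi).od _ _ _ _ hx hy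

omit [Algebra ℚ K] in
/-- two multilinear supersymmetric functions that agree on one arrangement agree -/
theorem SW.perm {W W' : List (ν × V) → K} (h : SW p W) (h' : SW p W') {L L' : List (ν × V)}
    (e : L.Perm L') (hL : ∀ x ∈ L, p.σ x.2 = x.2 ∨ p.σ x.2 = -x.2) (a : W L = W' L) :
    W L' = W' L' := by
  induction e generalizing W W' with
  | nil => exact a
  | cons x _ ih =>
    exact ih (h.cons x) (h'.cons x) (fun y hy => hL y (List.mem_cons_of_mem _ hy)) a
  | swap x y l =>
    rcases hL y (by simp) with hy | hy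
    · exact (h.ev [] x y l hy).trans (a.trans (h'.ev [] x y l hy).symm)
    · rcases hL x (by simp) with hx | hx
      · exact (h.ev [] y x l hx).symm.trans (a.trans (h'.ev [] y x l hx))
      · exact (h.od [] x y l hx hy).trans
          ((congrArg Neg.neg a).trans (h'.od [] x y l hx hy).symm)
  | trans e _ ih ih' => exact ih' h h' (fun y hy => hL y (e.symm.subset hy)) (ih h h' hL a)

omit [Algebra ℚ K] in
theorem SW.zero {W : List (ν × V) → K} (h : SW p W) (L₁ : List (ν × V)) (n : ν)
    (L₂ : List (ν × V)) : W (L₁ ++ (n, 0) :: L₂) = 0 := by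
  have := h.smul L₁ n 0 0 L₂
  rwa [zero_smul, zero_mul] at this

omit [Algebra ℚ K] in
/-- reduction to vectors in a spanning set -/
theorem SW.ext {W W' : List (ν × V) → K} (h : SW p W) (h' : SW p W') {G : Set V}
    (hG : Submodule.span K G = ⊤) (a : ∀ L, Enum L → (∀ x ∈ L, x.2 ∈ G) → W L = W' L)
    {L : List (ν × V)} (hL : Enum L) : W L = W' L := by
  have key : ∀ L₂ L₁ : List (ν × V), Enum (L₁ ++ L₂) → (∀ x ∈ L₁, x.2 ∈ G) →
      W (L₁ ++ L₂) = W' (L₁ ++ L₂) := by
    intro L₂
    induction L₂ with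
    | nil => exact fun L₁ h1 h2 => a _ h1 (by simpa using h2)
    | cons x L₂ ih =>
      obtain ⟨n, v⟩ := x
      intro L₁ h1 h2
      have hv : v ∈ Submodule.span K G := hG ▸ Submodule.mem_top
      have h3 : ∀ w, Enum (L₁ ++ (n, w) :: L₂) := fun w => h1.congr (by simp)
      clear h1
      induction hv using Submodule.span_induction with
      | mem w hw =>
        have := ih (L₁ ++ [(n, w)]) (by simpa using h3 w) fun y hy => by
          rcases List.mem_append.mp hy with hy | hy
          · exact h2 y hy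
          · rw [List.mem_singleton.mp hy]; exact hw
        simpa using this
      | zero => rw [h.zero, h'.zero]
      | add a b _ _ ha hb => rw [h.add, h'.add, ha, hb]
      | smul c a _ ha => rw [h.smul, h'.smul, ha]
  exact key L [] hL (by simp)

omit [Algebra ℚ K] in
/-- a multilinear supersymmetric function of lists of vectors is a functional -/
theorem SW.exists_lin {w : List (Unit × V) → K} (h : SW p w) : ∃ Z : S p →ₗ[K] K,
    ∀ (ν : Type) (L : List (ν × V)), Z (mon p L) = w (L.map fun x => ((), x.2)) := by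
  let G : Submodule K (List (Unit × V) → K) :=
    { carrier := {g | SW p g}
      add_mem' := fun {a b} ha hb =>
        ⟨fun _ _ _ _ _ => by simp only [Pi.add_apply, ha.add, hb.add]; ring,
          fun _ _ _ _ _ => by simp only [Pi.add_apply, ha.smul, hb.smul]; ring,
          fun L x y L' hy => by simp only [Pi.add_apply, ha.ev L x y L' hy, hb.ev L x y L' hy],
          fun L x y L' hx hy => by
            simp only [Pi.add_apply, ha.od L x y L' hx hy, hb.od L x y L' hx hy]; ring⟩
      zero_mem' := ⟨fun _ _ _ _ _ => by simp, fun _ _ _ _ _ => by simp, fun _ _ _ _ _ => rfl,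
        fun _ _ _ _ _ _ => by simp⟩
      smul_mem' := fun c a ha =>
        ⟨fun _ _ _ _ _ => by simp only [Pi.smul_apply, ha.add, smul_eq_mul]; ring,
          fun _ _ _ _ _ => by simp only [Pi.smul_apply, ha.smul, smul_eq_mul]; ring,
          fun L x y L' hy => by simp only [Pi.smul_apply, ha.ev L x y L' hy],
          fun L x y L' hx hy => by
            simp only [Pi.smul_apply, ha.od L x y L' hx hy, smul_eq_mul]; ring⟩ }
  let d : V →ₗ[K] Module.End K G :=
    { toFun := fun v =>
        { toFun := fun g => ⟨fun L => g.1 (((), v) :: L), SW.cons g.2 _⟩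
          map_add' := fun _ _ => rfl
          map_smul' := fun _ _ => rfl }
      map_add' := fun v w => LinearMap.ext fun g => Subtype.ext (funext fun L =>
        SW.add g.2 [] () v w L)
      map_smul' := fun c v => LinearMap.ext fun g => Subtype.ext (funext fun L =>
        SW.smul g.2 [] () c v L) }
  have hd : SC (A := Module.End K G) p d := by
    constructor
    · intro v w hw
      refine LinearMap.ext fun g => Subtype.ext (funext fun L => ?_)
      exact SW.ev g.2 [] ((), v) ((), w) L hw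
    · intro v w hv hw
      refine LinearMap.ext fun g => Subtype.ext (funext fun L => ?_)
      exact SW.od g.2 [] ((), w) ((), v) L hw hv
  obtain ⟨Φ, h1, h2⟩ := Deg.exists_unfold d hd (LinearMap.proj [] ∘ₗ G.subtype)
  have key : ∀ (ν : Type) (L : List (ν × V)) (g : G),
      Φ g (mon p L) = g.1 (L.map fun x => ((), x.2)) := by
    intro ν L
    induction L with
    | nil => exact fun g => h1 g
    | cons x L ih => exact fun g => by rw [mon_cons, h2, ih]; rfl
  exact ⟨Φ ⟨w, h⟩, fun ν L => key ν L _⟩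

omit [Algebra ℚ K] in
/-- **functionals from correlators** -/
theorem exists_fun (W : ∀ (ν : Type) [Fintype ν], List (ν × V) → K)
    (hW : ∀ (ν : Type) [Fintype ν], SW p (W ν))
    (hr : ∀ (ν ν' : Type) [Fintype ν] [Fintype ν'] (φ : ν' ≃ ν) (L : List (ν' × V)), Enum L →
      W ν (L.map (Prod.map φ id)) = W ν' L) :
    ∃ Z : S p →ₗ[K] K, ∀ (ν : Type) [Fintype ν] (L : List (ν × V)), Enum L → Z (mon p L) = W ν L := by
  let w : List V → K := fun l => W (Fin l.length) (std l)
  have key : ∀ (ν : Type) [Fintype ν] (L : List (ν × V)), Enum L → w (L.map Prod.snd) = W ν L := by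
    intro ν _ L hL
    obtain ⟨φ, e⟩ := hL.exists_equiv'
    have := hr ν _ φ (std (L.map Prod.snd)) (enum_std _)
    rw [std, List.map_ofFn] at this
    exact this.symm.trans (congrArg (W ν) e.symm)
  have one : ∀ (L₁ L₂ : List (Unit × V)), ∃ (m : ℕ) (M₁ M₂ : List (Fin m × V)) (i : Fin m),
      ∀ v, w ((L₁ ++ ((), v) :: L₂).map Prod.snd) = W _ (M₁ ++ (i, v) :: M₂) := by
    intro L₁ L₂
    obtain ⟨M, hM, e⟩ := exists_enum (L₁.map Prod.snd ++ 0 :: L₂.map Prod.snd)
    obtain ⟨M₁, M', rfl, e1, e2⟩ := List.map_eq_append_iff.mp e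
    obtain ⟨x, M₂, rfl, -, e2⟩ := List.map_eq_cons_iff.mp e2
    refine ⟨_, M₁, M₂, x.1, fun v => ?_⟩
    rw [← key _ _ (hM.congr (by simp))]
    simp [e1, e2]
  have two : ∀ (L₁ L₂ : List (Unit × V)) (x y : Unit × V),
      ∃ (m : ℕ) (M₁ M₂ : List (Fin m × V)) (i j : Fin m),
      w ((L₁ ++ x :: y :: L₂).map Prod.snd) = W _ (M₁ ++ (i, x.2) :: (j, y.2) :: M₂) ∧
      w ((L₁ ++ y :: x :: L₂).map Prod.snd) = W _ (M₁ ++ (j, y.2) :: (i, x.2) :: M₂) := by
    intro L₁ L₂ x y
    obtain ⟨M, hM, e⟩ := exists_enum (L₁.map Prod.snd ++ 0 :: 0 :: L₂.map Prod.snd)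
    obtain ⟨M₁, M', rfl, e1, e2⟩ := List.map_eq_append_iff.mp e
    obtain ⟨a, M'', rfl, -, e2⟩ := List.map_eq_cons_iff.mp e2
    obtain ⟨b, M₂, rfl, -, e2⟩ := List.map_eq_cons_iff.mp e2
    have h1 : Enum (M₁ ++ (a.1, x.2) :: (b.1, y.2) :: M₂) := hM.congr (by simp)
    refine ⟨_, M₁, M₂, a.1, b.1, ?_, ?_⟩
    · rw [← key _ _ h1]
      simp [e1, e2]
    · rw [← key _ _ (h1.perm ((List.Perm.swap _ _ _).append_left _))]
      simp [e1, e2]
  have hw : SW p fun L : List (Unit × V) => w (L.map Prod.snd) := by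
    constructor
    · intro L₁ n u v L₂
      obtain ⟨m, M₁, M₂, i, e⟩ := one L₁ L₂
      rw [e, e, e, (hW _).add]
    · intro L₁ n c v L₂
      obtain ⟨m, M₁, M₂, i, e⟩ := one L₁ L₂
      rw [e, e, (hW _).smul]
    · intro L₁ x y L₂ hy
      obtain ⟨m, M₁, M₂, i, j, e, e'⟩ := two L₁ L₂ x y
      rw [e, e']
      exact (hW _).ev _ _ _ _ hy
    · intro L₁ x y L₂ hx hy
      obtain ⟨m, M₁, M₂, i, j, e, e'⟩ := two L₁ L₂ x y
      rw [e, e']
      exact (hW _).od _ _ _ _ hx hy
  obtain ⟨Z, hZ⟩ := hw.exists_lin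
  refine ⟨Z, fun ν _ L hL => ?_⟩
  rw [hZ, ← key ν L hL]
  simp [Function.comp_def]

theorem span_hom : Submodule.span K {v : V | p.σ v = v ∨ p.σ v = -v} = ⊤ := by
  rw [eq_top_iff]
  rintro v -
  rw [← p.ev_add_od v]
  exact add_mem (Submodule.subset_span (Or.inl (p.σ_ev v)))
    (Submodule.subset_span (Or.inr (p.σ_od v)))

section aux

variable [DecidableEq ν]

theorem der_aux (L : List (ν × V)) (hn : (L.map Prod.fst).Nodup)
    (hL : ∀ x ∈ L, p.σ x.2 = x.2 ∨ p.σ x.2 = -x.2) (δ : V →ₗ[K] S p) (Z : S p →ₗ[K] K)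
    (T : ν → List (ν × V) → K) (hT : ∀ n, SW p (T n))
    (h : ∀ n v L', ((n, v) :: L').Perm L → T n ((n, v) :: L') = Z (δ v * mon p L')) :
    ∑ n ∈ (L.map Prod.fst).toFinset, T n L = Z (der p δ (mon p L)) := by
  induction L generalizing δ Z T with
  | nil => simp [mon_nil]
  | cons x L ih =>
    obtain ⟨m, u⟩ := x
    rw [List.map_cons, List.nodup_cons] at hn
    have hL' : ∀ x ∈ L, p.σ x.2 = x.2 ∨ p.σ x.2 = -x.2 :=
      fun x hx => hL x (List.mem_cons_of_mem _ hx)
    have h' : ∀ n v L', ((n, v) :: L').Perm L →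
        T n ((n, v) :: (m, u) :: L') = Z (δ v * ι p u * mon p L') := fun n v L' e => by
      rw [h n v _ ((List.Perm.swap _ _ _).trans (e.cons _)), mon_cons, mul_assoc]
    rw [List.map_cons, List.toFinset_cons, sum_insert (by simpa using hn.1),
      h m u L (List.Perm.refl _), mon_cons]
    rcases hL (m, u) List.mem_cons_self with hu | hu
    · rw [der_ι_mul_ev δ hu, map_add]
      congr 1
      refine ih hn.2 hL' δ (Z ∘ₗ LinearMap.mulLeft K (ι p u)) (fun n L => T n ((m, u) :: L))
        (fun n => (hT n).cons _) fun n v L' e => ?_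
      refine ((hT n).ev [] (n, v) (m, u) L' hu).symm.trans ((h' n v L' e).trans ?_)
      rw [← ι_comm_ev hu, mul_assoc]
      rfl
    · rw [der_ι_mul_od δ hu, map_add]
      congr 1
      refine ih hn.2 hL' (cj p δ) (Z ∘ₗ LinearMap.mulLeft K (ι p u)) (fun n L => T n ((m, u) :: L))
        (fun n => (hT n).cons _) fun n v L' e => ?_
      have e' : (Z ∘ₗ LinearMap.mulLeft K (ι p u)) (cj p δ v * mon p L') =
          Z (δ (p.σ v) * ι p u * mon p L') := by
        rw [← ι_comm_od' hu, mul_assoc]
        rfl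
      rw [e']
      rcases hL' (n, v) (e.subset List.mem_cons_self) with hv | hv
      · refine ((hT n).ev [] (m, u) (n, v) L' hv).trans ((h' n v L' e).trans ?_)
        rw [show p.σ v = v from hv]
      · refine ((hT n).od [] (m, u) (n, v) L' hu hv).trans
          ((congrArg Neg.neg (h' n v L' e)).trans ?_)
        rw [show p.σ v = -v from hv, map_neg, neg_mul, neg_mul, map_neg]

theorem con_aux (L : List (ν × V)) (hn : (L.map Prod.fst).Nodup)
    (hL : ∀ x ∈ L, p.σ x.2 = x.2 ∨ p.σ x.2 = -x.2) (φ : Module.Dual K V) (Z : S p →ₗ[K] K)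
    (T : ν → List (ν × V) → K) (hT : ∀ n, SW p (T n))
    (h : ∀ n v L', ((n, v) :: L').Perm L → T n ((n, v) :: L') = φ v * Z (mon p L')) :
    ∑ n ∈ (L.map Prod.fst).toFinset, T n L = Z (con p φ (mon p L)) := by
  refine der_aux L hn hL (Algebra.linearMap K (S p) ∘ₗ φ) Z T hT fun n v L' e => ?_
  rw [h n v L' e, LinearMap.comp_apply, Algebra.linearMap_apply, ← Algebra.smul_def, map_smul,
    smul_eq_mul]

theorem con2_aux {Q : V →ₗ[K] Module.Dual K V} (hQ : ∀ v w, Q (p.σ v) (p.σ w) = Q v w)
    {W : SymB p} (hW : ∀ v w, W.1 v w = Q v w + Q (p.σ w) v)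
    (L : List (ν × V)) (hn : (L.map Prod.fst).Nodup)
    (hL : ∀ x ∈ L, p.σ x.2 = x.2 ∨ p.σ x.2 = -x.2) (Z : S p →ₗ[K] K)
    (T : ν → ν → List (ν × V) → K) (hT : ∀ n n', SW p (T n n'))
    (h : ∀ n n' v w L', ((n, v) :: (n', w) :: L').Perm L →
      T n n' ((n, v) :: (n', w) :: L') = Q v w * Z (mon p L')) :
    ∑ n ∈ (L.map Prod.fst).toFinset, ∑ n' ∈ (L.map Prod.fst).toFinset.erase n, T n n' L =
      Z (con2 p W (mon p L)) := by
  have eo : ∀ {v w}, p.σ v = v → p.σ w = -w → Q v w = 0 := fun {v w} hv hw => by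
    have := hQ v w
    rw [hv, hw, map_neg] at this
    exact eq_zero_of_eq_neg (K := K) this.symm
  have oe : ∀ {v w}, p.σ v = -v → p.σ w = w → Q v w = 0 := fun {v w} hv hw => by
    have := hQ v w
    rw [hv, hw, map_neg, LinearMap.neg_apply] at this
    exact eq_zero_of_eq_neg (K := K) this.symm
  induction L generalizing Z T with
  | nil => simp [mon_nil]
  | cons x L ih =>
    obtain ⟨m, u⟩ := x
    rw [List.map_cons, List.nodup_cons] at hn
    have hL' : ∀ x ∈ L, p.σ x.2 = x.2 ∨ p.σ x.2 = -x.2 :=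
      fun x hx => hL x (List.mem_cons_of_mem _ hx)
    have hm : m ∉ (L.map Prod.fst).toFinset := by simpa using hn.1
    have hu : p.σ u = u ∨ p.σ u = -u := hL (m, u) List.mem_cons_self
    have h1 := con_aux L hn.2 hL' (Q u) Z (fun n L => T m n ((m, u) :: L))
      (fun n => (hT m n).cons _) fun n v L' e => h m n u v L' (e.cons _)
    have h2 := con_aux L hn.2 hL' (Q.flip u ∘ₗ p.σ) Z (fun n L => T n m ((m, u) :: L))
      (fun n => (hT n m).cons _) fun n v L' e => by
        have h' := h n m v u L' ((List.Perm.swap _ _ _).trans (e.cons _))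
        change _ = Q (p.σ v) u * _
        rcases hL' (n, v) (e.subset List.mem_cons_self) with hv | hv
        · rw [show p.σ v = v from hv]
          exact ((hT n m).ev [] (m, u) (n, v) L' hv).trans h'
        · rcases hu with hu | hu
          · refine ((hT n m).ev [] (n, v) (m, u) L' hu).symm.trans (h'.trans ?_)
            rw [show p.σ v = -v from hv, map_neg, LinearMap.neg_apply, oe hv hu, neg_zero]
          · refine ((hT n m).od [] (m, u) (n, v) L' hu hv).trans
              ((congrArg Neg.neg h').trans ?_)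
            rw [show p.σ v = -v from hv, map_neg, LinearMap.neg_apply, neg_mul]
    have h3 := ih hn.2 hL' (Z ∘ₗ LinearMap.mulLeft K (ι p u))
      (fun n n' L => T n n' ((m, u) :: L)) (fun n n' => (hT n n').cons _) fun n n' v w L' e => by
        have h' : T n n' ((n, v) :: (n', w) :: (m, u) :: L') = Q v w * Z (ι p u * mon p L') := by
          rw [h n n' v w ((m, u) :: L')
            ((((List.Perm.swap _ _ _).cons _).trans (List.Perm.swap _ _ _)).trans (e.cons _)),
            mon_cons]
        change T n n' ((m, u) :: (n, v) :: (n', w) :: L') = Q v w * Z (ι p u * mon p L')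
        have t := hT n n'
        rcases hu with hu | hu
        · exact (t.ev [] (n, v) (m, u) _ hu).symm.trans
            ((t.ev [(n, v)] (n', w) (m, u) L' hu).symm.trans h')
        · rcases hL' (n, v) (e.subset (by simp)) with hv | hv <;>
            rcases hL' (n', w) (e.subset (by simp)) with hw | hw
          · exact (t.ev [] (m, u) (n, v) _ hv).trans
              ((t.ev [(n, v)] (m, u) (n', w) L' hw).trans h')
          · refine (t.ev [] (m, u) (n, v) _ hv).trans
              ((t.od [(n, v)] (m, u) (n', w) L' hu hw).trans ((congrArg Neg.neg h').trans ?_))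
            rw [eo hv hw, zero_mul, neg_zero]
          · refine (t.od [] (m, u) (n, v) _ hu hv).trans ((congrArg Neg.neg
              ((t.ev [(n, v)] (m, u) (n', w) L' hw).trans h')).trans ?_)
            rw [oe hv hw, zero_mul, neg_zero]
          · exact (t.od [] (m, u) (n, v) _ hu hv).trans ((congrArg Neg.neg
              ((t.od [(n, v)] (m, u) (n', w) L' hu hw).trans (congrArg Neg.neg h'))).trans
                (neg_neg _))
    have hWu : W.1 u = Q u + Q.flip u ∘ₗ p.σ := LinearMap.ext fun w => hW u w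
    rw [List.map_cons, List.toFinset_cons, sum_insert hm, erase_insert hm, h1, mon_cons,
      con2_ι_mul, hWu, map_add, map_add, LinearMap.add_apply, map_add, ← h2,
      sum_congr rfl fun n hn' => by
        rw [erase_insert_of_ne (fun e : m = n => hm (e ▸ hn')),
          sum_insert fun hh => hm (mem_of_mem_erase hh)], sum_add_distrib, h3]
    change _ + (_ + Z (ι p u * _)) = _
    ring

end aux

theorem Enum.toFinset [Fintype ν] [DecidableEq ν] {α : Type} {L : List (ν × α)} (h : Enum L) :
    (L.map Prod.fst).toFinset = univ :=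
  eq_univ_of_forall fun n => List.mem_toFinset.mpr (h.2 n)

variable [Fintype ν] [DecidableEq ν] {Z : S p →ₗ[K] K}

/-- the general first order statement -/
theorem sum_der (δ : V →ₗ[K] S p) (T : ν → List (ν × V) → K) (hT : ∀ n, SW p (T n))
    (h : ∀ n v L, Enum ((n, v) :: L) → T n ((n, v) :: L) = Z (δ v * mon p L))
    {L : List (ν × V)} (hL : Enum L) : ∑ n, T n L = Z (der p δ (mon p L)) := by
  refine (SW.sum univ fun n _ => hT n).ext (sw_mon (Z ∘ₗ der p δ)) (span_hom (p := p))
    (fun L hL hh => ?_) hL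
  rw [← hL.toFinset]
  exact der_aux L hL.1 hh δ Z T hT fun n v L' e => h n v L' (hL.perm e.symm)

theorem sum_dv {A : Module.End K V} (_hA : IsEv p p A) (T : ν → List (ν × V) → K)
    (hT : ∀ n, SW p (T n))
    (h : ∀ n v L, Enum ((n, v) :: L) → T n ((n, v) :: L) = Z (ι p (A v) * mon p L))
    {L : List (ν × V)} (hL : Enum L) : ∑ n, T n L = Z (dv p A (mon p L)) :=
  sum_der (ι p ∘ₗ A) T hT h hL

theorem sum_con {φ : Module.Dual K V} (_hφ : φ ∘ₗ p.σ = φ) (T : ν → List (ν × V) → K)
    (hT : ∀ n, SW p (T n))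
    (h : ∀ n v L, Enum ((n, v) :: L) → T n ((n, v) :: L) = φ v * Z (mon p L))
    {L : List (ν × V)} (hL : Enum L) : ∑ n, T n L = Z (con p φ (mon p L)) := by
  refine sum_der (Algebra.linearMap K (S p) ∘ₗ φ) T hT (fun n v L' e => ?_) hL
  rw [h n v L' e, LinearMap.comp_apply, Algebra.linearMap_apply, ← Algebra.smul_def, map_smul,
    smul_eq_mul]

theorem sum_con2 {Q : V →ₗ[K] Module.Dual K V} (hQ : ∀ v w, Q (p.σ v) (p.σ w) = Q v w) {W : SymB p}
    (hW : ∀ v w, W.1 v w = Q v w + Q (p.σ w) v) (T : ν → ν → List (ν × V) → K)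
    (hT : ∀ n n', SW p (T n n')) (h : ∀ n n' v w L, Enum ((n, v) :: (n', w) :: L) →
      T n n' ((n, v) :: (n', w) :: L) = Q v w * Z (mon p L))
    {L : List (ν × V)} (hL : Enum L) :
    ∑ n, ∑ n' ∈ univ.erase n, T n n' L = Z (con2 p W (mon p L)) := by
  refine (SW.sum univ fun n _ => SW.sum (univ.erase n) fun n' _ => hT n n').ext
    (sw_mon (Z ∘ₗ con2 p W)) (span_hom (p := p)) (fun L hL hh => ?_) hL
  rw [← hL.toFinset]
  exact con2_aux hQ hW L hL.1 hh Z T hT fun n n' v w L' e => h n n' v w L' (hL.perm e.symm)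

end Vale.Agent.P269.LG
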