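import Vale.Agent.P269.LG.Top
import Vale.Agent.P269.LG.Alg

/-! The dictionary, selectors and insertions. -/

set_option linter.unusedSectionVars false

namespace Vale.Agent.P269.LG

open Set Function Topology Filter TensorProduct B Vale.Agent.P291Z Vale.Agent.P269.Ch
  Vale.Agent.P269.Loc

section frame

variable {k U M ι : Type} [CommRing k] [AddCommGroup U] [Module k U] [AddCommGroup M] [Module k M]
  [Fintype ι] {q : Fock.Par k U} (fr : Fock.Frame q ι) (B : U →ₗ[k] U →ₗ[k] M)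

theorem sum_ef_swap : ∑ a, B (fr.e a) (fr.f a) = ∑ a, (-1 : k) ^ fr.π a • B (fr.f a) (fr.e a) := by
  have e : ∀ a, B (fr.e a) (fr.f a) = ∑ b, fr.η (fr.e a) (fr.e b) • B (fr.f b) (fr.f a) := fun a => by
    conv_lhs => rw [← fr.right (fr.e a)]
    simp only [map_sum, map_smul, LinearMap.sum_apply, LinearMap.smul_apply]
  simp only [e]
  rw [Finset.sum_comm]
  refine Finset.sum_congr rfl fun b _ => ?_
  conv_rhs => rw [← fr.right (fr.e b), map_sum, Finset.smul_sum]
  refine Finset.sum_congr rfl fun a _ => ?_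
  rw [fr.η_symm, fr.he, map_smul, map_smul, LinearMap.smul_apply, smul_smul, smul_eq_mul]

theorem sum_ef_adj {c : U →ₗ[k] U} (hc : ∀ v w, fr.η (c v) w = fr.η v (c w)) :
    ∑ a, B (c (fr.e a)) (fr.f a) = ∑ a, B (fr.e a) (c (fr.f a)) := by
  have e : ∀ a, B (c (fr.e a)) (fr.f a) =
      ∑ b, fr.η (fr.f b) (c (fr.e a)) • B (fr.e b) (fr.f a) := fun a => by
    conv_lhs => rw [← fr.left (c (fr.e a))]
    simp only [map_sum, map_smul, LinearMap.sum_apply, LinearMap.smul_apply]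
  simp only [e]
  rw [Finset.sum_comm]
  refine Finset.sum_congr rfl fun b _ => ?_
  conv_rhs => rw [← fr.right (c (fr.f b)), map_sum]
  exact Finset.sum_congr rfl fun a _ => by rw [map_smul, hc]

end frame

/-- the multiplication as a bilinear map -/
noncomputable def mulF (A : Type) [TopologicalSpace A] :
    F ⊗[ℂ] H A →ₗ[F] F ⊗[ℂ] H A →ₗ[F] F ⊗[ℂ] H A :=
  LinearMap.mk₂ F (· * ·) (fun x y z => Distrib.right_distrib x y z) (fun c x y => smul_mul_assoc c x y)
    (fun x y z => Distrib.left_distrib x y z) fun c x y => mul_smul_comm c x y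

theorem mulF_apply {A : Type} [TopologicalSpace A] (x y : F ⊗[ℂ] H A) : mulF A x y = x * y := rfl

theorem mulF_assoc {A : Type} [TopologicalSpace A] (x y z : F ⊗[ℂ] H A) :
    x * y * z = x * (y * z) := mul_assoc x y z

variable {V : Type} [AddCommGroup V] [Module ℂ V] {p : Fock.Par ℂ V} {ι : Type} [Fintype ι]
  {fr : Fock.Frame p ι} {C : Type} [CommRing C] [Algebra ℂ C] {R J K σ ν ν' : Type} [Fintype R]
  [Fintype J] [Fintype K] [Fintype σ] [Fintype ν] [Fintype ν'] {P : PB R J K σ} {X : Type}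
  [TopologicalSpace X] {ac : Act fr C} (D : Dic ac X)

theorem Dic.act_bc (c : F ⊗[ℂ] C) (v : F ⊗[ℂ] V) :
    D.jH.baseChange F ((ac.bc F).act c v) = inF X (D.c c) * D.jH.baseChange F v := by
  rw [← mulF_apply]
  induction c with
  | zero => simp only [map_zero, LinearMap.zero_apply]
  | add a b ha hb => simp only [map_add, LinearMap.add_apply, ha, hb]
  | tmul a c =>
    induction v with
    | zero => simp only [map_zero]
    | add v w hv hw => simp only [map_add, hv, hw]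
    | tmul b v =>
      rw [Act.bc_act, LinearMap.baseChange_tmul, LinearMap.baseChange_tmul, D.act,
        ← Algebra.TensorProduct.tmul_mul_tmul]
      rfl

theorem Dic.η_bc (v w : F ⊗[ℂ] V) :
    (fr.bc F).η v w = intT F D.int (D.jH.baseChange F v * D.jH.baseChange F w) := by
  induction v with
  | zero => simp only [map_zero, LinearMap.zero_apply, zero_mul]
  | add a b ha hb => simp only [map_add, LinearMap.add_apply, ha, hb, add_mul]
  | tmul a v =>
    induction w with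
    | zero => simp only [map_zero, mul_zero]
    | add v w hv hw => simp only [map_add, hv, hw, mul_add]
    | tmul b w =>
      rw [LinearMap.baseChange_tmul, LinearMap.baseChange_tmul, Algebra.TensorProduct.tmul_mul_tmul,
        intT_tmul, ← D.η]
      exact LinearMap.BilinForm.baseChange_tmul fr.η a v b w

theorem Dic.one_bc : D.jH.baseChange F (fr.bc F).one = 1 :=
  (LinearMap.baseChange_tmul _ 1 fr.one).trans (congrArg _ D.one)

theorem Dic.ev_bc : Fock.IsEv (p.bc F) ((parH X).bc F) (D.jH.baseChange F) := fun v => by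
  induction v with
  | zero => simp only [map_zero]
  | add a b ha hb => simp only [map_add, ha, hb]
  | tmul a v => rw [LinearMap.baseChange_tmul, Fock.Par.bc_σ, Fock.Par.bc_σ,
      LinearMap.baseChange_tmul, D.ev v]

namespace Md

variable {g g' : ℤ} {d d' : Option R → ℤ} (τ : Md P X ν g d) (τ' : Md P X ν' g' d')
  {Q Q' : AM0 R J σ ν → Prop} {f f' : AM0 R J σ ν → ℕ} {χ : σ → F ⊗[ℂ] C}

theorem mem_sel (hQ : Inv P Q) {a : τ.A} {m : AM0 R J σ ν} (h : τ.Rp a m) : a ∈ τ.sel Q ↔ Q m :=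
  ⟨fun ⟨_, h1, h2⟩ => hQ _ _ ((τ.iso h1).1 h) h2, fun h' => ⟨m, h, h'⟩⟩

theorem cf_eq (hf : ∀ k, Inv P (f · = k)) {a : τ.A} {m : AM0 R J σ ν} (h : τ.Rp a m) :
    τ.cf f a = f m :=
  congrArg Nat.cast (hf _ _ m ((τ.iso (τ.ex a).choose_spec).1 h) rfl).symm

theorem sel_and (hQ : Inv P Q) (hQ' : Inv P Q') :
    τ.sel (fun m => Q m ∧ Q' m) = τ.sel Q ∩ τ.sel Q' :=
  Subset.antisymm (fun _ ⟨m, h, h1, h2⟩ => ⟨⟨m, h, h1⟩, m, h, h2⟩) fun a ha =>
    let ⟨m, h⟩ := τ.ex a
    ⟨m, h, (τ.mem_sel hQ h).1 ha.1, (τ.mem_sel hQ' h).1 ha.2⟩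

theorem sel_congr (h : ∀ m, Fx m P g d → (Q m ↔ Q' m)) : τ.sel Q = τ.sel Q' :=
  Set.ext fun _ => exists_congr fun m => and_congr_right fun h' => h m (τ.fx h')

theorem cf_congr (h : ∀ m, Fx m P g d → f m = f' m) : τ.cf f = τ.cf f' :=
  funext fun a => congrArg Nat.cast (h _ (τ.fx (τ.ex a).choose_spec))

theorem isClopen_sel_eq (hf : ∀ k, Inv P (f · = k)) (h : IsLocallyConstant (τ.cf f)) (k : ℕ) :
    IsClopen (τ.sel (f · = k)) := by
  rw [show τ.sel (f · = k) = {a | τ.cf f a = k} from Set.ext fun a =>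
    (τ.mem_sel (hf k) (τ.ex a).choose_spec).trans Nat.cast_inj.symm]
  exact h.isClopen_fiber _

open Classical in
theorem fnE_ite (hQ : Inv P Q) : fnE (τ.cf fun m => if Q m then 1 else 0) = τ.id Q := by
  refine congrArg fnE (funext fun a => ?_)
  have h := τ.mem_sel hQ (τ.ex a).choose_spec
  by_cases ha : a ∈ τ.sel Q
  · rw [indicator_of_mem ha, cf, if_pos (h.1 ha), Nat.cast_one, Pi.one_apply]
  · rw [indicator_of_notMem ha, cf, if_neg (mt h.2 ha), Nat.cast_zero]

theorem evH_act (n : ν) (c : F ⊗[ℂ] C) (v : F ⊗[ℂ] V) :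
    τ.evH D n ((ac.bc F).act c v) = inF _ (τ.evC D n c) * τ.evH D n v :=
  (congrArg (pb F (τ.ev n)) (D.act_bc c v)).trans ((map_mul _ _ _).trans
    (congrArg (· * _) (pb_inF _ _)))

theorem evH_one (n : ν) : τ.evH D n (fr.bc F).one = 1 :=
  (congrArg (pb F (τ.ev n)) D.one_bc).trans (map_one _)

theorem isEv_evH (n : ν) : Fock.IsEv (p.bc F) ((parH _).bc F) (τ.evH D n) :=
  (isEv_pb _).comp D.ev_bc

theorem ins_single (n : ν) (s : Sym σ) (v : F ⊗[ℂ] V) :
    τ.ins D χ n (Finsupp.single s v) = inF _ (τ.sy D χ n s) * τ.evH D n v :=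
  Finsupp.lsum_single _ _ _ _

theorem isEv_ins (n : ν) : Fock.IsEv ((p.bc F).fs _) ((parH _).bc F) (τ.ins D χ n) := fun v => by
  induction v using Finsupp.induction_linear with
  | zero => simp only [map_zero]
  | add a b ha hb => simp only [map_add, ha, hb]
  | single s v => rw [Fock.Par.fs_σ_single, ins_single, ins_single, par_mul, par_inF,
      τ.isEv_evH D n v]

theorem sw_W (f : AM0 R J σ ν → ℕ) : SW ((p.bc F).fs (Sym σ)) (τ.W D χ f) :=
  SW.of_sc (A := F ⊗[ℂ] H τ.A) (τ.ins D χ)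
    (fun _ n' _ w h => comm_ev ((τ.isEv_ins D n' w).trans (congrArg _ h)) _)
    (fun n n' v w hv hw => comm_od ((τ.isEv_ins D n v).trans ((congrArg _ hv).trans (map_neg _ _)))
      ((τ.isEv_ins D n' w).trans ((congrArg _ hw).trans (map_neg _ _)))) τ.I
    (inF _ (fnE (τ.cf f)))

theorem pb_evH {A : Type} [TopologicalSpace A] (φ : C(A, τ.A)) (n : ν) (v : F ⊗[ℂ] V) :
    pb F φ (τ.evH D n v) = pb F ((τ.ev n).comp φ) (D.jH.baseChange F v) := pb_pb _ _ _

theorem pbE_evC {A : Type} [TopologicalSpace A] (φ : C(A, τ.A)) (n : ν) (c : F ⊗[ℂ] C) :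
    pbE φ (τ.evC D n c) = pbE ((τ.ev n).comp φ) (D.c c) := pbE_pbE _ _ _

/-- the product of two pull-backs -/
noncomputable def ev2 (n n' : ν) : F ⊗[ℂ] V →ₗ[F] F ⊗[ℂ] V →ₗ[F] F ⊗[ℂ] H τ.A :=
  (mulF _).compl₁₂ (τ.evH D n) (τ.evH D n')

theorem dg_eq [DecidableEq σ] (i : σ) (n n' : ν) : τ.dg D χ i n n' =
    ∑ a, τ.evH D n ((ac.bc F).act (eu χ i) ((fr.bc F).e a)) * τ.evH D n' ((fr.bc F).f a) := rfl

theorem par_dg [DecidableEq σ] (i : σ) (n n' : ν) :
    ((parH _).bc F).σ (τ.dg D χ i n n') = τ.dg D χ i n n' := by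
  rw [dg_eq, map_sum]
  refine Finset.sum_congr rfl fun a _ => ?_
  rw [par_mul, τ.isEv_evH D n _, τ.isEv_evH D n' _, (ac.bc F).ev _ _, (fr.bc F).he, (fr.bc F).hf,
    map_smul, map_smul, map_smul, smul_mul_smul_comm, Fock.neg_one_pow_mul_self, one_smul]

/-- the class of the diagonal is symmetric -/
theorem dg_symm [DecidableEq σ] (i : σ) (n n' : ν) : τ.dg D χ i n n' = τ.dg D χ i n' n := by
  refine (sum_ef_adj (fr.bc F) (τ.ev2 D n n') ((ac.bc F).adj (eu χ i))).trans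
    ((sum_ef_swap (fr.bc F) ((τ.ev2 D n n').compl₂ ((ac.bc F).act (eu χ i)))).trans
      (Finset.sum_congr rfl fun a _ => ?_))
  have h1 := τ.isEv_evH D n ((fr.bc F).f a)
  have h2 := τ.isEv_evH D n' ((ac.bc F).act (eu χ i) ((fr.bc F).e a))
  rw [(fr.bc F).hf, map_smul] at h1
  rw [(ac.bc F).ev _ _, (fr.bc F).he, map_smul, map_smul] at h2
  change (-1 : F) ^ (fr.bc F).π a • (τ.evH D n ((fr.bc F).f a) *
    τ.evH D n' ((ac.bc F).act (eu χ i) ((fr.bc F).e a))) =
    τ.evH D n' ((ac.bc F).act (eu χ i) ((fr.bc F).e a)) * τ.evH D n ((fr.bc F).f a)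
  rcases neg_one_pow_eq_or F ((fr.bc F).π a) with h | h <;> rw [h] at h1 h2 ⊢
  · rw [one_smul] at h1 ⊢
    exact comm_ev h1 _
  · rw [neg_one_smul] at h1 h2 ⊢
    exact (comm_od h2 h1).symm

theorem evC_mul_dg [DecidableEq σ] (i : σ) (n n' : ν) (c : F ⊗[ℂ] C) :
    inF _ (τ.evC D n c) * τ.dg D χ i n n' = inF _ (τ.evC D n' c) * τ.dg D χ i n n' := by
  rw [dg_eq, ← mulF_apply, ← mulF_apply (inF _ _), map_sum, map_sum]
  refine Eq.trans (Finset.sum_congr rfl fun a _ => ?_) ((sum_ef_adj (fr.bc F)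
    (τ.ev2 D n n' ∘ₗ (ac.bc F).act (eu χ i)) ((ac.bc F).adj c)).trans
      (Finset.sum_congr rfl fun a _ => ?_))
  · rw [mulF_apply, ← mulF_assoc, ← evH_act, ← Module.End.mul_apply, ← map_mul, mul_comm c, map_mul]
    rfl
  · rw [mulF_apply, ← mulF_assoc, inF_comm, mulF_assoc, ← evH_act]
    rfl

end Md

end Vale.Agent.P269.LG
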