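import Vale.Agent.P269.Fock.Split

/-! Lists of insertions at marked points. -/

namespace Vale.Agent.P269.LG

open Fock

variable {K V ν : Type} [CommRing K] [AddCommGroup V] [Module K V]

/-- the list enumerates the marked points -/
def Enum {α : Type} (L : List (ν × α)) : Prop :=
  (L.map Prod.fst).Nodup ∧ ∀ n, n ∈ L.map Prod.fst

/-- the monomial of a list of insertions -/
noncomputable def mon (p : Par K V) (L : List (ν × V)) : S p := (L.map fun x => ι p x.2).prod

/-- multilinear supersymmetric functions of lists of insertions -/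
structure SW (p : Par K V) (W : List (ν × V) → K) : Prop where
  add : ∀ L₁ n v w L₂, W (L₁ ++ (n, v + w) :: L₂) = W (L₁ ++ (n, v) :: L₂) + W (L₁ ++ (n, w) :: L₂)
  smul : ∀ L₁ n (c : K) v L₂, W (L₁ ++ (n, c • v) :: L₂) = c * W (L₁ ++ (n, v) :: L₂)
  ev : ∀ L₁ x y L₂, p.σ y.2 = y.2 → W (L₁ ++ x :: y :: L₂) = W (L₁ ++ y :: x :: L₂)
  od : ∀ L₁ x y L₂, p.σ x.2 = -x.2 → p.σ y.2 = -y.2 →
    W (L₁ ++ x :: y :: L₂) = -W (L₁ ++ y :: x :: L₂)

end Vale.Agent.P269.LG
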