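import Vale.Agent.P269.LG.HNM

/-! Normalisation of a node in localisation. -/

set_option linter.unusedSectionVars false
set_option linter.style.haveILetI false

namespace Vale.Agent.P269.LG

open Set Function Topology Filter TensorProduct B Vale.Agent.P291Z Vale.Agent.P269.Ch
  Vale.Agent.P269.Loc

variable {V : Type} [AddCommGroup V] [Module ℂ V] {p : Fock.Par ℂ V} {ι : Type} [Fintype ι]
  {fr : Fock.Frame p ι} {C : Type} [CommRing C] [Algebra ℂ C] {R J K σ ν : Type} [Fintype R]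
  [Fintype J] [Fintype K] [Fintype σ] [Fintype ν] [DecidableEq R] [DecidableEq σ]
  {P : PB R J K σ} {K₀ : Set K} {k D : ℕ} {g : ℤ} {d : Option R → ℤ} {a : σ → ℂ}
  {τ : Md P P.X ν (g + 1) d} {τ' : Md P P.X (ν ⊕ Unit × Bool) g d} (G : Geo k D a τ)
  (G' : Geo k D a τ') (hP : P.Ok K₀ k D) {O : Set ((P.ch ν k D (g + 1) d).WF ν (Fin 0) Empty)}
  {N : ℕ} (h : P.Al ν k D g d K₀ O N)

theorem TC.exists_cl {A B W T : Type} [NormedRing A] [NormedAlgebra ℂ A] [NormedRing B]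
    [NormedAlgebra ℂ B] [NormedAddCommGroup W] [NormedSpace ℂ W] [AddCommGroup T] [Module ℂ T]
    [TopologicalSpace T] [FiniteDimensional ℂ A] [FiniteDimensional ℂ B] [FiniteDimensional ℂ W]
    {act₀ : A → W → W} {act : B → W → W} {Dk : KD B W T} {Z : Set W} [IsTopologicalAddGroup T]
    [ContinuousSMul ℂ T] [T2Space T] (c : TC σ act₀ act Dk Z) {z : c.F} {t : c.Y.T}
    (e : c.g z = c.Y.π t) : ∃ h, z = c.cl (c.Y.ι t) h := by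
  obtain ⟨x, hx, rfl⟩ := c.cl_surj z
  obtain ⟨g, rfl⟩ := (c.Y.fib _ _).1 e
  exact ⟨c.ivt_FZ _ (Units.isUnit g) x hx, c.cl_eq.2 ⟨g, rfl⟩⟩

section pw

variable {Ψ₀ Φ₀} (N₀ : (P.E ∅).GNc (ν := ν) (k := k) (D := D) (g := g + 1) (g' := g) (d := d) Ψ₀ Φ₀)
include N₀

theorem Geo.g0_φL (z : h.tl.F) : G.g0 (G.φL hP h z) = Ψ₀ (h.tl.g₀ z) := by
  obtain ⟨x, hx, rfl⟩ := h.tl.cl_surj z
  obtain ⟨_, e⟩ := N₀.fst ⟨x, hx.1⟩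
  exact (G.g₀_φ hP h.toAm _).symm.trans
    ((congrArg h.tc.g₀ ((G.φ hP h.toAm).apply_symm_apply _)).trans e.symm)

theorem Geo.pt0 (z : h.tl.F) : ∃ m n, ∃ b : m.Nds n, τ.Rp (G.φL hP h z) m ∧
    (P.E ∅).At (Φ₀ (h.tl.g₀ z)) (ctp m b) :=
  let ⟨m, n, b, c, e⟩ := N₀.pt' hP.goodE.toInv hP.big hP.bigD rfl (h.tl.g₀ z)
  ⟨m, n, b, (G.rp _ _).2 ((G.g0_φL hP h N₀ z).symm ▸ c), e⟩

include G hP in
theorem Geo.exists_φ' : ∃ φ' : C(h.tl.F, τ'.A), ∀ z, G'.g0 (φ' z) = Φ₀ (h.tl.g₀ z) := by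
  choose f hf using fun z => let ⟨_, _, b, c, e⟩ := G.pt0 hP h N₀ z
    (G'.mem_range_g0 hP e).2 ((τ.fx c).ctp b)
  exact ⟨⟨f, G'.emb.isEmbedding.continuous_iff.2
    ((Φ₀.continuous.comp h.tl.g₀.continuous).congr fun x => (hf x).symm)⟩, hf⟩

variable {φ' : C(h.tl.F, τ'.A)} (hφ : ∀ z, G'.g0 (φ' z) = Φ₀ (h.tl.g₀ z))
include hφ

theorem Geo.pt1 (z : h.tl.F) : ∃ m n, ∃ b : m.Nds n, τ.Rp (G.φL hP h z) m ∧ τ'.Rp (φ' z) (ctp m b) :=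
  let ⟨m, n, b, c, e⟩ := G.pt0 hP h N₀ z
  ⟨m, n, b, c, (G'.rp _ _).2 ((hφ z).symm ▸ e)⟩

theorem Geo.all1 (z : τ.A) (m n) (b : m.Nds n) (r : τ.Rp z m) :
    ∃ z', G.φL hP h z' = z ∧ τ'.Rp (φ' z') (ctp m b) := by
  obtain ⟨y, e, c⟩ := N₀.all hP.goodE.toInv (PB.abs hP.abs) hP.big hP.bigD rfl ((G.rp _ _).1 r) b
  obtain ⟨x, rfl⟩ := Quot.exists_rep y
  obtain ⟨_, f⟩ := N₀.fst x
  have hx := h.mem_FZ hP N₀ x.2 (h.toAm.mem_FZ_of ((G.g₀_φ hP h.toAm z).trans (e.symm.trans f)))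
  exact ⟨h.tl.cl _ hx, G.emb.injective ((G.g0_φL hP h N₀ _).trans e),
    (G'.rp _ _).2 ((hφ _).symm ▸ c)⟩

theorem Geo.cnt1 (Q) (hQ : Inv P Q) (z t n) (e : G.gY hP h.toAm z = h.tc.Y.π t)
    (c : Loc.Cnt h.mp.mor {t' | h.tl.Y.π t' ∈ h.tl.g '' (φ' ⁻¹' τ'.sel Q)} t n) :
    (n : ℂ) = τ.cf (cntN · Q) z := by
  obtain ⟨hx, e⟩ := h.tc.exists_cl e
  obtain ⟨m, r⟩ := (Fam.chart_lat (F := P.E ∅) hP.bigD).exists_rep_sol hx.1.1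
  obtain ⟨w, w1, w2⟩ := Fam.exists_lbls (g' := g) hP.goodE.toInv (PB.abs hP.abs) hP.big hP.bigD rfl
    hx.1.1 r
  have w3 : ∀ v, w v ∈ h.tl.FZ := fun v => h.mem_FZ hP N₀ (w1 v).1 ((w1 v).2.1.symm ▸ hx)
  have w4 : ∀ v, φ' (h.tl.cl _ (w3 v)) ∈ τ'.sel Q ↔ Q (ctp m v.2) := fun v => τ'.mem_sel hQ
    ((G'.rp _ _).2 ((hφ _).symm ▸ N₀.rep ⟨_, (w1 v).1⟩ _ (w1 v).2.2))
  have : Finite {n | ∃ b : m.Nds n, Q (ctp m b)} := (GPts.finite_nds m).subset fun _ b => b.1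
  rw [τ.cf_eq (inv_cntN hQ) ((G.rp_iff hP h.toAm).2 ⟨_, hx, e, r⟩)]
  refine congrArg Nat.cast ((c.unique (.of_finite (I := {n | ∃ b : m.Nds n, Q (ctp m b)})
    (fun v => h.tl.pt _ (h.tl.FZ_sub_O (w3 ⟨v.1, v.2.1⟩))) (fun v => ⟨⟨_, (w4 _).2 v.2.2, rfl⟩,
      h.tc.Y.emb.injective (w1 _).2.1⟩) fun t' ⟨y, a, b⟩ f => ?_)).trans (Nat.card_coe_set_eq _))
  obtain ⟨hy, rfl⟩ := h.tl.exists_cl b
  obtain ⟨v, ⟨s, s1, s2, s3⟩, u⟩ := w2 _ hy.1 (congrArg h.tc.Y.ι f)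
  exact ⟨⟨v.1, v.2, (w4 v).1 ((h.tl.cl_eq.2 ⟨s1.unit, s3⟩ : h.tl.cl _ (w3 v) = h.tl.cl _ hy).symm ▸ a)⟩,
    ⟨s1.unit, Units.ext s2, h.tl.Y.emb.injective s3⟩, fun v' ⟨γ, a, b⟩ => Subtype.ext (congrArg
      Subtype.val (u ⟨v'.1, v'.2.1⟩ ⟨_, Units.isUnit γ, congrArg Units.val a, congrArg h.tl.Y.ι b⟩) :)⟩

theorem Geo.pw {Ψ Φ} (hN : ∀ M, (P.EM ∅ M).GNc (Ψ M) (Φ M)) : G.Pw G' hP h Ψ Φ φ' where
  inj _ _ e := h.tl.isClosedEmbedding_g₀.injective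
    (N₀.inj ((hφ _).symm.trans ((congrArg G'.g0 e).trans (hφ _))))
  pt := G.pt1 G' hP h N₀ hφ
  all := G.all1 G' hP h N₀ hφ
  ev n := ContinuousMap.ext fun z =>
    let ⟨_, _, _, c, e⟩ := G.pt1 G' hP h N₀ hφ z
    let ⟨_, c⟩ := G.ev n _ _ c
    let ⟨_, e⟩ := G'.ev (.inl n) _ _ e
    c.trans e.symm
  node := ContinuousMap.ext fun z =>
    let ⟨_, _, b, c, e⟩ := G.pt1 G' hP h N₀ hφ z
    let ⟨u, f⟩ := G'.ev (qq false) _ _ e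
    let ⟨u', f'⟩ := G'.ev (qq true) _ _ e
    f.trans ((congrArg _ (Subtype.ext (a1 := ⟨_, u⟩) (a2 := ⟨_, u'⟩) (Prod.ext rfl (funext fun j =>
      ((AM.sol_cut b).1 (τ.fx c).sol).2 (.inl j) ())))).trans f'.symm)
  cnt := G.cnt1 G' hP h N₀ hφ
  sq M := G'.sq hP h N₀ (hN M) hφ
  rng M := G'.rng hP h N₀ (hN M)
  sq' M := G.sq' hP h (hN M)

end pw

include G G' hP in
theorem Geo.hN (hG : St.GNc) (ha : LinearIndependent ℚ a) {ac : Act fr C} (E : Dic ac P.X)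
    (hint : ∀ x, E.int x = P.F.intX _ x) {c : σ → C}
    (hc : ∀ l, (E.jC (c l)).1 = P.F.lc _ 0 (P.wL l)) {χ : σ → F ⊗[ℂ] C}
    (hχ : ∀ l, χ l = (a l • tt) ⊗ₜ 1 + 1 ⊗ₜ c l) :
    ∃ (A : Type) (_ : TopologicalSpace A) (_ : Nice A) (_ : CompactSpace A) (φ : C(A, _))
      (φ' : C(A, _)), Nod E χ τ τ' φ φ' := by
  obtain ⟨Ψ₀, Φ₀, N₀⟩ := hP.gnc (ν := ν) (g := g) (d := d) hG hP.goodE PB.sm_E
    (inferInstanceAs (CompactSpace (Quot _)))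
  choose Ψ Φ hN using hP.gnc_EM (ν := ν) (g := g) (d := d) hG
  obtain ⟨O, N, h⟩ := hP.exists_al N₀.cpt
  obtain ⟨φ', e⟩ := G.exists_φ' G' hP h N₀
  exact ⟨_, _, inferInstance, inferInstance, _, φ',
    (G.pw G' hP h N₀ e hN).nod G G' hP h hN ha E hint hc hχ⟩

/-- **normalisation of a node** -/
theorem GeoT.hN {r : ℕ} {P : PB R J K (Fin (r + 1))} {ac : Act fr (Hev P.X)} {E : Dic ac P.X}
    {w c i₀ iP} {T : Th P P.X} (G : GeoT k D w T) (hC : Cx P k E w c i₀ iP)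
    (hD : (P.E ∅).BigD k D) (hG : St.GNc) : HN T E (chi w c) := fun ν _ _ g d e =>
  e ▸ (G ν (g + 1) d).hN (G _ g d) (hC.ok hD) hG hC.li E hC.int
    (fun l => (congrArg _ (hC.jC _)).trans (hC.lc l)) fun _ => rfl

end Vale.Agent.P269.LG
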