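import Vale.Agent.P269.LG.KunD
import Vale.Agent.P269.LG.Kun

/-! The approximations of the classifying space of the torus: fundamental class, relations, the
class of the diagonal. -/

set_option linter.unusedSectionVars false

namespace Vale.Agent.P269.LG

open Set Function Topology Filter MvPolynomial TensorProduct Vale.Agent.P291Z Vale.Agent.P269.Ch
  Vale.Agent.P269.Orb Vale.Agent.P269.Loc

variable {σ : Type} [Fintype σ] {A A' A₁ A₂ : Type} [TopologicalSpace A] [Nice A] [CompactSpace A]
  [TopologicalSpace A'] [Nice A'] [CompactSpace A'] [TopologicalSpace A₁] [Nice A₁]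
  [CompactSpace A₁] [TopologicalSpace A₂] [Nice A₂] [CompactSpace A₂]

namespace KunA

/-- the trivial action on the zero space -/
@[reducible] def act0 : DistribMulAction PUnit.{1} (Fin 0 → ℂ) where
  smul _ v := v
  one_smul _ := rfl
  mul_smul _ _ _ := rfl
  smul_zero _ := rfl
  smul_add _ _ _ := rfl

/-- the point as a complex orbifold -/
noncomputable def ptH : HO where
  toSp := pt
  L := Fin 0 → ℂ
  A := Fin 0 → ℂ
  aA := act0
  cA := @SMulCommClass.mk _ _ _ act0.toSMul _ fun _ _ _ => rfl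
  tA := @ContinuousSMul.mk _ _ act0.toSMul _ _ continuous_snd
  κ _ := 1
  ι _ := 0
  n := 0
  exp := @Holo.IsExp.discrete PUnit.{1} _ _ _
  an _ := analyticAt_snd
  emb := IsEmbedding.of_subsingleton _
  eqv _ _ := rfl
  mfd t := (Holo.IsMfd.of_lh (IsOpenEmbedding.lh
    ⟨IsEmbedding.of_subsingleton _, isOpen_discrete _⟩ t)).1

/-- the trivial action on the point -/
noncomputable def ptT (σ : Type) [Fintype σ] : TH σ ptH where
  toTS := TS.triv σ pt
  b := 1
  wtd := Subsingleton.elim (α := Submodule ℂ (Fin 0 → ℂ)) _ _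
  bcomm _ _ _ := rfl
  eqv _ _ := rfl

theorem ev_fund : ev ptH.fund 1 ≠ 0 := by
  obtain ⟨a, h1, h2⟩ := ptH.ori.gen ()
  have h3 : IsDeg 0 a := h1.deg
  rw [h3.eq_fn] at h2
  generalize (fun x : ptH.X => _) = f at h2
  have : CompactSpace ptH.X := inferInstanceAs (CompactSpace Unit)
  rw [show f = fun _ => f () from rfl, fn_const, ev_smul _ _ one_mem_Zc] at h2
  exact right_ne_zero_of_mul h2

theorem lam_monomial {M : ℕ} {k : σ →₀ ℕ} (h : ¬k ≤ topM σ M) (c : ℂ) :
    lam M (monomial k c) = 0 := by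
  obtain ⟨i, hi⟩ := not_forall.1 h
  have h2 : Finsupp.single i (M + 1) ≤ k := Finsupp.single_le_iff.2 (not_le.1 hi)
  rw [← add_tsub_cancel_of_le h2, ← one_mul c, ← monomial_mul, ← X_pow_eq_monomial, map_mul, lam,
    TS.e_X_pow, zero_mul]

theorem lam_zero {M : ℕ} {f : R σ} (h : ∀ k ≤ topM σ M, coeff k f = 0) : lam M f = 0 := by
  rw [f.as_sum, map_sum]
  exact Finset.sum_eq_zero fun k hk => lam_monomial (fun h' => mem_support_iff.1 hk (h k h')) _

theorem coeff_top {M : ℕ} {k l : σ →₀ ℕ} (h : k + l = topM σ M) (f : R σ) :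
    coeff (topM σ M) (monomial l 1 * f) = coeff k f := by
  rw [← h, add_comm, coeff_monomial_mul, one_mul]

open Classical in
/-- the expansion in the monomial basis -/
theorem lam_sum (M : ℕ) (f : R σ) : lam M f =
    ∑ q ∈ Finset.HasAntidiagonal.antidiagonal (topM σ M),
      coeff (topM σ M) (monomial q.2 1 * f) • lam M (monomial q.1 1) := by
  simp only [← map_smul (lam M), ← map_sum]
  rw [← sub_eq_zero, ← map_sub]
  refine lam_zero fun k hk => ?_
  rw [coeff_sub, coeff_sum, Finset.sum_eq_single (k, topM σ M - k), coeff_smul,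
    coeff_top (add_tsub_cancel_of_le hk), coeff_monomial, if_pos rfl, smul_eq_mul, mul_one, sub_self]
  · intro q hq h
    rw [coeff_smul, coeff_monomial, if_neg, smul_zero]
    rintro rfl
    exact h (Prod.ext rfl (eq_tsub_of_add_eq ((add_comm _ _).trans (Finset.HasAntidiagonal.mem_antidiagonal.1 hq))))
  · exact fun h => absurd (Finset.HasAntidiagonal.mem_antidiagonal.2 (add_tsub_cancel_of_le hk)) h

theorem intg_cross {X Y : Type} [TopologicalSpace X] [TopologicalSpace Y] [Nice X] [Nice Y]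
    [CompactSpace X] [CompactSpace Y] (β : BM X) (γ : BM Y) {d : ℤ} {a : H X}
    (ha : H.IsDeg (2 * d) a) (b : H Y) : intg (cross Prod.fst Prod.snd β γ)
      (H.map ContinuousMap.fst a * H.map ContinuousMap.snd b) = intg β a * intg γ b := by
  have hp : IsHomeomorph fun x : X × Y => (x.1, x.2) := IsHomeomorph.id
  have h1 := cap_cross (p₁ := ContinuousMap.fst) (p₂ := ContinuousMap.snd) hp ha b β γ
  have h2 := cross_spec hp (cap a β) (cap b γ) 1 one_mem_Zc 1 one_mem_Zc
  rw [map_one, map_one, mul_one] at h2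
  rw [intg_eq, intg_eq, intg_eq, ← h2]
  exact congrArg (ev · 1) h1

/-- products of polynomial classes -/
noncomputable def uu (M : ℕ) (f g : R σ) : H (Bs σ M × Bs σ M) :=
  H.map ContinuousMap.fst (lam M f) * H.map ContinuousMap.snd (lam M g)

theorem uu_mul (M : ℕ) (f g f' g' : R σ) : uu M f g * uu M f' g' = uu M (f * f') (g * g') := by
  rw [uu, uu, uu, map_mul, map_mul, map_mul, map_mul, mul_assoc, mul_assoc,
    ← mul_assoc (H.map _ (lam M g)), Hev.commute (map_mem_Hev _ (lam_mem M g)), mul_assoc]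

theorem intg_uu {M : ℕ} (φ : BM (Bs σ M)) (f g : R σ) :
    intg (cross Prod.fst Prod.snd φ φ) (uu M f g) = intg φ (lam M f) * intg φ (lam M g) := by
  induction f using MvPolynomial.induction_on' with
  | monomial k c =>
    exact intg_cross φ φ ((TS.triv σ pt).e_deg M (isHomogeneous_monomial c rfl)) _
  | add p p' h1 h2 =>
    rw [map_add, map_add, add_mul, ← h1, ← h2, uu, map_add, map_add, add_mul, map_add, uu, uu]

end KunA

open KunA

theorem exists_fB (M : ℕ) : ∃ φ : BM (Bs σ M), Ori (2 * (Fintype.card σ * M : ℕ)) φ ∧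
    ∀ f, intg φ (lam M f) = coeff (topM σ M) f := by
  obtain ⟨pr, -, h2, h3⟩ := (ptT σ).toTS.exists_pr fun _ _ => rfl
  have : CompactSpace ptH.X := inferInstanceAs (CompactSpace Unit)
  refine ⟨(ev ptH.fund 1)⁻¹ • (ptT σ).fundB M, ?_, fun f => ?_⟩
  · have := ((ptT σ).oriB M).smul (inv_ne_zero ev_fund)
    rwa [show ptH.n = 0 from rfl, zero_add] at this
  · have h4 := congrArg (ev · 1) (h3 _ _ (ptT σ).isBM_fund ptH.ori.top M f)
    simp only [ev_push (h2 M) _ one_mem_Zc, map_one, smul_ev, (ptT σ).res_base] at h4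
    refine (intg_eq _ _).trans ((congrArg (ev · 1) (map_smul _ _ _)).trans ((smul_ev _ _ _).trans ?_))
    exact (congrArg _ h4).trans (by rw [mul_left_comm, inv_mul_cancel₀ ev_fund, mul_one])

theorem lam_surj (M : ℕ) : Surjective (lam (σ := σ) M) := fun c => by
  obtain ⟨a, rfl⟩ := (isBasis_lam (σ := σ) M).2 c
  exact ⟨_, Finsupp.apply_linearCombination ℂ (lam M).toLinearMap _ a⟩

theorem lam_eq_zero {M : ℕ} {f : R σ} : lam M f = 0 ↔ ∀ k ≤ topM σ M, coeff k f = 0 := by
  refine ⟨fun h k hk => ?_, lam_zero⟩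
  obtain ⟨φ, -, hφ⟩ := exists_fB (σ := σ) M
  rw [← coeff_top (add_tsub_cancel_of_le hk), ← hφ, map_mul, h, mul_zero, map_zero]

theorem evA_inj {x y : R σ ⊗[ℂ] H A} (h : ∀ M, evA A M x = evA A M y) : x = y := evA_ext h

theorem inH_inj : Injective (inH (σ := σ) A) :=
  Module.Flat.lTensor_preserves_injective_linearMap (M := R σ) (Hev A).val.toLinearMap
    Subtype.val_injective

theorem hcls_eq_dgB {M : ℕ} {φ : BM (Bs σ M)} (hφ : ∀ f, intg φ (lam M f) = coeff (topM σ M) f)
    {d : ℕ} {θ : Coch (Bs σ M × Bs σ M)} (hθ : IsCo (range fun b => (b, b)) d θ)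
    (e : gys (fun b => (b, b)) θ (cross Prod.fst Prod.snd φ φ) = φ) : hcls θ = dgB σ M := by
  classical
  have key : ∀ c : H (Bs σ M × Bs σ M), c =
      ∑ q ∈ Finset.HasAntidiagonal.antidiagonal (topM σ M),
        ∑ r ∈ Finset.HasAntidiagonal.antidiagonal (topM σ M),
          intg (cross Prod.fst Prod.snd φ φ) (uu M (monomial q.2 1) (monomial r.2 1) * c) •
            uu M (monomial q.1 1) (monomial r.1 1) := fun c => by
    obtain ⟨x, rfl⟩ := evA_surj (A := Bs σ M) M c
    induction x with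
    | zero => simp only [map_zero, mul_zero, zero_smul, Finset.sum_const_zero]
    | add a b ha hb =>
      simp only [map_add, mul_add, add_smul, Finset.sum_add_distrib]
      rw [← ha, ← hb]
    | tmul g c =>
      obtain ⟨f, rfl⟩ := lam_surj M c
      have h1 : evA (Bs σ M) M (g ⊗ₜ lam M f) = uu M f g :=
        Hev.commute (map_mem_Hev _ (lam_mem M g)) _
      simp only [h1, uu_mul, intg_uu, hφ]
      rw [uu, lam_sum M f, lam_sum M g, map_sum, map_sum, Finset.sum_mul_sum]
      simp only [H.map_smulC, smul_mul_smul_comm, uu]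
  have hd : IsClosedEmbedding fun b : Bs σ M => (b, b) :=
    (continuous_id.prodMk continuous_id).isClosedEmbedding fun _ _ h => congrArg Prod.fst h
  have h2 : ∀ f g, intg (cross Prod.fst Prod.snd φ φ) (uu M f g * hcls θ) =
      coeff (topM σ M) (f * g) := fun f g => by
    rw [← intg_cap, ← push_gys_eq_cap hd hθ.cocycle hθ.supp, e, ← hφ]
    refine (intg_push ⟨_, hd.continuous⟩ φ _).trans (congrArg _ ?_)
    rw [uu, map_mul, map_mul, H.map_map, H.map_map]
    exact congrArg₂ _ (H.map_id (fun _ => rfl) _) (H.map_id (fun _ => rfl) _)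
  rw [key (hcls θ), dgB]
  refine Finset.sum_congr rfl fun q hq => ?_
  have hq := Finset.HasAntidiagonal.mem_antidiagonal.1 hq
  rw [Finset.sum_eq_single q.swap, h2, coeff_top hq, Prod.snd_swap, coeff_monomial, if_pos rfl,
    one_smul]
  · rfl
  · intro r hr h
    rw [h2, coeff_top hq, coeff_monomial, if_neg, zero_smul]
    intro h'
    have hr := Finset.HasAntidiagonal.mem_antidiagonal.1 hr
    rw [h', ← hq, add_comm] at hr
    exact h (Prod.ext (add_left_cancel hr) h')
  · exact fun h => absurd (Finset.HasAntidiagonal.mem_antidiagonal.2 ((add_comm _ _).trans hq)) h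

end Vale.Agent.P269.LG
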