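import Vale.Agent.P269.LG.LT
import Vale.Agent.P269.LG.Ops0
import Vale.Agent.P269.Cv.P1
import Vale.Agent.P269.Pt.Split
import Vale.Agent.P269.Pt.Cmp
import Vale.Agent.P269.Pt.Glue

/-! Edges and vertices under embeddings, isomorphisms and relabelling. -/

set_option linter.unusedSectionVars false

namespace Vale.Agent.P269.LG

open Set Function Topology Filter Cv B

variable {R J K σ ν ν' ν₁ ν₂ : Type} [Fintype R] [Fintype J] [Fintype K] [Fintype σ] [Fintype ν]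
  [Fintype ν'] [Fintype ν₁] [Fintype ν₂] {P : PB R J K σ} {m m' : AM0 R J σ ν} {e : Edge σ}
  {a b z : m.X} {i : σ} {s t : En ν} {g g₁ g₂ : ℤ} {d d₁ d₂ : Option R → ℤ} {k : ℕ}
  {β : σ → R → ℤ} {T : Set σ} {Q Q' : AM0 R J σ ν → Prop}

theorem En.map_id (s : En ν) : s.map id = s := by cases s <;> rfl

/-- `m₁` has the combinatorics of a union of components of `m` -/
structure Tr (m₁ : AM0 R J σ ν₁) (m : AM0 R J σ ν) (f : ν₁ → ν) (j : m₁.X → m.X) : Prop where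
  liso : LIso m₁.R m.R j
  inj : Injective j
  node : ∀ x z, Jn m.N (j x) z ↔ ∃ y, Jn m₁.N x y ∧ z = j y
  mark : ∀ n, j (m₁.p (.inl n)) = m.p (.inl (f n))
  all : ∀ n x, m.p (.inl n) = j x → ∃ n', n = f n'
  L : ∀ r U, IsClopen U → degOn (m.L r) (j '' U) = degOn (m₁.L r) U
  y : ∀ l x, m.y (.inr l) (j x) = 0 ↔ m₁.y (.inr l) x = 0

theorem clopen_cc (m : AM0 R J σ ν) (z : m.X) : IsClopen (connectedComponent z) :=
  (exists_comp (R := m.R) z).1

theorem clopen_Vx (m : AM0 R J σ ν) (i : σ) : IsClopen (Vx m i) := by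
  have h : ∀ z z' : m.X, z' ∈ connectedComponent z → (z' ∈ Vx m i ↔ z ∈ Vx m i) :=
    fun z z' h => by rw [Vx, mem_ofPred, mem_ofPred, connectedComponent_eq h]
  refine ⟨⟨isOpen_iff_mem_nhds.2 fun z hz => ?_⟩, isOpen_iff_mem_nhds.2 fun z hz => ?_⟩
  · exact mem_of_superset ((clopen_cc m z).isOpen.mem_nhds mem_connectedComponent)
      fun z' hz' a => hz ((h z z' hz').1 a)
  · exact mem_of_superset ((clopen_cc m z).isOpen.mem_nhds mem_connectedComponent)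
      fun z' hz' => (h z z' hz').2 hz

theorem exists_p_iff : (∃ n, m.p n = z) ↔ ∃ n, m.p (.inl n) = z :=
  ⟨fun ⟨n, h⟩ => by
    rcases n with n | ⟨q, -⟩
    exacts [⟨n, h⟩, q.elim0], fun ⟨n, h⟩ => ⟨_, h⟩⟩

namespace Tr

variable {m₁ : AM0 R J σ ν₁} {f : ν₁ → ν} {j : m₁.X → m.X} (h : Tr m₁ m f j) {x y : m₁.X}
include h

theorem cc (x : m₁.X) : connectedComponent (j x) = j '' connectedComponent x :=
  ((h.liso.isClopen_image (clopen_cc m₁ x)).connectedComponent_subset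
    (mem_image_of_mem j mem_connectedComponent)).antisymm
    (h.liso.cont.image_connectedComponent_subset x)

theorem forall_cc {p : m.X → Prop} :
    (∀ z ∈ connectedComponent (j x), p z) ↔ ∀ z ∈ connectedComponent x, p (j z) := by
  rw [h.cc, forall_mem_image]

theorem mem_cc : j y ∈ connectedComponent (j x) ↔ y ∈ connectedComponent x := by
  rw [h.cc, h.inj.mem_set_image]

theorem ov : Ov m (j x) i ↔ Ov m₁ x i := forall₂_congr fun l _ => h.y l x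

theorem vx : j x ∈ Vx m i ↔ x ∈ Vx m₁ i := h.forall_cc.trans (forall₂_congr fun _ _ => h.ov)

theorem pre_vx : j ⁻¹' Vx m i = Vx m₁ i := Set.ext fun _ => h.vx

theorem sm : Sm m.N (j x) ↔ Sm m₁.N x := by
  simp only [sm_iff, h.node]
  exact ⟨fun a y b => a _ ⟨y, b, rfl⟩, fun a _ ⟨y, b, _⟩ => a y b⟩

theorem inj_f : Injective f := fun n n' a =>
  Sum.inl_injective (m₁.inj (h.inj (by rw [h.mark, h.mark, a])))

theorem p_eq {n : ν₁} : m.p (.inl (f n)) = j x ↔ m₁.p (.inl n) = x := by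
  rw [← h.mark, h.inj.eq_iff]

theorem spc : Spc m (j x) ↔ Spc m₁ x := by
  rw [Spc, Spc, exists_p_iff, exists_p_iff, h.sm]
  refine or_congr_left ⟨fun ⟨n, a⟩ => ?_, fun ⟨n, a⟩ => ⟨f n, h.p_eq.2 a⟩⟩
  obtain ⟨n, rfl⟩ := h.all n x a
  exact ⟨n, h.p_eq.1 a⟩

theorem cm (n : ν₁) : Cm m (f n) i ↔ Cm m₁ n i := by rw [Cm, ← h.mark, h.ov, Cm]

theorem rat : IsRat m.R (connectedComponent (j x)) ↔ IsRat m₁.R (connectedComponent x) := by
  have := h.liso.degOn_K h.inj (clopen_cc m₁ x)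
  rw [← h.cc] at this
  exact ⟨fun a => ⟨clopen_cc _ _, isConnected_connectedComponent, this.trans a.deg⟩,
    fun a => ⟨clopen_cc _ _, isConnected_connectedComponent, this.symm.trans a.deg⟩⟩

theorem deg_cc (r : Option R) :
    degOn (m.L r) (connectedComponent (j x)) = degOn (m₁.L r) (connectedComponent x) := by
  rw [h.cc, h.L r _ (clopen_cc m₁ x)]

theorem eg : Eg m e (j x) (j y) ↔ Eg m₁ e x y :=
  ⟨fun a => ⟨fun b => a.ne (congrArg j b), h.mem_cc.1 a.mem, h.rat.1 a.rat,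
      fun z hz b => by simpa only [h.inj.eq_iff] using a.spc _ (h.mem_cc.2 hz) (h.spc.2 b),
      fun z hz => by rw [← h.y, a.src _ (h.mem_cc.2 hz), h.inj.eq_iff],
      fun z hz => by rw [← h.y, a.tgt _ (h.mem_cc.2 hz), h.inj.eq_iff],
      fun z hz l b c => (h.y l z).1 (a.oth _ (h.mem_cc.2 hz) l b c),
      (h.deg_cc _).symm.trans a.deg, fun r => (h.deg_cc _).symm.trans (a.deg0 r)⟩,
    fun a => ⟨h.inj.ne a.ne, h.mem_cc.2 a.mem, h.rat.2 a.rat,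
      h.forall_cc.2 fun z hz b => by simpa only [h.inj.eq_iff] using a.spc _ hz (h.spc.1 b),
      h.forall_cc.2 fun z hz => by rw [h.y, a.src _ hz, h.inj.eq_iff],
      h.forall_cc.2 fun z hz => by rw [h.y, a.tgt _ hz, h.inj.eq_iff],
      h.forall_cc.2 fun z hz l b c => (h.y l z).2 (a.oth _ hz l b c),
      (h.deg_cc _).trans a.deg, fun r => (h.deg_cc _).trans (a.deg0 r)⟩⟩

theorem eg' (a : Eg m e (j x) b) : ∃ b', b = j b' := by
  obtain ⟨y, -, c⟩ := h.cc x ▸ a.mem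
  exact ⟨y, c.symm⟩

theorem fin {s : En ν₁} : End m (s.map f) (j x) ↔ End m₁ s x := by
  cases s
  exacts [h.sm.not, h.spc.not, h.p_eq]

theorem str_at : ((∃ i, j x ∈ Vx m i) ∨ ∃ e a b, Eg m e a b ∧ j x ∈ connectedComponent a) ↔
    (∃ i, x ∈ Vx m₁ i) ∨ ∃ e a b, Eg m₁ e a b ∧ x ∈ connectedComponent a := by
  refine or_congr (exists_congr fun _ => h.vx) (exists_congr fun e => ⟨fun ⟨a, b, c, d⟩ => ?_,
    fun ⟨a, b, c, d⟩ => ⟨j a, j b, h.eg.2 c, h.mem_cc.2 d⟩⟩)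
  obtain ⟨a, -, rfl⟩ : a ∈ j '' connectedComponent x := by
    rw [← h.cc, ← connectedComponent_eq d]
    exact mem_connectedComponent
  obtain ⟨b, rfl⟩ := h.eg' c
  exact ⟨a, b, h.eg.1 c, h.mem_cc.1 d⟩

theorem str (a : Str m) : Str m₁ := fun x => h.str_at.1 (a (j x))

theorem image_vx : j '' Vx m₁ i = Vx m i ∩ range j := by
  rw [← h.pre_vx, image_preimage_eq_inter_range]

theorem image_fl : Prod.map id (Prod.map j j) '' {x : Edge σ × m₁.X × m₁.X | Eg m₁ x.1 x.2.1 x.2.2} =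
    {x : Edge σ × m.X × m.X | Eg m x.1 x.2.1 x.2.2 ∧ x.2.1 ∈ range j} := by
  ext ⟨e, a, b⟩
  refine ⟨?_, ?_⟩
  · rintro ⟨⟨e', a', b'⟩, c, ⟨⟩⟩
    exact ⟨h.eg.2 c, a', rfl⟩
  · rintro ⟨c, a', rfl⟩
    obtain ⟨b', rfl⟩ := h.eg' c
    exact ⟨(e, a', b'), h.eg.1 c, rfl⟩

theorem ncard_fl :
    {x : Edge σ × m.X × m.X | Eg m x.1 x.2.1 x.2.2 ∧ x.2.1 ∈ range j}.ncard = nfl m₁ := by
  rw [← h.image_fl, ncard_image_of_injective _ (injective_id.prodMap (h.inj.prodMap h.inj)), nfl]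

section surj

variable (hj : Surjective j)
include hj

theorem image_vx' : j '' Vx m₁ i = Vx m i := by rw [h.image_vx, hj.range_eq, inter_univ]

theorem str_iff : Str m ↔ Str m₁ := hj.forall.trans (forall_congr' fun _ => h.str_at)

theorem vert : Vert m T ↔ Vert m₁ T :=
  hj.forall.trans (forall_congr' fun _ => exists_congr fun _ => and_congr_right fun _ => h.vx)

theorem edg {s t : En ν₁} : Edg m e (s.map f) (t.map f) ↔ Edg m₁ e s t := by
  refine hj.exists.trans (exists_congr fun a => hj.exists.trans (exists_congr fun b => ?_))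
  rw [h.eg, h.fin, h.fin, h.cc, ← hj.range_eq, ← image_univ, h.inj.image_injective.eq_iff]

theorem cnt_eq (s t : En ν₁) : cnt m e (s.map f) (t.map f) = cnt m₁ e s t := by
  rw [cnt, cnt, ← ncard_image_of_injective _ (h.inj.prodMap h.inj)]
  congr 1
  ext ⟨a, b⟩
  obtain ⟨a, rfl⟩ := hj a
  obtain ⟨b, rfl⟩ := hj b
  refine Iff.trans ?_ ((h.inj.prodMap h.inj).mem_set_image (a := (a, b))).symm
  exact and_congr h.eg (and_congr h.fin h.fin)

theorem nfl_eq : nfl m = nfl m₁ := by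
  rw [← h.ncard_fl, hj.range_eq, nfl]
  simp only [mem_univ, and_true]

theorem vdeg_eq : vdeg m = vdeg m₁ := funext₂ fun i r => by
  rw [vdeg, vdeg, ← h.image_vx' hj, h.L _ _ (clopen_Vx m₁ i)]

theorem vgen_eq : vgen m i = vgen m₁ i := by
  rw [vgen, vgen, ← h.image_vx' hj]
  exact AM.CmpP.degOn_omega h.liso h.inj h.node (clopen_Vx m₁ i)

end surj

end Tr

theorem tr_emb {m₁ : AM0 R J σ ν₁} {f : ν₁ → ν} {ψ : Fin 0 → Fin 0} {j : m₁.X → m.X}
    (h : AM.Emb m₁ m f ψ j) : Tr m₁ m f j :=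
  ⟨h.liso, h.inj, h.node, h.mark_inl, fun _ _ a => let ⟨n, b, _⟩ := h.eq_inl a.symm; ⟨n, b⟩,
    fun r _ hU => (h.degOn_L r hU).symm, fun l x => by rw [h.y]⟩

theorem tr_iso {e : m.X ≃ m'.X} {t τ} (h : AM.IsoD (P.E ∅).toWt univ m m' e t τ) : Tr m m' id e :=
  ⟨h.liso, e.injective, AM.CmpP.node h, fun _ => h.mark _, fun n _ _ => ⟨n, rfl⟩,
    fun r U _ => h.degOn_L r U, fun l x => by
      rw [h.y _ trivial]
      exact mul_eq_zero.trans (or_iff_right (mul_ne_zero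
        (prod_zpow_ne (isUnit_pi_iff.1 h.unit) _) (prod_zpow_ne (fun i => h.ne i x) _)))⟩

theorem tr_rl (m : AM0 R J σ ν) (φ : ν' ≃ ν) : Tr (rl m φ) m φ id :=
  ⟨LIso.id _, injective_id, fun _ _ => ⟨fun a => ⟨_, a, rfl⟩, fun ⟨_, a, b⟩ => b ▸ a⟩, fun _ => rfl,
    fun n _ _ => ⟨φ.symm n, (φ.apply_symm_apply n).symm⟩, fun r U _ => by rw [image_id],
    fun _ _ => Iff.rfl⟩

section inv

theorem Inv.and (h : Inv P Q) (h' : Inv P Q') : Inv P fun m => Q m ∧ Q' m :=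
  fun m m' e a => ⟨h m m' e a.1, h' m m' e a.2⟩

theorem Inv.not (h : Inv P Q) : Inv P fun m => ¬Q m := fun m m' e a b => a (h m' m e.symm b)

theorem Inv.iff (h : Inv P Q) (e : AM.Iso (P.E ∅).toWt univ m m') : Q m ↔ Q m' :=
  ⟨h m m' e, h m' m e.symm⟩

theorem inv_const (q : Prop) : Inv P fun _ : AM0 R J σ ν => q := fun _ _ _ a => a

open Classical in
theorem Inv.ite (h : Inv P Q) {f : AM0 R J σ ν → ℕ} (hf : ∀ k, Inv P (f · = k)) (k : ℕ) :
    Inv P fun m => (if Q m then f m else 0) = k := fun m m' e a => by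
  have b : f m' = f m := hf _ m m' e rfl
  simpa only [← h.iff e, b] using a

theorem inv_of_tr (h : ∀ (m m' : AM0 R J σ ν) j, Tr m m' id j → Surjective j → Q m → Q m') :
    Inv P Q := fun m m' e a =>
  let ⟨j, _, _, b⟩ := AM.iso_iff.1 e
  h m m' j (tr_iso b) j.surjective a

theorem inv_cm (n : ν) (i : σ) : Inv P (Cm · n i) := inv_of_tr fun _ _ _ h _ => (h.cm n).2

theorem inv_str : Inv P (Str : AM0 R J σ ν → Prop) := inv_of_tr fun _ _ _ h hj => (h.str_iff hj).2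

theorem inv_typ : Inv P fun m : AM0 R J σ ν => m.Typ g d := fun _ _ e a => e.typ a

theorem inv_fx (hP : (P.E ∅).Inv) : Inv P fun m : AM0 R J σ ν => Fx m P g d := fun m m' e a =>
  ⟨e.sol hP a.sol, e.stable a.stable, e.typ a.typ, inv_str m m' e a.str⟩

theorem inv_vert : Inv P fun m : AM0 R J σ ν => Vert m T := inv_of_tr fun _ _ _ h hj => (h.vert hj).2

theorem inv_edg : Inv P (Edg · e s t) := inv_of_tr fun _ _ _ h hj a => by
  simpa only [En.map_id] using (h.edg hj).2 a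

theorem inv_cnt (k : ℕ) : Inv P (cnt · e s t = k) := inv_of_tr fun _ _ _ h hj a => by
  simpa only [En.map_id] using (h.cnt_eq hj s t).trans a

theorem inv_nfl (k : ℕ) : Inv P fun m : AM0 R J σ ν => nfl m = k :=
  inv_of_tr fun _ _ _ h hj => (h.nfl_eq hj).trans

theorem inv_vdeg : Inv P fun m : AM0 R J σ ν => vdeg m = β :=
  inv_of_tr fun _ _ _ h hj => (h.vdeg_eq hj).trans

theorem inv_vgen (c : ℤ) : Inv P fun m : AM0 R J σ ν => vgen m i = c :=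
  inv_of_tr fun _ _ _ h hj => (h.vgen_eq hj).trans

theorem inv_pcs : Inv P (Pcs k β : AM0 R J σ ν → Prop) := (inv_nfl _).and inv_vdeg

theorem inv_cntN {Q : AM0 R J σ (ν ⊕ Unit × Bool) → Prop} (h : Inv P Q) (k : ℕ) :
    Inv P (cntN · Q = k) := fun m m' e a => by
  obtain ⟨j, t, τ, b⟩ := AM.iso_iff.1 e
  have c : ∀ n (hn : m.Nds n) (hn' : m'.Nds (j ∘ n)), Q (ctp m hn) ↔ Q (ctp m' hn') :=
    fun n hn hn' => h.iff ((b.cut hn hn' fun _ => rfl).re _ fun _ q => q.elim0).iso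
  refine Eq.trans ?_ a
  rw [cntN, cntN, ← ncard_image_of_injective _ j.injective.comp_left]
  congr 1
  ext n'
  obtain ⟨n, rfl⟩ := j.surjective.comp_left n'
  refine Iff.trans ?_ (j.injective.comp_left.mem_set_image (a := n)).symm
  refine ⟨fun ⟨hn', d⟩ => ?_, fun ⟨hn, d⟩ => ⟨b.nds hn, (c n hn _).1 d⟩⟩
  have hn : m.Nds n := ⟨hn'.inj.of_comp, fun q => (b.node _ _).2 (hn'.jn q)⟩
  exact ⟨hn, (c n hn hn').2 d⟩

theorem cntS_le (φ : ν₁ ⊕ ν₂ ≃ ν) {Q₁ : AM0 R J σ ν₁ → Prop} {Q₂ : AM0 R J σ ν₂ → Prop}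
    (h₁ : Inv P Q₁) (h₂ : Inv P Q₂) (e : AM.Iso (P.E ∅).toWt univ m m') :
    cntS m φ Q₁ Q₂ ≤ cntS m' φ Q₁ Q₂ := by
  obtain ⟨j, t, τ, b⟩ := AM.iso_iff.1 e
  refine ncard_le_ncard_of_injOn (j '' ·) ?_ j.injective.image_injective.injOn
    (m'.finite_clopen.subset fun _ ⟨_, _, _, _, c, d, _⟩ => d ▸ c.one.sat_range.1)
  rintro _ ⟨m₁, m₂, j₁, j₂, c, rfl, q₁, q₂⟩
  obtain ⟨m₁', m₂', j₁', j₂', c', d⟩ := AM.exists_split (b.sat.2 c.one.sat_range) φ e00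
    (fun n => ⟨_, ⟨_, c.one.mark n⟩, b.mark _⟩) fun n ⟨_, ⟨x, rfl⟩, hx⟩ =>
      c.ne x _ (j.injective (hx.trans (b.mark _).symm) |>.trans (c.two.mark n).symm)
  obtain ⟨e₁, -, a₁⟩ := c.one.isoD c'.one b d.symm
  obtain ⟨e₂, -, a₂⟩ := c.two.isoD c'.two b (by
    rw [c.compl.symm.eq_compl, c'.compl.symm.eq_compl, d, image_compl_eq j.bijective])
  exact ⟨m₁', m₂', j₁', j₂', c', d, h₁ _ _ a₁.iso q₁, h₂ _ _ a₂.iso q₂⟩

theorem inv_cntS (φ : ν₁ ⊕ ν₂ ≃ ν) {Q₁ : AM0 R J σ ν₁ → Prop} {Q₂ : AM0 R J σ ν₂ → Prop}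
    (h₁ : Inv P Q₁) (h₂ : Inv P Q₂) (k : ℕ) : Inv P (cntS · φ Q₁ Q₂ = k) := fun _ _ e a =>
  ((cntS_le φ h₁ h₂ e.symm).antisymm (cntS_le φ h₁ h₂ e)).trans a

end inv

section rl

variable (φ : ν' ≃ ν)

theorem cm_rl (n : ν') : Cm (rl m φ) n i ↔ Cm m (φ n) i := Iff.rfl

theorem eg_rl : Eg (rl m φ) e a b ↔ Eg m e a b := (tr_rl m φ).eg.symm

theorem cnt_rl (s t : En ν') : cnt (rl m φ) e s t = cnt m e (s.map φ) (t.map φ) :=
  ((tr_rl m φ).cnt_eq surjective_id s t).symm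

theorem edg_rl (s t : En ν') : Edg (rl m φ) e s t ↔ Edg m e (s.map φ) (t.map φ) :=
  ((tr_rl m φ).edg surjective_id).symm

theorem nfl_rl : nfl (rl m φ) = nfl m := ((tr_rl m φ).nfl_eq surjective_id).symm

theorem vdeg_rl : vdeg (rl m φ) = vdeg m := rfl

theorem pcs_rl : Pcs k β (rl m φ) ↔ Pcs k β m := by rw [Pcs, Pcs, nfl_rl, vdeg_rl]

theorem vert_rl : Vert (rl m φ) T ↔ Vert m T := Iff.rfl

theorem str_rl : Str (rl m φ) ↔ Str m := ((tr_rl m φ).str_iff surjective_id).symm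

theorem fx_rl : Fx (rl m φ) P g d ↔ Fx m P g d :=
  ⟨fun a => ⟨a.sol, (AM.re_stable _).1 a.stable, a.typ, (str_rl φ).1 a.str⟩,
    fun a => ⟨a.sol, (AM.re_stable _).2 a.stable, a.typ, (str_rl φ).2 a.str⟩⟩

end rl

end Vale.Agent.P269.LG
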