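import Vale.Agent.P269.Bas.RelC
import Vale.Agent.P269.LG.KunA
import Vale.Agent.P269.LG.OpsA

/-! Relabelling of the fixed loci. -/

set_option linter.unusedSectionVars false
set_option maxSynthPendingDepth 3

namespace Vale.Agent.P269.LG

open Set Function Topology TensorProduct B Vale.Agent.P291Z Vale.Agent.P269.Ch Vale.Agent.P269.Loc

variable {R J K σ ν ν' : Type} [Fintype R] [Fintype J] [Fintype K] [Fintype σ] [Fintype ν]
  [Fintype ν'] [DecidableEq R] [DecidableEq σ] {P : PB R J K σ} {K₀ : Set K} {k D : ℕ} {a : σ → ℂ}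

theorem PB.Ok.good_EM0 (h : P.Ok K₀ k D) (M : ℕ) : (P.EM ∅ M).Good := by
  cases isEmpty_or_nonempty σ
  · have e : ∀ z, z ∉ (P.EM ∅ M).cone := fun z hz =>
      let ⟨i, _⟩ := ((PB.mem_cone h.B h.abs).1 hz).2.2.1; isEmptyElim i
    exact ⟨PB.inv_fam h.good.toInv h.goodE.toInv (isOpen_PMs M).isLocallyClosed
      fun _ _ _ _ i => isEmptyElim i, fun k => (PB.tdeg_G k).trans_ne (h.goodE.deg k),
      fun _ _ _ _ _ => funext isEmptyElim, fun _ _ _ _ _ _ _ _ _ _ => ⟨0, fun _ => isEmptyElim⟩,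
      fun _ _ z hz => (e z hz).elim, fun _ z _ _ hz => (e z hz).elim,
      fun _ _ _ => ⟨∅, empty_subset _, isCompact_empty, fun z hz => (e z hz).elim⟩,
      let ⟨_, _, a⟩ := h.goodE.ample; ⟨_, _, PB.ample a⟩, h.goodE.mov_ne⟩
  · exact h.good_EM empty_ne_univ M

theorem HR.inH_map {A A' : Type} [TopologicalSpace A] [TopologicalSpace A'] (f : C(A', A))
    (x : Loc.R σ ⊗[ℂ] Hev A) :
    inH A' (Algebra.TensorProduct.map (AlgHom.id ℂ _) (Hev.map f) x) = pb _ f (inH A x) := by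
  induction x with
  | zero => simp only [map_zero]
  | add a b ha hb => simp only [map_add, ha, hb]
  | tmul k c => rfl

theorem HR.bp_surj {M : ℕ} : Surjective (bp : PM σ M → Bs σ M) := fun b =>
  let ⟨x, e⟩ := ((TS.triv σ pt).B M).surj b
  ⟨x.2, e⟩

theorem Geo.hR {g : ℤ} {d : Option R → ℤ} {τ : Md P P.X ν g d} {τ' : Md P P.X ν' g d}
    (G : Geo k D a τ) (G' : Geo k D a τ') (h : P.Ok K₀ k D) (φ : ν' ≃ ν) :
    ∃ f : C(τ'.A, τ.A), (∀ x m, τ.Rp (f x) m → τ'.Rp x (rl m φ)) ∧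
      (∀ n, pbE f (τ.ψ (φ n)) = τ'.ψ n) ∧ (∀ n, (τ.ev (φ n)).comp f = τ'.ev n) ∧
      ∀ x, τ'.I (pb F f x) = τ.I x := by
  have := G.nice
  have := G'.nice
  obtain ⟨Φ₀, a₀, -⟩ := Fam.exists_rel (Fin 0) h.goodE (PB.reg h.B h.abs h.reg) PB.sm_E
    (PB.abs h.abs) h.big h.bigD g d φ
  choose Φ a₁ a₂ a₃ using fun M => Fam.exists_rel (Fin 0) (h.good_EM0 M) (PB.reg h.B h.abs h.reg)
    (PB.sm_EM M) (PB.abs h.abs) h.big_fam h.bigD_fam g d φ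
  have r : ∀ x, ∃ y, G.g0 y = Φ₀ (G'.g0 x) := fun x => by
    obtain ⟨m, hm⟩ := Fam.exists_at h.bigD (Φ₀ (G'.g0 x))
    obtain ⟨y, hy⟩ := τ.surj ((fx_rl φ).1 (τ'.fx ((G'.rp _ _).2 ((a₀ _ _).1 hm))))
    exact ⟨y, (((G.rp _ _).1 hy).eq_iff h.bigD hm).2 (.refl _)⟩
  choose f₀ hf using r
  let f : C(τ'.A, τ.A) := ⟨f₀, G.emb.isEmbedding.continuous_iff.2
    ((Φ₀.continuous.comp G'.g0.continuous).congr fun x => (hf x).symm)⟩
  have key : ∀ x m, τ.Rp (f x) m ↔ τ'.Rp x (rl m φ) := fun x m =>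
    (G.rp _ _).trans (((congrArg ((P.E ∅).At · m) (hf x)).to_iff.trans (a₀ _ _)).trans
      (G'.rp _ _).symm)
  have sj : Surjective f := fun y => by
    obtain ⟨m, hm⟩ := τ.ex y
    obtain ⟨x, hx⟩ := τ'.surj ((fx_rl φ).2 (τ.fx hm))
    exact ⟨x, τ.inj ((key _ _).2 hx) hm⟩
  have sq : ∀ M z, Φ M (G'.i M z) = G.i M (pr f M z) := fun M ⟨x, p⟩ => by
    obtain ⟨p, rfl⟩ := HR.bp_surj p
    obtain ⟨m, hm⟩ := τ.ex (f x)
    exact (((a₁ M _ (par (uncurry p.val) m)).2 (G'.pt M x p _ ((key _ _).1 hm))).eq_iff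
      h.bigD_fam (G.pt M _ p _ hm)).2 (.refl _)
  refine ⟨f, fun x m => (key x m).1, fun n => ?_, fun n => ContinuousMap.ext fun x => ?_,
    G'.loc.push_eq G.loc (fun M => .of_homeomorph (Φ M)) a₂ sq fun M y ⟨⟨z, p⟩, e⟩ => ?_⟩
  · obtain ⟨x, e₁, e₂⟩ := G.psi (φ n)
    obtain ⟨x', e₃, e₄⟩ := G'.psi n
    rw [← e₁, ← e₃, pbE_bc]
    refine congrArg _ (inH_inj (evA_ext fun M => ?_))
    rw [HR.inH_map, ← map_evA, ← e₂, ← e₄, ← a₃ M n, H.map_map, H.map_map]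
    exact congrArg (H.map · _) (ContinuousMap.ext fun z => (sq M z).symm)
  · obtain ⟨m, hm⟩ := τ.ex (f x)
    obtain ⟨_, e⟩ := G.ev (φ n) _ _ hm
    obtain ⟨_, e'⟩ := G'.ev n _ _ ((key _ _).1 hm)
    exact e.trans e'.symm
  · obtain ⟨x, rfl⟩ := sj z
    exact ⟨(x, p), (Φ M).injective ((sq M _).trans e)⟩

/-- **relabelling** -/
theorem GeoT.hR {T : Th P P.X} (G : GeoT k D a T) (h : P.Ok K₀ k D) : HR T :=
  fun ν ν' _ _ φ g d => (G ν g d).hR (G ν' g d) h φ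

end Vale.Agent.P269.LG
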