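import Vale.Agent.P269.LG.HSF
import Vale.Agent.P269.LG.HSP
import Vale.Agent.P269.LG.HSQ

/-! Disjoint unions of fixed maps. -/

set_option linter.unusedSectionVars false

namespace Vale.Agent.P269.LG

open Set B Vale.Agent.P291Z Vale.Agent.P269.Ch

variable {R J K σ : Type} [Fintype R] [Fintype J] [Fintype K] [Fintype σ] [DecidableEq R]
  [DecidableEq σ] {k D : ℕ}

theorem GeoT.hS0 {P : PB R J K σ} {K₀ : Set K} {a : σ → ℂ} {T : Th P P.X} (G : GeoT k D a T)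
    (h : P.Ok K₀ k D) : HS T := fun ν ν₁ ν₂ _ _ _ φ g g₁ g₂ d d₁ d₂ hg hd => by
  choose Y _ _ Φ Ψ hY using fun M => Fam.exists_dec0 (g := g) (g₁ := g₁) (g₂ := g₂) φ
    (h.good_EM0 M) (PB.reg h.B h.abs h.reg) (PB.sm_EM M) (PB.abs h.abs) h.big_fam h.bigD_fam
    (by omega) hd.symm
  obtain ⟨f, s, l⟩ := (G ν g d).exists_lft (G ν₁ g₁ d₁) (G ν₂ g₂ d₂) h hg hd hY
  obtain ⟨I, a, b⟩ := (G ν g d).hs_eq (G ν₁ g₁ d₁) (G ν₂ g₂ d₂) h hg hd hY l.Φ_s l.Ψ_s l.rΨ l.rΦ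
  exact ⟨f, I, l.pt, l.ψ₁, l.ψ₂, l.ev₁, l.ev₂, a, b⟩

/-- **disjoint unions** -/
theorem GeoT.hS {V : Type} [AddCommGroup V] [Module ℂ V] {p : Fock.Par ℂ V} {ι : Type} [Fintype ι]
    {fr : Fock.Frame p ι} {r : ℕ} {P : PB R J K (Fin (r + 1))} {ac : Act fr (Hev P.X)}
    {E : Dic ac P.X} {w c i₀ iP} {T : Th P P.X} (G : GeoT k D w T) (hC : Cx P k E w c i₀ iP)
    (hD : (P.E ∅).BigD k D) : HS T := G.hS0 (hC.ok hD)

end Vale.Agent.P269.LG
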