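import Vale.Agent.P269.LG.KunB
import Vale.Agent.P269.LG.KunA

set_option linter.unusedSectionVars false

/-! Local contributions: Gysin maps along a chain of inclusions, product families. -/

namespace Vale.Agent.P269.LG

open Set Function Topology Filter MvPolynomial TensorProduct Vale.Agent.P291Z Vale.Agent.P269.Ch
  Vale.Agent.P269.Orb Vale.Agent.P269.Loc

variable {σ : Type} [Fintype σ] {A : Type} [TopologicalSpace A] [Nice A] [CompactSpace A]
  {K : Type} [Field K] [Algebra ℂ K] {χ : R σ →ₐ[ℂ] K} {X X' : ℕ → Type}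
  [∀ M, TopologicalSpace (X M)] [∀ M, Nice (X M)] [∀ M, TopologicalSpace (X' M)]
  [∀ M, Nice (X' M)] {β : ∀ M, BM (X M)} {i : ∀ M, C(A × Bs σ M, X M)} {I : K ⊗[ℂ] H A →ₗ[K] K}

/-- Gysin pull-back to a subspace that contains the fixed locus -/
theorem IsLoc.gys (h : IsLoc χ β i I) {k : ∀ M, X' M → X M} (hk : ∀ M, IsClosedEmbedding (k M))
    {θ : ∀ M, Coch (X M)} {d : ℕ → ℕ} (hθ : ∀ M, IsCo (range (k M)) (d M) (θ M))
    {i' : ∀ M, C(A × Bs σ M, X' M)} (hsq : ∀ M z, k M (i' M z) = i M z) {n : R σ ⊗[ℂ] H A}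
    (hn : ∀ M, H.map (i M) (hcls (θ M)) = evA A M n) :
    IsLoc χ (fun M => gys (k M) (θ M) (β M)) i' (I ∘ₗ LinearMap.mulRight K (bc (H A) χ n)) := by
  obtain ⟨p, u, hp, hu, h⟩ := h
  have hi : ∀ M, IsClosedEmbedding (i' M) := fun M => IsClosedEmbedding.of_comp (hk M).isEmbedding
    ((funext (hsq M) : k M ∘ i' M = i M).symm ▸ hu.emb M)
  have hr : ∀ M, Isol (range (i' M)) (k M ⁻¹' range (i M)) := fun M => Isol.of_subset
    fun _ ⟨z, e⟩ => ⟨z, (hk M).injective ((hsq M z).trans e)⟩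
  refine ⟨p, _, hp, hu.pull (φ := .id A) (fun M => (hk M).continuous) hi hsq hr,
    (h.cap n).congr fun M => ?_⟩
  have h2 : i M ⁻¹' range (k M) ⊆ range (id : A × Bs σ M → _) := fun z _ => ⟨z, rfl⟩
  have h3 := IsCo.mono' (IsCo.pull' (hθ M) (i M).continuous) h2
  beta_reduce
  rw [← lgys_eq_gys (hk M) (hθ M).cocycle (hθ M).supp, ← push_id' (lgys _ _ _),
    lgys_comm (hk M) (hu.emb M) .id (hi M) (hsq M) (hr M) (LCo.of_isCo (hθ M)) (hu.lco M) (hθ M).deg,
    lgys_eq_gys .id h3.cocycle h3.supp, push_gys_eq_cap .id h3.cocycle h3.supp, ← hn,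
    H.map_hcls _ (hθ M).cocycle]

/-- product families -/
theorem IsLoc.of_prod (hi : ∀ M, IsHomeomorph (i M)) {β₀ : BM A}
    (h : ∀ M f a, intg (res (i M) (β M)) (H.map .snd (lam M f) * H.map .fst a) =
      coeff (topM σ M) f * intg β₀ a) : IsLoc χ β i (intT K (intg β₀)) := by
  have e : ∀ M, supp (1 : Coch (X M)) ⊆ range (i M) := fun M x _ => (hi M).surjective x
  refine ⟨1, fun _ => 1, by simp, ⟨fun M => (hi M).isClosedEmbedding,
    fun M => .of_supp cocycle_one (e M), fun _ => ⟨0, isDeg_one⟩, fun M => ?_⟩, fun x => ?_⟩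
  · rw [map_one, hcls_one]
    exact (map_one _).symm
  · rw [map_one, one_smul, intT_bc]
    refine (Frc.of_rep (rep_intT (fun M => (H.mapA ContinuousMap.snd).comp (lam M))
      (fun M f b => (Hev.commute (map_mem_Hev _ (lam_mem M f)) b).symm)
      (fun M => H.mapA ContinuousMap.fst) (fun M => intg (res (i M) (β M))) _ h x)).congr
        fun M f => ?_
    beta_reduce
    rw [map_mul, evA_one, lgys_eq_gys (hi M).isClosedEmbedding cocycle_one (e M),
      ← res_push_homeo (hi M) (P291Z.gys _ _ _),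
      push_gys_eq_cap (hi M).isClosedEmbedding cocycle_one (e M), hcls_one, cap_one]
    rfl

/-- a step in a chain of Gysin maps -/
theorem IsLoc.step {c : ∀ M, H (X M)} (h : IsLoc χ (fun M => P291Z.cap (c M) (β M)) i I)
    {k : ∀ M, C(X' M, X M)} (hk : ∀ M, IsClosedEmbedding (k M)) {θ : ∀ M, Coch (X M)} {d : ℕ → ℕ}
    (hθ : ∀ M, IsCo (range (k M)) (d M) (θ M)) {i' : ∀ M, C(A × Bs σ M, X' M)}
    (hsq : ∀ M z, k M (i' M z) = i M z) {n : R σ ⊗[ℂ] H A}
    (hn : ∀ M, H.map (i M) (hcls (θ M)) = evA A M n) {w : ∀ M, H (X' M)} {β' : ∀ M, BM (X' M)}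
    (e : ∀ M, P291Z.gys (k M) (θ M) (β M) = P291Z.cap (w M) (β' M)) :
    IsLoc χ (fun M => P291Z.cap (H.map (k M) (c M) * w M) (β' M)) i'
      (I ∘ₗ LinearMap.mulRight K (bc (H A) χ n)) := by
  have := h.gys hk hθ hsq hn
  simp only [fun M => gys_cap (hk M) (hθ M), e, ← cap_mul] at this
  exact this

theorem intg_cross' {Y Y₁ Y₂ : Type} [TopologicalSpace Y] [Nice Y] [CompactSpace Y]
    [TopologicalSpace Y₁] [Nice Y₁] [CompactSpace Y₁] [TopologicalSpace Y₂] [Nice Y₂]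
    [CompactSpace Y₂] {p₁ : C(Y, Y₁)} {p₂ : C(Y, Y₂)} (hp : IsHomeomorph fun x => (p₁ x, p₂ x))
    (β₁ : BM Y₁) (β₂ : BM Y₂) (c₁ : H Y₁) (c₂ : H Y₂) :
    intg (cross p₁ p₂ β₁ β₂) (H.map p₁ c₁ * H.map p₂ c₂) = intg β₁ c₁ * intg β₂ c₂ := by
  have := push_cross KB.hp hp (f := p₁.prodMk p₂) (f₁ := id) (f₂ := id) (fun _ => rfl)
    (fun _ => rfl) IsPr.id IsPr.id β₁ β₂
  rw [push_id', push_id'] at this
  rw [← KB.intg_cross, ← this, intg_push, map_mul (H.map _), H.map_map, H.map_map]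
  rfl

end Vale.Agent.P269.LG
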