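import Vale.Agent.P269.LG.HVt
import Vale.Agent.P269.LG.HVl0
import Vale.Agent.P269.LG.HVd
import Vale.Agent.P269.LG.EB

set_option linter.unusedSectionVars false
set_option linter.style.haveILetI false

/-! The contribution of a vertex: localisation. -/

namespace Vale.Agent.P269.LG

open Set Function Topology Module TensorProduct B Vale.Agent.P291Z Vale.Agent.P269.Ch
  Vale.Agent.P269.Loc

variable {R J K σ ν κ ι : Type} [Fintype R] [Fintype J] [Fintype K] [Fintype σ] [Fintype ν]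
  [Fintype κ] [Fintype ι] [DecidableEq R] [DecidableEq σ] [DecidableEq ι] {P : PB R J K σ}
  {K₀ : Set K} {i : σ}

namespace HVl

theorem bp_surj {M : ℕ} : Surjective (bp : PM σ M → Bs σ M) := fun b =>
  let ⟨x, e⟩ := ((TS.triv σ pt).B M).surj b
  ⟨x.2, e⟩

theorem bc_euT {L L' A : Type} [CommRing L] [Algebra ℂ L] [CommRing L'] [Algebra ℂ L']
    [TopologicalSpace A] (χ : L →ₐ[ℂ] L') (x : L) (r : ℕ) (c : PowerSeries (Hev A)) :
    bc _ χ (euT x r c) = euT (χ x) r c := by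
  simp only [euT, map_sum, bc_tmul, map_pow]

theorem evA_euT {A : Type} [TopologicalSpace A] (M : ℕ) (x : Loc.R σ) (r : ℕ)
    (c : PowerSeries (Hev A)) : evA A M (inH A (euT x r c)) = ∑ m ∈ Finset.range (r + 1),
      H.map .snd (lam M x) ^ (r - m) * H.map .fst (PowerSeries.coeff m c).1 := by
  simp only [euT, map_sum, Algebra.TensorProduct.map_tmul, evA_tmul, map_pow]
  rfl

theorem inH_map {A A' : Type} [TopologicalSpace A] [TopologicalSpace A'] (f : C(A', A))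
    (x : Loc.R σ ⊗[ℂ] Hev A) :
    inH A' (Algebra.TensorProduct.map (AlgHom.id ℂ _) (Hev.map f) x) = pb _ f (inH A x) := by
  induction x with
  | zero => simp only [map_zero]
  | add a b ha hb => simp only [map_add, ha, hb]
  | tmul k c => rfl

theorem psi_incl {S Λ : Type} [Fintype S] [Fintype Λ] {ch : Ch ι J} {F F' : Fam S Λ R J K}
    {ℓ : R → ι → ℤ} {Z Z' : Set (ch.WF ν κ Λ)} (h : GZ F ℓ Z) (h' : GZ F' ℓ Z') (e : Z' ⊆ Z)
    (n : Mk ν κ) (d : F'.toWt = F.toWt) :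
    H.map (EqM.incl (act := actF F.toWt) e).map (hcls (psiF n)) = hcls (psiF n) := by
  obtain ⟨_⟩ := F
  obtain ⟨_⟩ := F'
  subst d
  haveI := h.act
  haveI := h'.act
  exact (congrArg _ (h.cl_psi n)).trans ((map_neg _ _).trans ((congrArg Neg.neg
    ((h.psi n).res_incl h.orb h'.orb e).1.symm).trans (h'.cl_psi n).symm))

variable {ch : Ch ι (J ⊕ σ)} {e : K → ι → ℕ} {ℓ : Option R → ι → ℤ} {M : ℕ}

variable (ν κ ch) in
/-- the solutions -/
abbrev Zc {S Λ : Type} [Fintype S] [Fintype Λ] (F : Fam S Λ (Option R) (J ⊕ σ) K) :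
    Set (ch.WF ν κ Λ) := ch.solF ν κ F ∩ ch.cyc κ F 0

variable (ν κ ch) in
/-- the moduli space -/
abbrev Xc {S Λ : Type} [Fintype S] [Fintype Λ] (F : Fam S Λ (Option R) (J ⊕ σ) K) : Type :=
  ModS F (ch.cyc κ F (0 : ν → J ⊕ σ → ℕ))

theorem sub (hA : P.F.Abs) {Z Z' : Set σ} (h : Z ⊆ Z') (hF : (P.EM Z M).Inv) :
    Zc ν κ ch (P.EM Z' M) ⊆ Zc ν κ ch (P.EM Z M) := fun x hx =>
  have : x ∈ ch.solF ν κ (P.EM Z M) := ⟨hx.1.1, hx.1.2.1, fun z hz =>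
    let ⟨y, ⟨⟨a, b, c⟩, d⟩, f⟩ := hx.1.2.2 z hz
    ⟨y, ⟨⟨a, b, fun j hj => c j (match j, hj with
      | .inl _, k => k
      | .inr _, k => h k)⟩, d⟩, f⟩⟩
  ⟨this, (PB.abs hA).sol_subset hF this⟩

theorem exists_tw (hA : P.F.Abs) (h : ch.Lat (P.EM {i}ᶜ M).toWt ℓ) :
    ∃ n, ch.Tw (P.EM {i}ᶜ M) (P.E {i}ᶜ) ℓ i n (P.w · none) :=
  let ⟨n, a, b⟩ := h.exists_dual none
  ⟨n, PB.abs hA, PB.abs hA, rfl, rfl, rfl,
    fun l l' => (PB.fib_eq l).trans (PB.fib_eq l').symm,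
    fun k => (PB.supp_G k).trans (PB.supp_G k).symm, a,
    fun j => (Finset.sum_congr rfl fun o _ => by rw [h.wd]).trans (b (P.w j)),
    fun τ j hj => match j, hj with
      | .inl j, _ => by simp [PB.w]
      | .inr l, hl => by
        obtain rfl : l = i := not_not.1 hl
        refine (Finset.prod_eq_single l (fun o _ d => ?_) (by simp)).trans ?_
        · simp [d]
        · simp [PB.w],
    fun τ k => by
      rw [show ∑ o, (P.EM {i}ᶜ M).dk ℓ k o * n o = 0 from b ((P.EM {i}ᶜ M).χ k)]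
      simp⟩

/-- **the Borel construction over a fixed component is a product** -/
theorem exists_prd (hA : P.F.Abs) {b b' : ℕ} {U : Set (ch.WF ν κ _)} {U' : Set (ch.WF ν κ _)}
    (hM : ch.Ok (P.EM {i}ᶜ M) e K₀ ℓ b U) (h0 : ch.Ok (P.E {i}ᶜ) e K₀ ℓ b' U')
    [CompactSpace (Xc ν κ ch (P.E {i}ᶜ))] [Nice (Xc ν κ ch (P.E {i}ᶜ))]
    [Nice (Xc ν κ ch (P.EM {i}ᶜ M))] :
    ∃ j : C(Xc ν κ ch (P.E {i}ᶜ) × Bs σ M, Xc ν κ ch (P.EM {i}ᶜ M)), IsHomeomorph j ∧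
      (∀ x p, ∃ h, j (Quo.mk _ x, bp p) = Quo.mk _ ⟨(uncurry p.val, x.1.2), h⟩) ∧
      (∀ f c, intg (P291Z.res j (virF _ e _)) (H.map .snd (lam M f) * H.map .fst c) =
        MvPolynomial.coeff (topM σ M) f * intg (virF _ e _) c) ∧
      (∀ m, H.map j (hcls (psiF m)) = H.map .fst (hcls (psiF m))) ∧
      (∀ l, H.map j (hcls ((ch.sdX ν κ (P.EM {i}ᶜ M).toWt (.inr l)).eu (actF _) _)) =
        evA _ M (inH _ (euT (.X l - .X i) (finrank ℂ (ch.Th (.inr l)) * ch.h (some (.inr l)))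
          ((ch.sdX ν κ (P.E {i}ᶜ).toWt (.inr l)).ch (actF _) _)))) ∧
      ∀ l, H.map j (hcls ((ch.sdK ν κ (P.EM {i}ᶜ M).toWt (.inr l)).eu (actF _) _)) =
        evA _ M (inH _ (euT (.X l - .X i) (ch.rkO (.inr l))
          ((ch.sdK ν κ (P.E {i}ᶜ).toWt (.inr l)).ch (actF _) _))) := by
  obtain ⟨n, h⟩ := exists_tw hA hM.lat
  have hW := PB.actL_EM (P := P) (Z := {i}ᶜ) (M := M)
  haveI := fp_PMs hW
  haveI := nice_of_orb (Tq.orb (P.EM {i}ᶜ M).actL (PMs σ M))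
  haveI := (h0.gz_cyc (0 : ν → _)).act
  obtain ⟨eB, b1, b2, b3, b4⟩ := exists_eB hW
  have t := h.tZ hM h0
  have hp := t.isHomeomorph
  let j : C(Xc ν κ ch (P.E {i}ᶜ) × Bs σ M, Xc ν κ ch (P.EM {i}ᶜ M)) :=
    ⟨fun z => (hp.homeomorph _).symm (eB z.2, z.1), by fun_prop⟩
  have a : ∀ z, (t.eqh.toEqv.qm (j z), t.eqM.map (j z)) = (eB z.2, z.1) := fun z =>
    (hp.homeomorph _).apply_symm_apply _
  have a1 : t.eqh.toEqv.qm.comp j = eB.comp .snd := ContinuousMap.ext fun z => congrArg Prod.fst (a z)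
  have a2 : t.eqM.map.comp j = .fst := ContinuousMap.ext fun z => congrArg Prod.snd (a z)
  have hj : IsHomeomorph j := (hp.homeomorph _).symm.isHomeomorph.comp
    ((b1.prodMap .id).comp (Homeomorph.prodComm _ _).isHomeomorph)
  have c1 : ∀ l, Tq.Hm fun τ : σ → ℂ => τ l * (τ i)⁻¹ := fun l => (Tq.Hm.ev l).mul' (Tq.Hm.ev i).inv'
  have c2 : ∀ l, ∀ τ : σ → ℂ, IsUnit τ → τ l * (τ i)⁻¹ * τ i ^ P.w (.inr l) none =
      ∏ s, τ s ^ (P.EM {i}ᶜ M).wt (.inr l) s := fun l τ d => by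
    rw [Finset.prod_eq_single l (fun o _ d => by simp [d]) (by simp)]
    simp [PB.w, isUnit_pi_iff.1 d i]
  have c3 : ∀ l, H.map j (H.map t.eqh.toEqv.qm (Tq.lcq _ _ fun τ : σ → ℂ => τ l * (τ i)⁻¹)) =
      H.map .snd (lam M (.X l - .X i)) := fun l => by
    rw [H.map_map, a1, ← H.map_map, map_sub, ← b3, ← b3, ← map_sub]
    refine congrArg _ (congrArg _ (eq_sub_of_add_eq ((Tq.lcq_mul (c1 l) (.ev i)).symm.trans
      (Tq.lcq_congr (.ev l) fun τ d => inv_mul_cancel_right₀ (isUnit_pi_iff.1 d i) _))))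
  refine ⟨j, hj, fun x p => ⟨(t.mem _).2 ⟨mem_PMs p, mem_of_eq_of_mem (t.q_j _ _) x.2⟩,
    hp.injective ((a _).trans (Prod.ext (b2 p) (congrArg (Quo.mk _)
      (Subtype.ext (t.q_j (uncurry p.val) x.1).symm))))⟩, fun f c => ?_, fun m => ?_, fun l => ?_,
    fun l => ?_⟩
  · have d := (Homeomorph.prodComm (Xc ν κ ch (P.E {i}ᶜ)) (Bs σ M)).isHomeomorph
    rw [h.vir hM h0 (dim_PMs hW), res_cross hp d (f₂ := id) (fun z => congrArg Prod.fst (a z))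
      (fun z => congrArg Prod.snd (a z)) b1.isOpenEmbedding .id, ← push_id' (virF _ e _),
      res_push_homeo .id, push_id', ← b4]
    exact intg_cross' (p₁ := .snd) (p₂ := .fst) d _ _ _ _
  · rw [h.psi hM h0, H.map_map, a2]
  · rw [h.euX hM h0 _ (c1 l) (c2 l), evA_euT]
    simp only [map_sum, map_mul, map_pow, c3, H.map_map j t.eqM.map, a2]
  · rw [h.euK hM h0 _ (c1 l) (c2 l), evA_euT]
    simp only [map_sum, map_mul, map_pow, c3, H.map_map j t.eqM.map, a2]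

variable {L : Type} [Field L] [Algebra ℂ L] {χ : Loc.R σ →ₐ[ℂ] L} {A : Type} [TopologicalSpace A]
  [Nice A] [CompactSpace A] {b : ℕ → ℕ}

/-- the inclusion of the fixed locus -/
noncomputable abbrev ifx (j : ∀ M, C(A × Bs σ M, Xc ν κ ch (P.EM {i}ᶜ M))) {Z : Set σ}
    (s : ∀ M, Zc ν κ ch (P.EM {i}ᶜ M) ⊆ Zc ν κ ch (P.EM Z M)) (M : ℕ) :
    C(A × Bs σ M, Xc ν κ ch (P.EM Z M)) := (EqM.incl (act := actF _) (s M)).map.comp (j M)

/-- **the moving fields are set to zero one by one** -/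
theorem chain (hA : P.F.Abs)
    (ok : ∀ Z ⊆ {i}ᶜ, ∀ M, ∃ U : Set (ch.WF ν κ _), ch.Ok (P.EM Z M) e K₀ ℓ (b M) U)
    {j : ∀ M, C(A × Bs σ M, Xc ν κ ch (P.EM {i}ᶜ M))} {x y : σ → Loc.R σ ⊗[ℂ] Hev A}
    (hx : ∀ M l, H.map (j M) (hcls ((ch.sdX ν κ (P.EM {i}ᶜ M).toWt (.inr l)).eu (actF _) _)) =
      evA A M (inH A (x l)))
    (hy : ∀ M l, H.map (j M) (hcls ((ch.sdK ν κ (P.EM {i}ᶜ M).toWt (.inr l)).eu (actF _) _)) =
      evA A M (inH A (y l))) [∀ M, Nice (Xc ν κ ch (P.EM ∅ M))] {s₀} {I : L ⊗[ℂ] H A →ₗ[L] L}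
    (h : IsLoc χ (fun M => virF (P.EM ∅ M) e _) (ifx j s₀) I) (T : Finset σ) :
    ∀ (Z : Set σ), Z = T → Z ⊆ {i}ᶜ → ∀ [∀ M, Nice (Xc ν κ ch (P.EM Z M))] s,
      ∃ (c : ∀ M, H (Xc ν κ ch (P.EM Z M))) (I' : L ⊗[ℂ] H A →ₗ[L] L),
        (∀ M, H.map (ifx j s M) (c M) = evA A M (inH A (∏ l ∈ T, y l))) ∧
        IsLoc χ (fun M => P291Z.cap (c M) (virF (P.EM Z M) e _)) (ifx j s) I' ∧
        ∀ z, I' z = I (z * bc _ χ (inH A (∏ l ∈ T, x l))) := by
  induction T using Finset.induction_on with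
  | empty =>
    intro Z hZ _ _ s
    obtain rfl : Z = ∅ := hZ.trans Finset.coe_empty
    exact ⟨fun _ => 1, I, fun M => by simp only [Finset.prod_empty, map_one],
      by simpa only [cap_one] using h, fun z => by simp only [Finset.prod_empty, map_one, mul_one]⟩
  | insert l T hl ih =>
    intro Z hZ hi _ s
    have hT : (T : Set σ) ⊆ {i}ᶜ := fun a b => hi (hZ.ge (Finset.mem_insert_of_mem b))
    choose U hU using ok _ hT
    choose U' hU' using ok _ hi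
    choose U₀ hU₀ using ok _ Subset.rfl
    haveI := fun M => ((hU M).gz_cyc (0 : ν → _)).nice
    obtain ⟨c, I', a1, a2, a3⟩ := ih _ rfl hT fun M => sub hA hT (hU M).inv
    choose s' d t b1 b2 b3 b4 using fun M => (hU M).z1 (m := (P.EM Z M).mov) (z := (P.EM Z M).zer)
      (j := .inr l) (PB.abs hA) (hU' M) hl
      (Set.ext fun j => by cases j <;> simp [hZ, and_comm])
      (Set.ext fun j => by cases j <;> simp [hZ])
      fun k α hα => by
        obtain ⟨β, rfl⟩ := PB.exists_supp hα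
        exact Finsupp.mapDomain_of_notMem_range _ _ (by simp)
    have sq : ∀ M z, (EqM.incl (act := actF _) (s' M)).map (ifx j s M z) =
        ifx j (fun M => sub hA hT (hU M).inv) M z := fun M z =>
      Quot.inductionOn (motive := fun w => (EqM.incl (s' M)).map ((EqM.incl (s M)).map w) =
        (EqM.incl (sub hA hT (hU M).inv)).map w) (j M z) fun _ => rfl
    refine ⟨_, _, fun M => ?_, a2.step (k := fun M => (EqM.incl (act := actF _) (s' M)).map)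
      b1 b2 sq (n := inH A (x l)) (fun M => ?_) b4, fun z => ?_⟩
    · have g := (hU' M).gz_cyc (0 : ν → _)
      have g' := (hU₀ M).gz_cyc (0 : ν → _)
      haveI := g.act
      haveI := g'.act
      rw [map_mul (H.map _), H.map_map, show (EqM.incl (act := actF _) (s' M)).map.comp
        (ifx j s M) = ifx j (fun M => sub hA hT (hU M).inv) M from ContinuousMap.ext (sq M), a1,
        ← H.map_map, ← ((g.cuts.okK g.base _).res_incl g.orb g'.orb (s M)).1, hy,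
        Finset.prod_insert hl, mul_comm (y l), map_mul (inH A), map_mul (evA A M)]
    · have g := (hU M).gz_cyc (0 : ν → _)
      have g' := (hU₀ M).gz_cyc (0 : ν → _)
      haveI := g.act
      haveI := g'.act
      rw [b3, ← H.map_map, ← ((okX _ _).res_incl g.orb g'.orb (sub hA hT (hU M).inv)).1, hx]
    · rw [Finset.prod_insert hl, map_mul (inH A), map_mul (bc _ χ), ← mul_assoc, ← a3]
      rfl

/-- **the contribution of a fixed component** in a chart -/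
theorem core (hA : P.F.Abs) {b' : ℕ} {U₀ : Set (ch.WF ν κ _)}
    (ok : ∀ Z ⊆ {i}ᶜ, ∀ M, ∃ U : Set (ch.WF ν κ _), ch.Ok (P.EM Z M) e K₀ ℓ (b M) U)
    (h0 : ch.Ok (P.E {i}ᶜ) e K₀ ℓ b' U₀) [CompactSpace (Xc ν κ ch (P.E {i}ᶜ))]
    [Nice (Xc ν κ ch (P.E {i}ᶜ))] [∀ M, Nice (Xc ν κ ch (P.EM ∅ M))]
    {j : ∀ M, C(Xc ν κ ch (P.E {i}ᶜ) × Bs σ M, Xc ν κ ch (P.EM ∅ M))}
    (pt : ∀ M p z, ∃ x, z = Quo.mk _ x ∧
      ∀ y, y.1 = (Function.uncurry p.val, x.1.2) → j M (z, bp p) = Quo.mk _ y)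
    {I : L ⊗[ℂ] H (Xc ν κ ch (P.E {i}ᶜ)) →ₗ[L] L} {e' : ℕ → K → ι → ℕ} (he : ∀ M, e' M = e)
    (h : IsLoc χ (fun M => virF (P.EM ∅ M) (e' M) _) j I) :
    (∀ M m, H.map (j M) (hcls (psiF m)) = H.map .fst (hcls (psiF m))) ∧
    ∀ y, I (y * bc _ χ (inH _ (∏ l ∈ Finset.univ.erase i, euT (.X l - .X i)
        (finrank ℂ (ch.Th (.inr l)) * ch.h (some (.inr l)))
        ((ch.sdX ν κ (P.E {i}ᶜ).toWt (.inr l)).ch (actF _) _)))) =
      intT L (intg (virF (P.E {i}ᶜ) e _)) (y * bc _ χ (inH _ (∏ l ∈ Finset.univ.erase i,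
        euT (.X l - .X i) (ch.rkO (.inr l))
          ((ch.sdK ν κ (P.E {i}ᶜ).toWt (.inr l)).ch (actF _) _)))) := by
  obtain rfl : e' = fun _ => e := funext he
  choose U hU using ok _ Subset.rfl
  choose U' hU' using ok _ (empty_subset _)
  haveI := fun M => ((hU M).gz_cyc (0 : ν → _)).nice
  choose j' j1 j2 j3 j4 j5 j6 using fun M => exists_prd hA (hU M) h0
  have s₀ := fun M => sub (ν := ν) (κ := κ) (ch := ch) hA (empty_subset {i}ᶜ) (hU' M).inv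
  obtain rfl : j = ifx j' s₀ := funext fun M => ContinuousMap.ext fun ⟨y, p⟩ => by
    obtain ⟨p, rfl⟩ := bp_surj p
    obtain ⟨x, rfl, a⟩ := pt M p y
    obtain ⟨b, c⟩ := j2 M x p
    exact (a ⟨_, s₀ M b⟩ rfl).trans (congrArg (EqM.incl (s₀ M)).map c).symm
  refine ⟨fun M m => ?_, fun y => ?_⟩
  · rw [← H.map_map, psi_incl ((hU' M).gz_cyc 0) ((hU M).gz_cyc 0) (s₀ M) _ rfl, j4]
  · obtain ⟨c, I₁, b1, b2, b3⟩ := chain hA ok j5 j6 h (Finset.univ.erase i) {i}ᶜ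
      (Set.ext fun _ => by simp) Subset.rfl fun _ => Subset.rfl
    have b4 : ifx j' (fun _ => Subset.rfl) = j' := funext fun M => ContinuousMap.ext fun z =>
      Quot.inductionOn (motive := fun w => (EqM.incl Subset.rfl).map w = w) (j' M z) fun _ => rfl
    rw [b4] at b1 b2
    exact (b3 y).symm.trans (LinearMap.congr_fun (b2.unique ((IsLoc.of_prod j1 j3).cap b1)) y)

end HVl

open HVl

variable {k D : ℕ} {g : ℤ} {d : Option R → ℤ} {a : σ → ℂ} {τ : Md P P.X ν g d}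
  {e : C(P.XV ν k D g d {i}ᶜ, τ.A)}

/-- **the contribution of a vertex** -/
theorem Geo.vxc (G : Geo k D a τ) (h : P.Ok K₀ k D) (he : Vxe k D τ i e) : Vxc k D τ a i e := by
  have ne : ∀ Z ⊆ ({i}ᶜ : Set σ), Z ≠ univ := fun Z hZ b => hZ (b.ge (mem_univ i)) rfl
  have td : ∀ M Z, (P.EM Z M).tdeg (P.cV ν k D g d {i}ᶜ) =
      (P.E {i}ᶜ).tdeg (P.cV ν k D g d {i}ᶜ) :=
    fun _ _ => funext₂ fun q _ => congrArg (· * _) ((PB.tdeg_G q).trans (PB.tdeg_G q).symm)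
  have ok : ∀ Z ⊆ {i}ᶜ, ∀ M, ∃ U : Set ((P.cV ν k D g d {i}ᶜ).WF ν (Fin 0) _),
      (P.cV ν k D g d {i}ᶜ).Ok (P.EM Z M) ((P.E {i}ᶜ).tdeg (P.cV ν k D g d {i}ᶜ)) K₀ ℓs
        (Fintype.card σ * (M + 1)) U := fun Z hZ M =>
    td M Z ▸ (h.good_EM (ne Z hZ) M).ok' ν (Fin 0) (PB.reg h.B h.abs h.reg) (PB.sm_EM M)
      h.big_fam h.bigD_fam g d
  obtain ⟨U₀, h0⟩ := (h.good_E (ne _ Subset.rfl)).ok' ν (Fin 0) (PB.reg h.B h.abs h.reg) PB.sm_E
    h.big_fam h.bigD_fam g d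
  haveI : CompactSpace (P.XV ν k D g d {i}ᶜ) := Cpt.compactSpace_mod (h.good_E (ne _ Subset.rfl))
    h.big_fam h.bigD_fam rfl (T := univ) subsingleton_univ.isCompact Subset.rfl
    (fun _ _ => ⟨1, isUnit_one, trivial⟩) _
  haveI := (h0.gz_cyc (0 : ν → _)).nice
  haveI := G.nice
  obtain ⟨I', a1, a2⟩ := G.loc.part he.emb
  obtain ⟨c1, c2⟩ := @core R J K σ ν (Fin 0) _ _ _ _ _ _ _ _ _ _ _ P K₀ i (P.cV ν k D g d {i}ᶜ) _ _
    F _ _ (chiA a) _ h.abs _ _ ok h0 _ _ G.nice (fun M => (G.i M).comp (pr e M))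
    (fun M p z =>
      let ⟨m, x, b, hm⟩ := Fam.exists_at h.bigD_fam z
      ⟨x, b, fun ⟨_, c⟩ hy => ((G.pt M _ p m ((he.rp _ m).2 ⟨x, b, hm⟩)).eq_iff h.bigD_fam
        ⟨⟨_, hy ▸ c⟩, congrArg _ (Subtype.ext hy), rfl, hm.2⟩).2 (.refl _)⟩) I' _ (td · ∅) a1
  refine ⟨fun n => ?_, I', a2, fun y => ?_⟩
  · obtain ⟨x, e₁, e₂⟩ := G.psi n
    have b : pb _ e (inH _ x) = 1 ⊗ₜ hcls (psiF (.inl n)) := evA_inj fun M => by
      rw [← map_evA, ← e₂, H.map_map, evA_tmul, map_one, map_one, one_mul]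
      exact c1 M _
    rw [← e₁, pbE_bc, inF_bc, inH_map, b, bc_tmul, map_one]
  · have := c2 y
    have sb : ∀ l, a l • tt - a i • tt = (a l - a i) • tt := fun l =>
      (sub_smul (R := ℂ) (M := F) _ _ _).symm
    simp only [← inF_bc, map_prod, bc_euT, map_sub, chiA_X, sb] at this
    exact this

end Vale.Agent.P269.LG
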