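import Vale.Agent.P269.LG.HVn
import Vale.Agent.P269.LG.HVl

/-! The contribution of a vertex. -/

namespace Vale.Agent.P269.LG

open B Vale.Agent.P291Z Vale.Agent.P269.Ch Fock

variable {V : Type} [AddCommGroup V] [Module ℂ V] {p : Par ℂ V} {ι : Type} [Fintype ι]
  {fr : Frame p ι} {R J K : Type} [Fintype R] [Fintype J] [Fintype K] [DecidableEq R] {r : ℕ}
  {P : PB R J K (Fin (r + 1))} {k D : ℕ} {ac : Act fr (Hev P.X)} {E : Dic ac P.X} {w c i₀ iP}
  {T : Th P P.X}

/-- **the contribution of a vertex** -/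
theorem GeoT.hV (G : GeoT k D w T) (h : Cx P k E w c i₀ iP) (hD : (P.E ∅).BigD k D)
    (hS : St.Spec) (hW : St.WellD) (hR : St.Rel) : HV T E w (ZVs p P k i₀ w) :=
  G.hV' hS hW hR h hD fun ν _ g d _ _ he => (G ν g d).vxc (h.ok hD) he

end Vale.Agent.P269.LG
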