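import Vale.Agent.P269.LG.Alg

/-! Sums over the subsets of the marked points. -/

namespace Vale.Agent.P269.LG

open Fock Finset

variable {K V ν ν₁ ν₂ α A : Type} [CommRing K] [Algebra ℚ K] [AddCommGroup V] [Module K V]
  {p : Par K V}

/-- functions that agree on the lists that start with the points of `ν₁` agree -/
theorem SW.split {W W' : List (ν × V) → K} (h : SW p W) (h' : SW p W') (φ : ν₁ ⊕ ν₂ ≃ ν)
    (a : ∀ L₁ L₂, Enum L₁ → Enum L₂ →
      W (L₁.map (Prod.map (fun n => φ (.inl n)) id) ++ L₂.map (Prod.map (fun n => φ (.inr n)) id)) =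
      W' (L₁.map (Prod.map (fun n => φ (.inl n)) id) ++ L₂.map (Prod.map (fun n => φ (.inr n)) id)))
    {L : List (ν × V)} (hL : Enum L) : W L = W' L := by
  classical
  refine h.ext h' (span_hom (p := p)) (fun L hL hG => ?_) hL
  have e := List.filter_append_perm (fun x : ν × V => decide (∃ n, x.1 = φ (.inl n))) L
  obtain ⟨L₁, L₂, h₁, h₂, e₁, e₂⟩ := (hL.perm e.symm).split φ fun n => by
    simp only [List.mem_map, List.mem_filter, decide_eq_true_eq]
    exact ⟨fun ⟨_, b, c⟩ => c ▸ b.2, fun b =>
      let ⟨x, c, d⟩ := List.mem_map.1 (hL.2 n); ⟨x, ⟨c, d.symm ▸ b⟩, d⟩⟩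
  refine h.perm h' e (fun x hx => hG x (e.subset hx)) ?_
  rw [e₁, e₂]
  exact a L₁ L₂ h₁ h₂

variable [DecidableEq ν] [Semiring A] (a b : ν × α → A)

theorem prod_ite_insert {n : ν} {L : List (ν × α)} (h : n ∉ L.map Prod.fst) (M : Finset ν) :
    (L.map fun y => if y.1 ∈ insert n M then a y else b y).prod =
      (L.map fun y => if y.1 ∈ M then a y else b y).prod :=
  congrArg _ (List.map_congr_left fun _ hy => if_congr (mem_insert.trans
    (or_iff_right fun e => h (e ▸ List.mem_map_of_mem hy))) rfl rfl)

theorem prod_add_pow {L : List (ν × α)} (h : (L.map Prod.fst).Nodup) :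
    (L.map fun y => a y + b y).prod = ∑ M ∈ (L.map Prod.fst).toFinset.powerset,
      (L.map fun y => if y.1 ∈ M then a y else b y).prod := by
  induction L with
  | nil => simp
  | cons x L ih =>
    rw [List.map_cons, List.nodup_cons] at h
    have hx : x.1 ∉ (L.map Prod.fst).toFinset := by simpa using h.1
    rw [List.map_cons, List.prod_cons, ih h.2, List.map_cons, List.toFinset_cons,
      sum_powerset_insert hx, add_mul, add_comm, mul_sum, mul_sum]
    congr 1 <;> refine sum_congr rfl fun M hM => ?_
    · rw [List.map_cons, List.prod_cons, if_neg fun c => hx (mem_powerset.1 hM c)]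
    · rw [List.map_cons, List.prod_cons, if_pos (mem_insert_self _ _), prod_ite_insert a b h.1]

/-- the sum over the subsets that contain the first point -/
theorem Enum.prod_cons [Fintype ν] {x : ν × α} {L : List (ν × α)} (h : Enum (x :: L)) :
    a x * (L.map fun y => a y + b y).prod = ∑ M : Finset ν, if x.1 ∈ M then
      ((x :: L).map fun y => if y.1 ∈ M then a y else b y).prod else 0 := by
  have hn := List.nodup_cons.1 h.1
  have hx : x.1 ∉ (L.map Prod.fst).toFinset := by simpa using hn.1
  have hu : insert x.1 (L.map Prod.fst).toFinset = univ :=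
    eq_univ_of_forall fun n => by simpa using h.2 n
  rw [← powerset_univ, ← hu, sum_powerset_insert hx, prod_add_pow a b hn.2, mul_sum,
    sum_eq_zero fun M hM => if_neg fun c => hx (mem_powerset.1 hM c), zero_add]
  refine sum_congr rfl fun M _ => ?_
  rw [if_pos (mem_insert_self _ _), List.map_cons, List.prod_cons, if_pos (mem_insert_self _ _),
    prod_ite_insert a b hn.1]

end Vale.Agent.P269.LG
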