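import Vale.Agent.P269.LG.Ex
import Vale.Agent.P269.LG.HG
import Vale.Agent.P269.LG.HR

/-! The geometric half of localisation from the four contributions. -/

namespace Vale.Agent.P269

open Set B Fock Filter Vale.Agent.P291Z Vale.Agent.P269.Ch LG

/-- nodes, disjoint unions, edges and vertices -/
def St.LFour : Prop :=
  ∀ {V : Type} [AddCommGroup V] [Module ℂ V] {p : Fock.Par ℂ V} {ι : Type} [Fintype ι]
    {fr : Frame p ι} {R J K : Type} [Fintype R] [Fintype J] [Fintype K] [DecidableEq R] {r : ℕ}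
    {P : PB R J K (Fin (r + 1))} {k D : ℕ} {ac : Act fr (Hev P.X)} {E : Dic ac P.X} {w c i₀ iP}
    {T : Th P P.X}, GeoT k D w T → Cx P k E w c i₀ iP → (P.E ∅).BigD k D →
    LG.HN T E (chi w c) ∧ LG.HS T ∧ LG.HE T E (chi w c) ∧ LG.HV T E w (ZVs p P k i₀ w)

theorem St.locG_of (hS : St.Spec) (hW : St.WellD) (hR : St.Rel) (h4 : St.LFour) : St.LocG := by
  intro V _ _ p ι _ fr R J K _ _ _ _ r P k ac E w c i₀ iP h
  obtain ⟨D, hD⟩ := ((P.E ∅).eventually_bigD k).exists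
  have hP := h.ok hD
  obtain ⟨T, ⟨G⟩⟩ := exists_geo hP h.li
  obtain ⟨a, b, e, f⟩ := h4 G h hD
  exact ⟨T, h.tg.toGood, hP.abs, h.tg.B, h.goodE, h.li, h.nil, G.hR hP, a, b, e, f,
    G.hG h hD hS hW hR⟩

end Vale.Agent.P269
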