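import Vale.Agent.P269.LG.BorL

/-! The Borel construction as a presentation; invariant neighbourhoods. -/

set_option linter.unusedSectionVars false
set_option linter.style.haveILetI false

namespace Vale.Agent.P269.LG

open Set Function Topology Filter Module TensorProduct Vale.Agent.P291Z Vale.Agent.P269.Ch
  Vale.Agent.P269.Orb Vale.Agent.P269.Loc Vale.Agent.P269.Mono

variable {σ : Type} [Fintype σ] {A B W W' P : Type} [NormedRing A] [NormedAlgebra ℂ A] [NormedRing B]
  [NormedAlgebra ℂ B] [NormedAddCommGroup W] [NormedSpace ℂ W] [NormedAddCommGroup W']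
  [NormedSpace ℂ W'] [AddCommGroup P] [Module ℂ P]
  [TopologicalSpace P] [FiniteDimensional ℂ A] [FiniteDimensional ℂ B] [FiniteDimensional ℂ W]
  [FiniteDimensional ℂ W'] {act₀ : A → W → W} {act : B → W → W}
  {D : KD B W P} {Z : Set W} {c : TC σ act₀ act D Z} {M : ℕ} {act' : B → W' → W'} {Z' : Set W'}

/-- neighbourhoods that are invariant under the compact torus -/
theorem exists_cpt {b : (σ → ℂ) → W → W} (hb : ContinuousOn (uncurry b) ({s | ∀ i, ‖s i‖ = 1} ×ˢ univ))
    (h1 : ∀ x, b 1 x = x) (hm : ∀ s t x, b (s * t) x = b s (b t x)) {U : Set W} (hU : IsOpen U) :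
    ∃ U' ⊆ U, IsOpen U' ∧ (∀ s, (∀ i, ‖s i‖ = 1) → ∀ x ∈ U', b s x ∈ U') ∧
      ∀ x, x ∈ U' ↔ ∀ s, (∀ i, ‖s i‖ = 1) → b s x ∈ U := by
  refine ⟨{x | ∀ s, (∀ i, ‖s i‖ = 1) → b s x ∈ U}, fun x hx => h1 x ▸ hx 1 fun _ => norm_one,
    isOpen_iff_mem_nhds.2 fun x hx => ?_, fun s hs x hx t ht => hm t s x ▸ hx _ fun i => by
      rw [Pi.mul_apply, norm_mul, hs, ht, mul_one], fun _ => Iff.rfl⟩
  have hc : IsCompact {s : σ → ℂ | ∀ i, ‖s i‖ = 1} :=
    (isCompact_univ_pi fun _ => isCompact_sphere (0 : ℂ) 1).of_isClosed_subset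
      (by simp only [setOf_forall]; exact isClosed_iInter fun i =>
        isClosed_eq (continuous_apply i).norm continuous_const) fun s hs i _ => by simpa using hs i
  haveI := isCompact_iff_compactSpace.1 hc
  have h := (isCompact_univ (X := {s : σ → ℂ | ∀ i, ‖s i‖ = 1})).eventually_forall_of_forall_eventually
    (x₀ := x) (P := fun y s => b s y ∈ U) fun s _ =>
      ((hb.comp_continuous (f := fun z : W × {s : σ → ℂ | ∀ i, ‖s i‖ = 1} => (z.2.1, z.1))
        (by fun_prop) fun z => ⟨z.2.2, trivial⟩).tendsto (x, s)).eventually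
        (hU.mem_nhds (hx s.1 s.2))
  exact h.mono fun y a s hs => a ⟨s, hs⟩ trivial

namespace TC.Lv

variable (L : c.Lv M act' Z')

/-- the Borel construction presents the chart -/
noncomputable def pres : Pres (c.h.toTS.B M) act' L.O where
  u k := c.U k
  i x := L.μ ((c.h.bo M).ι x)
  e := L.mO.map
  emb := L.emb
  mem x := ⟨x, rfl⟩
  surj _ h := h
  unit k := (c.U k).isUnit
  usurj _ := fun ⟨b, e⟩ => ⟨c.U.symm b, (congrArg Units.val (c.U.apply_symm_apply b)).trans e⟩
  eqv := L.μ_smul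
  map x := (L.mO.map_π (L.φ x)).trans (congrArg _ (L.φ.symm_apply_apply x))

theorem pres_u (k : (c.h.toTS.B M).G) : L.pres.u k = c.U k := rfl

theorem pres_i (t : c.Y.T) (p : PM σ M) :
    L.pres.i (t, p) = L.μ (c.b p.nrm (c.Y.ι t), p.val) := rfl

theorem pres_e : L.pres.e = L.mO.map := rfl

theorem j_eq (z : Quo act' Z') : L.j z = L.pres.e (Quo.incl act' L.dom.sub z) := rfl

end TC.Lv

end Vale.Agent.P269.LG
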