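import Vale.Agent.P269.LG.FixA
import Vale.Agent.P269.Gen.Act
import Mathlib.NumberTheory.Transcendental.Liouville.LiouvilleNumber

/-! Eigensections on a component with an automorphism of infinite order. -/

set_option linter.unusedSectionVars false

namespace Vale.Agent.P269.LG.FixA

open Set Function Topology Filter Cv

/-- multiplicative independence (of triples) -/
def Ind {σ : Type} (μ : σ → ℂ) : Prop := (∀ i, μ i ≠ 0) ∧
  ∀ i j l (a b d : ℕ), i ≠ j → i ≠ l → μ i ^ a = μ j ^ b * μ l ^ d → a = 0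

theorem Ind.pow {σ : Type} {μ : σ → ℂ} (h : Ind μ) {k : ℕ} (hk : k ≠ 0) : Ind fun i => μ i ^ k :=
  ⟨fun i => pow_ne_zero _ (h.1 i), fun i j l a b d hj hl e =>
    (mul_eq_zero.1 (h.2 i j l (k * a) (k * b) (k * d) hj hl (by simpa only [pow_mul] using e))
      ).resolve_left hk⟩

open Polynomial in
theorem exists_ind (σ : Type) [Fintype σ] : ∃ s : σ → ℂ, (∀ i, ‖s i‖ = 1) ∧ Ind s := by
  obtain ⟨e, he⟩ := Countable.exists_injective_nat σ
  have tr := transcendental_iff.1 (transcendental_liouvilleNumber (le_refl 2))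
  generalize liouvilleNumber (2 : ℕ) = x at tr
  refine ⟨fun i => Complex.exp ((2 * Real.pi * x ^ (e i + 1) : ℝ) * Complex.I),
    fun i => Complex.norm_exp_ofReal_mul_I _, fun i => Complex.exp_ne_zero _,
    fun i j l a b d hj hl h => ?_⟩
  simp only [← Complex.exp_nat_mul, ← Complex.exp_add] at h
  obtain ⟨n, hn⟩ := Complex.exp_eq_exp_iff_exists_int.1 h
  have k : ((a * x ^ (e i + 1) - b * x ^ (e j + 1) - d * x ^ (e l + 1) - n : ℝ) : ℂ) *
      (2 * Real.pi * Complex.I) = 0 := by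
    push_cast at hn ⊢
    linear_combination hn
  have k' := congrArg (coeff · (e i + 1)) (tr (C (a : ℤ) * X ^ (e i + 1) - C (b : ℤ) * X ^ (e j + 1) -
    C (d : ℤ) * X ^ (e l + 1) - C n) (by
      simpa using Complex.ofReal_eq_zero.1 ((mul_eq_zero.1 k).resolve_right
        Complex.two_pi_I_ne_zero)))
  simpa only [coeff_sub, coeff_C_mul, coeff_X_pow, add_left_inj, he.eq_iff, hj, hl, if_true,
    if_false, mul_one, mul_zero, sub_zero, coeff_C_succ, coeff_zero, Nat.cast_eq_zero] using k'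

variable {X : Type} [TopologicalSpace X] [T2Space X] [CompactSpace X] {R : RS X} {M : LB R}
  {C : Set X} {u v s : X → ℂ} {g : X → X} {x a b : X} {c c' : ℂ} {T : Type} [Fintype T]
  {L : T → LB R} {t : X → T → ℂ} {w w' : T → ℤ}

variable (L g t) in
/-- eigensections -/
structure ES (w : T → ℤ) (c : ℂ) (s : X → ℂ) : Prop where
  mem : s ∈ (bz L w).Γ
  eig : ∀ x, s (g x) = c * (∏ i, t x i ^ w i) * s x

theorem ES.one : ES g L t 0 1 1 := ⟨by rw [bz_zero]; exact LB.one_mem, fun x => by simp⟩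

theorem ES.mul (ht : ∀ x i, t x i ≠ 0) (h : ES g L t w c u) (h' : ES g L t w' c' v) :
    ES g L t (w + w') (c * c') (u * v) :=
  ⟨by rw [bz_add]; exact LB.mul_mem h.mem h'.mem, fun x => by
    simp only [Pi.mul_apply, Pi.add_apply, h.eig, h'.eig, zpow_add₀ (ht x _),
      Finset.prod_mul_distrib]
    ring⟩

theorem ES.pow (ht : ∀ x i, t x i ≠ 0) (h : ES g L t w c u) (n : ℕ) :
    ES g L t (n • w) (c ^ n) (u ^ n) := by
  induction n with
  | zero => simpa using ES.one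
  | succ n ih => rw [succ_nsmul, pow_succ, pow_succ]; exact ih.mul ht h

theorem ES.prod (ht : ∀ x i, t x i ≠ 0) {α : Type} (A : Finset α) {w : α → T → ℤ} {u : α → X → ℂ}
    (h : ∀ j, ES g L t (w j) 1 (u j)) : ES g L t (∑ j ∈ A, w j) 1 (∏ j ∈ A, u j) := by
  classical
  induction A using Finset.induction_on with
  | empty => simpa using ES.one
  | insert j A hj ih =>
    rw [Finset.sum_insert hj, Finset.prod_insert hj]
    simpa using (h j).mul ht ih

theorem ord_pow (h : M.Sec s x) (n : ℕ) : (M ^ n).ord (s ^ n) x = n * M.ord s x := by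
  induction n with
  | zero => simpa using (LB.ord_eq_zero (LB.one_mem x)).2 one_ne_zero
  | succ n ih => rw [pow_succ, pow_succ, LB.ord_mul (h.pow n) h, ih, Nat.cast_succ, add_one_mul]

theorem sum_le_degOn (hC : IsClopen C) (h : s ∈ M.Γ) (gs : C ⊆ Gen s) {A : Finset X}
    (hA : ∀ x ∈ A, x ∈ C) : (∑ x ∈ A, (M.ord s x).toNat : ℕ) ≤ degOn M C := by
  classical
  rw [degOn_eq_sum hC (fun x _ => h x) gs
    (Z := A ∪ (finite_zeros_on hC (fun x _ => h x) gs).toFinset) (fun y a b d => b (by simp [a, d]))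
    fun y a => (Finset.mem_union.1 a).elim (hA y) fun a => ((Finite.mem_toFinset _).1 a).1]
  exact_mod_cast Finset.sum_le_sum_of_subset Finset.subset_union_left

variable (R C g a b) in
/-- a component with two distinguished points -/
structure Cx : Prop where
  clo : IsClopen C
  conn : IsConnected C
  map : MapsTo g C C
  ma : a ∈ C
  mb : b ∈ C
  ne : a ≠ b
  two : Two C g a b

namespace Cx

variable (k : Cx C g a b)
include k

theorem gen (h : s ∈ M.Γ) (hx : x ∈ C) (h0 : s x ≠ 0) : C ⊆ Gen s :=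
  sub_gen k.clo k.conn (fun x _ => h x) hx ((h x).mem_gen h0)

theorem zero (h : s ∈ M.Γ) (n : ¬C ⊆ Gen s) (hx : x ∈ C) : s x = 0 :=
  by_contra fun h0 => n (k.gen h hx h0)

theorem zeros (h : ES g L t w c s) (gs : C ⊆ Gen s) (hx : x ∈ C) (h0 : s x = 0) : x = a ∨ x = b :=
  k.two _ (fun _ h => h.1) (finite_zeros_on k.clo (fun x _ => h.mem x) gs)
    (fun y hy => ⟨k.map hy.1, by rw [h.eig, hy.2, mul_zero]⟩) ⟨hx, h0⟩

theorem deg (h : ES g L t w c s) (gs : C ⊆ Gen s) : degOn (bz L w) C =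
    ((bz L w).ord s a).toNat + ((bz L w).ord s b).toNat := by
  classical
  rw [degOn_eq_sum k.clo (fun x _ => h.mem x) gs (Z := {a, b})
    (fun y p q r => q (by simpa using k.zeros h gs p r)) (by simp [k.ma, k.mb]),
    Finset.sum_pair k.ne, Nat.cast_add]

theorem third (R : RS X) : ∃ z ∈ C, ¬(z = a ∨ z = b) := by
  have := R.neBot a
  exact (infinite_of_mem_nhds a (k.clo.isOpen.mem_nhds k.ma)).exists_notMem_finite
    (toFinite {a, b})

theorem prop (hu : ES g L t w c u) (hv : ES g L t w c v) (gv : C ⊆ Gen v) :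
    ∃ l : ℂ, ∀ x ∈ C, u x = l * v x := by
  obtain ⟨z, p, q⟩ := k.third R
  have h : ES g L t w c (u - (u z / v z) • v) := ⟨sub_mem hu.mem (Submodule.smul_mem _ _ hv.mem),
    fun x => by simp only [Pi.sub_apply, Pi.smul_apply, smul_eq_mul, hu.eig, hv.eig]; ring⟩
  exact ⟨u z / v z, fun x hx => sub_eq_zero.1 (k.zero h.mem (fun d => q (k.zeros h d p
    (sub_eq_zero.2 (div_mul_cancel₀ _ fun e => q (k.zeros hv gv p e)).symm))) hx)⟩

theorem eq_of_ord (ht : ∀ x i, t x i ≠ 0) (hu : ES g L t w c u) (hv : ES g L t w c' v)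
    (gu : C ⊆ Gen u) (gv : C ⊆ Gen v) (e : (bz L w).ord u a = (bz L w).ord v a) : c = c' := by
  classical
  obtain ⟨z, p, q⟩ := k.third R
  have uz : u z ≠ 0 := fun e => q (k.zeros hu gu p e)
  have vz : v z ≠ 0 := fun e => q (k.zeros hv gv p e)
  have m := sub_mem hu.mem (Submodule.smul_mem _ (u z / v z) hv.mem)
  have d₁ := k.deg hu gu
  have d₂ := k.deg hv gv
  have e' : (bz L w).ord u b = (bz L w).ord v b := by
    rw [← ENat.natCast_toNat ((hu.mem b).ord_ne_top.2 (gu k.mb)),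
      ← ENat.natCast_toNat ((hv.mem b).ord_ne_top.2 (gv k.mb))]
    rw [e] at d₁
    exact congrArg _ (by omega)
  have h : ¬C ⊆ Gen (u - (u z / v z) • v) := fun gs => by
    have le : ∀ y ∈ C, (bz L w).ord u y = (bz L w).ord v y →
        ((bz L w).ord u y).toNat ≤ ((bz L w).ord (u - (u z / v z) • v) y).toNat := fun y hy e => by
      refine ENat.toNat_le_toNat ?_ ((m y).ord_ne_top.2 (gs hy))
      have o := LB.ord_mul (LB.sec_one.2 (RS.hol_const (u z / v z))) (hv.mem y)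
      rw [one_mul] at o
      rw [LB.ord, LB.ord, LB.loc_sub]
      exact (le_min le_rfl (e.trans_le (le_add_self.trans_eq o.symm))).trans le_analyticOrderAt_sub
    have s₁ := sum_le_degOn k.clo m gs (A := {z, a, b}) (by simp [p, k.ma, k.mb])
    rw [Finset.sum_insert (by simpa [not_or] using q), Finset.sum_pair k.ne] at s₁
    have s₂ : ((bz L w).ord (u - (u z / v z) • v) z).toNat ≠ 0 := fun d =>
      (ENat.toNat_eq_zero.1 d).elim (fun d => (LB.ord_eq_zero (m z)).1 d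
        (sub_eq_zero.2 (div_mul_cancel₀ _ vz).symm)) ((m z).ord_ne_top.2 (gs p))
    have := le a k.ma e
    have := le b k.mb e'
    omega
  have f : u (g z) = u z / v z * v (g z) := sub_eq_zero.1 (k.zero m h (k.map p))
  rw [hu.eig, hv.eig] at f
  refine mul_right_cancel₀ (mul_ne_zero (prod_zpow_ne (ht z) w) uz) ?_
  rw [← mul_assoc, f]
  field_simp

end Cx

variable (L g t) in
/-- the weights that are differences of weights of invariant sections not vanishing at `z` -/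
def Gd (ht : ∀ x i, t x i ≠ 0) (z : X) : AddSubgroup (T → ℤ) where
  carrier := {w | ∃ A p q, ES g L t (A + w) 1 p ∧ ES g L t A 1 q ∧ p z ≠ 0 ∧ q z ≠ 0}
  add_mem' := fun ⟨A, p, q, h₁, h₂, h₃, h₄⟩ ⟨A', p', q', h₁', h₂', h₃', h₄'⟩ =>
    ⟨A + A', p * p', q * q', by simpa [add_add_add_comm] using h₁.mul ht h₁',
      by simpa using h₂.mul ht h₂', mul_ne_zero h₃ h₃', mul_ne_zero h₄ h₄'⟩
  zero_mem' := ⟨0, 1, 1, by simpa using ES.one, ES.one, one_ne_zero, one_ne_zero⟩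
  neg_mem' := fun ⟨A, p, q, h₁, h₂, h₃, h₄⟩ => ⟨_, q, p, by simpa using h₂, h₁, h₄, h₃⟩

theorem ES.ord_pow (h : ES g L t w c s) (n : ℕ) (x : X) :
    (bz L (n • w)).ord (s ^ n) x = n * (bz L w).ord s x := by
  rw [← natCast_zsmul, bz_smul, zpow_natCast, FixA.ord_pow (h.mem x)]

theorem ES.ord_mul (h : ES g L t w c u) (h' : ES g L t w' c' v) (x : X) :
    (bz L (w + w')).ord (u * v) x = (bz L w).ord u x + (bz L w').ord v x := by
  rw [bz_add, LB.ord_mul (h.mem x) (h'.mem x)]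

/-- **components with two non vanishing coordinates are edges** -/
theorem classify {ρ σ : Type} [Fintype ρ] [DecidableEq ρ] {L : Option ρ → LB R}
    {t : X → Option ρ → ℂ} (hC : IsClopen C) (hc : IsConnected C) (hg : LIso R R g)
    (mg : MapsTo g C C) (ht : ∀ x i, t x i ≠ 0) {y : σ → X → ℂ} {w : σ → Option ρ → ℤ} {μ : σ → ℂ}
    (hy : ∀ i, ES g L t (w i) (μ i) (y i)) (hw : ∀ i, w i none = 1) (ind : Ind μ)
    (ne : ∀ x, ∃ i, y i x ≠ 0) {A : Option ρ → ℤ}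
    (hb : ∀ w, (w = A ∨ ∃ r, w = A + Pi.single (some r) 1) → ∀ z, ∃ p, ES g L t w 1 p ∧ p z ≠ 0)
    {i l : σ} (hil : i ≠ l) (gi : C ⊆ Gen (y i)) (gl : C ⊆ Gen (y l)) :
    IsRat R C ∧ ∃ a ∈ C, ∃ b ∈ C, a ≠ b ∧ Two C g a b ∧ (∀ r, degOn (L (some r)) C = 0) ∧
      ∃ l₀ l₁, l₀ ≠ l₁ ∧ ∃ d : ℕ, degOn (L none) C = d + 1 ∧ (∀ z ∈ C, y l₀ z = 0 ↔ z = b) ∧
        (∀ z ∈ C, y l₁ z = 0 ↔ z = a) ∧ ∀ z ∈ C, ∀ j, j ≠ l₀ → j ≠ l₁ → y j z = 0 := by
  have gd : ∀ z (w : Option ρ → ℤ), w none = 0 → w ∈ Gd g L t ht z := fun z w hw => by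
    rw [← Finset.univ_sum_single w]
    refine sum_mem fun o _ => ?_
    cases o with
    | none => rw [hw, Pi.single_zero]; exact zero_mem _
    | some r =>
      obtain ⟨p, p₁, p₂⟩ := hb _ (.inr ⟨r, rfl⟩) z
      obtain ⟨q, q₁, q₂⟩ := hb _ (.inl rfl) z
      have := zsmul_mem (show _ ∈ Gd g L t ht z from ⟨A, p, q, p₁, q₁, p₂, q₂⟩) (w (some r))
      rwa [← Pi.single_smul, smul_eq_mul, mul_one] at this
  have bal : ∀ {w w' c c' u v}, ∀ z ∈ C, ES g L t w c u → ES g L t w' c' v → w none = w' none →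
      C ⊆ Gen u → C ⊆ Gen v → ∃ W u' v', ES g L t W c u' ∧ ES g L t W c' v' ∧ C ⊆ Gen u' ∧
        C ⊆ Gen v' ∧ (bz L W).ord u' z = (bz L w).ord u z ∧
          (bz L W).ord v' z = (bz L w').ord v z := by
    intro w w' c c' u v z hz hu hv e gu gv
    obtain ⟨B, p, q, p₁, q₁, p₂, q₂⟩ := gd z (w' - w) (sub_eq_zero.2 e.symm)
    have o₁ := hu.ord_mul p₁ z
    have o₂ := hv.ord_mul q₁ z
    have m₁ := hu.mul ht p₁
    have m₂ := hv.mul ht q₁
    rw [(LB.ord_eq_zero (p₁.mem z)).2 p₂, add_zero] at o₁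
    rw [(LB.ord_eq_zero (q₁.mem z)).2 q₂, add_zero] at o₂
    rw [show w + (B + (w' - w)) = w' + B by abel] at o₁ m₁
    rw [mul_one] at m₁ m₂
    exact ⟨_, _, _, m₁, m₂, sub_gen hC hc (fun x _ => m₁.mem x) hz ((m₁.mem z).ord_ne_top.1
      (o₁ ▸ (hu.mem z).ord_ne_top.2 (gu hz))), sub_gen hC hc (fun x _ => m₂.mem x) hz
        ((m₂.mem z).ord_ne_top.1 (o₂ ▸ (hv.mem z).ord_ne_top.2 (gv hz))), o₁, o₂⟩
  obtain ⟨z₀, hz₀⟩ := hc.nonempty
  obtain ⟨W, u, v, hu, hv, gu, gv, -⟩ :=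
    bal z₀ hz₀ (hy i) (hy l) ((hw i).trans (hw l).symm) gi gl
  obtain ⟨rat, a, ma, b, mb, ab, two⟩ := pencil hC hc hg mg hu.mem hv.mem gu gv
    (div_ne_zero (ind.1 i) (ind.1 l)) (fun n hn e => hn.ne' (ind.2 i l l n n 0 hil hil (by
      rwa [div_pow, div_eq_one_iff_eq (pow_ne_zero _ (ind.1 l)), ← mul_one (μ l ^ n),
        ← pow_zero (μ l)] at e))) fun x _ => by
      rw [hu.eig, hv.eig]
      field_simp [ind.1 l]
  have k : Cx C g a b := ⟨hC, hc, mg, ma, mb, ab, two⟩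
  have eqo : ∀ {w w' c c' u v}, ES g L t w c u → ES g L t w' c' v → w none = w' none →
      C ⊆ Gen u → C ⊆ Gen v → (bz L w).ord u a = (bz L w').ord v a → c = c' := by
    intro w w' c c' u v hu hv e gu gv o
    obtain ⟨W, u', v', hu', hv', gu', gv', o₁, o₂⟩ := bal a ma hu hv e gu gv
    exact k.eq_of_ord ht hu' hv' gu' gv' (o₁.trans (o.trans o₂.symm))
  have d₀ : ∀ w, (w = A ∨ ∃ r, w = A + Pi.single (some r) 1) → degOn (bz L w) C = 0 := by
    intro w h
    obtain ⟨p, p₁, p₂⟩ := hb w h a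
    obtain ⟨q, q₁, q₂⟩ := hb w h b
    obtain ⟨c, e⟩ := k.prop q₁ p₁ (k.gen p₁.mem ma p₂)
    exact degOn_of_ne (fun x _ => p₁.mem x) fun x hx h0 =>
      (k.zeros p₁ (k.gen p₁.mem ma p₂) hx h0).elim (fun e => p₂ (e ▸ h0))
        fun e' => q₂ (by rw [e b mb, ← e', h0, mul_zero])
  have d₁ : ∀ r, degOn (L (some r)) C = 0 := fun r => by
    have := d₀ _ (.inr ⟨r, rfl⟩)
    rwa [bz_add, degOn_mul, d₀ A (.inl rfl), zero_add, bz_single, zpow_one] at this
  have d₂ : ∀ j, C ⊆ Gen (y j) → ∃ n n' : ℕ, (bz L (w j)).ord (y j) a = n ∧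
      (bz L (w j)).ord (y j) b = n' ∧ degOn (L none) C = n + n' := fun j h =>
    ⟨_, _, (ENat.natCast_toNat (((hy j).mem a).ord_ne_top.2 (h ma))).symm,
      (ENat.natCast_toNat (((hy j).mem b).ord_ne_top.2 (h mb))).symm, by
        rw [← k.deg (hy j) h, bz, degOn_prod]
        simp [degOn_zpow, d₁, hw]⟩
  obtain ⟨l₀, h₀⟩ := ne a
  obtain ⟨l₁, h₁⟩ := ne b
  have g₀ := k.gen (hy l₀).mem ma h₀
  have g₁ := k.gen (hy l₁).mem mb h₁
  obtain ⟨n₀, δ, a₀, b₀, e₀⟩ := d₂ l₀ g₀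
  obtain ⟨δ', n₁, a₁, b₁, e₁⟩ := d₂ l₁ g₁
  obtain rfl : n₀ = 0 := by
    exact_mod_cast a₀.symm.trans ((LB.ord_eq_zero ((hy l₀).mem a)).2 h₀)
  obtain rfl : n₁ = 0 := by
    exact_mod_cast b₁.symm.trans ((LB.ord_eq_zero ((hy l₁).mem b)).2 h₁)
  obtain rfl : δ = δ' := by omega
  have δ0 : δ ≠ 0 := fun e => by
    obtain ⟨n, n', p, -, q⟩ := d₂ i gi
    obtain ⟨m, m', p', -, q'⟩ := d₂ l gl
    exact one_ne_zero (ind.2 i l l 1 1 0 hil hil (by
      simpa using eqo (hy i) (hy l) ((hw i).trans (hw l).symm) gi gl (by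
        rw [p, p', show n = m by omega])))
  have z₀ : y l₀ b = 0 := by_contra fun e => δ0 (by
    exact_mod_cast b₀.symm.trans ((LB.ord_eq_zero ((hy l₀).mem b)).2 e))
  have z₁ : y l₁ a = 0 := by_contra fun e => δ0 (by
    exact_mod_cast a₁.symm.trans ((LB.ord_eq_zero ((hy l₁).mem a)).2 e))
  refine ⟨rat, a, ma, b, mb, ab, two, d₁, l₀, l₁, fun e => h₀ (e ▸ z₁), δ - 1, by omega,
    fun z hz => ⟨fun e => (k.zeros (hy _) g₀ hz e).resolve_left fun e' => h₀ (e' ▸ e),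
      fun e => e ▸ z₀⟩, fun z hz => ⟨fun e => (k.zeros (hy _) g₁ hz e).resolve_right
        fun e' => h₁ (e' ▸ e), fun e => e ▸ z₁⟩,
    fun z hz j j₀ j₁ => k.zero (hy j).mem (fun gj => δ0 ?_) hz⟩
  obtain ⟨n, n', p, -, q⟩ := d₂ j gj
  refine ind.2 j l₀ l₁ δ n' n j₀ j₁ (eqo ((hy j).pow ht δ)
    (((hy l₀).pow ht n').mul ht ((hy l₁).pow ht n)) (by simp [hw]; omega)
    (fun x hx => gen_pow (gj hx) _)
    (fun x hx => gen_mul.ge ⟨gen_pow (g₀ hx) _, gen_pow (g₁ hx) _⟩) ?_)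
  rw [((hy l₀).pow ht n').ord_mul ((hy l₁).pow ht n), (hy j).ord_pow, (hy l₀).ord_pow,
    (hy l₁).ord_pow, p, a₀, a₁, Nat.cast_zero, mul_zero, zero_add, mul_comm]

end Vale.Agent.P269.LG.FixA
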