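import Vale.Agent.P269.LG.Bas
import Vale.Agent.P269.LG.FixA2

/-! Classification of the maps fixed by the torus. -/

set_option linter.unusedSectionVars false

namespace Vale.Agent.P269.LG

open Set Function Topology Filter Cv B

variable {R J K σ ν : Type} [Fintype R] [Fintype J] [Fintype K] [Fintype σ] [Fintype ν]
  [DecidableEq R] {P : PB R J K σ} {m : AM0 R J σ ν}

namespace FixA

theorem finite_spc (m : AM0 R J σ ν) : {z | Spc m z}.Finite :=
  ((finite_range m.p).union ((m.N.finite_toSet.image Prod.fst).union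
    (m.N.finite_toSet.image Prod.snd))).subset fun _ hz => hz.imp id fun a => by_contra fun b =>
      a fun n hn => ⟨fun e => b (.inl ⟨n, hn, e⟩), fun e => b (.inr ⟨n, hn, e⟩)⟩

theorem exists_iter {X : Type} [TopologicalSpace X] [T2Space X] [CompactSpace X] {Q : RS X}
    {e : X ≃ X} (h : LIso Q Q e) (z : X) : ∃ k ≠ 0, e^[k] z ∈ connectedComponent z := by
  obtain ⟨i, j, a, b⟩ := (exists_comp (R := Q) z).2.exists_lt_map_eq_of_forall_mem
    (f := fun n : ℕ => connectedComponent (e^[n] z)) fun n => mem_range_self _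
  obtain ⟨k, rfl⟩ := Nat.exists_eq_add_of_lt a
  have := ((h.symm e).cont.iterate i).mapsTo_connectedComponent _
    (b.ge (mem_connectedComponent (x := e^[i + k + 1] z)))
  have l : LeftInverse e.symm^[i] e^[i] := LeftInverse.iterate e.symm_apply_apply i
  rw [add_assoc, iterate_add_apply, l, l] at this
  exact ⟨k + 1, k.succ_ne_zero, this⟩

end FixA

open FixA in
/-- **classification of the fixed maps** -/
theorem Fixd.str (hF : P.F.Good) (hB : P.F.B = univ) (hA : P.F.Abs) (hs : m.Sol (P.E ∅))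
    (h : Fixd m P) : Str m := by
  classical
  intro z
  refine or_iff_not_imp_left.2 fun nv => ?_
  obtain ⟨s, s₁, ind⟩ := exists_ind σ
  obtain ⟨e, he, t, τ, -, hN, hp, ht, -, hy⟩ := h (fun i => (s i)⁻¹) fun i => by simp [s₁]
  have e₁ : ∀ j x, m.y j (e x) = Sum.elim (1 : J → ℂ) s j * (∏ o, t o x ^ P.w j o) * m.y j x := fun j x => by
    have := hy j trivial x
    simp only [Wt.actT, AM.vl, Finset.univ_eq_empty, Finset.prod_empty, one_mul] at this
    rw [mul_assoc, ← this]
    cases j with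
    | inl j => simp
    | inr j => simp [ind.1 j]
  have e₂ : ∀ n, LIso m.R m.R e^[n] ∧ ∃ T : m.X → Option R → ℂ, (∀ x o, T x o ≠ 0) ∧
      ∀ j x, m.y j (e^[n] x) = Sum.elim (1 : J → ℂ) s j ^ n * (∏ o, T x o ^ P.w j o) * m.y j x := fun n => by
    induction n with
    | zero => exact ⟨LIso.id _, 1, fun _ _ => one_ne_zero, fun j x => by simp⟩
    | succ n ih =>
      obtain ⟨a, T, b, c⟩ := ih
      refine ⟨a.comp he, fun x o => T (e x) o * t o x,
        fun x o => mul_ne_zero (b _ _) ((ht o).2.1 x), fun j x => ?_⟩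
      simp only [iterate_succ_apply, c, e₁, mul_zpow, Finset.prod_mul_distrib]
      ring
  have e₃ : MapsTo e {z | Spc m z} {z | Spc m z} := fun x hx =>
    hx.imp (fun ⟨n, a⟩ => ⟨n, a ▸ (hp n).symm⟩) (mt (sm_equiv hN x).2)
  obtain ⟨k, k0, hk⟩ := exists_iter he z
  obtain ⟨hg, T, T0, hT⟩ := e₂ k
  have mg : MapsTo e^[k] (connectedComponent z) (connectedComponent z) := by
    have := hg.cont.mapsTo_connectedComponent z
    rwa [← connectedComponent_eq hk] at this
  have es : ∀ j, ES e^[k] m.L T (P.w j) (Sum.elim (1 : J → ℂ) s j ^ k) (m.y j) :=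
    fun j => ⟨(hs.2.1 j).1, hT j⟩
  have hC := (exists_comp (R := m.R) z).1
  obtain ⟨i, hi⟩ := sol_ne hs z
  obtain ⟨z', hz', l, li, hl⟩ : ∃ z' ∈ connectedComponent z, ∃ l ≠ i, m.y (.inr l) z' ≠ 0 := by
    by_contra! a
    exact nv ⟨i, a⟩
  obtain ⟨θ, N, -, -, am⟩ := hF.ample
  have mon : ∀ c : R → ℤ, (c = N • θ ∨ ∃ r, c = N • θ + Pi.single r 1 ∨ c = N • θ - Pi.single r 1) →
      ∀ x, ∃ p, ES e^[k] m.L T (fun o => o.elim 0 c) 1 p ∧ p x ≠ 0 := fun c hc x => by
    obtain ⟨α, a, b⟩ := am c hc _ (((sol_iff hB hA).1 hs).1.2.2 x)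
    refine ⟨∏ j, m.y (.inl j) ^ α j, ?_, by simpa [AM.vl] using b⟩
    rw [show (fun o : Option R => o.elim 0 c) = ∑ j, α j • P.w (.inl j) from funext fun o => by
      cases o <;> simp [PB.w, ← a]]
    exact ES.prod T0 _ fun j => by simpa using (es (.inl j)).pow T0 (α j)
  obtain ⟨rat, a, ma, b, mb, ab, two, d₀, l₀, l₁, ne, d, hd, z₀, z₁, z₂⟩ :=
    classify hC isConnected_connectedComponent hg mg T0 (fun i => es (.inr i)) (fun _ => rfl)
      (ind.pow k0) (sol_ne hs) (A := fun o => o.elim 0 (N • θ)) (fun w hw => by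
        rcases hw with rfl | ⟨r, rfl⟩
        · exact mon _ (.inl rfl)
        · rw [show (fun o : Option R => o.elim 0 (N • θ)) + Pi.single (some r) 1 =
            fun o => o.elim 0 (N • θ + Pi.single r 1) from funext fun o => by
              cases o <;> simp [Pi.single_apply]]
          exact mon _ (.inr ⟨r, .inl rfl⟩)) li.symm
      (sub_gen hC isConnected_connectedComponent (fun x _ => (es _).mem x) mem_connectedComponent
        (((es _).mem z).mem_gen hi))
      (sub_gen hC isConnected_connectedComponent (fun x _ => (es _).mem x) hz'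
        (((es _).mem z').mem_gen hl))
  have e := connectedComponent_eq ma
  have sp := two _ inter_subset_left ((finite_spc m).inter_of_right _) (mg.inter_inter (e₃.iterate k))
  rw [e] at rat mb d₀ hd z₀ z₁ z₂ sp
  exact ⟨⟨l₀, l₁, d, ne⟩, a, b, ⟨ab, mb, rat, fun x p q => sp ⟨p, q⟩, z₀, z₁, z₂, hd, d₀⟩,
    e ▸ mem_connectedComponent⟩

end Vale.Agent.P269.LG
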