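import Vale.Agent.P269.Loc.FD
import Vale.Agent.P269.Loc.Sum
import Vale.Agent.P269.Orb.LC

/-! Local contributions of parts of the fixed locus: definitions and formal properties. -/

namespace Vale.Agent.P269.LG

open Set Function Topology MvPolynomial TensorProduct Vale.Agent.P291Z Vale.Agent.P269.Ch
  Vale.Agent.P269.Orb Vale.Agent.P269.Loc

set_option linter.unusedSectionVars false

variable {σ : Type} [Fintype σ]

/-- the approximations of the classifying space of the torus -/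
abbrev Bs (σ : Type) [Fintype σ] (M : ℕ) : Type := ((TS.triv σ pt).B M).X

/-- the class of a point -/
noncomputable def bp {M : ℕ} (p : PM σ M) : Bs σ M := ((TS.triv σ pt).B M).π ((), p)

/-- polynomials in the equivariant parameters -/
noncomputable def lam (M : ℕ) : R σ →ₐ[ℂ] H (Bs σ M) := (TS.triv σ pt).e M

theorem lam_mem (M : ℕ) (f : R σ) : lam M f ∈ Hev (Bs σ M) := ((TS.triv σ pt).ev (pm σ M) f).2

section top

variable {A A' A'' : Type} [TopologicalSpace A] [TopologicalSpace A'] [TopologicalSpace A'']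

variable (A) in
/-- evaluation of elements of `R ⊗ H A` -/
noncomputable def evA (M : ℕ) : R σ ⊗[ℂ] H A →ₐ[ℂ] H (A × Bs σ M) :=
  evT ((H.mapA ContinuousMap.snd).comp (lam M))
    (fun f b => (Hev.commute (map_mem_Hev _ (lam_mem M f)) b).symm) (H.mapA ContinuousMap.fst)

theorem evA_tmul (M : ℕ) (f : R σ) (c : H A) : evA A M (f ⊗ₜ c) =
    H.map ContinuousMap.snd (lam M f) * H.map ContinuousMap.fst c := rfl

theorem evA_one (M : ℕ) (f : R σ) :
    evA A M (f ⊗ₜ 1) = H.map ContinuousMap.snd (lam M f) := by rw [evA_tmul, map_one, mul_one]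

/-- pull-back in the second factor -/
noncomputable def pb (K : Type) [CommRing K] [Algebra ℂ K] (φ : C(A', A)) :
    K ⊗[ℂ] H A →ₐ[K] K ⊗[ℂ] H A' := Algebra.TensorProduct.map (AlgHom.id K K) (H.mapA φ)

theorem pb_tmul {K : Type} [CommRing K] [Algebra ℂ K] (φ : C(A', A)) (k : K) (c : H A) :
    pb K φ (k ⊗ₜ c) = k ⊗ₜ H.map φ c := rfl

theorem pb_pb {K : Type} [CommRing K] [Algebra ℂ K] (φ : C(A', A)) (ψ : C(A'', A'))
    (x : K ⊗[ℂ] H A) : pb K ψ (pb K φ x) = pb K (φ.comp ψ) x := by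
  induction x with
  | zero => simp only [map_zero]
  | add a b ha hb => simp only [map_add, ha, hb]
  | tmul k c => rw [pb_tmul, pb_tmul, pb_tmul, H.map_map]

theorem bc_pb {K K' : Type} [CommRing K] [Algebra ℂ K] [CommRing K'] [Algebra ℂ K']
    (χ : K →ₐ[ℂ] K') (φ : C(A', A)) (x : K ⊗[ℂ] H A) :
    bc (H A') χ (pb K φ x) = pb K' φ (bc (H A) χ x) := by
  induction x with
  | zero => simp only [map_zero]
  | add a b ha hb => simp only [map_add, ha, hb]
  | tmul k c => rfl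

/-- the product of a map with the identity -/
noncomputable abbrev pr (φ : C(A', A)) (M : ℕ) : C(A' × Bs σ M, A × Bs σ M) := φ.prodMap (ContinuousMap.id _)

theorem map_evA (φ : C(A', A)) (M : ℕ) (x : R σ ⊗[ℂ] H A) :
    H.map (pr φ M) (evA A M x) = evA A' M (pb _ φ x) := by
  induction x with
  | zero => simp only [map_zero]
  | add a b ha hb => simp only [map_add, ha, hb]
  | tmul f c =>
    rw [pb_tmul, evA_tmul, evA_tmul, map_mul, H.map_map, H.map_map, H.map_map]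
    rfl

end top

variable {K : Type} [Field K] [Algebra ℂ K] (χ : R σ →ₐ[ℂ] K)

/-- `y` is the value of the fraction that represents `φ` -/
def Frc (φ : ℕ → R σ → ℂ) (y : K) : Prop :=
  ∃ q P, χ q ≠ 0 ∧ Rep (fun M f => φ M (q * f)) P ∧ χ P = χ q * y

variable {χ}

omit [Fintype σ] in
theorem ne_mul {p q : R σ} (hp : χ p ≠ 0) (hq : χ q ≠ 0) : χ (p * q) ≠ 0 := by
  rw [map_mul]; exact mul_ne_zero hp hq

namespace Frc

variable {φ ψ : ℕ → R σ → ℂ} {y y' : K}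

theorem of_rep {P : R σ} (h : Rep φ P) : Frc χ φ (χ P) :=
  ⟨1, P, by simp, h.congr fun _ _ => by rw [one_mul], by simp⟩

theorem congr (h : Frc χ φ y) (e : ∀ M f, ψ M f = φ M f) : Frc χ ψ y :=
  let ⟨q, P, h1, h2, h3⟩ := h
  ⟨q, P, h1, h2.congr fun _ _ => e _ _, h3⟩

theorem unique (h : Frc χ φ y) (h' : Frc χ φ y') : y = y' := by
  obtain ⟨q, P, h1, h2, h3⟩ := h
  obtain ⟨q', P', h1', h2', h3'⟩ := h'
  have := congrArg χ ((h2.mul q').unique ((h2'.mul q).congr fun M f => by rw [mul_left_comm]))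
  rw [map_mul, map_mul, h3, h3', mul_left_comm] at this
  exact mul_left_cancel₀ h1' (mul_left_cancel₀ h1 this)

theorem mul (h : Frc χ φ y) (p : R σ) : Frc χ (fun M f => φ M (p * f)) (χ p * y) :=
  let ⟨q, P, h1, h2, h3⟩ := h
  ⟨q, p * P, h1, (h2.mul p).congr fun M f => by rw [mul_left_comm], by
    rw [map_mul, h3, mul_left_comm]⟩

theorem of_mul {p : R σ} (hp : χ p ≠ 0) (h : Frc χ (fun M f => φ M (p * f)) (χ p * y)) :
    Frc χ φ y :=
  let ⟨q, P, h1, h2, h3⟩ := h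
  ⟨p * q, P, ne_mul hp h1, h2.congr fun M f => by rw [mul_assoc], by
    rw [h3, map_mul, mul_left_comm, mul_assoc]⟩

theorem add (h : Frc χ φ y) (h' : Frc χ ψ y') : Frc χ (fun M f => φ M f + ψ M f) (y + y') := by
  obtain ⟨q, P, h1, h2, h3⟩ := h
  obtain ⟨q', P', h1', h2', h3'⟩ := h'
  refine ⟨q * q', _, ne_mul h1 h1', ((h2.mul q').add (h2'.mul q)).congr fun M f => ?_, ?_⟩
  · rw [mul_assoc, mul_left_comm q']
  · rw [map_add, map_mul, map_mul, map_mul, h3, h3']; ring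

theorem smul (h : Frc χ φ y) (c : ℂ) : Frc χ (fun M f => c * φ M f) (c • y) :=
  let ⟨q, P, h1, h2, h3⟩ := h
  ⟨q, _, h1, h2.smul c, by rw [map_smul, h3, mul_smul_comm]⟩

theorem zero : Frc χ (fun _ _ => 0) 0 := ⟨1, 0, by simp, rep_zero, by simp⟩

end Frc

variable {A A' : Type} [TopologicalSpace A] [TopologicalSpace A']

theorem ext_bc {J J' : K ⊗[ℂ] H A →ₗ[K] K} (h : ∀ x, J (bc (H A) χ x) = J' (bc (H A) χ x)) :
    J = J' := AlgebraTensorModule.ext fun k c => by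
  have := h (1 ⊗ₜ c)
  rw [bc_tmul, map_one] at this
  rw [← mul_one k, ← smul_eq_mul, ← smul_tmul', map_smul, map_smul, this]

variable (χ) in
/-- the functional `J` is the equivariant integral over the family `γ` -/
def Fn (γ : ∀ M, BM (A × Bs σ M)) (J : K ⊗[ℂ] H A →ₗ[K] K) : Prop :=
  ∀ x, Frc χ (fun M f => intg (γ M) (evA A M (x * f ⊗ₜ 1))) (J (bc (H A) χ x))

namespace Fn

variable {γ γ' : ∀ M, BM (A × Bs σ M)} {J J' : K ⊗[ℂ] H A →ₗ[K] K}

theorem unique (h : Fn χ γ J) (h' : Fn χ γ J') : J = J' := ext_bc fun x => (h x).unique (h' x)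

theorem congr (h : Fn χ γ J) (e : ∀ M, γ' M = γ M) : Fn χ γ' J := by rwa [funext e]

theorem cap (h : Fn χ γ J) (n : R σ ⊗[ℂ] H A) :
    Fn χ (fun M => cap (evA A M n) (γ M)) (J ∘ₗ LinearMap.mulRight K (bc (H A) χ n)) := fun x => by
  have := h (x * n)
  rw [map_mul] at this
  refine this.congr fun M f => ?_
  rw [intg_cap, ← map_mul, mul_tmul_one, mul_tmul_one, smul_mul_assoc]

theorem cap_one (h : Fn χ γ J) (p : R σ) :
    Fn χ (fun M => P291Z.cap (evA A M (p ⊗ₜ 1)) (γ M)) (χ p • J) := by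
  convert h.cap (p ⊗ₜ 1) using 1
  refine LinearMap.ext fun x => ?_
  rw [LinearMap.comp_apply, LinearMap.mulRight_apply, bc_tmul, mul_tmul_one, map_smul]
  rfl

theorem of_cap {p : R σ} (hp : χ p ≠ 0)
    (h : Fn χ (fun M => P291Z.cap (evA A M (p ⊗ₜ 1)) (γ M)) (χ p • J)) : Fn χ γ J := fun x =>
  Frc.of_mul hp ((h x).congr fun M f => by
    rw [intg_cap, ← map_mul, mul_assoc, Algebra.TensorProduct.tmul_mul_tmul, mul_one, mul_comm f])

theorem add (h : Fn χ γ J) (h' : Fn χ γ' J') : Fn χ (fun M => γ M + γ' M) (J + J') := fun x =>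
  ((h x).add (h' x)).congr fun M f => by rw [intg_eq, intg_eq, intg_eq, map_add, add_ev]

theorem smul (h : Fn χ γ J) (c : ℂ) : Fn χ (fun M => c • γ M) (c • J) := fun x =>
  ((h x).smul c).congr fun M f => by rw [intg_eq, intg_eq, map_smul, smul_ev]

theorem push [Nice A] [Nice A'] [CompactSpace A] [CompactSpace A'] {γ' : ∀ M, BM (A' × Bs σ M)}
    {J' : K ⊗[ℂ] H A' →ₗ[K] K} (h : Fn χ γ' J') (φ : C(A', A)) :
    Fn χ (fun M => push (pr φ M) (γ' M)) (J' ∘ₗ (pb K φ).toLinearMap) := fun x => by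
  have := h (pb _ φ x)
  rw [bc_pb] at this
  refine this.congr fun M f => ?_
  rw [intg_push, map_evA, map_mul, pb_tmul, map_one]

end Fn

variable {X X' : ℕ → Type} [∀ M, TopologicalSpace (X M)] [∀ M, TopologicalSpace (X' M)]

/-- `u` is a localising cocycle that restricts to `p` -/
structure Lz (i : ∀ M, C(A × Bs σ M, X M)) (p : R σ) (u : ∀ M, Coch (X M)) : Prop where
  emb : ∀ M, IsClosedEmbedding (i M)
  lco : ∀ M, LCo (range (i M)) (u M)
  deg : ∀ M, ∃ d : ℤ, IsDeg (2 * d) (u M)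
  cls : ∀ M, hcls (pull (i M) (u M)) = evA A M (p ⊗ₜ 1)

/-- `A` is a part of the fixed locus in the invariant set `Zs`, and `X M` is the part of the Borel
construction over `Zs` -/
structure Pc {Y : Ch.Sp} (a : TS σ Y) (Zs : Set Y.T) (j : ∀ M, C(X M, (a.B M).X)) (g : C(A, Y.X))
    (i : ∀ M, C(A × Bs σ M, X M)) : Prop where
  emb : ∀ M, IsClosedEmbedding (j M)
  rng : ∀ M x, (a.B M).π x ∈ range (j M) ↔ x.1 ∈ Zs
  inj : Injective g
  sub : range g ⊆ Y.π '' (a.Fix ∩ Zs)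
  isol : Isol (range g) (Y.π '' (a.Fix ∩ Zs))
  eq : ∀ M z t p, g z = Y.π t → j M (i M (z, bp p)) = (a.B M).π (t, p)

variable [∀ M, Nice (X M)] [∀ M, Nice (X' M)]

variable (χ) in
/-- `I` is the contribution of `A` to the equivariant integrals over `β` -/
def IsLoc (β : ∀ M, BM (X M)) (i : ∀ M, C(A × Bs σ M, X M)) (I : K ⊗[ℂ] H A →ₗ[K] K) : Prop :=
  ∃ p u, χ p ≠ 0 ∧ Lz i p u ∧ Fn χ (fun M => lgys (i M) (u M) (β M)) (χ p • I)

variable {β : ∀ M, BM (X M)} {β' : ∀ M, BM (X' M)} {i : ∀ M, C(A × Bs σ M, X M)}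
  {i' : ∀ M, C(A' × Bs σ M, X' M)} {I J : K ⊗[ℂ] H A →ₗ[K] K} {I' : K ⊗[ℂ] H A' →ₗ[K] K}
  {p q : R σ} {u v : ∀ M, Coch (X M)}

theorem Lz.cap (h : Lz i p u) (h' : Lz i q v) (M : ℕ) (β : BM (X M)) :
    cap (evA A M (q ⊗ₜ 1)) (lgys (i M) (u M) β) = cap (evA A M (p ⊗ₜ 1)) (lgys (i M) (v M) β) := by
  obtain ⟨d, hd⟩ := h.deg M
  have hc := (h.emb M).isClosed_range
  have := LCoh.comm hc hc (h'.lco M) (h.lco M) hd
  rw [inter_self] at this
  rw [← h.cls, ← h'.cls, cap_lgys (h.emb M) (h.lco M) fun z => (h'.lco M).cyc _ ⟨z, rfl⟩,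
    cap_lgys (h.emb M) (h'.lco M) fun z => (h.lco M).cyc _ ⟨z, rfl⟩,
    this.lgys (h.emb M) ((h'.lco M).mul_left (h.lco M).cyc)]

/-- pull-back of localising cocycles -/
theorem Lz.pull (h : Lz i p u) {f : ∀ M, X' M → X M} (hf : ∀ M, Continuous (f M)) {φ : C(A', A)}
    (hi : ∀ M, IsClosedEmbedding (i' M)) (hsq : ∀ M z, f M (i' M z) = i M (pr φ M z))
    (hr : ∀ M, Isol (range (i' M)) (f M ⁻¹' range (i M))) : Lz i' p fun M => pull (f M) (u M) where
  emb := hi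
  lco M := ((h.lco M).pull (hf M)).mono (by rintro _ ⟨z, rfl⟩; exact ⟨_, (hsq M z).symm⟩) (hr M)
  deg M := let ⟨d, hd⟩ := h.deg M; ⟨d, hd.pull _⟩
  cls M := by
    have := congrArg (H.map (pr φ M)) (h.cls M)
    rw [map_evA, pb_tmul, map_one, H.map_hcls _ (supp_eq_empty.2 fun z => van_δ_pull
      (i M).continuous.continuousAt ((h.lco M).cyc _ ⟨z, rfl⟩)), pull_pull] at this
    rw [pull_pull, ← this]
    exact congrArg (fun g => hcls (P291Z.pull g (u M))) (funext (hsq M))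

namespace IsLoc

theorem emb (h : IsLoc χ β i I) (M : ℕ) : IsClosedEmbedding (i M) :=
  let ⟨_, _, _, h, _⟩ := h; h.emb M

/-- every localising cocycle computes the contribution -/
theorem any (h : IsLoc χ β i I) (hu : Lz i p u) :
    Fn χ (fun M => lgys (i M) (u M) (β M)) (χ p • I) := by
  obtain ⟨q, v, hq, hv, h⟩ := h
  refine Fn.of_cap hq ?_
  rw [smul_comm]
  exact (h.cap_one p).congr fun M => hu.cap hv M _

theorem unique (h : IsLoc χ β i I) (h' : IsLoc χ β i J) : I = J :=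
  let ⟨_, _, hq, hv, h'⟩ := h'
  smul_right_injective _ hq ((h.any hv).unique h')

theorem smul (h : IsLoc χ β i I) (c : ℂ) : IsLoc χ (fun M => c • β M) i (c • I) :=
  let ⟨p, u, hp, hu, h⟩ := h
  ⟨p, u, hp, hu, by rw [smul_comm]; exact (h.smul c).congr fun M => map_smul _ _ _⟩

theorem add {β₁ : ∀ M, BM (X M)} (h : IsLoc χ β i I) (h' : IsLoc χ β₁ i J) :
    IsLoc χ (fun M => β M + β₁ M) i (I + J) :=
  let ⟨p, u, hp, hu, h⟩ := h
  ⟨p, u, hp, hu, by rw [smul_add]; exact (h.add (h'.any hu)).congr fun M => map_add _ _ _⟩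

/-- cap products -/
theorem cap (h : IsLoc χ β i I) {c : ∀ M, H (X M)} {n : R σ ⊗[ℂ] H A}
    (hc : ∀ M, H.map (i M) (c M) = evA A M n) :
    IsLoc χ (fun M => cap (c M) (β M)) i (I ∘ₗ LinearMap.mulRight K (bc (H A) χ n)) := by
  obtain ⟨p, u, hp, hu, h⟩ := h
  refine ⟨p, u, hp, hu, (h.cap n).congr fun M => ?_⟩
  obtain ⟨d, hd⟩ := hu.deg M
  obtain ⟨t, ht, e⟩ := hcls_surj (c M)
  dsimp only
  rw [← hc, ← e, lgys_cap (hu.emb M) (hu.lco M) hd ht, H.map_hcls _ ht]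

variable [Nice A] [Nice A'] [CompactSpace A] [CompactSpace A']

/-- proper push-forward -/
theorem push (h : IsLoc χ β' i' I') (hp : χ p ≠ 0) (hu : Lz i p u) {f : ∀ M, X' M → X M}
    (hf : ∀ M, IsPr (f M)) {φ : C(A', A)} (hsq : ∀ M z, f M (i' M z) = i M (pr φ M z))
    (hr : ∀ M, f M ⁻¹' range (i M) ⊆ range (i' M)) :
    IsLoc χ (fun M => push (f M) (β' M)) i (I' ∘ₗ (pb K φ).toLinearMap) :=
  ⟨p, u, hp, hu, ((h.any (hu.pull (fun M => (hf M).cont) h.emb hsq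
    fun M => Isol.of_subset (hr M))).push φ).congr fun M => lgys_push (hu.emb M) (hu.lco M) (h.emb M)
      (hf M) (IsPr.of_compact (pr φ M).continuous) (hsq M) (hr M) _⟩

theorem push_eq (h' : IsLoc χ β' i' I') (h : IsLoc χ β i I) {f : ∀ M, X' M → X M}
    (hf : ∀ M, IsPr (f M)) (e : ∀ M, P291Z.push (f M) (β' M) = β M) {φ : C(A', A)}
    (hsq : ∀ M z, f M (i' M z) = i M (pr φ M z)) (hr : ∀ M, f M ⁻¹' range (i M) ⊆ range (i' M))
    (x : K ⊗[ℂ] H A) : I' (pb K φ x) = I x := by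
  obtain ⟨p, u, hp, hu, -⟩ := id h
  have := h'.push hp hu hf hsq hr
  rw [funext e] at this
  rw [h.unique this]
  rfl

theorem eq_of_push (h' : IsLoc χ β' i' I') (h : IsLoc χ β i I) {f : ∀ M, X' M → X M}
    (hf : ∀ M, Continuous (f M)) {φ : C(A', A)} (hsq : ∀ M z, f M (i' M z) = i M (pr φ M z))
    (hr : ∀ M, Isol (range (i' M)) (f M ⁻¹' range (i M))) {n : R σ ⊗[ℂ] H A}
    (e : ∀ M u d, LCo (range (i M)) u → IsDeg (2 * d) u → P291Z.push (pr φ M)
      (lgys (i' M) (pull (f M) u) (β' M)) = P291Z.cap (evA A M n) (lgys (i M) u (β M)))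
    (x : K ⊗[ℂ] H A) : I' (pb K φ x) = I (x * bc (H A) χ n) := by
  obtain ⟨p, u, hp, hu, h⟩ := h
  have := ((h'.any (hu.pull hf h'.emb hsq hr)).push φ).unique ((h.cap n).congr fun M =>
    let ⟨d, hd⟩ := hu.deg M; e M _ d (hu.lco M) hd)
  exact mul_left_cancel₀ hp (LinearMap.congr_fun this x)

/-- Gysin pull-back -/
theorem gys_eq (h' : IsLoc χ β' i' I') (h : IsLoc χ β i I) {k : ∀ M, X' M → X M}
    (hk : ∀ M, IsClosedEmbedding (k M)) {θ : ∀ M, Coch (X M)} {d : ℕ → ℕ}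
    (hθ : ∀ M, IsCo (range (k M)) (d M) (θ M)) (e : ∀ M, gys (k M) (θ M) (β M) = β' M)
    {φ : C(A', A)} (hsq : ∀ M z, k M (i' M z) = i M (pr φ M z))
    (hr : ∀ M, k M ⁻¹' range (i M) ⊆ range (i' M)) {n : R σ ⊗[ℂ] H A}
    (hn : ∀ M, H.map (i M) (hcls (θ M)) = evA A M n) (x : K ⊗[ℂ] H A) :
    I' (pb K φ x) = I (x * bc (H A) χ n) := by
  refine h'.eq_of_push h (fun M => (hk M).continuous) hsq (fun M => Isol.of_subset (hr M))
    (fun M u _ hu hd => ?_) x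
  have h1 : IsClosedEmbedding (pr φ M : A' × Bs σ M → _) :=
    (pr φ M).continuous.isClosedEmbedding fun a b hab =>
      (h'.emb M).injective ((hk M).injective (by rw [hsq, hsq, hab]))
  have h2 : i M ⁻¹' range (k M) ⊆ range (pr φ M) := by
    rintro z ⟨y, hy⟩
    obtain ⟨z', rfl⟩ := hr M ⟨z, hy.symm⟩
    exact ⟨z', (h.emb M).injective ((hsq M z').symm.trans hy)⟩
  have h3 := IsCo.mono' (IsCo.pull' (hθ M) (i M).continuous) h2
  rw [← e, ← lgys_eq_gys (hk M) (hθ M).cocycle (hθ M).supp, lgys_comm (hk M) (h.emb M) h1 (h'.emb M)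
    (hsq M) (Isol.of_subset (hr M)) (LCo.of_isCo (hθ M)) hu (hθ M).deg,
    lgys_eq_gys h1 h3.cocycle h3.supp, push_gys_eq_cap h1 h3.cocycle h3.supp, ← hn,
    H.map_hcls _ (hθ M).cocycle]

omit [Nice A'] [CompactSpace A'] in
/-- **the global formula** -/
theorem sum [∀ M, CompactSpace (X M)] (h : IsLoc χ β i I) (hp : χ p ≠ 0) (hu : Lz i p u)
    (h1 : ∀ M, supp (δ (u M)) = ∅) (h2 : ∀ M, supp (u M) ⊆ range (i M)) {e : ∀ M, R σ →ₐ[ℂ] H (X M)}
    (h3 : ∀ M, hcls (u M) = e M p) (he : ∀ M f, H.map (i M) (e M f) = evA A M (f ⊗ₜ 1))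
    {α : ∀ M, H (X M)} {x : R σ ⊗[ℂ] H A} (hx : ∀ M, H.map (i M) (α M) = evA A M x) {P : R σ}
    (hP : Rep (fun M f => intg (β M) (α M * e M f)) P) : χ P = I (bc (H A) χ x) := by
  refine mul_left_cancel₀ hp (((Frc.of_rep hP).mul p).unique ((h.any hu x).congr fun M f => ?_))
  dsimp only
  rw [map_mul (evA A M), ← hx, ← he, ← map_mul, ← intg_push, lgys_eq_gys (hu.emb M) (h1 M) (h2 M),
    push_gys_eq_cap (hu.emb M) (h1 M) (h2 M), intg_cap, h3, mul_assoc, ← map_mul, mul_comm f]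

end IsLoc

end Vale.Agent.P269.LG
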