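import Vale.Agent.P269.LG.Cmb
import Vale.Agent.P269.LG.Enum
import Vale.Agent.P269.LG.Tw
import Vale.Agent.P269.Loc.Core
import Vale.Agent.P269.Gen.Ser

/-! The interface between the geometry and the combinatorics of localisation. -/

set_option linter.unusedSectionVars false

namespace Vale.Agent.P269.LG

open Set Function Topology Filter TensorProduct B Vale.Agent.P291Z Vale.Agent.P269.Ch
  Vale.Agent.P269.Loc

section cls

variable {A A' : Type} [TopologicalSpace A] [TopologicalSpace A']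

variable (A) in
/-- even classes as classes -/
noncomputable def inF : F ⊗[ℂ] Hev A →ₐ[F] F ⊗[ℂ] H A :=
  Algebra.TensorProduct.map (AlgHom.id F F) (Hev A).val

/-- pull-back of even classes -/
noncomputable def pbE (φ : C(A', A)) : F ⊗[ℂ] Hev A →ₐ[F] F ⊗[ℂ] Hev A' :=
  Algebra.TensorProduct.map (AlgHom.id F F) (Hev.map φ)

/-- the class of a locally constant function -/
noncomputable def fnE [Nice A] (g : A → ℂ) : F ⊗[ℂ] Hev A := 1 ⊗ₜ ⟨hcls (fn g), fn_mem_Hev g⟩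

/-- the idempotent of an open and closed set -/
noncomputable def idE [Nice A] (U : Set A) : F ⊗[ℂ] Hev A := fnE (U.indicator 1)

end cls

variable {V : Type} [AddCommGroup V] [Module ℂ V] {p : Fock.Par ℂ V} {ι : Type} [Fintype ι]
  {fr : Fock.Frame p ι} {C : Type} [CommRing C] [Algebra ℂ C]

/-- `V` is the cohomology of the space `X` -/
structure Dic (ac : Act fr C) (X : Type) [TopologicalSpace X] where
  /-- classes -/
  jH : V →ₗ[ℂ] H X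
  /-- even classes -/
  jC : C →ₐ[ℂ] Hev X
  /-- the integral -/
  int : H X →ₗ[ℂ] ℂ
  bij : Bijective jH
  act : ∀ c v, jH (ac.act c v) = (jC c).1 * jH v
  ev : Fock.IsEv p (parH X) jH
  one : jH fr.one = 1
  η : ∀ v w, fr.η v w = int (jH v * jH w)

variable {R J K σ ν : Type} [Fintype R] [Fintype J] [Fintype K] [Fintype σ] [Fintype ν]

/-- the fixed locus in a moduli space, its local contribution and tautological classes -/
structure Md (P : PB R J K σ) (X : Type) [TopologicalSpace X] (ν : Type) [Fintype ν] (g : ℤ)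
    (d : Option R → ℤ) where
  /-- the fixed locus -/
  A : Type
  [top : TopologicalSpace A]
  [nice : Nice A]
  [cpt : CompactSpace A]
  /-- a point is represented by a map -/
  Rp : A → AM0 R J σ ν → Prop
  ex : ∀ a, ∃ m, Rp a m
  fx : ∀ {a m}, Rp a m → Fx m P g d
  iso : ∀ {a m m'}, Rp a m → (Rp a m' ↔ AM.Iso (P.E ∅).toWt univ m m')
  inj : ∀ {a a' m}, Rp a m → Rp a' m → a = a'
  surj : ∀ {m}, Fx m P g d → ∃ a, Rp a m
  /-- the contribution -/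
  I : F ⊗[ℂ] H A →ₗ[F] F
  /-- the equivariant cotangent line classes -/
  ψ : ν → F ⊗[ℂ] Hev A
  /-- the evaluation maps to the base -/
  ev : ν → C(A, X)
  cm : ∀ n i, IsClosed {a | ∃ m, Rp a m ∧ Cm m n i}

attribute [instance] Md.top Md.nice Md.cpt

/-- properties that are invariant under isomorphisms -/
def Inv (P : PB R J K σ) (Q : AM0 R J σ ν → Prop) : Prop :=
  ∀ m m', AM.Iso (P.E ∅).toWt univ m m' → Q m → Q m'

variable {P : PB R J K σ} {X : Type} [TopologicalSpace X] {ac : Act fr C}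

/-- even classes with coefficients -/
noncomputable def Dic.c (D : Dic ac X) : F ⊗[ℂ] C →ₐ[F] F ⊗[ℂ] Hev X :=
  Algebra.TensorProduct.map (AlgHom.id F F) D.jC

namespace Md

variable {g : ℤ} {d : Option R → ℤ} (τ : Md P X ν g d) (D : Dic ac X)

/-- the part selected by a property -/
def sel (Q : AM0 R J σ ν → Prop) : Set τ.A := {a | ∃ m, τ.Rp a m ∧ Q m}

/-- the function given by an invariant -/
noncomputable def cf (f : AM0 R J σ ν → ℕ) (a : τ.A) : ℂ := f (τ.ex a).choose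

/-- the idempotent of a property -/
noncomputable def id (Q : AM0 R J σ ν → Prop) : F ⊗[ℂ] Hev τ.A := idE (τ.sel Q)

/-- pull-back of classes -/
noncomputable def evH (n : ν) : F ⊗[ℂ] V →ₗ[F] F ⊗[ℂ] H τ.A :=
  (pb F (τ.ev n)).toLinearMap ∘ₗ D.jH.baseChange F

/-- pull-back of even classes -/
noncomputable def evC (n : ν) : F ⊗[ℂ] C →ₐ[F] F ⊗[ℂ] Hev τ.A := (pbE (τ.ev n)).comp D.c

end Md

variable (P X) in
/-- a system of fixed loci -/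
abbrev Th : Type 1 := ∀ (ν : Type) [Fintype ν] (g : ℤ) (d : Option R → ℤ), Md P X ν g d

variable (T : Th P X) (D : Dic ac X)

/-- relabelling -/
def HR : Prop := ∀ (ν ν' : Type) [Fintype ν] [Fintype ν'] (φ : ν' ≃ ν) (g : ℤ) (d : Option R → ℤ),
  ∃ f : C((T ν' g d).A, (T ν g d).A), (∀ a m, (T ν g d).Rp (f a) m → (T ν' g d).Rp a (rl m φ)) ∧
    (∀ n, pbE f ((T ν g d).ψ (φ n)) = (T ν' g d).ψ n) ∧
    (∀ n, ((T ν g d).ev (φ n)).comp f = (T ν' g d).ev n) ∧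
    ∀ x, (T ν' g d).I (pb F f x) = (T ν g d).I x

/-- the two new marked points -/
abbrev qq (b : Bool) : ν ⊕ Unit × Bool := .inr ((), b)

/-- the restriction of the class of the diagonal -/
noncomputable def Md.dg [DecidableEq σ] {g : ℤ} {d : Option R → ℤ} (τ : Md P X ν g d)
    (D : Dic ac X) (χ : σ → F ⊗[ℂ] C) (i : σ) (n n' : ν) : F ⊗[ℂ] H τ.A :=
  ∑ a, τ.evH D n ((ac.bc F).act (eu χ i) (1 ⊗ₜ fr.e a)) * τ.evH D n' (1 ⊗ₜ fr.f a)

/-- normalisation of a node -/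
structure Nod [DecidableEq σ] (χ : σ → F ⊗[ℂ] C) {g g' : ℤ} {d : Option R → ℤ} (τ : Md P X ν g d)
    (τ' : Md P X (ν ⊕ Unit × Bool) g' d) {A : Type} [TopologicalSpace A] (φ : C(A, τ.A))
    (φ' : C(A, τ'.A)) : Prop where
  inj : Injective φ'
  pt : ∀ a, ∃ m n, ∃ h : m.Nds n, τ.Rp (φ a) m ∧ τ'.Rp (φ' a) (ctp m h)
  all : ∀ a m n (h : m.Nds n), τ.Rp a m → ∃ a', φ a' = a ∧ τ'.Rp (φ' a') (ctp m h)
  ψ : ∀ n, pbE φ (τ.ψ n) = pbE φ' (τ'.ψ (.inl n))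
  ev : ∀ n, (τ.ev n).comp φ = (τ'.ev (.inl n)).comp φ'
  node : (τ'.ev (qq false)).comp φ' = (τ'.ev (qq true)).comp φ'
  eq : ∀ (Q : AM0 R J σ (ν ⊕ Unit × Bool) → Prop) (i : σ) (η : F ⊗[ℂ] Hev τ'.A), Inv P Q →
    IsClopen (τ'.sel Q) → (∀ m, Q m → Cm m (qq false) i ∧ Cm m (qq true) i) →
    pbE φ' (τ'.id Q * ((-τ'.ψ (qq false) - τ'.ψ (qq true)) * η - 1)) = 0 →
    IsLocallyConstant (τ.cf (cntN · Q)) ∧ ∀ x x', pb F φ x = pb F φ' x' →
      τ.I (inF _ (fnE (τ.cf (cntN · Q))) * x) =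
        τ'.I (inF _ (τ'.id Q * η) * τ'.dg D χ i (qq false) (qq true) * x')

/-- normalisation of a node -/
def HN [DecidableEq σ] (χ : σ → F ⊗[ℂ] C) : Prop :=
  ∀ (ν : Type) [Fintype ν] (g g' : ℤ) (d : Option R → ℤ), g = g' + 1 →
    ∃ (A : Type) (_ : TopologicalSpace A) (_ : Nice A) (_ : CompactSpace A) (φ : C(A, _))
      (φ' : C(A, _)), Nod D χ (T ν g d) (T (ν ⊕ Unit × Bool) g' d) φ φ'

/-- disjoint unions -/
structure Spl {ν₁ ν₂ : Type} [Fintype ν₁] [Fintype ν₂] (φ : ν₁ ⊕ ν₂ ≃ ν) {g g₁ g₂ : ℤ}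
    {d d₁ d₂ : Option R → ℤ} (τ : Md P X ν g d) (τ₁ : Md P X ν₁ g₁ d₁) (τ₂ : Md P X ν₂ g₂ d₂)
    (f : C(τ₁.A × τ₂.A, τ.A)) (I : F ⊗[ℂ] H (τ₁.A × τ₂.A) →ₗ[F] F) : Prop where
  pt : ∀ a₁ a₂ m m₁ m₂ j₁ j₂, τ₁.Rp a₁ m₁ → τ₂.Rp a₂ m₂ → AM.Split m m₁ m₂ φ e00 j₁ j₂ →
    τ.Rp (f (a₁, a₂)) m
  ψ₁ : ∀ n, pbE f (τ.ψ (φ (.inl n))) = pbE .fst (τ₁.ψ n)
  ψ₂ : ∀ n, pbE f (τ.ψ (φ (.inr n))) = pbE .snd (τ₂.ψ n)
  ev₁ : ∀ n, (τ.ev (φ (.inl n))).comp f = (τ₁.ev n).comp .fst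
  ev₂ : ∀ n, (τ.ev (φ (.inr n))).comp f = (τ₂.ev n).comp .snd
  mul : ∀ x₁ x₂, I (pb F .fst x₁ * pb F .snd x₂) = τ₁.I x₁ * τ₂.I x₂
  eq : ∀ Q₁ Q₂, Inv P Q₁ → Inv P Q₂ → IsClopen (τ₁.sel Q₁) → IsClopen (τ₂.sel Q₂) →
    IsLocallyConstant (τ.cf (cntS · φ (fun m => m.Typ g₁ d₁ ∧ Q₁ m) Q₂)) ∧
      ∀ x, τ.I (inF _ (fnE (τ.cf (cntS · φ (fun m => m.Typ g₁ d₁ ∧ Q₁ m) Q₂))) * x) =
        I (inF _ (pbE .fst (τ₁.id Q₁) * pbE .snd (τ₂.id Q₂)) * pb F f x)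

/-- disjoint unions -/
def HS : Prop := ∀ (ν ν₁ ν₂ : Type) [Fintype ν] [Fintype ν₁] [Fintype ν₂] (φ : ν₁ ⊕ ν₂ ≃ ν)
  (g g₁ g₂ : ℤ) (d d₁ d₂ : Option R → ℤ), g = g₁ + g₂ - 1 → d = d₁ + d₂ →
    ∃ f I, Spl φ (T ν g d) (T ν₁ g₁ d₁) (T ν₂ g₂ d₂) f I

/-- the factor of an end -/
noncomputable def En.fac {B : Type} [One B] : En ν → B → B
  | .bare, y => y
  | _, _ => 1

/-- the ends of an edge carry all marked points -/
structure Ends (s t : En ν) : Prop where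
  src : s ≠ .node
  tgt : t ≠ .node
  all : ∀ n, s = .mark n ∨ t = .mark n
  ne : ∀ n, s = .mark n → t ≠ .mark n

/-- the degree of an edge -/
def edD (R : Type) (e : Edge σ) : Option R → ℤ := fun o => o.elim (e.deg + 1) 0

/-- the contribution of an edge -/
structure Edc [DecidableEq σ] (χ : σ → F ⊗[ℂ] C) (e : Edge σ) (s t : En ν)
    (τ : Md P X ν 0 (edD R e)) (u : C(X, τ.A)) : Prop where
  clopen : IsClopen (τ.sel (Edg · e s t))
  emb : IsClosedEmbedding u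
  range : range u = τ.sel (Edg · e s t)
  ev : ∀ n, (τ.ev n).comp u = .id X
  src : ∀ n, s = .mark n → pbE u (τ.ψ n) = -D.c (pe F χ e)
  tgt : ∀ n, t = .mark n → pbE u (τ.ψ n) = D.c (pe F χ e)
  eq : ∀ x, τ.I (inF _ (τ.id (Edg · e s t)) * x) = intT F D.int
    (inF _ (D.c (ee F χ e * s.fac (pe F χ e) * t.fac (-pe F χ e))) * pb F u x)

/-- the contribution of an edge -/
def HE [DecidableEq σ] (χ : σ → F ⊗[ℂ] C) : Prop :=
  ∀ (ν : Type) [Fintype ν] (e : Edge σ) (s t : En ν), Ends s t →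
    ∃ u, Edc D χ e s t (T ν 0 (edD R e)) u

variable (P) in
/-- the degree of a vertex -/
def vxD (i : σ) (β : R → ℤ) : Option R → ℤ := fun o => o.elim (-∑ r, P.wL i r * β r) β

variable (P) in
/-- the scalar factor of a vertex -/
noncomputable def lamV [DecidableEq σ] (a : σ → ℂ) (i : σ) (β : R → ℤ) : F :=
  ∏ l ∈ Finset.univ.erase i, ((a l - a i) • tt) ^ (-∑ r, (P.wL l r - P.wL i r) * β r)

/-- the contribution of a vertex -/
def HV [DecidableEq σ] (a : σ → ℂ)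
    (ZV : σ → (R → ℤ) → ℤ → ℕ → Fock.S (p.fs ℕ) →ₗ[ℂ] ℂ) : Prop :=
  ∀ (ν : Type) [Fintype ν] (g : ℤ) (d : Option R → ℤ) (i : σ),
    IsClopen ((T ν g d).sel (Vert · {i})) ∧
    (∀ n, IsNilpotent ((T ν g d).id (Vert · {i}) * (T ν g d).ψ n)) ∧
    ∀ β, d = vxD P i β → ∀ L : List (ν × ℕ × V), Enum L →
      (T ν g d).I (inF _ ((T ν g d).id (Vert · {i})) * (L.map fun x =>
        inF _ ((T ν g d).ψ x.1 ^ x.2.1) * (T ν g d).evH D x.1 (1 ⊗ₜ x.2.2)).prod) =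
      lamV P a i β * (∏ l ∈ Finset.univ.erase i, (a l - a i) • tt) ^ (g - 1) *
        Fock.Hat.ofPS ℂ (PowerSeries.mk fun m => ZV i β (g - 1) m
          (L.map fun x => Fock.ι _ (Finsupp.single x.2.1 x.2.2)).prod)

/-- the global formula -/
def HG {r : ℕ} (χ : σ → F ⊗[ℂ] C)
    (ZE : (Option R → ℤ) → ℤ → Fock.S ((p.pi (Fin (r + 1))).fs ℕ) →ₗ[ℂ] ℂ) : Prop :=
  ∀ (ν : Type) [Fintype ν] (g : ℤ) (d : Option R → ℤ) (L : List (ν × ℕ × (Fin (r + 1) → V))),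
    Enum L → ∃ Q : Polynomial ℂ, Polynomial.aeval tt Q = (T ν g d).I (L.map fun x =>
        inF _ ((T ν g d).ψ x.1 ^ x.2.1) * ∑ i, ∑ k : Fin (r + 1),
          inF _ ((T ν g d).id (Cm · x.1 i)) *
            (T ν g d).evH D x.1 ((ac.bc F).act ((-χ i) ^ (k : ℕ)) (1 ⊗ₜ x.2.2 k))).prod ∧
      Q.coeff 0 = ZE d (g - 1) (L.map fun x => Fock.ι _ (Finsupp.single x.2.1 x.2.2)).prod

/-- the class of a symbol -/
noncomputable def Md.sy {g : ℤ} {d : Option R → ℤ} (τ : Md P X ν g d) (D : Dic ac X)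
    (χ : σ → F ⊗[ℂ] C) (n : ν) : Sym σ → F ⊗[ℂ] Hev τ.A
  | .inl x => τ.id (Cm · n x.1) * τ.ψ n ^ x.2
  | .inr e => τ.id (Cm · n e.src) * Ring.inverse
      (τ.id (Cm · n e.src) * (τ.ψ n - τ.evC D n (pe F χ e)) + 1 - τ.id (Cm · n e.src))

/-- an insertion -/
noncomputable def Md.ins {g : ℤ} {d : Option R → ℤ} (τ : Md P X ν g d) (D : Dic ac X)
    (χ : σ → F ⊗[ℂ] C) (n : ν) : (Sym σ →₀ F ⊗[ℂ] V) →ₗ[F] F ⊗[ℂ] H τ.A :=
  Finsupp.lsum F fun s => LinearMap.mulLeft F (inF _ (τ.sy D χ n s)) ∘ₗ τ.evH D n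

/-- a weighted correlator -/
noncomputable def Md.W {g : ℤ} {d : Option R → ℤ} (τ : Md P X ν g d) (D : Dic ac X)
    (χ : σ → F ⊗[ℂ] C) (f : AM0 R J σ ν → ℕ) (L : List (ν × (Sym σ →₀ F ⊗[ℂ] V))) : F :=
  τ.I (inF _ (fnE (τ.cf f)) * (L.map fun x => τ.ins D χ x.1 x.2).prod)

/-- `k` edges, and vertices of degrees `β` -/
def Pcs (k : ℕ) (β : σ → R → ℤ) (m : AM0 R J σ ν) : Prop := nfl m = 2 * k ∧ vdeg m = β

variable (P) in
/-- the total degree -/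
def totD (β : σ → R → ℤ) (e : ℤ) : Option R → ℤ :=
  fun o => o.elim (e - ∑ i, ∑ r, P.wL i r * β i r) fun r => ∑ i, β i r

end Vale.Agent.P269.LG
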