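import Vale.Agent.P269.Loc.Imm
import Vale.Agent.P269.Loc.EV
import Vale.Agent.P269.Map.Gy
import Vale.Agent.P269.Prj.Quo

/-! Kuranishi charts with an action of a torus. -/

set_option linter.unusedSectionVars false
set_option linter.style.haveILetI false

namespace Vale.Agent.P269.LG

open Set Function Topology Filter Module Vale.Agent.P291Z Vale.Agent.P269.Ch Vale.Agent.P269.Orb
  Vale.Agent.P269.Loc Vale.Agent.P269.Mono

variable {σ : Type} [Fintype σ]

/-- an entire function that vanishes on the imaginary vectors vanishes -/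
theorem eq_of_im {F : Type} [NormedAddCommGroup F] [NormedSpace ℂ F] [CompleteSpace F]
    {f g : (σ → ℂ) → F} (hf : ∀ x, AnalyticAt ℂ f x) (hg : ∀ x, AnalyticAt ℂ g x)
    (h : ∀ x, (∀ i, (x i).re = 0) → f x = g x) : f = g := by
  have h1 := eventually_zero_of_im (f := fun p : (σ → ℂ) × ℂ => f p.1 - g p.1) (z := 0)
    (((hf _).comp analyticAt_fst).sub ((hg _).comp analyticAt_fst))
    (Eventually.of_forall fun p hp => sub_eq_zero.2 (h _ hp))
  exact AnalyticOnNhd.eq_of_eventuallyEq (fun x _ => hf x) (fun x _ => hg x)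
    (((continuous_id.prodMk continuous_const).tendsto' 0 _ rfl).eventually h1 |>.mono
      fun _ e => sub_eq_zero.1 e)

theorem expT_mem {x : σ → ℂ} (h : ∀ i, (x i).re = 0) : expT x ∈ cpt σ := fun i => by
  rw [coe_expT, Complex.norm_exp, h i, Real.exp_zero]

/-- holomorphic representations of the torus are sums of weight spaces -/
theorem wtd_of_an {V : Type} [NormedAddCommGroup V] [NormedSpace ℂ V] [FiniteDimensional ℂ V]
    {τ : Tor σ →* End ℂ V} (hc : Continuous fun p : Tor σ × V => τ p.1 p.2)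
    (ha : ∀ v x, AnalyticAt ℂ (fun y => τ (expT y) v) x) : Wtd τ := by
  haveI := FiniteDimensional.complete ℂ V
  suffices τ = cx τ from this ▸ wtd_cx hc
  refine MonoidHom.ext fun s => LinearMap.ext fun v => ?_
  obtain ⟨x, rfl⟩ := expT_surjective s
  exact congrFun (eq_of_im (ha v) ((wtd_cx hc).an_expT v) fun y hy => by
    rw [cx_eq hc (expT_mem hy)]) x

variable {A B W P : Type} [NormedRing A] [NormedAlgebra ℂ A] [NormedRing B] [NormedAlgebra ℂ B]
  [NormedAddCommGroup W] [NormedSpace ℂ W] [AddCommGroup P] [Module ℂ P] [TopologicalSpace P]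

/-- a representation on the image of an embedding -/
theorem exists_endo {ρ : B → P → P} {P₀ : Submodule ℂ P} (h : IsRepOn ρ P₀) {V : Type}
    [NormedAddCommGroup V] [NormedSpace ℂ V] [FiniteDimensional ℂ V] {i : V →ₗ[ℂ] P}
    (hi : IsEmbedding i) (hr : LinearMap.range i = P₀) :
    ∃ b : Bˣ →* End ℂ V, (Continuous fun p : Bˣ × V => b p.1 p.2) ∧
      ∀ g w, i (b g w) = ρ g (i w) := by
  have m : ∀ w, i w ∈ P₀ := fun w => hr.le ⟨w, rfl⟩
  choose f hf using fun (g : Bˣ) w => hr.ge (h.mem _ g.isUnit _ (m w))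
  let l : Bˣ → End ℂ V := fun g => ⟨⟨f g, fun v w => hi.injective (by
    rw [map_add, hf, hf, hf, map_add, h.add _ g.isUnit _ (m v) _ (m w)])⟩, fun z w => hi.injective (by
      rw [RingHom.id_apply, map_smul, hf, hf, map_smul, h.smul _ g.isUnit _ _ (m w)])⟩
  have hc : Continuous fun g => LinearMap.toContinuousLinearMap (l g) :=
    continuous_clm_apply.2 fun w => hi.continuous_iff.2
      ((h.cont _ (m w)).congr fun g => (hf g w).symm)
  exact ⟨⟨⟨l, LinearMap.ext fun w => hi.injective ((hf 1 w).trans (h.one _ (m w)))⟩, fun g g' =>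
    LinearMap.ext fun w => hi.injective ((hf _ w).trans ((h.mul _ _ g.isUnit g'.isUnit _ (m w)).trans
      (by rw [← hf]; exact (hf _ _).symm)))⟩, (hc.comp continuous_fst).clm_apply continuous_snd, hf⟩

variable [FiniteDimensional ℂ A] [FiniteDimensional ℂ B] [FiniteDimensional ℂ W]

/-- the linear action of the units -/
@[reducible] noncomputable def actD {act : A → W → W} (ha : Holo.IsAct act univ)
    (hl : ∀ a, IsUnit a → IsLinearMap ℂ (act a)) : DistribMulAction Aˣ W :=
  VB.linAct (fun g : Aˣ => (hl g g.isUnit).mk' _) (fun w => ha.one w trivial)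
    fun g g' w => ha.mul _ _ g.isUnit g'.isUnit w trivial

theorem continuous_act {act : A → W → W} (ha : Holo.IsAct act univ) :
    Continuous fun p : Aˣ × W => act p.1 p.2 :=
  continuous_iff_continuousAt.2 fun p => ContinuousAt.comp
    (g := fun p : A × W => act p.1 p.2) (f := fun p : Aˣ × W => ((p.1 : A), p.2))
    (ha.an _ p.1.isUnit p.2 trivial).continuousAt
    (Units.continuous_val.prodMap continuous_id).continuousAt

/-- a smooth domain as a complex orbifold -/
@[reducible] noncomputable def hoD {act : A → W → W} {D : KD A W P} {Z S O : Set W}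
    (h : D.Dom act Z S O) (ha : Holo.IsAct act univ) (hl : ∀ a, IsUnit a → IsLinearMap ℂ (act a))
    {n : ℕ} (hm : KD.Mf A O n) : HO where
  toSp := h.sp
  L := A
  A := W
  aA := actD ha hl
  cA := @SMulCommClass.mk Aˣ _ _ (actD ha hl).toSMul _ fun g c w => (hl _ g.isUnit).map_smul c w
  tA := @ContinuousSMul.mk Aˣ _ (actD ha hl).toSMul _ _ (continuous_act ha)
  κ := haveI := FiniteDimensional.complete ℂ A; Holo.expU
  ι := Holo.Sp.val (act := act)
  n := n
  exp := haveI := FiniteDimensional.complete ℂ A; Holo.isExp_expU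
  an := haveI := FiniteDimensional.complete ℂ A
    fun a => AnalyticAt.comp (g := fun p : A × W => act p.1 p.2)
      (f := fun p : A × W => (NormedSpace.exp p.1, p.2)) (ha.an _ (Holo.expU 0).isUnit a trivial)
      (((Holo.exp_an _).comp analyticAt_fst).prod analyticAt_snd)
  emb := Holo.Sp.isEmbedding_val
  eqv := fun _ _ => rfl
  mfd := fun x => (hm _ (Holo.Sp.val_mem (act := act) x)).isMfd _

variable (σ) in
/-- A Kuranishi chart `O` for `act₀` with zero set `Z`; the action extends to the product `B` of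
`A` with the torus, and `O` is invariant under the compact torus. -/
structure TC (act₀ : A → W → W) (act : B → W → W) (D : KD B W P) (Z : Set W) where
  /-- the big algebra is a product -/
  u : (A × (σ → ℂ)) ≃ₐ[ℂ] B
  /-- the chart -/
  O : Set W
  /-- the domain of the Kuranishi data -/
  dm : Set W
  /-- the dimension of the chart -/
  n : ℕ
  /-- the rank of `van` -/
  v : ℕ
  /-- the rank of the obstruction bundle -/
  r : ℕ
  isAct₀ : Holo.IsAct act₀ univ
  isAct : Holo.IsAct act univ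
  lin : ∀ b, IsUnit b → IsLinearMap ℂ (act b)
  eq : ∀ a, IsUnit a → ∀ x, act₀ a x = act (u (a, 1)) x
  ok : D.Ok act dm v r
  sub : O ⊆ dm
  ivt : Ivt act dm
  ivtZ : Ivt act Z
  dom : (D.pb (fun a => u (a, 1)) id).Dom act₀ Z O O
  cpt : ∀ s : σ → ℂ, (∀ i, ‖s i‖ = 1) → ∀ x ∈ O, act (u (1, s)) x ∈ O
  mf : KD.Mf A O n
  cZ : CompactSpace (Quo act₀ Z)

namespace TC

variable {act₀ : A → W → W} {act : B → W → W} {D : KD B W P} {Z : Set W} (c : TC σ act₀ act D Z)

/-- the Kuranishi data for the small group -/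
noncomputable abbrev D₀ : KD A W P := D.pb (fun a => c.u (a, 1)) id

theorem continuous_u : Continuous c.u := c.u.toLinearMap.continuous_of_finiteDimensional

theorem continuous_symm : Continuous c.u.symm :=
  c.u.symm.toLinearMap.continuous_of_finiteDimensional

/-- the big group is a product -/
noncomputable def U : Aˣ × Tor σ ≃* Bˣ :=
  (((MulEquiv.refl _).prodCongr MulEquiv.piUnits.symm).trans MulEquiv.prodUnits.symm).trans
    (Units.mapEquiv c.u.toMulEquiv)

theorem U_val (k : Aˣ × Tor σ) : (c.U k : B) = c.u (k.1, fun i => k.2 i) := rfl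

theorem U_symm_fst (b : Bˣ) : ((c.U.symm b).1 : A) = (c.u.symm b).1 := rfl

theorem U_symm_snd (b : Bˣ) (i : σ) : ((c.U.symm b).2 i : ℂ) = (c.u.symm b).2 i := rfl

@[fun_prop] theorem continuous_U : Continuous c.U := by
  have : Continuous fun k : Aˣ × Tor σ => (c.U k : B) := c.continuous_u.comp
    ((Units.continuous_val.comp continuous_fst).prodMk (continuous_pi fun i =>
      Units.continuous_val.comp ((continuous_apply i).comp continuous_snd)))
  exact Units.continuous_iff.2 ⟨this, (this.comp continuous_inv).congr fun k => by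
    rw [comp_apply, map_inv]⟩

@[fun_prop] theorem continuous_U_symm : Continuous c.U.symm := by
  have h1 : Continuous fun b : Bˣ => c.u.symm b := c.continuous_symm.comp Units.continuous_val
  have h2 : Continuous fun b : Bˣ => c.u.symm (b⁻¹ : Bˣ) := h1.comp continuous_inv
  exact (Units.continuous_iff.2 ⟨h1.fst, h2.fst⟩).prodMk (continuous_pi fun i =>
    Units.continuous_iff.2 ⟨(continuous_apply i).comp h1.snd, (continuous_apply i).comp h2.snd⟩)

/-- the elements of the torus -/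
noncomputable def t : Tor σ →* Bˣ := c.U.toMonoidHom.comp (MonoidHom.inr _ _)

theorem t_val (s : Tor σ) : (c.t s : B) = c.u (1, fun i => s i) := rfl

@[fun_prop] theorem continuous_t : Continuous c.t :=
  c.continuous_U.comp (continuous_const.prodMk continuous_id)

theorem commute_t (g : Aˣ) (s : Tor σ) : Commute (c.t s) (c.U (g, 1)) :=
  Commute.map (show Commute ((1, s) : Aˣ × Tor σ) (g, 1) from
    Prod.ext (Commute.one_left g) (Commute.one_right s)) c.U

include c in
theorem act_mul (b b' : Bˣ) (x : W) : act (b * b' : Bˣ) x = act b (act b' x) :=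
  c.isAct.mul _ _ b.isUnit b'.isUnit x trivial

theorem eqU (g : Aˣ) (x : W) : act₀ g x = act (c.U (g, 1)) x := c.eq _ g.isUnit x

include c in
theorem lin₀ (a : A) (ha : IsUnit a) : IsLinearMap ℂ (act₀ a) :=
  (funext (c.eq a ha) : act₀ a = _) ▸ c.lin _ (c.U (ha.unit, 1)).isUnit

/-- the representation of the torus -/
noncomputable def b : Tor σ →* End ℂ W where
  toFun s := (c.lin _ (c.t s).isUnit).mk' _
  map_one' := LinearMap.ext fun x => (congrArg (fun g : Bˣ => act g x) c.t.map_one).trans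
    (c.isAct.one x trivial)
  map_mul' s s' := LinearMap.ext fun x => (congrArg (fun g : Bˣ => act g x) (c.t.map_mul s s')).trans
    (c.act_mul _ _ x)

theorem b_apply (s : Tor σ) (x : W) : c.b s x = act (c.t s) x := rfl

theorem act_U (k : Aˣ × Tor σ) (x : W) : act (c.U k) x = act₀ k.1 (c.b k.2 x) := by
  rw [c.eqU, b_apply, ← c.act_mul]
  exact congrArg (fun g : Bˣ => act g x) ((congrArg c.U (by simp)).trans (map_mul c.U _ (1, k.2)))

theorem b_act (s : Tor σ) (g : Aˣ) (x : W) : c.b s (act₀ g x) = act₀ g (c.b s x) := by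
  rw [c.eqU, c.eqU, b_apply, b_apply, ← c.act_mul, ← c.act_mul, c.commute_t]

theorem wtd : Wtd c.b :=
  wtd_of_an ((continuous_act c.isAct).comp (c.continuous_t.prodMap continuous_id)) fun v x =>
    AnalyticAt.comp (g := fun p : B × W => act p.1 p.2) (f := fun y => ((c.t (expT y) : B), v))
      (c.isAct.an _ (c.t _).isUnit v trivial)
      ((((LinearMap.toContinuousLinearMap c.u.toLinearMap).analyticAt _).comp
        (analyticAt_const.prod (AnalyticAt.pi fun i => ((ContinuousLinearMap.proj (R := ℂ)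
          (φ := fun _ : σ => ℂ) i).analyticAt x).cexp'))).prod analyticAt_const)

theorem b_mem {S : Set W} (h : Ivt act S) (s : Tor σ) {x : W} (hx : x ∈ S) : c.b s x ∈ S :=
  h _ (c.t s).isUnit x hx

theorem b_mem_O {s : Tor σ} (hs : s ∈ Loc.cpt σ) {x : W} (hx : x ∈ c.O) : c.b s x ∈ c.O :=
  c.cpt _ hs x hx

theorem ok₀ : c.D₀.Ok act₀ c.O c.v c.r :=
  c.ok.pb (c.U.toMonoidHom.comp (MonoidHom.inl _ _))
    (c.continuous_U.comp (continuous_id.prodMk continuous_const)) (fun _ => rfl) continuousOn_id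
    c.sub fun x _ a ha => c.eq a ha x

theorem gd : c.D₀.Gd act₀ Z c.O c.v c.r := ⟨c.dom, c.ok₀⟩

/-- the chart as a complex orbifold: `G = Aˣ`, `T = Holo.Sp act₀ c.O`, `X = Quo act₀ c.O` -/
@[reducible] noncomputable def Y : HO := hoD c.dom c.isAct₀ c.lin₀ c.mf

/-- a point of the chart -/
noncomputable def pt (x : W) (hx : x ∈ c.O) : c.Y.T := Holo.Sp.of act₀ x hx

theorem ι_pt (x : W) (hx : x ∈ c.O) : c.Y.ι (c.pt x hx) = x := rfl

theorem ι_mem (t : c.Y.T) : c.Y.ι t ∈ c.O := Holo.Sp.val_mem (act := act₀) t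

theorem π_pt (x : W) (hx : x ∈ c.O) : c.Y.π (c.pt x hx) = Quo.mk act₀ ⟨x, hx⟩ := rfl

theorem fund_eq : c.Y.fund = c.gd.fu c.n := rfl

/-- the action of the compact torus -/
noncomputable def h : TH σ c.Y where
  a s x := c.pt (c.b (ph s) (c.Y.ι x)) (c.b_mem_O (ph_mem s) (c.ι_mem x))
  one x := c.Y.emb.injective (show c.b (ph 1) _ = _ by rw [map_one, map_one, End.one_apply])
  mul s s' x := c.Y.emb.injective (show c.b (ph (s * s')) _ = _ by
    rw [map_mul, map_mul, End.mul_apply]; rfl)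
  cont := (c.wtd.cont₂.comp (f := fun p : Tor σ × c.Y.T => (ph p.1, c.Y.ι p.2))
    (continuous_ph.prodMap c.Y.cι)).subtype_mk _
  comm s g x := c.Y.emb.injective (c.b_act _ g _)
  b := c.b
  wtd := c.wtd
  bcomm := c.b_act
  eqv _ _ := rfl

theorem h_b : c.h.b = c.b := rfl

variable [IsTopologicalAddGroup P] [ContinuousSMul ℂ P] [T2Space P]

/-- the presentation -/
noncomputable def k : KP c.Y.toSp := c.gd.exists_isKP.choose

/-- its embedding -/
noncomputable def e : c.k.P.W →ₗ[ℂ] P := c.gd.exists_isKP.choose_spec.choose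

theorem isKP : c.dom.IsKP c.k c.e := c.gd.exists_isKP.choose_spec.choose_spec.1

theorem k_v : c.k.v = c.v := c.gd.exists_isKP.choose_spec.choose_spec.2.1

theorem k_r : c.k.r = c.r := c.gd.exists_isKP.choose_spec.choose_spec.2.2.1

theorem mem_Zs {t : c.Y.T} : t ∈ c.k.Zs ↔ c.Y.ι t ∈ Z := c.dom.mem_Zs c.isKP

section kap

variable {c} {k : KP c.Y.toSp} {e : k.P.W →ₗ[ℂ] P} (hk : c.dom.IsKP k e)

/-- the action of the big group on a presentation -/
noncomputable def bP : Bˣ →* End ℂ k.P.W := (exists_endo c.ok.rep hk.emb hk.range).choose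

theorem continuous_bP : Continuous fun p : Bˣ × k.P.W => bP hk p.1 p.2 :=
  (exists_endo c.ok.rep hk.emb hk.range).choose_spec.1

theorem e_bP (g : Bˣ) (w : k.P.W) : e (bP hk g w) = D.ρ g (e w) :=
  (exists_endo c.ok.rep hk.emb hk.range).choose_spec.2 g w

theorem smul_eq (g : c.Y.G) (w : k.P.W) : g • w = bP hk (c.U (g, 1)) w :=
  hk.emb.injective ((hk.eqv g w).trans (e_bP hk (c.U (g, 1)) w).symm)

/-- the action of the compact torus on a presentation -/
noncomputable def κ' : TKP c.h.toTS k where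
  b := (bP hk).comp (c.t.comp ph)
  cont := (continuous_bP hk).comp ((c.continuous_t.comp continuous_ph).prodMap continuous_id)
  comm s g w := by
    rw [smul_eq hk g, smul_eq hk g]
    exact LinearMap.congr_fun ((c.commute_t g (ph s)).map (bP hk)).eq w
  inv _ _ _ _ := hk.memF _ _
  s_eqv s t := hk.emb.injective ((hk.sec _).trans ((c.ok.eqv _ (c.sub (c.ι_mem t)) _
    (c.t _).isUnit).trans (((e_bP hk _ _).trans (congrArg _ (hk.sec t))).symm)))
  van_inv s t w hw := (hk.van _ _).2 ((e_bP hk (c.t (ph s)) w).symm ▸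
    c.ok.fam.inv _ (c.sub (c.ι_mem t)) _ (c.t _).isUnit _ ((hk.van t w).1 hw))
  obs_inv s t w ht hw := (hk.obs _ ((c.dom.mem_Zs hk).2
      (c.b_mem c.ivtZ _ ((c.dom.mem_Zs hk).1 ht))) _).2 ((e_bP hk (c.t (ph s)) w).symm ▸
    c.ok.obs_inv _ (c.sub (c.ι_mem t)) (hk.mem_Zs.1 ht) _ (c.t _).isUnit _ ((hk.obs t ht w).1 hw))

theorem e_κ' (s : Tor σ) (w : k.P.W) : e ((κ' hk).b s w) = D.ρ (c.t (ph s)) (e w) := e_bP hk _ w

end kap

/-- the action of the compact torus on the presentation -/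
noncomputable def κ : TKP c.h.toTS c.k := κ' c.isKP

theorem e_κ (s : Tor σ) (w : c.k.P.W) : c.e (c.κ.b s w) = D.ρ (c.t (ph s)) (c.e w) :=
  e_κ' c.isKP s w

/-- the virtual class -/
noncomputable def β₀ : BM (Quo act₀ Z) := c.k.vir (Quo.incl act₀ c.dom.sub) c.Y.fund

theorem isW {S : Set W} (ho : ∃ U, IsOpen U ∧ c.O = S ∩ U) : c.D₀.IsW act₀ Z S c.n c.β₀ :=
  ⟨c.O, c.v, c.r, c.gd, ho, c.mf, by rw [c.dom.vr_eq c.isKP]; rfl⟩

/-- the points of `Z` whose orbits are fixed -/
def FZ : Set W := {x | x ∈ Z ∧ ∀ s ∈ Loc.cpt σ, ∃ a, IsUnit a ∧ c.b s x = act₀ a x}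

theorem FZ_sub : c.FZ ⊆ Z := fun _ h => h.1

theorem FZ_sub_O : c.FZ ⊆ c.O := fun _ h => c.dom.sub h.1

theorem mem_fix {t : c.Y.T} : t ∈ c.h.toTS.Fix ∩ c.k.Zs ↔ c.Y.ι t ∈ c.FZ := by
  refine and_comm.trans (and_congr c.mem_Zs (forall₂_congr fun s hs => eq_comm.trans
    ((c.Y.fib _ _).trans ⟨fun ⟨g, hg⟩ => ⟨_, Units.isUnit g, ?_⟩, fun ⟨a, ha, e⟩ => ⟨ha.unit, ?_⟩⟩)))
  · exact (congrArg (c.b · _) (ph_of_mem hs).symm).trans (congrArg c.Y.ι hg).symm
  · exact c.Y.emb.injective (e.symm.trans (congrArg (c.b · _) (ph_of_mem hs).symm))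

theorem pt_mem {x : W} (hx : x ∈ c.FZ) : c.pt x (c.FZ_sub_O hx) ∈ c.h.toTS.Fix ∩ c.k.Zs :=
  c.mem_fix.2 hx

theorem ivt_FZ : Ivt act₀ c.FZ := fun a ha x hx =>
  (c.mem_fix (t := (show c.Y.G from ha.unit) • c.pt x (c.FZ_sub_O hx))).1
    ⟨TS.smul_mem_fix (c.pt_mem hx).1 _, c.k.smul_mem_Zs _ _ (c.pt_mem hx).2⟩

/-- a fixed orbit is invariant under the complex torus -/
theorem exists_b {x : W} (hx : x ∈ c.FZ) (s : Tor σ) : ∃ g : Aˣ, c.b s x = act₀ g x := by
  haveI := FiniteDimensional.complete ℂ A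
  haveI := FiniteDimensional.complete ℂ W
  obtain ⟨d, hd⟩ := c.h.toTS.exists_dat c.h.a_ph (c.pt_mem hx).1
  let l : Tor σ →* End ℂ A := (Algebra.lmul ℂ A).toRingHom.toMonoidHom.comp
    ((Units.coeHom A).comp d.ρ)
  have hl : Continuous fun p : Tor σ × A => l p.1 p.2 :=
    (Units.continuous_val.comp (d.cρ.comp continuous_fst)).mul continuous_snd
  have h1 : ∀ s a, cx l s a = cx l s 1 * a := fun s a => by
    have := map_cx hl hl (f := LinearMap.mulRight ℂ a) (fun s _ v => mul_assoc _ _ _) s 1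
    rw [LinearMap.mulRight_apply, LinearMap.mulRight_apply, one_mul] at this
    exact this.symm
  let ρ : Tor σ →* Aˣ := MonoidHom.toHomUnits ⟨⟨fun s => cx l s 1, by rw [(cx l).map_one, End.one_apply]⟩,
    fun s s' => show cx l (s * s') 1 = cx l s 1 * cx l s' 1 by rw [(cx l).map_mul, End.mul_apply, h1]⟩
  obtain ⟨s, rfl⟩ := exists_pow_eq d.hm s
  obtain ⟨y, rfl⟩ := expT_surjective s
  refine ⟨ρ (expT y), congrFun (eq_of_im (f := fun y => c.b (expT y ^ d.m) x)
    (g := fun y => act₀ (ρ (expT y)) x) (fun y => ?_) (fun y => ?_) fun y hy => ?_) y⟩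
  · simp only [← expT_nsmul]
    exact (c.wtd.an_expT x _).comp (f := fun y : σ → ℂ => d.m • y)
      ((d.m • ContinuousLinearMap.id ℂ (σ → ℂ)).analyticAt y)
  · exact AnalyticAt.comp (g := fun p : A × W => act₀ p.1 p.2) (f := fun y => ((ρ (expT y) : A), x))
      (c.isAct₀.an _ (ρ _).isUnit x trivial) (((wtd_cx hl).an_expT 1 y).prod analyticAt_const)
  · have e := congrArg c.Y.ι (hd (expT y))
    rw [c.h.eqv, ph_of_mem (pow_mem (expT_mem hy) _)] at e
    refine e.trans (congrArg (act₀ · x) ?_)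
    change _ = cx l _ 1
    rw [cx_eq hl (expT_mem hy)]
    exact (mul_one _).symm

theorem b_mem_FZ {x : W} (hx : x ∈ c.FZ) (s : Tor σ) : c.b s x ∈ c.FZ :=
  let ⟨g, e⟩ := c.exists_b hx s
  e ▸ c.ivt_FZ _ g.isUnit x hx

/-- the fixed locus -/
def F : Type := Quo act₀ c.FZ

instance : TopologicalSpace c.F := inferInstanceAs (TopologicalSpace (Quo act₀ c.FZ))

/-- the orbit of a fixed point -/
def cl (x : W) (hx : x ∈ c.FZ) : c.F := Quo.mk act₀ ⟨x, hx⟩

theorem cl_surj (a : c.F) : ∃ x hx, c.cl x hx = a := ⟨_, (Quo.out a).2, Tq.mk_out a⟩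

theorem isAct_FZ : Holo.IsAct act₀ c.FZ := c.isAct₀.mono (subset_univ _) c.ivt_FZ

theorem cl_eq {x y : W} {hx hy} : c.cl x hx = c.cl y hy ↔ ∃ g : Aˣ, act₀ g x = y :=
  haveI := c.isAct_FZ
  (Holo.Sp.mk_eq_iff (act := act₀)).trans
    (exists_congr fun _ => ⟨congrArg Holo.Sp.val, fun e => Holo.Sp.ext e⟩)

/-- the inclusion in the chart -/
noncomputable def g : C(c.F, c.Y.X) := qinc act₀ c.FZ_sub_O

/-- the inclusion in the zero set -/
def g₀ : C(c.F, Quo act₀ Z) := qinc act₀ c.FZ_sub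

theorem g_cl (x : W) (hx : x ∈ c.FZ) : c.g (c.cl x hx) = c.Y.π (c.pt x (c.FZ_sub_O hx)) := rfl

theorem g₀_cl (x : W) (hx : x ∈ c.FZ) : c.g₀ (c.cl x hx) = Quo.mk act₀ ⟨x, hx.1⟩ := rfl

theorem incl_g₀ (a : c.F) : Quo.incl act₀ c.dom.sub (c.g₀ a) = c.g a := by
  obtain ⟨x, hx, rfl⟩ := c.cl_surj a
  rfl

theorem range_g : range c.g = c.Y.π '' (c.h.toTS.Fix ∩ c.k.Zs) :=
  Subset.antisymm (by
    rintro _ ⟨a, rfl⟩
    obtain ⟨x, hx, rfl⟩ := c.cl_surj a
    exact ⟨_, c.pt_mem hx, rfl⟩) (by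
    rintro _ ⟨t, ht, rfl⟩
    exact ⟨c.cl _ (c.mem_fix.1 ht), rfl⟩)

theorem isClosedEmbedding_g : IsClosedEmbedding c.g :=
  haveI := c.isAct_FZ
  haveI := c.dom.isAct
  ⟨isEmbedding_incl c.FZ_sub_O, c.range_g ▸ c.Y.isQuo.isClosed_image
    (fun g t ht => ⟨TS.smul_mem_fix ht.1 g, c.k.smul_mem_Zs g t ht.2⟩)
    (c.h.toTS.isClosed_fix.inter c.k.isClosed_Zs)⟩

theorem isClosedEmbedding_g₀ : IsClosedEmbedding c.g₀ :=
  IsClosedEmbedding.of_comp (c.dom.isZ c.isKP).emb.isEmbedding
    ((funext c.incl_g₀ : _ ∘ _ = _).symm ▸ c.isClosedEmbedding_g)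

include c in
theorem niceZ : Nice (Quo act₀ Z) := c.gd.niceZ

instance : Nice c.F := Nice.of_isEmbedding c.isClosedEmbedding_g.isEmbedding
  c.isClosedEmbedding_g.isClosed_range.isLocallyClosed

instance : CompactSpace c.F :=
  haveI := c.cZ
  c.isClosedEmbedding_g₀.compactSpace

end TC

end Vale.Agent.P269.LG
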