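import Vale.Agent.P269.LG.Bor

/-! The Borel construction of a chart as a chart for the big group. -/

set_option linter.unusedSectionVars false
set_option linter.style.haveILetI false

namespace Vale.Agent.P269.LG

open Set Function Topology Filter Module TensorProduct Vale.Agent.P291Z Vale.Agent.P269.Ch
  Vale.Agent.P269.Orb Vale.Agent.P269.Loc Vale.Agent.P269.Mono

variable {σ : Type} [Fintype σ]

theorem orb_of_iso (Y : Ch.Sp) {G T : Type} [Group G] [TopologicalSpace G] [IsTopologicalGroup G]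
    [TopologicalSpace T] [MulAction G T] [ContinuousSMul G T] (θ : Y.G ≃* G) (h1 : Continuous θ)
    (h2 : Continuous θ.symm) (f : Y.T ≃ₜ T) (he : ∀ g t, f (g • t) = θ g • f t) : Orb G T := by
  have he' : ∀ (g : G) t, f.symm (g • t) = θ.symm g • f.symm t := fun g t =>
    f.injective (by rw [he, f.apply_symm_apply, f.apply_symm_apply, θ.apply_symm_apply])
  haveI : Nice T := Nice.of_isEmbedding f.symm.isEmbedding
    (f.symm.surjective.range_eq ▸ isClosed_univ.isLocallyClosed)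
  refine ⟨inferInstance, Holo.properSMul_of_hom
    (Homeomorph.mk θ.symm.toEquiv h2 h1).isProperMap f.symm.continuous he', inferInstance, fun t => ?_⟩
  obtain ⟨τ, a, b⟩ := Y.free (f.symm t)
  refine ⟨fun x => θ (τ (f.symm x)), (f.symm.continuous.continuousAt.eventually a).mono fun x hx =>
    h1.continuousAt.comp (hx.comp f.symm.continuous.continuousAt), ?_⟩
  refine (((h2.prodMap f.symm.continuous).tendsto' (1, t) (1, f.symm t)
    (Prod.ext (map_one θ.symm) rfl)).eventually b).mono fun y hy => ?_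
  change θ (τ (f.symm _)) = y.1 * θ (τ (f.symm y.2))
  rw [he', show τ (θ.symm y.1 • f.symm y.2) = _ from hy, map_mul]
  exact congrArg (· * _) (θ.apply_symm_apply _)

theorem isOpenQuotientMap_bp {M : ℕ} : IsOpenQuotientMap (bp : PM σ M → Bs σ M) :=
  ((TS.triv σ pt).B M).quo.comp (Homeomorph.uniqueProd Unit (PM σ M)).symm.isOpenQuotientMap

theorem bp_eq {M : ℕ} {p q : PM σ M} : bp p = bp q ↔ ∃ s : Tor σ, s • p = q :=
  (((TS.triv σ pt).B M).fib _ _).trans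
    ⟨fun ⟨k, e⟩ => ⟨k.2, congrArg Prod.snd e⟩, fun ⟨s, e⟩ => ⟨(1, s), Prod.ext rfl e⟩⟩

variable {A B W W' W'' P : Type} [NormedRing A] [NormedAlgebra ℂ A] [NormedRing B]
  [NormedAlgebra ℂ B] [NormedAddCommGroup W] [NormedSpace ℂ W] [NormedAddCommGroup W']
  [NormedSpace ℂ W'] [NormedAddCommGroup W''] [NormedSpace ℂ W''] [AddCommGroup P] [Module ℂ P]
  [TopologicalSpace P] [FiniteDimensional ℂ A] [FiniteDimensional ℂ B] [FiniteDimensional ℂ W]
  [FiniteDimensional ℂ W'] [FiniteDimensional ℂ W''] {act₀ : A → W → W} {act : B → W → W}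
  {D : KD B W P} {Z : Set W}

namespace TC

/-- `(act', Z')` is the `M`-th approximation of the Borel construction -/
structure Lv (c : TC σ act₀ act D Z) (M : ℕ) (act' : B → W' → W') (Z' : Set W') where
  /-- the coordinates -/
  μ : (W × (σ → Fin (M + 1) → ℂ)) ≃L[ℂ] W'
  isAct : Holo.IsAct act' univ
  eqv : ∀ b, IsUnit b → ∀ x p, act' b (μ (x, p)) = μ (act b x, fun i => (c.u.symm b).2 i • p i)
  mem : ∀ x p, μ (x, p) ∈ Z' ↔ x ∈ Z ∧ ∀ i, p i ≠ 0

variable {c : TC σ act₀ act D Z} {M : ℕ} {act' : B → W' → W'} {Z' : Set W'}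

namespace Lv

variable (L : c.Lv M act' Z')

/-- the projection -/
noncomputable def pr (y : W') : W := (L.μ.symm y).1

theorem pr_μ (x : W × (σ → Fin (M + 1) → ℂ)) : L.pr (L.μ x) = x.1 :=
  congrArg Prod.fst (L.μ.symm_apply_apply x)

theorem continuous_pr : Continuous L.pr := L.μ.symm.continuous.fst

/-- the Kuranishi data -/
noncomputable abbrev D' : KD B W' P := D.pb id L.pr

theorem eqvU (k : Aˣ × Tor σ) (x : W) (p : σ → Fin (M + 1) → ℂ) :
    act' (c.U k) (L.μ (x, p)) = L.μ (act₀ k.1 (c.b k.2 x), fun i => (k.2 i : ℂ) • p i) := by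
  rw [L.eqv _ (c.U k).isUnit, c.act_U, c.U_val, c.u.symm_apply_apply]

theorem pr_act (b : B) (hb : IsUnit b) (y : W') : L.pr (act' b y) = act b (L.pr y) := by
  obtain ⟨⟨x, p⟩, rfl⟩ := L.μ.surjective y
  rw [L.eqv b hb, pr_μ, pr_μ]

include L in
theorem lin (b : B) (hb : IsUnit b) : IsLinearMap ℂ (act' b) := by
  have : act' b = fun y => L.μ (((c.lin b hb).mk' _).prodMap (LinearMap.pi fun i =>
      (c.u.symm b).2 i • LinearMap.proj (R := ℂ) (φ := fun _ : σ => Fin (M + 1) → ℂ) i)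
      (L.μ.symm y)) := funext fun y => by
    obtain ⟨⟨x, p⟩, rfl⟩ := L.μ.surjective y
    rw [L.eqv b hb, L.μ.symm_apply_apply]
    rfl
  rw [this]
  exact ⟨fun x y => by simp only [map_add], fun z x => by simp only [map_smul]⟩

theorem mem_pm {x : W} (hx : x ∈ Z) (p : PM σ M) : L.μ (x, p.val) ∈ Z' := (L.mem _ _).2 ⟨hx, p.ne⟩

theorem exists_eq {y : W'} (hy : y ∈ Z') : ∃ x ∈ Z, ∃ p : PM σ M, L.μ (x, p.val) = y := by
  obtain ⟨⟨x, p⟩, rfl⟩ := L.μ.surjective y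
  exact ⟨x, ((L.mem _ _).1 hy).1, ⟨p, ((L.mem _ _).1 hy).2⟩, rfl⟩

/-- the orbit of a point -/
noncomputable def cl (x : W) (hx : x ∈ Z) (p : PM σ M) : Quo act' Z' := Quo.mk act' ⟨_, L.mem_pm hx p⟩

theorem cl_surj (z : Quo act' Z') : ∃ x hx p, L.cl x hx p = z := by
  obtain ⟨x, hx, p, e⟩ := L.exists_eq (Quo.out z).2
  exact ⟨x, hx, p, (congrArg (Quo.mk act') (Subtype.ext e)).trans (Tq.mk_out z)⟩

theorem cl_congr {x y : W} {hx hy} {p q : PM σ M} (e : x = y) (e' : p = q) :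
    L.cl x hx p = L.cl y hy q := by
  subst e e'
  rfl

theorem cl_smul (k : Aˣ × Tor σ) {x : W} (hx : x ∈ Z) (p : PM σ M) (h) :
    L.cl (act₀ k.1 (c.b k.2 x)) h (k.2 • p) = L.cl x hx p :=
  (Quot.sound ⟨_, (c.U k).isUnit, (L.eqvU k x p.val).symm⟩).symm

/-- the chart -/
def O : Set W' := range fun x : (c.h.bo M).T => L.μ ((c.h.bo M).ι x)

theorem emb : IsEmbedding fun x : (c.h.bo M).T => L.μ ((c.h.bo M).ι x) :=
  L.μ.toHomeomorph.isEmbedding.comp (c.h.bo M).emb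

theorem μ_smul (k : (c.h.bo M).G) (x : (c.h.bo M).T) :
    L.μ ((c.h.bo M).ι (k • x)) = act' (c.U k) (L.μ ((c.h.bo M).ι x)) :=
  (congrArg L.μ ((c.h.bo M).eqv k x)).trans (L.eqvU k _ _).symm

theorem ivtO : Ivt act' L.O := by
  rintro _ ⟨g, rfl⟩ _ ⟨x, rfl⟩
  obtain ⟨k, rfl⟩ := c.U.surjective g
  exact ⟨_, L.μ_smul k x⟩

theorem mem_O {x : W} {p : σ → Fin (M + 1) → ℂ} :
    L.μ (x, p) ∈ L.O ↔ ∃ hp : ∀ i, p i ≠ 0, c.b (PM.nrm (M := M) ⟨p, hp⟩)⁻¹ x ∈ c.O := by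
  refine ⟨fun ⟨y, e⟩ => ?_, fun ⟨hp, h⟩ => ⟨(c.pt _ h, (⟨p, hp⟩ : PM σ M)),
    congrArg L.μ (Prod.ext (c.h.b_inv' _ _) rfl)⟩⟩
  obtain ⟨rfl, rfl⟩ := Prod.mk.inj (L.μ.injective e)
  exact ⟨y.2.ne, (c.h.b_inv y.2.nrm _).symm ▸ c.ι_mem y.1⟩

theorem pr_mem {y : W'} (hy : y ∈ L.O) : L.pr y ∈ c.dm := by
  obtain ⟨x, rfl⟩ := hy
  exact mem_of_eq_of_mem (L.pr_μ _) (c.b_mem c.ivt _ (c.sub (c.ι_mem x.1)))

theorem isActO : Holo.IsAct act' L.O := L.isAct.mono (subset_univ _) L.ivtO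

/-- the identification of the spaces upstairs -/
noncomputable def φ : (c.h.bo M).T ≃ₜ Holo.Sp act' L.O := L.emb.toHomeomorph

theorem φ_val (x : (c.h.bo M).T) : (L.φ x).val = L.μ (c.b x.2.nrm (c.Y.ι x.1), x.2.val) := rfl

theorem b_mem_iff (s : Tor σ) {x : W} : c.b s x ∈ Z ↔ x ∈ Z :=
  ⟨fun h => c.h.b_inv s x ▸ c.b_mem c.ivtZ s⁻¹ h, c.b_mem c.ivtZ s⟩

theorem ok : L.D'.Ok act' L.O c.v c.r :=
  c.ok.pb (MonoidHom.id _) continuous_id (fun _ => rfl) L.continuous_pr.continuousOn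
    (fun _ => L.pr_mem) fun y _ b hb => L.pr_act b hb y

theorem van_b (s : Tor σ) {x : W} (hx : x ∈ c.dm) {w : P} (hw : w ∈ D.P₀) :
    D.ρ (c.t s) w ∈ D.van (c.b s x) ↔ w ∈ D.van x := by
  refine ⟨fun h => ?_, c.ok.fam.inv x hx _ (c.t s).isUnit w⟩
  have := c.ok.fam.inv _ (c.b_mem c.ivt s hx) _ (c.t s⁻¹).isUnit _ h
  rwa [← c.ok.rep.mul _ _ (c.t _).isUnit (c.t _).isUnit _ hw, ← Units.val_mul, ← map_mul,
    inv_mul_cancel, map_one, Units.val_one, c.ok.rep.one _ hw, ← c.b_apply,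
    show c.b s⁻¹ (c.b s x) = x from c.h.b_inv s x] at this

theorem dom : L.D'.Dom act' Z' L.O L.O where
  sub y hy := by
    obtain ⟨x, hx, p, rfl⟩ := L.exists_eq hy
    exact L.mem_O.2 ⟨p.ne, c.dom.sub (c.b_mem c.ivtZ _ hx)⟩
  opn := ⟨univ, isOpen_univ, (inter_univ _).symm⟩
  isAct := L.isActO
  orb :=
    haveI := L.isActO
    orb_of_iso (c.h.bo M).toSp c.U c.continuous_U c.continuous_U_symm L.φ
      fun k x => Holo.Sp.ext (L.μ_smul k x)
  zero := by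
    rintro _ ⟨x, rfl⟩
    have h := c.sub (c.ι_mem x.1)
    change D.s (L.pr (L.μ (c.b x.2.nrm (c.Y.ι x.1), x.2.val))) ∈
      D.van (L.pr (L.μ (c.b x.2.nrm (c.Y.ι x.1), x.2.val))) ↔ L.μ (_, _) ∈ Z'
    rw [pr_μ, L.mem, and_iff_left x.2.ne]
    exact ((congrArg (· ∈ _) (c.ok.eqv _ h _ (c.t _).isUnit)).to_iff.trans
      (van_b _ h (c.ok.mem _ h))).trans ((c.dom.zero _ (c.ι_mem x.1)).trans (b_mem_iff _).symm)

theorem gd : L.D'.Gd act' Z' L.O c.v c.r := ⟨L.dom, L.ok⟩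

theorem mf : KD.Mf B L.O (c.n + Fintype.card σ * M) := fun y hy => ⟨hy, by
  rw [← c.u.toLinearEquiv.finrank_eq]
  exact (((c.h.bo M).mfd _).pull (L.φ.symm.lh ⟨y, hy⟩)).change
    ⟨_, L.μ.analyticAt _, .of_forall fun s => congrArg Subtype.val (L.φ.apply_symm_apply s).symm⟩
    ⟨_, L.μ.symm.analyticAt _, .of_forall fun s => L.μ.eq_symm_apply.2
      (congrArg Subtype.val (L.φ.apply_symm_apply s))⟩⟩

/-- the chart as a complex orbifold -/
@[reducible] noncomputable def Y : HO := hoD L.dom L.isAct L.lin L.mf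

/-- the identification with the Borel construction -/
noncomputable def mI : Mor (c.h.bo M).toSp L.Y.toSp :=
  ⟨c.U.toMonoidHom, L.φ, c.continuous_U, L.φ.continuous, fun k x => Holo.Sp.ext (L.μ_smul k x)⟩

/-- the identification with the Borel construction -/
noncomputable def mO : Mor L.Y.toSp (c.h.toTS.B M) :=
  ⟨c.U.symm.toMonoidHom, L.φ.symm, c.continuous_U_symm, L.φ.symm.continuous, fun g y =>
    L.φ.symm_apply_eq.2 (((L.mI.eqv _ _).trans (congrArg₂ (fun (a : L.Y.G) (b : L.Y.T) => a • b)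
      (c.U.apply_symm_apply g) (L.φ.apply_symm_apply y))).symm)⟩

theorem mI_mO (x : L.Y.X) : L.mI.map (L.mO.map x) = x := by
  obtain ⟨t, rfl⟩ := L.Y.surj x
  exact (congrArg _ (L.mO.map_π t)).trans ((L.mI.map_π _).trans
    (congrArg _ (L.φ.apply_symm_apply t)))

theorem mO_mI (x : (c.h.toTS.B M).X) : L.mO.map (L.mI.map x) = x := by
  obtain ⟨t, rfl⟩ := (c.h.toTS.B M).surj x
  exact (congrArg _ (L.mI.map_π t)).trans ((L.mO.map_π _).trans
    (congrArg _ (L.φ.symm_apply_apply t)))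

theorem isHomeomorph_mO : IsHomeomorph L.mO.map := isHomeomorph_iff_exists_inverse.2
  ⟨L.mO.map.continuous, L.mI.map, L.mI_mO, L.mO_mI, L.mI.map.continuous⟩

theorem etale : IsOpenEmbedding L.mI.map ∧ res L.mI.map L.Y.fund = c.h.fundB M := by
  haveI := FiniteDimensional.complete ℂ A
  haveI := FiniteDimensional.complete ℂ B
  have := Holo.etale (c.h.bo M) L.Y rfl L.mI (fun t => ⟨_, L.μ.analyticAt _, .of_forall fun _ => rfl⟩)
    (LinearMap.toContinuousLinearMap c.u.toLinearMap) (fun x => Units.ext ?_) c.u.surjective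
    c.U.surjective fun t t' e => ⟨1, ⟨map_one _, (one_smul _ _).trans (L.φ.injective e)⟩,
      fun g hg => c.U.injective (hg.1.trans (map_one _).symm)⟩
  · exact ⟨this.1, this.2.2.2.1⟩
  · letI := NormedAlgebra.restrictScalars ℚ ℂ A
    letI := NormedAlgebra.restrictScalars ℚ ℂ B
    have e : ∀ x : A × (σ → ℂ), c.u (NormedSpace.exp x.1, fun i => Complex.exp (x.2 i)) =
        NormedSpace.exp (c.u x) := fun x => by
      rw [← NormedSpace.map_exp c.u c.continuous_u]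
      refine congrArg c.u (Prod.ext (Prod.fst_exp x).symm (funext fun i => ?_))
      rw [Prod.snd_exp, Pi.coe_exp, Complex.exp_eq_exp_ℂ]
    exact e x

/-- the inclusion in the Borel construction -/
noncomputable def j : C(Quo act' Z', (c.h.toTS.B M).X) := L.mO.map.comp (qinc act' L.dom.sub)

theorem mI_j (z : Quo act' Z') : L.mI.map (L.j z) = Quo.incl act' L.dom.sub z := L.mI_mO _

theorem j_cl (x : W) (hx : x ∈ Z) (p : PM σ M) : L.j (L.cl x hx p) =
    (c.h.toTS.B M).π (c.pt _ (c.dom.sub (c.b_mem c.ivtZ p.nrm⁻¹ hx)), p) := by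
  refine Eq.trans (congrArg L.mO.map ?_) (L.mO_mI _)
  refine Eq.trans ?_ (L.mI.map_π _).symm
  exact congrArg (Quo.mk act') (Subtype.ext (congrArg L.μ (Prod.ext (c.h.b_inv' _ _).symm rfl)))

theorem j_cl' (t : c.Y.T) (p : PM σ M) (h) :
    L.j (L.cl (c.b p.nrm (c.Y.ι t)) h p) = (c.h.toTS.B M).π (t, p) :=
  (L.j_cl _ _ _).trans (congrArg _ (Prod.ext (c.Y.emb.injective (c.h.b_inv _ _)) rfl))

theorem mem_range_j {x : (c.h.toTS.B M).T} : (c.h.toTS.B M).π x ∈ range L.j ↔ c.Y.ι x.1 ∈ Z := by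
  refine ⟨fun ⟨z, e⟩ => ?_, fun h => ⟨_, L.j_cl' x.1 x.2 (c.b_mem c.ivtZ _ h)⟩⟩
  obtain ⟨y, hy, p, rfl⟩ := L.cl_surj z
  obtain ⟨k, rfl⟩ := ((c.h.toTS.B M).fib _ _).1 ((L.j_cl _ _ _).symm.trans e)
  exact mem_of_eq_of_mem (c.eqU k.1 _)
    (c.ivtZ _ (Units.isUnit _) _ (c.b_mem c.ivtZ (ph k.2) (c.b_mem c.ivtZ p.nrm⁻¹ hy)))

section inc

variable {act'' : B → W'' → W''} {Z'' : Set W''} (L' : c.Lv (M + 1) act'' Z'')

/-- the inclusion of the approximations, upstairs -/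
noncomputable def incF (y : W') : W'' :=
  L'.μ (L.pr y, fun i => Fin.cons 0 ((L.μ.symm y).2 i))

theorem incF_μ (x : W) (p : σ → Fin (M + 1) → ℂ) :
    L.incF L' (L.μ (x, p)) = L'.μ (x, fun i => Fin.cons 0 (p i)) := by
  rw [incF, pr_μ, L.μ.symm_apply_apply]

theorem eqh_inc : Tq.Eqh act' act'' Z' Z'' (fun b => b) (L.incF L') := by
  refine ⟨Tq.Hm.id, fun y hy => ?_, (L'.μ.continuous.comp (L.continuous_pr.prodMk
    (continuous_pi fun i => continuous_pi fun j => Fin.cases continuous_const (fun j =>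
      (continuous_apply j).comp ((continuous_apply i).comp L.μ.symm.continuous.snd)) j))).continuousOn,
    fun b hb y _ => ?_⟩
  · obtain ⟨x, hx, p, rfl⟩ := L.exists_eq hy
    exact mem_of_eq_of_mem (L.incF_μ L' _ _) (L'.mem_pm hx p.inc)
  · obtain ⟨⟨x, p⟩, rfl⟩ := L.μ.surjective y
    rw [L.eqv b hb, incF_μ, incF_μ, L'.eqv b hb]
    exact congrArg (fun q => L'.μ (_, q)) (funext fun i => funext fun j =>
      Fin.cases (smul_zero ((c.u.symm b).2 i)).symm (fun _ => rfl) j)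

/-- the inclusion of the approximations -/
noncomputable def inc : C(Quo act' Z', Quo act'' Z'') := (L.eqh_inc L').toEqv.qm

theorem inc_cl (x : W) (hx : x ∈ Z) (p : PM σ M) : L.inc L' (L.cl x hx p) = L'.cl x hx p.inc :=
  congrArg (Quo.mk act'') (Subtype.ext (L.incF_μ L' _ _))

theorem j_inc (z : Quo act' Z') : L'.j (L.inc L' z) = (c.h.toTS.inc M).map (L.j z) := by
  obtain ⟨x, hx, p, rfl⟩ := L.cl_surj z
  rw [inc_cl, j_cl, j_cl]
  refine Eq.trans ?_ (Mor.map_π _ _).symm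
  exact congrArg (c.h.toTS.B (M + 1)).π (Prod.ext (c.Y.emb.injective
    (congrArg (fun s : Tor σ => c.b s⁻¹ x) (PM.nrm_inc p))) rfl)

end inc

/-- polynomials in the equivariant parameters -/
noncomputable def e : R σ →ₐ[ℂ] H (Quo act' Z') := (H.mapA L.j).comp (c.h.toTS.e M)

theorem e_apply (f : R σ) : L.e f = H.map L.j (c.h.toTS.e M f) := rfl

theorem eqh_base (L : c.Lv 0 act' Z') :
    Tq.Eqh act₀ act' Z Z' (fun a => c.u (a, 1)) fun x => L.μ (x, fun _ _ => 1) :=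
  ⟨⟨map_one c.u, fun a b _ _ => by rw [← map_mul, Prod.mk_mul_mk, mul_one], fun _ _ =>
      (c.continuous_u.comp (continuous_id.prodMk continuous_const)).continuousAt⟩,
    fun _ hx => L.mem_pm hx PM.one,
    (L.μ.continuous.comp (continuous_id.prodMk continuous_const)).continuousOn, fun a ha x _ => by
      rw [L.eqv (c.u (a, 1)) (c.U (ha.unit, 1)).isUnit, c.eq a ha, c.u.symm_apply_apply]
      exact congrArg (fun q => L.μ (_, q)) (funext fun i => (one_smul _ _).symm)⟩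

/-- the zeroth approximation -/
noncomputable def base (L : c.Lv 0 act' Z') : C(Quo act₀ Z, Quo act' Z') := L.eqh_base.toEqv.qm

theorem base_cl (L : c.Lv 0 act' Z') (x : W) (hx : x ∈ Z) :
    L.base (Quo.mk act₀ ⟨x, hx⟩) = L.cl x hx PM.one := rfl

theorem j_base (L : c.Lv 0 act' Z') (z : Quo act₀ Z) :
    L.j (L.base z) = c.h.toTS.base.map (Quo.incl act₀ c.dom.sub z) := by
  obtain ⟨⟨x, hx⟩, rfl⟩ := Tq.mk_surj z
  refine (L.j_cl x hx PM.one).trans (Eq.trans ?_ (c.h.toTS.base.map_π (c.pt x (c.dom.sub hx))).symm)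
  refine congrArg (c.h.toTS.B 0).π (Prod.ext (c.Y.emb.injective ?_) rfl)
  change c.b (PM.nrm PM.one)⁻¹ x = x
  rw [show PM.nrm (PM.one : PM σ 0) = 1 from funext fun _ => Units.ext (by simp [PM.nrm, PM.one, PM.val]),
    inv_one, map_one, End.one_apply]

variable [IsTopologicalAddGroup P] [ContinuousSMul ℂ P] [T2Space P]

theorem cl_fix {x : W} (hx : x ∈ c.FZ) (s : Tor σ) (p : PM σ M) :
    L.cl x hx.1 (s • p) = L.cl x hx.1 p := by
  obtain ⟨g, e⟩ := c.exists_b hx s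
  have : act₀ (g⁻¹ : Aˣ) (c.b s x) = x := by
    rw [e, ← c.isAct₀.mul _ _ g⁻¹.isUnit g.isUnit x trivial, Units.inv_mul, c.isAct₀.one x trivial]
  exact Eq.trans (by simp only [this]) (L.cl_smul (g⁻¹, s) hx.1 p (this.symm ▸ hx.1))

theorem cl_act {x : W} (hx : x ∈ Z) (g : Aˣ) (p : PM σ M) (h) :
    L.cl (act₀ g x) h p = L.cl x hx p := by
  have : c.b 1 x = x := by rw [map_one, End.one_apply]
  exact Eq.trans (by simp only [this, one_smul]) (L.cl_smul (g, 1) hx p (this.symm ▸ h))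

theorem exists_i : ∃ i : C(c.F × Bs σ M, Quo act' Z'),
    ∀ x hx p, i (c.cl x hx, bp p) = L.cl x hx.1 p := by
  haveI := c.isAct_FZ
  have q := ((Holo.Sp.isOpenQuotientMap_mk (act := act₀) (S := c.FZ)).prodMap
    (isOpenQuotientMap_bp (σ := σ) (M := M))).isQuotientMap
  let f : C(Holo.Sp act₀ c.FZ × PM σ M, Quo act' Z') :=
    ⟨fun z => L.cl z.1.val z.1.val_mem.1 z.2, Tq.continuous_mk.comp ((L.μ.continuous.comp
      (Holo.Sp.continuous_val.prodMap PM.continuous_val)).subtype_mk _)⟩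
  have hf : FactorsThrough f (⟨_, q.continuous⟩ : C(_, _)) := fun z z' e => by
    obtain ⟨g, e1⟩ := c.cl_eq.1 (congrArg Prod.fst e)
    obtain ⟨s, e2⟩ := bp_eq.1 (congrArg Prod.snd e)
    exact ((L.cl_fix z.1.val_mem s _).symm.trans (L.cl_act _ g _
      (mem_of_eq_of_mem e1 z'.1.val_mem.1)).symm).trans (L.cl_congr (hy := z'.1.val_mem.1) e1 e2)
  exact ⟨IsQuotientMap.lift (f := ⟨_, q.continuous⟩) q f hf, fun x hx p => DFunLike.congr_fun
    (IsQuotientMap.lift_comp (f := ⟨_, q.continuous⟩) q f hf) (Holo.Sp.of act₀ x hx, p)⟩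

/-- the inclusion of the fixed locus -/
noncomputable def i : C(c.F × Bs σ M, Quo act' Z') := L.exists_i.choose

theorem i_cl (x : W) (hx : x ∈ c.FZ) (p : PM σ M) : L.i (c.cl x hx, bp p) = L.cl x hx.1 p :=
  L.exists_i.choose_spec x hx p

theorem j_i {z : c.F} {t : c.Y.T} (p : PM σ M) (e : c.g z = c.Y.π t) :
    L.j (L.i (z, bp p)) = (c.h.toTS.B M).π (t, p) := by
  obtain ⟨x, hx, rfl⟩ := c.cl_surj z
  obtain ⟨g, rfl⟩ := (c.Y.fib _ _).1 e
  have h := c.ivt_FZ _ (Units.isUnit g) x hx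
  obtain ⟨g', e'⟩ := c.exists_b h p.nrm
  have h' := c.b_mem c.ivtZ p.nrm h.1
  rw [i_cl, ← L.cl_act hx.1 g p h.1, ← L.cl_act h.1 g' p (e' ▸ h'), L.cl_congr (hy := h') e'.symm rfl]
  exact L.j_cl' (c.pt _ (c.FZ_sub_O h)) p h'

theorem inc_i {act'' : B → W'' → W''} {Z'' : Set W''} (L' : c.Lv (M + 1) act'' Z'')
    (z : c.F × Bs σ M) : L.inc L' (L.i z) = L'.i (incA c.F M z) := by
  obtain ⟨z, b⟩ := z
  obtain ⟨x, hx, rfl⟩ := c.cl_surj z
  obtain ⟨p, rfl⟩ := isOpenQuotientMap_bp.surjective b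
  rw [incA_bp, i_cl, i_cl, inc_cl]

include L in
theorem nice : Nice (Quo act' Z') := L.gd.niceZ

theorem isClosedEmbedding_j : IsClosedEmbedding L.j :=
  L.isHomeomorph_mO.isClosedEmbedding.comp L.gd.isClosedEmbedding

/-- the equivariant virtual class -/
noncomputable def β : BM (Quo act' Z') := (c.κ.bo (pm σ M)).vir L.j (c.h.fundB M)

end Lv

variable [IsTopologicalAddGroup P] [ContinuousSMul ℂ P] [T2Space P] {V : ℕ → Type}
  [∀ M, NormedAddCommGroup (V M)] [∀ M, NormedSpace ℂ (V M)] [∀ M, FiniteDimensional ℂ (V M)]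
  {ac : ∀ M, B → V M → V M} {ZM : ∀ M, Set (V M)} (L : ∀ M, c.Lv M (ac M) (ZM M))

theorem pc : Pc c.h.toTS c.k.Zs (fun M => (L M).j) c.g fun M => (L M).i :=
  ⟨fun M => (L M).isClosedEmbedding_j, fun M _ => (L M).mem_range_j.trans c.mem_Zs.symm,
    c.isClosedEmbedding_g.injective, c.range_g.le, Isol.of_subset c.range_g.ge,
    fun M _ _ p => (L M).j_i p⟩

variable [∀ M, Nice (Quo (ac M) (ZM M))] {K : Type} [Field K] [Algebra ℂ K] {χ : R σ →ₐ[ℂ] K}

theorem isTw : IsTw c.h.toTS (fun M => (L M).j) (c.n - c.r) fun M => (L M).β :=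
  c.k_r ▸ isTw_vir c.κ (pc L).emb (pc L).rng

theorem exists_isLoc (hχ : ∀ w ≠ 0, χ (Loc.lin w) ≠ 0) :
    ∃ I, IsLoc χ (fun M => (L M).β) (fun M => (L M).i) I := (pc L).exists_isLoc hχ (isTw L)

theorem map_i_e (M : ℕ) (f : R σ) : H.map (L M).i ((L M).e f) = evA c.F M (f ⊗ₜ 1) := by
  rw [Lv.e_apply, H.map_map]
  exact (pc L).map_e M f

end TC

end Vale.Agent.P269.LG
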