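import Vale.Agent.P269.LG.BorL

/-! The virtual class of the Borel construction. -/

set_option linter.unusedSectionVars false
set_option linter.style.haveILetI false

namespace Vale.Agent.P269.LG

open Set Function Topology Filter Module TensorProduct Vale.Agent.P291Z Vale.Agent.P269.Ch
  Vale.Agent.P269.Orb Vale.Agent.P269.Loc Vale.Agent.P269.Mono

variable {σ : Type} [Fintype σ] {A B W W' P : Type} [NormedRing A] [NormedAlgebra ℂ A] [NormedRing B]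
  [NormedAlgebra ℂ B] [NormedAddCommGroup W] [NormedSpace ℂ W] [NormedAddCommGroup W']
  [NormedSpace ℂ W'] [AddCommGroup P] [Module ℂ P]
  [TopologicalSpace P] [FiniteDimensional ℂ A] [FiniteDimensional ℂ B] [FiniteDimensional ℂ W]
  [FiniteDimensional ℂ W'] {act₀ : A → W → W} {act : B → W → W}
  {D : KD B W P} {Z : Set W} [IsTopologicalAddGroup P] [ContinuousSMul ℂ P] [T2Space P]
  {c : TC σ act₀ act D Z} {M : ℕ} {act' : B → W' → W'} {Z' : Set W'}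

namespace TC

/-- the Borel construction of an equivariant presentation is a presentation -/
theorem isKP_bo {k : KP c.Y.toSp} {e : k.P.W →ₗ[ℂ] P} (hk : c.dom.IsKP k e) (κ : TKP c.h.toTS k)
    (he : ∀ s w, e (κ.b s w) = D.ρ (c.t (ph s)) (e w)) (M : ℕ) :
    D.IsKP (c.h.toTS.B M) (fun g => c.U (g.1, ph g.2)) (fun x => c.Y.ι x.1) (κ.bo (pm σ M)) e := by
  refine ⟨hk.emb, hk.range, fun x => hk.top x.1, fun g w => ?_, fun x => hk.van x.1,
    fun x => hk.sec x.1, fun x => hk.obs x.1⟩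
  refine (hk.eqv g.1 (κ.b g.2 w)).trans ((congrArg (D.ρ (c.U (g.1, 1))) (he g.2 w)).trans
    ((c.ok.rep.mul _ _ (c.U _).isUnit (c.t _).isUnit _ (hk.mem w)).symm.trans ?_))
  exact congrArg (fun b : Bˣ => D.ρ b (e w)) ((map_mul c.U (g.1, 1) (1, ph g.2)).symm.trans
    (congrArg c.U (a₂ := (g.1, ph g.2)) (Prod.ext (mul_one _) (one_mul _))))

variable (c) in
theorem exists_lin : ∃ l : Tor σ → P →ₗ[ℂ] P, ∀ s, ∀ f ∈ D.P₀, l s f = D.ρ (c.t s) f := by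
  obtain ⟨j, hj⟩ := c.e.exists_leftInverse_of_injective
    (LinearMap.ker_eq_bot.2 c.isKP.emb.injective)
  refine ⟨fun s => c.e ∘ₗ bP c.isKP (c.t s) ∘ₗ j, fun s f hf => ?_⟩
  obtain ⟨w, rfl⟩ := c.isKP.lift hf
  exact (e_bP c.isKP _ _).trans (congrArg (fun v => D.ρ (c.t s) (c.e v)) (LinearMap.congr_fun hj w))

theorem isZ_bo {k : KP c.Y.toSp} {e : k.P.W →ₗ[ℂ] P} (hk : c.dom.IsKP k e) (κ : TKP c.h.toTS k)
    (L : c.Lv M act' Z') : (κ.bo (pm σ M)).IsZ L.j :=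
  KP.IsZ.of_range L.isClosedEmbedding_j.isEmbedding
    (κ.range_eq fun _ => L.mem_range_j.trans (c.dom.mem_Zs hk).symm)

end TC

namespace TC.Lv

variable (L : c.Lv M act' Z')

include L in
theorem compactSpace : CompactSpace (Quo act' Z') := by
  haveI := c.cZ
  have h := c.h.toTS.isCompact_bo M (isCompact_range (qinc act₀ c.dom.sub).continuous)
    L.isClosedEmbedding_j.isClosed_range fun x hx => ⟨Quo.mk act₀ ⟨_, L.mem_range_j.1 hx⟩, rfl⟩
  exact ⟨L.isClosedEmbedding_j.isEmbedding.isCompact_iff.2 (image_univ.symm ▸ h)⟩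

theorem e_X (i : σ) : L.e (MvPolynomial.X i) = Tq.lcq act' Z' fun b => (c.u.symm b).2 i := by
  haveI := L.gd.isActZ
  let m : Mor (spA L.gd.orbZ) L.Y.toSp := ⟨MonoidHom.id _, Holo.Sp.incl act' L.dom.sub, continuous_id,
    (Holo.Sp.isEmbedding_incl _).continuous, fun _ _ => rfl⟩
  have e : L.j = (L.mO.comp m).map :=
    DFunLike.coe_injective ((L.mO.comp m).map_eq fun t => L.mO.map_π (m.f t))
  rw [Tq.lcq_eq (presA L.gd.orbZ) (χ := (L.mO.comp m).chr (c.h.toTS.chi (pm σ M) i)) fun _ => rfl,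
    ← map_c1, L.e_apply, TS.e_apply, TS.ev_X, e]
  exact (H.map_id (fun _ => rfl) _).symm

theorem opn {S : Set W} (hS : Ivt act S) (ho : ∃ U, IsOpen U ∧ c.O = S ∩ U) {S' : Set W'}
    (hS' : ∀ x p, L.μ (x, p) ∈ S' ↔ x ∈ S ∧ ∀ i, p i ≠ 0) : ∃ U, IsOpen U ∧ L.O = S' ∩ U := by
  obtain ⟨U, hU, e⟩ := ho
  have h1 : IsOpenMap fun y : W × PM σ M => L.μ (y.1, y.2.val) :=
    L.μ.toHomeomorph.isOpenMap.comp (IsOpenMap.id.prodMap PM.isOpenEmbedding_val.isOpenMap)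
  refine ⟨_, h1 _ (hU.preimage (c.h.continuous_b (PM.continuous_nrm.comp continuous_snd).inv
    continuous_fst)), Set.ext fun y => ?_⟩
  obtain ⟨⟨x, p⟩, rfl⟩ := L.μ.surjective y
  refine L.mem_O.trans ⟨fun ⟨hp, h⟩ => ⟨(hS' _ _).2 ⟨?_, hp⟩, (x, ⟨p, hp⟩), (e.le h).2, rfl⟩,
    fun ⟨h, y, hy, e'⟩ => ?_⟩
  · exact c.h.b_inv' _ x ▸ c.b_mem hS _ (e.le h).1
  · obtain ⟨rfl, rfl⟩ := Prod.mk.inj (L.μ.injective e')
    exact ⟨y.2.ne, e.ge ⟨c.b_mem hS _ ((hS' _ _).1 h).1, hy⟩⟩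

theorem β_eq : L.β = L.D'.vr act' Z' L.O (L.gd.fu (c.n + Fintype.card σ * M)) := by
  obtain ⟨k, i, hk, -, hr, hv⟩ := L.gd.exists_isKP
  obtain ⟨l, hl⟩ := c.exists_lin
  have hb := isKP_bo c.isKP c.κ c.e_κ M
  have h0 : ∀ x : (c.h.toTS.B M).T, c.Y.ι x.1 ∈ c.dm := fun x => c.sub (c.ι_mem x.1)
  have h1 : ∀ x : (c.h.toTS.B M).T, L.pr (L.dom.pres.i (L.mI.f x)) = c.b x.2.nrm (c.Y.ι x.1) :=
    fun x => L.pr_μ _
  obtain ⟨T, h2, h3⟩ := hk.exists_hom hb L.mI (fun x => l x.2.nrm)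
    (fun x f hf => (hl _ f hf).symm ▸ c.ok.rep.mem _ (c.t _).isUnit f hf)
    (fun f hf => ((c.ok.rep.cont f hf).comp (c.continuous_t.comp
      (PM.continuous_nrm.comp continuous_snd))).congr fun x => (hl _ f hf).symm)
    (fun g x f hf => by
      refine (hl _ _ (c.ok.rep.mem _ (c.U _).isUnit f hf)).trans
        ((c.ok.rep.mul _ _ (c.t _).isUnit (c.U _).isUnit f hf).symm.trans (Eq.trans ?_
          ((c.ok.rep.mul _ _ (c.U g).isUnit (c.t x.2.nrm).isUnit f hf).trans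
            (congrArg (D.ρ (c.U g)) (hl _ f hf).symm))))
      refine congrArg (fun b : Bˣ => D.ρ b f) ((map_mul c.U (1, _) _).symm.trans
        ((congrArg c.U (Prod.ext ((one_mul _).trans (mul_one _).symm) ?_)).trans
          (map_mul c.U g (1, x.2.nrm))))
      exact (congrArg (· * ph g.2) (PM.nrm_smul g.2 x.2)).trans
        ((mul_right_comm _ _ _).trans (congrArg (· * x.2.nrm) (absT_mul_ph g.2))))
    (fun x f hf h => (congrArg D.van (h1 x)).ge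
      ((hl _ f hf).symm ▸ c.ok.fam.inv _ (h0 x) _ (c.t _).isUnit f h))
    (fun x => mem_of_eq_of_mem (sub_eq_zero.2 ((hl _ _ (c.ok.mem _ (h0 x))).trans
      ((c.ok.eqv _ (h0 x) _ (c.t _).isUnit).symm.trans (congrArg D.s (h1 x).symm)))) (zero_mem _))
    fun x hx f hf h => (congrArg D.obs (h1 x)).ge
      ((hl _ f hf).symm ▸ c.ok.obs_inv _ (h0 x) (hb.mem_Zs.1 hx) _ (c.t _).isUnit f h)
  have h4 := h2.cmp (fun x _ w _ hw => (hb.van x w).2 ((van_b x.2.nrm (h0 x) (hb.mem w)).1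
    ((congrArg D.van (h1 x)).le (mem_of_eq_of_mem ((h3 x w).trans (hl _ _ (hb.mem w))).symm
      ((hk.van _ _).1 hw))))) (c.k_r.trans hr.symm)
  rw [hv]
  exact ((h4.vir_res L.etale.1 (L.dom.isZ hk) (isZ_bo c.isKP c.κ L) L.mI_j L.Y.fund).trans
    (congrArg _ L.etale.2)).symm

/-- every equivariant presentation computes the class -/
theorem vir_eq {k : KP c.Y.toSp} {e : k.P.W →ₗ[ℂ] P} (hk : c.dom.IsKP k e) (κ : TKP c.h.toTS k)
    (he : ∀ s w, e (κ.b s w) = D.ρ (c.t (ph s)) (e w)) :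
    (κ.bo (pm σ M)).vir L.j (c.h.fundB M) = L.β :=
  LinearMap.congr_fun ((KP.Cmp.of_id ((isKP_bo c.isKP c.κ c.e_κ M).cmp (isKP_bo hk κ he M)
    (Mor.id _) (fun _ => rfl) fun _ => rfl)).vir_id (isZ_bo hk κ L)) _

theorem isW {S : Set W} (hS : Ivt act S) (ho : ∃ U, IsOpen U ∧ c.O = S ∩ U) {S' : Set W'}
    (hS' : ∀ x p, L.μ (x, p) ∈ S' ↔ x ∈ S ∧ ∀ i, p i ≠ 0) :
    L.D'.IsW act' Z' S' (c.n + Fintype.card σ * M) L.β :=
  ⟨L.O, c.v, c.r, L.gd, L.opn hS ho hS', L.mf, L.β_eq⟩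

theorem isHomeomorph_base (L : c.Lv 0 act' Z') : IsHomeomorph L.base := by
  refine isHomeomorph_iff_isEmbedding_surjective.2 ⟨(isClosedEmbedding_of_comp
    L.isClosedEmbedding_j.isEmbedding L.j_base (c.h.toTS.isHomeomorph_base.isClosedEmbedding.comp
      c.gd.isClosedEmbedding)).isEmbedding, fun z => ?_⟩
  obtain ⟨x, hx, p, rfl⟩ := L.cl_surj z
  have h := c.b_mem c.ivtZ p.unit⁻¹ hx
  have e : act₀ (1 : Aˣ) (c.b p.unit (c.b p.unit⁻¹ x)) = x :=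
    (c.isAct₀.one _ trivial).trans (c.h.b_inv' _ x)
  exact ⟨Quo.mk act₀ ⟨_, h⟩, (L.cl_smul (1, p.unit) h PM.one (e.symm ▸ hx)).symm.trans
    (L.cl_congr e p.unit_smul_one)⟩

theorem res_base (L : c.Lv 0 act' Z') : haveI := L.nice; res L.base L.β = c.β₀ :=
  haveI := L.nice
  (c.κ.cmp_base.res_vir c.h.toTS.isHomeomorph_base.isOpenEmbedding (isZ_bo c.isKP c.κ L)
    (c.dom.isZ c.isKP) (fun z => (L.j_base z).symm) _).trans (congrArg _ c.h.res_base)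

end TC.Lv

end Vale.Agent.P269.LG
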