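import Vale.Agent.P269.Pt.Ops2
import Vale.Agent.P269.Cv.Rat
import Vale.Agent.P269.Vir.Defs
import Vale.Agent.P269.B.Iface

/-! Projective bundles as families; the combinatorics of maps fixed by the torus. -/

set_option linter.unusedSectionVars false

namespace Vale.Agent.P269.LG

open Set Function Topology Filter Cv B

/-- the projective bundle of `⊕ L ^ (wL i)` over the target of `F`, polarised by `θ` -/
structure PB (R J K σ : Type) where
  /-- the base -/
  F : Fam Empty Empty R J K
  /-- the weights of the line bundles -/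
  wL : σ → R → ℤ
  /-- the polarisation -/
  θ : Option R → ℤ

variable {R J K σ S Λ ν ν' κ : Type} [Fintype R] [Fintype J] [Fintype K] [Fintype σ] [Fintype S]
  [Fintype Λ] [Fintype ν] [Fintype ν'] [Fintype κ]

variable (σ) in
/-- tuples of nonzero vectors -/
def PMs (M : ℕ) : Set (σ × Fin (M + 1) → ℂ) := {l | ∀ i, ∃ a, l (i, a) ≠ 0}

namespace PB

variable (P : PB R J K σ)

/-- the weights of the fields -/
def w : J ⊕ σ → Option R → ℤ :=
  Sum.elim (fun j o => o.elim 0 (P.F.w j)) fun i o => o.elim 1 (P.wL i)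

/-- the subbundle where the coordinates in `Z` vanish, over the parameter space `B` -/
@[reducible] noncomputable def fam (wt : σ → S → ℤ) (wl : Λ → S → ℤ) (B : Set (Λ → ℂ))
    (Z : Set σ) : Fam S Λ (Option R) (J ⊕ σ) K where
  w := P.w
  wt := Sum.elim 0 wt
  wl := wl
  θ := P.θ
  χ k o := o.elim 0 (P.F.χ k)
  wk := 0
  G k := MvPolynomial.rename .inl
    (MvPolynomial.map (MvPolynomial.rename (R := ℂ) Empty.elim).toRingHom (P.F.G k))
  B := B
  U := {z | (Empty.elim, fun j => z.2 (.inl j)) ∈ P.F.U ∧ ∃ i, z.2 (.inr i) ≠ 0}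
  E := univ
  mov := {j | Sum.elim (· ∈ P.F.mov) (· ∉ Z) j}
  zer := {j | Sum.elim (· ∈ P.F.zer) (· ∈ Z) j}

/-- the projective bundle (`Z = ∅`), the fixed components (`Z = {i}ᶜ`) -/
noncomputable abbrev E (Z : Set σ) : Fam Empty Empty (Option R) (J ⊕ σ) K :=
  P.fam (fun _ => Empty.elim) Empty.elim univ Z

/-- the Borel construction -/
noncomputable abbrev EM [DecidableEq σ] (Z : Set σ) (M : ℕ) :
    Fam σ (σ × Fin (M + 1)) (Option R) (J ⊕ σ) K :=
  P.fam (fun i => Pi.single i 1) (fun a => Pi.single a.1 1) (PMs σ M) Z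

/-- the base -/
abbrev X : Type := P.F.X P.F.cone

/-- the standing hypotheses -/
structure Ok [DecidableEq R] (K₀ : Set K) (k D : ℕ) : Prop where
  good : P.F.Good
  reg : P.F.Reg K₀
  abs : P.F.Abs
  B : P.F.B = univ
  goodE : (P.E ∅).Good
  big : (P.E ∅).Big k
  bigD : (P.E ∅).BigD k D

end PB

variable (R J σ ν) in
/-- abstract maps to the projective bundle -/
abbrev AM0 : Type 1 := AM Empty (Option R) (J ⊕ σ) ν (Fin 0)

section ops

variable {T J' : Type}

/-- rescaling the fields -/
@[reducible] def tor (c : J' → ℂ) (m : AM Λ T J' ν κ) : AM Λ T J' ν κ :=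
  ⟨m.toAC, m.L, m.l, fun j z => c j * m.y j z⟩

/-- change of the parameter -/
@[reducible] def par {Λ' : Type} (l : Λ' → ℂ) (m : AM Λ T J' ν κ) : AM Λ' T J' ν κ :=
  ⟨m.toAC, m.L, l, m.y⟩

/-- the map to the base -/
@[reducible] def bas (m : AM Λ (Option R) (J ⊕ σ) ν κ) : AM Λ R J ν κ :=
  ⟨m.toAC, fun r => m.L (some r), m.l, fun j => m.y (.inl j)⟩

end ops

variable (m : AM0 R J σ ν)

/-- the map is fixed by the compact torus -/
def Fixd (P : PB R J K σ) : Prop := ∀ s : σ → ℂ, (∀ i, ‖s i‖ = 1) →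
  AM.Iso (P.E ∅).toWt univ m (tor (Sum.elim 1 s) m)

/-- the point `z` lies over the fixed component `i` -/
def Ov (z : m.X) (i : σ) : Prop := ∀ l ≠ i, m.y (.inr l) z = 0

/-- the irreducible components over the fixed component `i` -/
def Vx (i : σ) : Set m.X := {z | ∀ z' ∈ connectedComponent z, Ov m z' i}

/-- special points -/
def Spc (z : m.X) : Prop := (∃ n, m.p n = z) ∨ ¬Sm m.N z

/-- the irreducible component through `a` is an edge of type `e` from `a` to `b` -/
structure Eg (e : Edge σ) (a b : m.X) : Prop where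
  ne : a ≠ b
  mem : b ∈ connectedComponent a
  rat : IsRat m.R (connectedComponent a)
  spc : ∀ z ∈ connectedComponent a, Spc m z → z = a ∨ z = b
  src : ∀ z ∈ connectedComponent a, m.y (.inr e.src) z = 0 ↔ z = b
  tgt : ∀ z ∈ connectedComponent a, m.y (.inr e.tgt) z = 0 ↔ z = a
  oth : ∀ z ∈ connectedComponent a, ∀ l, l ≠ e.src → l ≠ e.tgt → m.y (.inr l) z = 0
  deg : degOn (m.L none) (connectedComponent a) = e.deg + 1
  deg0 : ∀ r, degOn (m.L (some r)) (connectedComponent a) = 0

/-- every irreducible component is a vertex or an edge -/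
def Str : Prop := ∀ z, (∃ i, z ∈ Vx m i) ∨ ∃ e a b, Eg m e a b ∧ z ∈ connectedComponent a

/-- the kinds of ends of an edge -/
inductive En (ν : Type)
  /-- a node -/
  | node
  /-- not a special point -/
  | bare
  /-- a marked point -/
  | mark (n : ν)

/-- `z` is a point of the given kind -/
def End : En ν → m.X → Prop
  | .node, z => ¬Sm m.N z
  | .bare, z => ¬Spc m z
  | .mark n, z => m.p (.inl n) = z

/-- the number of oriented edges of type `e` with given ends -/
noncomputable def cnt (e : Edge σ) (s t : En ν) : ℕ :=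
  {x : m.X × m.X | Eg m e x.1 x.2 ∧ End m s x.1 ∧ End m t x.2}.ncard

/-- the number of oriented edges -/
noncomputable def nfl : ℕ := {x : Edge σ × m.X × m.X | Eg m x.1 x.2.1 x.2.2}.ncard

/-- the degree of the vertices over the component `i` -/
noncomputable def vdeg (i : σ) (r : R) : ℤ := degOn (m.L (some r)) (Vx m i)

/-- all components are vertices over `T` -/
def Vert (T : Set σ) : Prop := ∀ z, ∃ i ∈ T, z ∈ Vx m i

/-- the curve is an edge with the given ends -/
def Edg (e : Edge σ) (s t : En ν) : Prop :=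
  ∃ a b, Eg m e a b ∧ End m s a ∧ End m t b ∧ connectedComponent a = univ

/-- the point of the fixed component `i` over which a marked point lies -/
def Cm (n : ν) (i : σ) : Prop := Ov m (m.p (.inl n)) i

/-- a fixed stable map of the given type -/
structure Fx (P : PB R J K σ) (g : ℤ) (d : Option R → ℤ) : Prop where
  sol : m.Sol (P.E ∅)
  stable : m.Stable P.θ
  typ : m.Typ g d
  str : Str m

/-- an oriented node becomes a pair of marked points -/
@[reducible] noncomputable def ctp {n : Unit × Bool → m.X} (h : m.Nds n) :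
    AM0 R J σ (ν ⊕ Unit × Bool) := (m.cut h).re (Ch.unp ν (Fin 0) Unit).toEmbedding

/-- the identification of the empty sets of persistent nodes -/
def e00 : Fin 0 ⊕ Fin 0 ≃ Fin 0 := Equiv.equivOfIsEmpty _ _

/-- relabelling of the marked points -/
@[reducible] def rl (φ : ν' ≃ ν) : AM0 R J σ ν' :=
  m.re (φ.sumCongr ((Equiv.refl (Fin 0)).prodCongr (Equiv.refl Bool))).toEmbedding

/-- the number of oriented nodes such that the normalised map has the property `Q` -/
noncomputable def cntN (Q : AM0 R J σ (ν ⊕ Unit × Bool) → Prop) : ℕ :=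
  {n : Unit × Bool → m.X | ∃ h : m.Nds n, Q (ctp m h)}.ncard

/-- the number of splittings into parts with the properties `Q₁`, `Q₂` -/
noncomputable def cntS {ν₁ ν₂ : Type} (φ : ν₁ ⊕ ν₂ ≃ ν) (Q₁ : AM0 R J σ ν₁ → Prop)
    (Q₂ : AM0 R J σ ν₂ → Prop) : ℕ :=
  {U : Set m.X | ∃ m₁ m₂ j₁ j₂, AM.Split m m₁ m₂ φ e00 j₁ j₂ ∧ range j₁ = U ∧ Q₁ m₁ ∧ Q₂ m₂}.ncard

end Vale.Agent.P269.LG
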