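import Vale.Agent.P269.LG.WtB
import Vale.Agent.P269.LG.OpsD
import Vale.Agent.P269.LG.Alg

/-! Cutting a node, removing an edge. -/

set_option linter.unusedSectionVars false
set_option maxSynthPendingDepth 3

namespace Vale.Agent.P269.LG

open Set Function TensorProduct B Fock Finset Vale.Agent.P291Z

variable {V : Type} [AddCommGroup V] [Module ℂ V] {p : Fock.Par ℂ V} {ι : Type} [Fintype ι]
  {fr : Fock.Frame p ι} {C : Type} [CommRing C] [Algebra ℂ C] {R J K : Type} [Fintype R]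
  [Fintype J] [Fintype K] {X : Type} [TopologicalSpace X] {ac : Act fr C} [DecidableEq R] {r : ℕ}
  {P : PB R J K (Fin (r + 1))} {T : Th P X} {D : Dic ac X} {a : Fin (r + 1) → ℂ}
  {c : Fin (r + 1) → C} {ZV : Fin (r + 1) → (R → ℤ) → ℤ → ℕ → Fock.S (p.fs ℕ) →ₗ[ℂ] ℂ}
  {ZE : (Option R → ℤ) → ℤ → Fock.S ((p.pi (Fin (r + 1))).fs ℕ) →ₗ[ℂ] ℂ}
  {ZZ : ℕ → (Fin (r + 1) → R → ℤ) → ℤ → ℤ → S ((p.bc F).fs (Sym (Fin (r + 1)))) →ₗ[F] F}
  {ν ν' : Type} [Fintype ν] [Fintype ν'] {g g' : ℤ} {d d' : Option R → ℤ}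

namespace CutP

variable (τ : Md P X ν g d) {Q Q' : AM0 R J (Fin (r + 1)) ν → Prop}
  {f : AM0 R J (Fin (r + 1)) ν → ℕ} {χ : Fin (r + 1) → F ⊗[ℂ] C}

open Classical in
theorem lc_ite (hQ : Inv P Q) (hc : IsClopen (τ.sel Q)) (hf : IsLocallyConstant (τ.cf f)) :
    IsLocallyConstant (τ.cf fun m => if Q m then f m else 0) := by
  have e : (τ.cf fun m => if Q m then f m else 0) = (τ.sel Q).indicator 1 * τ.cf f :=
    funext fun x => by
      have h := τ.mem_sel hQ (τ.ex x).choose_spec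
      by_cases hx : x ∈ τ.sel Q
      · rw [Pi.mul_apply, indicator_of_mem hx, Md.cf, if_pos (h.1 hx), Pi.one_apply, one_mul, Md.cf]
      · rw [Pi.mul_apply, indicator_of_notMem hx, Md.cf, if_neg (mt h.2 hx), zero_mul,
          Nat.cast_zero]
  exact e ▸ (isLocallyConstant_ind hc).mul hf

theorem W_sum {α : Type} (s : Finset α) {u : α → AM0 R J (Fin (r + 1)) ν → ℕ}
    (hu : ∀ i ∈ s, IsLocallyConstant (τ.cf (u i))) (e : ∀ m, Fx m P g d → f m = ∑ i ∈ s, u i m)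
    (L) : τ.W D χ f L = ∑ i ∈ s, τ.W D χ (u i) L := by
  have : τ.cf f = ∑ i ∈ s, τ.cf (u i) := by
    rw [τ.cf_congr e]
    funext x
    rw [Finset.sum_apply, Md.cf, Nat.cast_sum]
    rfl
  rw [Md.W, this, fnE_sum s hu, map_sum, Finset.sum_mul, map_sum]
  rfl

theorem W_zero (e : ∀ m, Fx m P g d → f m = 0) (L) : τ.W D χ f L = 0 :=
  W_sum τ (∅ : Finset Unit) (u := fun _ => f) nofun e L

theorem id_of_imp (hQ : Inv P Q) (hQ' : Inv P Q') (c : IsClopen (τ.sel Q))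
    (c' : IsClopen (τ.sel Q')) (e : ∀ m, Q m → Q' m) : τ.id Q * τ.id Q' = τ.id Q := by
  rw [Md.id, Md.id, idE_mul c c', ← τ.sel_and hQ hQ',
    τ.sel_congr fun m _ => and_iff_left_of_imp (e m)]

theorem pe_rev (e : Edge (Fin (r + 1))) : pe F χ e.rev = -pe F χ e := by
  rw [pe, pe, ← smul_neg, neg_sub]
  rfl

theorem evp_dil (e : Edge (Fin (r + 1))) : D.jH.baseChange F
    (evp (ac.bc F) χ e (-dilR (fr.bc F) _)) = inF X (D.c (-pe F χ e)) := by
  rw [map_neg, dilR, map_sum, Finset.sum_eq_single e.tgt _ (absurd (Finset.mem_univ _)), evp,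
    Finsupp.lsum_single, sv, if_pos (show Sym.cmp (.inl (e.tgt, 1)) = e.tgt from rfl), map_neg, D.act_bc, D.one_bc, mul_one, map_neg, map_neg]
  · exact congrArg (fun y => -inF X (D.c y)) (pow_one _)
  · intro i _ hi
    rw [evp, Finsupp.lsum_single, sv, if_neg (show ¬Sym.cmp (.inl (i, 1)) = e.tgt from hi), map_zero, LinearMap.zero_apply]

theorem lift {ν₁ : Type} {f : ν₁ → ν} {s : En ν} (h : ∀ n, s = .mark n → ∃ n₁, n = f n₁) :
    ∃ s₁ : En ν₁, s = s₁.map f := by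
  cases s with
  | node => exact ⟨.node, rfl⟩
  | bare => exact ⟨.bare, rfl⟩
  | mark n => exact let ⟨n₁, e⟩ := h n rfl; ⟨.mark n₁, congrArg _ e⟩

theorem map_eq_mark {ν₁ : Type} {f : ν₁ → ν} (hf : Injective f) {s : En ν₁} {n : ν₁} :
    s.map f = .mark (f n) ↔ s = .mark n := by
  cases s <;> simp [En.map, hf.eq_iff]

theorem fac_map {ν₁ B : Type} [One B] (f : ν₁ → ν) (s : En ν₁) (y : B) :
    (s.map f).fac y = s.fac y := by cases s <;> rfl

theorem cm_of_cnt {m : AM0 R J (Fin (r + 1)) ν} {e : Edge (Fin (r + 1))} {n : ν} {t : En ν}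
    (h : cnt m e (.mark n) t = 1) : Cm m n e.src := by
  obtain ⟨x, y, h1, rfl, -⟩ := cnt_ne_zero.1 (h ▸ one_ne_zero)
  exact h1.ov_src

theorem cut_alg {k : ℕ} {β} {e : Edge (Fin (r + 1))} {n n' : ν} {t : En ν}
    (c1 : IsClopen (τ.sel (Pcs (k + 1) β))) (c2 : IsClopen (τ.sel (cnt · e (.mark n') t = 1)))
    (c3 : ∀ n, IsClopen (τ.sel (Cm · n e.src))) (L) :
    τ.I (inF _ (τ.id (fun m => (cnt m e (.mark n') t = 1 ∧ Cm m n e.src) ∧ Pcs (k + 1) β m) *
      -τ.sy D χ n (.inr e)) * τ.dg D χ e.src n n' * (L.map fun x => τ.ins D χ x.1 x.2).prod) =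
      ∑ x, τ.Tf D χ k β e (.mark n') t
        ((n, Finsupp.single (.inr e) ((ac.bc F).act (-eu χ e.src) ((fr.bc F).e x))) ::
          (n', Finsupp.single (.inl (e.src, 0)) ((fr.bc F).f x)) :: L) := by
  classical
  have i2 : Inv P fun m => Pcs (k + 1) β m ∧ cnt m e (.mark n') t = 1 := inv_pcs.and (inv_cnt 1)
  have c4 : IsClopen (τ.sel fun m => Pcs (k + 1) β m ∧ cnt m e (.mark n') t = 1) := by
    rw [τ.sel_and inv_pcs (inv_cnt 1)]
    exact c1.inter c2
  have e1 : (τ.sel fun m => (cnt m e (.mark n') t = 1 ∧ Cm m n e.src) ∧ Pcs (k + 1) β m) = _ ∩ _ :=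
    (τ.sel_congr fun m _ => by tauto).trans (τ.sel_and i2 (inv_cm n e.src))
  have e2 : fnE (τ.cf fun m => if Pcs (k + 1) β m then cnt m e (.mark n') t else 0) =
      τ.id fun m => Pcs (k + 1) β m ∧ cnt m e (.mark n') t = 1 := by
    rw [← τ.fnE_ite i2]
    refine congrArg _ (τ.cf_congr fun m _ => ?_)
    have := cnt_mark_le (m := m) (e := e) (t := t) n'
    by_cases h2 : Pcs (k + 1) β m <;> simp only [h2, true_and, false_and, if_true, if_false]
    split_ifs <;> omega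
  have e3 : τ.id (fun m => (cnt m e (.mark n') t = 1 ∧ Cm m n e.src) ∧ Pcs (k + 1) β m) *
      τ.sy D χ n (.inr e) = τ.id (fun m => Pcs (k + 1) β m ∧ cnt m e (.mark n') t = 1) *
        τ.sy D χ n (.inr e) * τ.sy D χ n' (.inl (e.src, 0)) := by
    rw [Md.sy, Md.sy, pow_zero, mul_one, mul_right_comm,
      id_of_imp τ i2 (inv_cm _ _) c4 (c3 _) fun m hm => cm_of_cnt hm.2, Md.id, e1,
      ← idE_mul c4 (c3 _), mul_assoc, ← mul_assoc (idE _) (τ.id _), Md.id, idE_mul_self (c3 _)]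
    rfl
  simp only [Md.Tf, Md.W, e2, List.map_cons, List.prod_cons, Md.ins_single]
  rw [← map_sum, mul_neg, e3, Md.dg_eq, Finset.mul_sum, Finset.sum_mul]
  refine congrArg _ (Finset.sum_congr rfl fun x _ => ?_)
  simp only [map_neg, map_mul, LinearMap.neg_apply, neg_mul, mul_neg, mul_assoc]
  rw [← mul_assoc (τ.evH _ _ _) (inF _ _), ← inF_comm, mul_assoc]

end CutP

open CutP

namespace Hy

variable (h : Hy T D a c ZV ZE)
include h

open Classical in
theorem lc_tfc (k : ℕ) (β) (e : Edge (Fin (r + 1))) (s t : En ν) : IsLocallyConstant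
    ((T ν g d).cf fun m => if Pcs (k + 1) β m then cnt m e s t else 0) :=
  lc_ite _ inv_pcs (h.clopen_pcs _ _) (h.lc_cnt e s t)

omit h in
open Classical in
theorem tf_eq_zero {k β χ} {e : Edge (Fin (r + 1))}
    (he : ¬∃ m : AM0 R J _ ν, Fx m P g d ∧ ∃ a b, Eg m e a b) (s t L) :
    (T ν g d).Tf D χ k β e s t L = 0 :=
  W_zero _ (fun m hm => ite_eq_right_iff.2 fun _ => by_contra fun h0 =>
    let ⟨a, b, e, _⟩ := cnt_ne_zero.1 h0; he ⟨m, hm, a, b, e⟩) L

theorem tf_finite (k β) :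
    {e | ∃ s t L, (T ν g d).Tf D (chi a c) k β e s t L ≠ 0}.Finite :=
  (finite_edge h.goodE ν g d).subset fun _ ⟨s, t, L, h0⟩ =>
    by_contra fun he => h0 (tf_eq_zero he s t L)

theorem tf_sum (k : ℕ) (β) (L) : (2 * ((k : F) + 1)) * (T ν g d).Wp D (chi a c) (k + 1) β L =
    ∑ᶠ e, ∑ s, ∑ t, (T ν g d).Tf D (chi a c) k β e s t L := by
  classical
  have hE := finite_edge h.goodE ν g d
  rw [finsum_eq_sum_of_support_subset (s := hE.toFinset) _ fun e he => by_contra fun h0 =>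
    he (Finset.sum_eq_zero fun s _ => Finset.sum_eq_zero fun t _ =>
      tf_eq_zero (fun h1 => h0 (hE.mem_toFinset.2 h1)) s t L)]
  have h1 := W_sum (D := D) (χ := chi a c) (T ν g d) (Finset.range (2 * (k + 1)))
    (f := fun m => if Pcs (k + 1) β m then nfl m else 0)
    (u := fun _ m => if Pcs (k + 1) β m then 1 else 0) (fun _ _ => lc_ite _ inv_pcs
      (h.clopen_pcs _ _) (IsLocallyConstant.const _)) (fun m _ => by
        split_ifs with h2
        · rw [h2.1, Finset.sum_const, Finset.card_range, smul_eq_mul, mul_one]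
        · exact Finset.sum_const_zero.symm) L
  have h2 := W_sum (D := D) (χ := chi a c) (T ν g d) (hE.toFinset ×ˢ Finset.univ ×ˢ Finset.univ)
    (f := fun m => if Pcs (k + 1) β m then nfl m else 0)
    (u := fun x m => if Pcs (k + 1) β m then cnt m x.1 x.2.1 x.2.2 else 0)
    (fun _ _ => h.lc_tfc _ _ _ _ _) (fun m hm => by
      split_ifs
      · simp only [Finset.sum_product]
        exact nfl_eq fun e a b he => hE.mem_toFinset.2 ⟨m, hm, a, b, he⟩
      · exact Finset.sum_const_zero.symm) L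
  rw [Finset.sum_const, Finset.card_range, nsmul_eq_mul, h2] at h1
  simp only [Finset.sum_product] at h1
  push_cast at h1
  exact h1.symm

omit h in
theorem tf_rev (k β) (e : Edge (Fin (r + 1))) (s t : En ν) :
    (T ν g d).Tf D (chi a c) k β e.rev t s = (T ν g d).Tf D (chi a c) k β e s t := by
  simp only [Md.Tf, cnt_rev]

/-- **cutting a node** -/
theorem tf_cut (k β) (e : Edge (Fin (r + 1))) (t : En ν) (L) :
    (T ν (g + 1) d).Tf D (chi a c) k β e .node t L =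
      ∑ x, (T (ν ⊕ Unit × Bool) g d).Tf D (chi a c) k β e (.mark (qq true)) (t.map .inl)
        ((qq false, Finsupp.single (.inr e)
            ((ac.bc F).act (-eu (chi a c) e.src) ((fr.bc F).e x))) ::
          (qq true, Finsupp.single (.inl (e.src, 0)) ((fr.bc F).f x)) ::
            L.map (Prod.map .inl id)) := by
  obtain ⟨A, _, _, _, φ, φ', hN⟩ := h.hN ν (g + 1) g d rfl
  have i1 : Inv P fun m : AM0 R J _ (ν ⊕ Unit × Bool) =>
      (cnt m e (.mark (qq true)) (t.map .inl) = 1 ∧ Cm m (qq false) e.src) ∧ Pcs (k + 1) β m :=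
    ((inv_cnt 1).and (inv_cm _ _)).and inv_pcs
  have c1 : IsClopen ((T _ g d).sel fun m : AM0 R J _ (ν ⊕ Unit × Bool) =>
      (cnt m e (.mark (qq true)) (t.map .inl) = 1 ∧ Cm m (qq false) e.src) ∧ Pcs (k + 1) β m) := by
    rw [Md.sel_and _ ((inv_cnt 1).and (inv_cm _ _)) inv_pcs, Md.sel_and _ (inv_cnt 1) (inv_cm _ _)]
    exact ((h.clopen_cnt _ _ _).inter (h.clopen_cm _ _)).inter (h.clopen_pcs _ _)
  have h1 := (hN.eq _ e.src _ i1 c1 (fun m hm => ⟨hm.1.2, cm_of_cnt hm.1.1⟩)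
    (h.eta_src hN e _ i1 c1 fun m hm => hm.1)).2 (L.map fun x => (T ν _ d).ins D _ x.1 x.2).prod
    ((L.map (Prod.map .inl id)).map fun x => (T _ g d).ins D (chi a c) x.1 x.2).prod (by
      simp only [map_list_prod, List.map_map]
      exact congrArg _ (List.map_congr_left fun x _ => h.nod_ins hN x.1 x.2))
  rw [(T ν (g + 1) d).cf_congr fun m hm => cntN_flag hm.sol fun _ => pcs_ctp] at h1
  exact h1.trans (cut_alg _ (h.clopen_pcs _ _) (h.clopen_cnt _ _ _) (fun _ => h.clopen_cm _ _) _)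

omit h in
theorem edc_cm {χ} {e : Edge (Fin (r + 1))} {s t : En ν} {τ : Md P X ν 0 (edD R e)} {u}
    (hE : Edc D χ e s t τ u) {n : ν} {ε : Edge (Fin (r + 1))}
    (hn : s = .mark n ∧ ε = e.rev ∨ t = .mark n ∧ ε = e) (i x) :
    u x ∈ τ.sel (Cm · n i) ↔ i = ε.tgt := by
  obtain ⟨m, hm, y, z, h1, h2, h3, -⟩ : u x ∈ τ.sel (Edg · e s t) := hE.range ▸ mem_range_self x
  have h4 : Cm m n ε.tgt := by
    rcases hn with ⟨rfl, rfl⟩ | ⟨rfl, rfl⟩
    · exact (congrArg (Ov m · _) h2).mpr h1.ov_src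
    · exact (congrArg (Ov m · _) h3).mpr h1.ov_tgt
  exact (τ.mem_sel (inv_cm n i) hm).trans ⟨fun h5 => Ov.unique (τ.fx hm).sol h5 h4, fun h5 => h5 ▸ h4⟩

theorem edc_ins {e : Edge (Fin (r + 1))} {s t : En ν} {u}
    (hE : Edc D (chi a c) e s t (T ν 0 (edD R e)) u) {n : ν} {ε : Edge (Fin (r + 1))}
    (hn : s = .mark n ∧ ε = e.rev ∨ t = .mark n ∧ ε = e) (v) :
    pb F u ((T ν 0 (edD R e)).ins D (chi a c) n v) =
      D.jH.baseChange F (evp (ac.bc F) (chi a c) ε v) := by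
  have : Nice X := Nice.of_isEmbedding hE.emb.isEmbedding hE.emb.isClosed_range.isLocallyClosed
  have h1 : pbE u ((T ν 0 (edD R e)).ψ n) = D.c (pe F (chi a c) ε) := by
    rcases hn with ⟨h1, rfl⟩ | ⟨h1, rfl⟩
    · rw [hE.src n h1, pe_rev, map_neg]
    · exact hE.tgt n h1
  have h2 : ∀ i, pbE u ((T ν 0 (edD R e)).id (Cm · n i)) = if i = ε.tgt then 1 else 0 := fun i => by
    rw [Md.id, pbE_idE _ (h.clopen_cm n i)]
    split_ifs with h2
    · exact (congrArg idE (eq_univ_of_forall fun x => (edc_cm hE hn i x).2 h2)).trans idE_univ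
    · exact (congrArg idE (Set.eq_empty_of_forall_notMem fun x hx =>
        h2 ((edc_cm hE hn i x).1 hx))).trans idE_empty
  induction v using Finsupp.induction_linear with
  | zero => simp only [map_zero]
  | add v w hv hw => simp only [map_add, hv, hw]
  | single y v =>
    rw [Md.ins_single, map_mul, pb_inF, Md.pb_evH, hE.ev, pb_id, evp, Finsupp.lsum_single, D.act_bc]
    refine congrArg (fun z => inF X z * _) ?_
    cases y with
    | inl x =>
      rw [Md.sy, map_mul, map_pow, h1, h2, sv, ite_mul, one_mul, zero_mul, apply_ite D.c, map_zero,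
        map_pow]
      rfl
    | inr e' =>
      by_cases h3 : e'.src = ε.tgt
      · have h4 := congrArg (pbE u) (h.sy_mul (g := 0) (d := edD R e) n e')
        rw [map_mul, map_sub, h1, h2, if_pos h3, Md.pbE_evC, hE.ev, pbE_id, ← map_sub] at h4
        rw [sv, if_pos (show Sym.cmp (.inr e') = ε.tgt from h3), ← mul_one (pbE _ _), ← map_one D.c,
          ← Ring.mul_inverse_cancel _ (h.isUnit_pe_sub h3), map_mul, ← mul_assoc, h4, one_mul]
      · rw [Md.sy, map_mul, h2, if_neg h3, zero_mul, sv,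
          if_neg (show ¬Sym.cmp (.inr e') = ε.tgt from h3), map_zero]

omit h in
theorem spl_alg {ν₁ ν₂ : Type} [Fintype ν₁] [Fintype ν₂] {φ : ν₁ ⊕ ν₂ ≃ ν} {g₁ g₂ d₁ d₂}
    {τ : Md P X ν g d} {τ₁ : Md P X ν₁ g₁ d₁} {τ₂ : Md P X ν₂ g₂ d₂} {f}
    {I : F ⊗[ℂ] H (τ₁.A × τ₂.A) →ₗ[F] F} (hS : Spl φ τ τ₁ τ₂ f I)
    {x y x₁ x₂} (h₁ : pb F f x = pb F .fst x₁) (h₂ : pb F f y = pb F .snd x₂) (z₁ z₂) :
    I (inF _ (pbE .fst z₁ * pbE .snd z₂) * pb F f (x * y)) =
      τ₁.I (inF _ z₁ * x₁) * τ₂.I (inF _ z₂ * x₂) := by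
  refine (congrArg I ?_).trans (hS.mul _ _)
  rw [map_mul, map_mul, map_mul, map_mul, h₁, h₂, pb_inF, pb_inF, mul_assoc, mul_assoc,
    ← mul_assoc (inF _ _) (pb F _ x₁), inF_comm _ (pb F _ x₁), mul_assoc]

theorem tf_core (hZ : IsZZ T D (chi a c) ZZ) (k β e₀ j) (e : Edge (Fin (r + 1))) {ν₁ ν₂ : Type}
    [Fintype ν₁] [Fintype ν₂] (φ : ν₁ ⊕ ν₂ ≃ ν) {s t : En ν₁} (hst : Ends s t)
    (L₁ : List (ν₁ × _)) {L₂ : List (ν₂ × _)} (hL₂ : Enum L₂) {ε : ν₁ → Edge (Fin (r + 1))}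
    (hε : ∀ n, s = .mark n ∧ ε n = e.rev ∨ t = .mark n ∧ ε n = e) :
    (T ν (j + 1) (totD P β e₀)).Tf D (chi a c) k β e (s.map fun n => φ (.inl n))
      (t.map fun n => φ (.inl n)) (L₁.map (Prod.map (fun n => φ (.inl n)) id) ++
        L₂.map (Prod.map (fun n => φ (.inr n)) id)) =
      Loc.intT F D.int (inF _ (D.c (ee F (chi a c) e * s.fac (pe F (chi a c) e) *
        t.fac (-pe F (chi a c) e))) * (L₁.map fun x =>
          D.jH.baseChange F (evp (ac.bc F) (chi a c) (ε x.1) x.2)).prod) *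
        ZZ k β (e₀ - (e.deg + 1)) (j + 1) (mon _ L₂) := by
  classical
  have hg : j + 1 = 0 + (j + 1 + 1) - 1 := by ring
  have hd : totD P β e₀ = edD R e + totD P β (e₀ - (e.deg + 1)) := funext fun o => by
    cases o
    · simp only [totD, edD, Pi.add_apply, Option.elim_none]; ring
    · exact (zero_add _).symm
  obtain ⟨f, I, hS⟩ := h.hS ν ν₁ ν₂ φ _ _ _ _ _ _ hg hd
  obtain ⟨u, hE⟩ := h.hE ν₁ e s t hst
  obtain ⟨h4, h5⟩ := h.spl_ins hg hd hS
  have h6 := (hS.eq _ _ inv_edg inv_pcs hE.clopen (h.clopen_pcs k β)).2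
  rw [Md.cf_congr _ fun m _ => cntS_edge (Q := Pcs (k + 1) β) hst fun _ _ _ _ a b =>
    (pcs_split a b).symm] at h6
  have h8 := hE.eq (L₁.map fun x => (T ν₁ 0 (edD R e)).ins D (chi a c) x.1 x.2).prod
  have h7 : pb F u (L₁.map fun x => (T ν₁ 0 (edD R e)).ins D (chi a c) x.1 x.2).prod = (L₁.map
      fun x => D.jH.baseChange F (evp (ac.bc F) (chi a c) (ε x.1) x.2)).prod := by
    simp only [map_list_prod, List.map_map]
    exact congrArg _ (List.map_congr_left fun x _ => h.edc_ins hE (hε x.1) x.2)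
  rw [h7] at h8
  rw [hZ _ _ _ _ _ _ hL₂, Md.Wp, Md.W, Md.fnE_ite _ inv_pcs, ← h8, Md.Tf, Md.W, List.map_append,
    List.prod_append]
  refine (h6 _).trans (spl_alg hS ?_ ?_ _ _)
  · simp only [map_list_prod, List.map_map]
    exact congrArg _ (List.map_congr_left fun x _ => h4 x.1 x.2)
  · simp only [map_list_prod, List.map_map]
    exact congrArg _ (List.map_congr_left fun x _ => h5 x.1 x.2)

theorem tf_gen (hZ : IsZZ T D (chi a c) ZZ) (k β e₀ j) (e : Edge (Fin (r + 1))) (s t : En ν)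
    (L₀ : List (ν × _)) {L} (hL : Enum (L₀ ++ L)) (hs : s ≠ .node) (ht : t ≠ .node)
    (hst : ∀ n, s = .mark n → t ≠ .mark n)
    (hm : ∀ n, n ∈ L₀.map Prod.fst ↔ s = .mark n ∨ t = .mark n) (ε : ν → Edge (Fin (r + 1)))
    (h1 : ∀ n, s = .mark n → ε n = e.rev) (h2 : ∀ n, t = .mark n → ε n = e) :
    (T ν (j + 1) (totD P β e₀)).Tf D (chi a c) k β e s t (L₀ ++ L) =
      Loc.intT F D.int (inF _ (D.c (ee F (chi a c) e * s.fac (pe F (chi a c) e) *
        t.fac (-pe F (chi a c) e))) * (L₀.map fun x =>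
          D.jH.baseChange F (evp (ac.bc F) (chi a c) (ε x.1) x.2)).prod) *
        ZZ k β (e₀ - (e.deg + 1)) (j + 1) (mon _ L) := by
  classical
  obtain ⟨ν₁, ν₂, _, _, φ, hφ⟩ : ∃ (ν₁ ν₂ : Type) (_ : Fintype ν₁) (_ : Fintype ν₂)
      (φ : ν₁ ⊕ ν₂ ≃ ν), ∀ n, n ∈ L₀.map Prod.fst ↔ ∃ n₁, n = φ (.inl n₁) :=
    ⟨_, _, inferInstance, inferInstance, Equiv.sumCompl (· ∈ L₀.map Prod.fst), fun n =>
      ⟨fun a => ⟨⟨n, a⟩, rfl⟩, fun ⟨n₁, a⟩ => a ▸ n₁.2⟩⟩
  obtain ⟨s, rfl⟩ := lift fun n a => (hφ n).1 ((hm n).2 (.inl a))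
  obtain ⟨t, rfl⟩ := lift fun n a => (hφ n).1 ((hm n).2 (.inr a))
  have hi : Injective fun n => φ (.inl n) := φ.injective.comp Sum.inl_injective
  have h3 : ∀ n, s = .mark n ∨ t = .mark n := fun n =>
    ((hm _).1 ((hφ _).2 ⟨n, rfl⟩)).imp (map_eq_mark hi).1 (map_eq_mark hi).1
  obtain ⟨L₁, L₂, -, hL₂, rfl, rfl⟩ := hL.split φ hφ
  rw [mon_map, fac_map, fac_map, List.map_map]
  exact h.tf_core hZ k β e₀ j e φ (s := s) (t := t) ⟨fun a => hs (a ▸ rfl), fun a => ht (a ▸ rfl),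
    h3, fun n a b =>
    hst _ ((map_eq_mark hi).2 a) ((map_eq_mark hi).2 b)⟩ L₁ hL₂ (ε := fun n => ε (φ (.inl n)))
      fun n => (h3 n).imp (fun a => ⟨a, h1 _ ((map_eq_mark hi).2 a)⟩)
        fun a => ⟨a, h2 _ ((map_eq_mark hi).2 a)⟩

/-- **removing an edge** -/
theorem tf_mm (hZ : IsZZ T D (chi a c) ZZ) (k β e₀ j) (e : Edge (Fin (r + 1))) {n n' : ν} {v w L}
    (hL : Enum ((n, v) :: (n', w) :: L)) :
    (T ν (j + 1) (totD P β e₀)).Tf D (chi a c) k β e (.mark n) (.mark n') ((n, v) :: (n', w) :: L) =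
      edQ ac (chi a c) e v w * ZZ k β (e₀ - (e.deg + 1)) (j + 1) (mon _ L) := by
  classical
  have hn : n' ≠ n := fun a => (List.nodup_cons.1 hL.1).1 (a ▸ List.mem_cons_self)
  refine (h.tf_gen hZ k β e₀ j e (.mark n) (.mark n') [(n, v), (n', w)] hL nofun nofun
    (fun _ a b => hn (En.mark.inj (b.trans a.symm))) (fun _ => by simp [eq_comm])
    (fun x => if x = n then e.rev else e) (fun _ a => if_pos (En.mark.inj a).symm)
    fun _ a => if_neg (En.mark.inj a ▸ hn)).trans ?_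
  simp only [edQ, D.η_bc, D.act_bc, En.fac, List.map_cons, List.map_nil, List.prod_cons,
    List.prod_nil, mul_one, if_true, if_neg hn, mul_assoc]

theorem tf_mb (hZ : IsZZ T D (chi a c) ZZ) (k β e₀ j) (e : Edge (Fin (r + 1))) {n : ν} {v L}
    (hL : Enum ((n, v) :: L)) :
    (T ν (j + 1) (totD P β e₀)).Tf D (chi a c) k β e (.mark n) .bare ((n, v) :: L) =
      edQ ac (chi a c) e v (-dilR (fr.bc F) _) * ZZ k β (e₀ - (e.deg + 1)) (j + 1) (mon _ L) := by
  refine (h.tf_gen hZ k β e₀ j e (.mark n) .bare [(n, v)] hL nofun nofun nofun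
    (fun _ => by simp [eq_comm]) (fun _ => e.rev) (fun _ _ => rfl) nofun).trans ?_
  simp only [edQ, D.η_bc, D.act_bc, En.fac, List.map_cons, List.map_nil, List.prod_cons,
    List.prod_nil, mul_one, evp_dil, map_mul, mul_assoc]
  rw [inF_comm (D.c (-_))]

theorem tf_bb (hZ : IsZZ T D (chi a c) ZZ) (k β e₀ j) (e : Edge (Fin (r + 1))) {L} (hL : Enum L) :
    (T ν (j + 1) (totD P β e₀)).Tf D (chi a c) k β e .bare .bare L =
      edQ ac (chi a c) e (-dilR (fr.bc F) _) (-dilR (fr.bc F) _) *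
        ZZ k β (e₀ - (e.deg + 1)) (j + 1) (mon _ L) := by
  refine (h.tf_gen hZ k β e₀ j e .bare .bare [] hL nofun nofun nofun (fun _ => by simp)
    (fun _ => e) nofun nofun).trans ?_
  simp only [edQ, D.η_bc, D.act_bc, En.fac, List.map_nil, List.prod_nil, mul_one, evp_dil, map_mul,
    pe_rev, neg_neg]

end Hy

end Vale.Agent.P269.LG
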