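import Vale.Agent.P269.LG.Geo
import Vale.Agent.P269.Glu.GC
import Vale.Agent.P269.Glu.NdDefs
import Vale.Agent.P269.Spl.Ty

/-! Maps with a labelled node: the statement of gluing that is used in localisation. -/

set_option linter.unusedSectionVars false

namespace Vale.Agent.P269

open Set Function Topology Vale.Agent.P291Z Vale.Agent.P269.Ch

variable {S Λ R J K : Type} [Fintype S] [Fintype Λ] [Fintype R] [Fintype J] [Fintype K]
  [DecidableEq R]

namespace Fam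

variable (F : Fam S Λ R J K) (ν : Type) [Fintype ν] (k D : ℕ) (g g' : ℤ) (d : R → ℤ)

/-- the normalised curves that can be glued -/
def TL : Set ((F.sch ν (Fin 0 ⊕ Unit) k D g' d).WF ν (Fin 0 ⊕ Unit) Λ) :=
  Ch.adm _ ν _ F ∩ F.posO ν _ k D g' d

/-- the labelled points -/
abbrev WL : Type := (F.sch ν (Fin 0) k D g d).WG (F.nms ν (Fin 0 ⊕ Unit) k D g' d) ν (Fin 0) Unit Λ

/-- their group -/
abbrev AL : Type := (F.sch ν (Fin 0) k D g d).AG (F.nms ν (Fin 0 ⊕ Unit) k D g' d) ν (Fin 0) Unit S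

/-- the action -/
noncomputable abbrev acL : F.AL ν k D g g' d → F.WL ν k D g g' d → F.WL ν k D g g' d := actG F.toWt

/-- the labelled space -/
abbrev OL : Set (F.WL ν k D g g' d) := Zf F (F.TL ν k D g' d)

/-- the labelled solutions -/
abbrev SL : Set (F.WL ν k D g g' d) := ZL F (F.TL ν k D g' d)

/-- the moduli space of maps with an oriented node -/
abbrev ML : Type := Quo (F.acL ν k D g g' d) (F.SL ν k D g g' d)

/-- the tangent line at a branch of the node -/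
noncomputable abbrev sdL (b : Bool) : SD (F.AL ν k D g g' d) (F.WL ν k D g g' d)
    (V (F.nms ν (Fin 0 ⊕ Unit) k D g' d).M) :=
  (((F.sch ν (Fin 0) k D g d).re (F.nms ν (Fin 0 ⊕ Unit) k D g' d)).sdψ S Λ (nq () b)).pb θG μG

/-- the Kuranishi data -/
noncomputable abbrev kdL : KD (F.AL ν k D g g' d) (F.WL ν k D g g' d)
    ((F.sch ν (Fin 0) k D g d).P K) :=
  (F.sch ν (Fin 0) k D g d).kdL ν (Fin 0) Unit (F.nms ν (Fin 0 ⊕ Unit) k D g' d) F
    (F.tdeg (F.sch ν (Fin 0) k D g d))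

variable {ν k D g g' d}

/-- `Ψ` forgets the label and `Φ` normalises the node -/
structure GNc (Ψ : C(F.ML ν k D g g' d, F.Mod (Fin 0) k D g d (0 : ν → J → ℕ)))
    (Φ : C(F.ML ν k D g g' d, F.Mod (Fin 0) k D g' d (0 : ν ⊕ Unit × Bool → J → ℕ))) : Prop where
  nice : P291Z.Nice (F.ML ν k D g g' d)
  cpt : CompactSpace (F.ML ν k D g g' d)
  fst : ∀ z : F.SL ν k D g g' d, ∃ h, Ψ (Quo.mk _ z) = Quo.mk _ ⟨z.1.1, h⟩
  inj : Injective Φ
  rep : ∀ (z : F.SL ν k D g g' d) m, Ch.Rep ℓs univ (lf F z.1) m →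
    F.At (Φ (Quo.mk _ z)) (m.re (Ch.unp ν (Fin 0) Unit).toEmbedding)
  psi : ∀ n, H.map Φ (hcls (psiF (.inl (.inl n)))) = H.map Ψ (hcls (psiF (.inl n)))
  psiN : ∀ b, H.map Φ (hcls (psiF (Nd.mq () b))) = -hcls ((F.sdL ν k D g g' d b).eu _ _)
  dg : ∃ t, Nd.IsD3 F t
  co : ∀ t, Nd.IsD3 F t → ∃ m : ℕ,
    IsCo (range Φ) m (evT (Nd.mq () false) (Nd.mq () true) F.cone3 t)
  vir : ∀ [P291Z.Nice (F.Mod (Fin 0) k D g' d (0 : ν ⊕ Unit × Bool → J → ℕ))] t, Nd.IsD3 F t →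
    ∀ v, (F.kdL ν k D g g' d).IsV (F.acL ν k D g g' d)
    (F.SL ν k D g g' d) (F.OL ν k D g g' d) v →
      gys Φ (evT (Nd.mq () false) (Nd.mq () true) F.cone3 t) (F.vir (Fin 0) k D g' d 0) = v

end Fam

/-- **Gluing one node**, on the level of classes. -/
def St.GNc : Prop :=
  ∀ {S Λ R J K ν : Type} [Fintype S] [Fintype Λ] [Fintype R] [Fintype J] [Fintype K] [Fintype ν]
    [DecidableEq R] (F : Fam S Λ R J K) (k D : ℕ) (g g' : ℤ) (d : R → ℤ), F.Nice 0 → F.Abs → F.Cp →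
    F.Big k → F.BigD k D → g = g' + 1 → ∃ Ψ Φ, F.GNc (ν := ν) (k := k) (D := D) (g := g) (g' := g')
      (d := d) Ψ Φ

end Vale.Agent.P269
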