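import Vale.Agent.P269.LG.Dg3A
import Vale.Agent.P269.LG.Lab
import Vale.Agent.P269.LG.TopB

/-! The class of the diagonal on the fixed loci. -/

set_option linter.unusedSectionVars false
set_option linter.style.haveILetI false

namespace Vale.Agent.P269.LG

open Set Function Topology Filter TensorProduct B Vale.Agent.P291Z Vale.Agent.P269.Ch
  Vale.Agent.P269.Loc X3

variable {V : Type} [AddCommGroup V] [Module ℂ V] {p : Fock.Par ℂ V} {ι : Type} [Fintype ι]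
  {fr : Fock.Frame p ι} {C : Type} [CommRing C] [Algebra ℂ C] {R J K σ ν : Type} [Fintype R]
  [Fintype J] [Fintype K] [Fintype σ] [Fintype ν] [DecidableEq R] [DecidableEq σ] {P : PB R J K σ}
  {K₀ : Set K} {k D : ℕ} {g : ℤ} {d : Option R → ℤ} {a : σ → ℂ} {τ : Md P P.X ν g d}

theorem Dic.isCas (hP : P.Ok K₀ k D) {ac : Act fr C} (E : Dic ac P.X)
    (hint : ∀ x, E.int x = P.F.intX _ x) : P.F.IsCas (E.jH ∘ fr.e) (E.jH ∘ fr.f) :=
  haveI : FiniteDimensional ℂ V := Module.Finite.of_surjective (Fintype.linearCombination ℂ fr.e)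
    fun v => ⟨fun a => fr.η (fr.f a) v, fr.left v⟩
  St.cas P.F _ ⟨V, p, ι, fr⟩ E.jH hP.nice_F hP.B_eq
    ⟨E.bij, E.ev, fun a b => (E.η a b).trans (hint _), E.one⟩

theorem PB.q1 (P : PB R J K σ) (M : ℕ) : Tq.Eqh (P.F1 M).actT P.F.actT (P.F1 M).cone P.F.cone
    (fun t => (1, t.2)) fun z => (Empty.elim, z.2) :=
  ⟨⟨rfl, fun _ _ _ _ => Prod.ext (Subsingleton.elim _ _) rfl, fun _ _ => by fun_prop⟩,
    fun _ a => (PB.mem_F1.1 a).2, by fun_prop, fun _ _ _ _ => Prod.ext (Subsingleton.elim _ _)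
      (funext fun j => by simp [Wt.actT])⟩

theorem chT_single (l : σ) (t : (σ → ℂ) × (R → ℂ)) : chT (Pi.single l 1) 0 t = t.1 l := by
  rw [chT, Finset.prod_eq_single l (fun i _ e => by simp [e]) (by simp)]
  simp

section

variable (G : Geo k D a τ) (hP : P.Ok K₀ k D) (n n' : ν) (i : σ) {A : Type} [TopologicalSpace A]
  (e : C(A, τ.A)) (he : ∀ z, ∃ m, τ.Rp (e z) m ∧ Cm m n i ∧ Cm m n' i)

include he in
/-- the evaluation at two points factors through the fixed component -/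
theorem Geo.exists_kap {M : ℕ}
    (hz : GZ (P.EM ∅ M) ℓs ((P.EM ∅ M).Zs (Fin 0) k D g d (0 : ν → J ⊕ σ → ℕ)))
    {eB : C(Bs σ M, (P.F1 M).Bs (PMs σ M))}
    (e1 : ∀ p, eB (bp p) = Quo.mk (P.F1 M).actL ⟨uncurry p.val, mem_PMs p⟩) :
    ∃ κ : C(A × Bs σ M, (P.F1 M).X3),
      (hz.eqh_vl2 (.inl n) (.inl n')).toEqv.qm.comp ((G.i M).comp (pr e M)) = (hP.s3 M i).q.comp κ ∧
      (hol₁ P.F).q.comp ((prdT₃ hP.triv).eqM.map.comp κ) = ((τ.ev n).comp e).comp .fst ∧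
      (hol₂ P.F).q.comp ((prdT₃ hP.triv).eqM.map.comp κ) = ((τ.ev n').comp e).comp .fst ∧
      (P.q1 M).toEqv.qm.comp ((hol₁ (P.F1 M)).q.comp κ) = ((τ.ev n).comp e).comp .fst ∧
      (P.F1 M).eqh_fst.toEqv.qm.comp ((hol₁ (P.F1 M)).q.comp κ) = eB.comp .snd := by
  let ev := (hz.eqh_vl2 (.inl n) (.inl n')).toEqv.qm.comp ((G.i M).comp (pr e M))
  let κ := (hP.r3 M).qm.comp ev
  have h1 : ∀ z q, ∃ m, τ.Rp (e z) m ∧ ∃ hm, ev (z, bp q) = (hP.s3 M i).q (Quo.mk _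
      ⟨(uncurry q.val, ((bas m).vl (m.p (.inl n))).2, ((bas m).vl (m.p (.inl n'))).2), hm⟩) :=
    fun z q => by
    obtain ⟨m, a1, a2, a3⟩ := he z
    have b := G.pt M _ q m a1
    have s := (b.sol hz.inv).2.2
    obtain ⟨x, b1, b2⟩ := b
    obtain ⟨u, u1, u2⟩ := b2.vl (W := (P.EM ∅ M).toWt) (hz.base _ x.2) hz.wt
    obtain ⟨v, v1, v2⟩ := hP.eq_act (s (m.p (.inl n))) a2
    obtain ⟨v', v3, v4⟩ := hP.eq_act (s (m.p (.inl n'))) a3
    refine ⟨m, a1, ⟨hP.mem_r (s _), hP.mem_r (s _)⟩,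
      (congrArg (hz.eqh_vl2 (.inl n) (.inl n')).toEqv.qm b1).trans (Eq.symm (Eq.trans
        (b := Quo.mk _ (S := (P.EM ∅ M).cone3) ⟨(_, _, _), s (m.p (.inl n)), s (m.p (.inl n'))⟩)
        (Quot.sound ⟨(1, v, v'), Prod.isUnit_iff.2 ⟨isUnit_one, Prod.isUnit_iff.2 ⟨v1, v3⟩⟩,
          Prod.ext (Wt.actL_one _ _).symm (Prod.ext v2 v4)⟩)
        (Quot.sound ⟨(1, u (.inl n), u (.inl n')), Prod.isUnit_iff.2 ⟨isUnit_one,
          Prod.isUnit_iff.2 ⟨u1 _, u1 _⟩⟩, Prod.ext (congrArg Prod.fst (u2 (.inl n)) :)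
            (Prod.ext (congrArg Prod.snd (u2 (.inl n)) :) (congrArg Prod.snd (u2 (.inl n')) :))⟩)))⟩
  have h2 : ∀ {Y : Type} [TopologicalSpace Y] {f f' : C(A × Bs σ M, Y)},
      (∀ z q, f (z, bp q) = f' (z, bp q)) → f = f' := fun h => ContinuousMap.ext fun z => by
    obtain ⟨q, hq⟩ := isOpenQuotientMap_bp.surjective z.2
    exact (show z = (z.1, bp q) from Prod.ext rfl hq.symm) ▸ h z.1 q
  have h4 : ∀ z q, ∃ m, τ.Rp (e z) m ∧ ∃ hm, κ (z, bp q) = Quo.mk _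
      ⟨(uncurry q.val, ((bas m).vl (m.p (.inl n))).2, ((bas m).vl (m.p (.inl n'))).2), hm⟩ :=
    fun z q => let ⟨m, a, hm, b⟩ := h1 z q
      ⟨m, a, hm, (congrArg (hP.r3 M).qm b).trans (hP.r3_s3 M i _)⟩
  have h5 : ∀ {z m} n (hm : τ.Rp (e z) m) hn,
      Quo.mk _ ⟨(Empty.elim, ((bas m).vl (m.p (.inl n))).2), hn⟩ = τ.ev n (e z) := fun n hm _ => by
    obtain ⟨_, b⟩ := G.ev n _ _ hm
    rw [b]
    exact congrArg (Quo.mk _) (Subtype.ext (Prod.ext (Subsingleton.elim _ _) rfl))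
  refine ⟨κ, h2 fun z q => ?_, h2 fun z q => ?_, h2 fun z q => ?_, h2 fun z q => ?_, h2 fun z q => ?_⟩
  · obtain ⟨m, -, hm, b⟩ := h1 z q
    exact b.trans (congrArg _ ((congrArg (hP.r3 M).qm b).trans (hP.r3_s3 M i _)).symm)
  all_goals obtain ⟨_, a, _, b⟩ := h4 z q
  · exact (congrArg ((hol₁ P.F).q.comp (prdT₃ hP.triv).eqM.map) b).trans (h5 n a _)
  · exact (congrArg ((hol₂ P.F).q.comp (prdT₃ hP.triv).eqM.map) b).trans (h5 n' a _)
  · exact (congrArg ((P.q1 M).toEqv.qm.comp (hol₁ (P.F1 M)).q) b).trans (h5 n a _)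
  · exact (congrArg ((P.F1 M).eqh_fst.toEqv.qm.comp (hol₁ (P.F1 M)).q) b).trans (e1 q).symm

end

theorem map_nb (hP : P.Ok K₀ k D) {M : ℕ} (i : σ) {A : Type} [TopologicalSpace A] [Nice A]
    {ρ : C(A × Bs σ M, (P.F1 M).X (P.F1 M).cone)} {f : C(A, P.X)}
    {eB : C(Bs σ M, (P.F1 M).Bs (PMs σ M))}
    (e2 : ∀ i, H.map eB (Tq.lcq (P.F1 M).actL (PMs σ M) fun τ => τ i) = lam M (MvPolynomial.X i))
    (k3 : (P.q1 M).toEqv.qm.comp ρ = f.comp .fst)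
    (k4 : (P.F1 M).eqh_fst.toEqv.qm.comp ρ = eB.comp .snd) {c : σ → Hev P.X}
    (hc : ∀ l, (c l).1 = P.F.lc _ 0 (P.wL l)) : H.map ρ (hP.nb M i).1 = evA A M (inH A
      (∏ l : {l // l ≠ i}, ((MvPolynomial.X l.1 - MvPolynomial.X i) ⊗ₜ 1 +
        1 ⊗ₜ Hev.map f (c l - c i)))) := by
  haveI := hP.fp1 M
  haveI := hP.good.fp
  have k5 : ∀ l, H.map ρ ((P.F1 M).lc _ (Pi.single l 1) (P.wL l)) =
      evA A M (inH A (MvPolynomial.X l ⊗ₜ 1 + 1 ⊗ₜ Hev.map f (c l))) := fun l => by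
    have a1 := Wt.map_lc (P.q1 M) (ψ := 0) (χ := P.wL l) (ψ' := 0) (χ' := P.wL l) fun _ _ => by
      simp [chT]
    have a2 := ((P.F1 M).eqh_fst.map_lcq (c := fun τ => τ l)
      ⟨rfl, fun _ _ _ _ => rfl, fun _ _ => (continuous_apply l).continuousAt⟩).trans
        (congrArg _ (funext (chT_single l)).symm)
    rw [← add_zero (Pi.single l 1), ← zero_add (P.wL l), Wt.lc_add, ← a1, Wt.lc_eq, ← a2, map_add,
      H.map_map, H.map_map, k3, k4, ← H.map_map, ← H.map_map, e2, ← hc, map_add, map_add]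
    refine congrArg₂ (· + ·) (evA_one M _).symm (Eq.trans ?_ (evA_tmul M 1 _).symm)
    rw [map_one, map_one, one_mul]
    rfl
  refine Finset.prod_hom_rel (r := fun (u : Hev _) v => H.map ρ u.1 = evA A M (inH A v))
    ((map_one _).trans ((congrArg _ (map_one _)).trans (map_one _)).symm) fun l u v huv => ?_
  rw [MulMemClass.coe_mul, map_mul, huv, map_mul, map_mul, Wt.lce_val, Wt.lc_sub, map_sub, k5, k5,
    ← map_sub, ← map_sub, add_sub_add_comm, ← sub_tmul, ← tmul_sub, ← map_sub]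

set_option maxSynthPendingDepth 3 in
theorem bc_dg {ac : Act fr C} (E : Dic ac P.X) {c : σ → C} {χ : σ → F ⊗[ℂ] C}
    (hχ : ∀ l, χ l = (a l • tt) ⊗ₜ 1 + 1 ⊗ₜ c l) (n n' : ν) (i : σ) {A : Type}
    [TopologicalSpace A] (e : C(A, τ.A)) :
    bc _ (chiA a) (inH A (∏ l : {l // l ≠ i}, ((MvPolynomial.X l.1 - MvPolynomial.X i) ⊗ₜ 1 +
      1 ⊗ₜ Hev.map ((τ.ev n).comp e) (E.jC (c l) - E.jC (c i)))) * 1 ⊗ₜ ∑ s,
        H.map ((τ.ev n).comp e) (E.jH (fr.e s)) * H.map ((τ.ev n').comp e) (E.jH (fr.f s))) =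
      pb F e (τ.dg E χ i n n') := by
  have h1 : pbE e (τ.evC E n (B.eu χ i)) = bc _ (chiA a) (∏ l : {l // l ≠ i},
      ((MvPolynomial.X l.1 - MvPolynomial.X i) ⊗ₜ 1 +
        1 ⊗ₜ Hev.map ((τ.ev n).comp e) (E.jC (c l) - E.jC (c i)))) := by
    rw [Md.pbE_evC, B.eu, Finset.prod_subtype (p := (· ≠ i)) _ (by simp), map_prod, map_prod, map_prod]
    refine Finset.prod_congr rfl fun l _ => ?_
    rw [hχ, hχ, add_sub_add_comm, ← sub_tmul, ← tmul_sub, map_add, map_add, map_add, bc_tmul,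
      bc_tmul, map_sub (chiA a), chiA_X, chiA_X, map_one, ← map_sub E.jC]
    exact congrArg₂ (· + ·)
      (congrArg (_ ⊗ₜ[ℂ] ·) ((congrArg (Hev.map _) (map_one E.jC)).trans (map_one _))) rfl
  rw [map_mul, ← inF_bc, ← h1, bc_tmul, map_one, tmul_sum, Finset.mul_sum, Md.dg, map_sum]
  refine Finset.sum_congr rfl fun s _ => ?_
  rw [Md.evH_act, map_mul, map_mul, pb_inF, mul_assoc, Md.pb_evH, Md.pb_evH]
  exact congrArg (_ * ·) ((congrArg (· ⊗ₜ[ℂ] _) (mul_one (1 : F)).symm).trans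
    (Algebra.TensorProduct.tmul_mul_tmul _ _ _ _).symm)

/-- **the class of the diagonal over a fixed component** -/
theorem Geo.dg3 (G : Geo k D a τ) (hP : P.Ok K₀ k D) {ac : Act fr C} (E : Dic ac P.X)
    (hint : ∀ x, E.int x = P.F.intX _ x) {c : σ → C} (hc : ∀ l, (E.jC (c l)).1 = P.F.lc _ 0 (P.wL l))
    {χ : σ → F ⊗[ℂ] C} (hχ : ∀ l, χ l = (a l • tt) ⊗ₜ 1 + 1 ⊗ₜ c l) (n n' : ν) (i : σ) {A : Type}
    [TopologicalSpace A] [Nice A] (e : C(A, τ.A))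
    (he : ∀ z, ∃ m, τ.Rp (e z) m ∧ Cm m n i ∧ Cm m n' i) :
    ∃ x : Loc.R σ ⊗[ℂ] H A, bc _ (chiA a) x = pb F e (τ.dg E χ i n n') ∧
      ∀ M t, Nd.IsD3 (P.EM ∅ M) t → H.map ((G.i M).comp (pr e M))
        (hcls (evT (.inl n) (.inl n') (P.EM ∅ M).cone3 t)) = evA A M x := by
  refine ⟨_, bc_dg E hχ n n' i e, fun M t ht => ?_⟩
  have hz : GZ (P.EM ∅ M) ℓs ((P.EM ∅ M).Zs (Fin 0) k D g d (0 : ν → J ⊕ σ → ℕ)) :=
    (hP.nice_EM i M).gz (Fin 0) hP.big_fam hP.bigD_fam g d 0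
  obtain ⟨t₀, h₀⟩ := exists_isD3 hP.nice_F
  obtain ⟨eB, -, e1, e2, -⟩ := exists_eB (PB.actL_F1 (P := P) (M := M))
  obtain ⟨κ, h3, k1, k2, k3, k4⟩ := G.exists_kap hP n n' i e he hz e1
  rw [hz.evT_eq, ← H.map_hcls _ (ht.co.elim fun _ a => a.cocycle), H.map_map, h3, ← H.map_map,
    hP.res_d3 ht h₀, (isCas_iff_eq hP.nice_F (cp_of hP.B_eq) h₀).1 (E.isCas hP hint),
    map_mul, map_mul, H.map_map, H.map_map, map_nb hP i e2 k3 k4 hc, csm, map_sum, evA_tmul, map_one,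
    map_one, one_mul, map_sum]
  refine congrArg _ (Finset.sum_congr rfl fun s _ => ?_)
  rw [map_mul, map_mul, H.map_map, H.map_map, k1, k2, H.map_map, H.map_map]
  rfl

end Vale.Agent.P269.LG
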