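import Vale.Agent.P269.LG.EB
import Vale.Agent.P269.Glu.Cas
import Vale.Agent.P269.Bas.RelC

/-! The class of the diagonal of a projective bundle along a fixed component. -/

set_option linter.unusedSectionVars false
set_option linter.style.haveILetI false

namespace Vale.Agent.P269

open P291Z Set Function Topology Filter Holo Mono Tq Module Coh X3 Loc

namespace Dg3

section gen

variable {A A' W W' ι : Type} [NormedRing A] [NormedAlgebra ℂ A] [NormedAddCommGroup W]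
  [NormedSpace ℂ W] [NormedRing A'] [NormedAlgebra ℂ A'] [NormedAddCommGroup W'] [NormedSpace ℂ W']
  [FiniteDimensional ℂ A] [FiniteDimensional ℂ W] [FiniteDimensional ℂ A'] [FiniteDimensional ℂ W']
  {act : A → W → W} {act' : A' → W' → W'} {S : Set W} {S' : Set W'} {f : W' → W} {θ : A' → A}
  [IsAct act univ] [IsAct act' univ] {n m : ℤ} [Fintype ι]

/-- the integral over the zero set of linear sections -/
theorem intg_zero (h : QM act S n) (h' : QM act' S' m) (φ : Hol act' act S' S θ f)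
    {c : ι → A → ℂ} {s : W →L[ℂ] ι → ℂ} (hs : Tq.Sec act S c s)
    (ht : ∀ x ∈ S, s x = 0 → ∀ w, ∃ v, s v = w ∧ ∀ ε : ℂ, x + ε • v ∈ S)
    (h0 : ∀ y ∈ S', s (f y) = 0) (hi : Injective φ.q)
    (hj : ∀ x ∈ S, s x = 0 → ∃ y ∈ S', ∃ b, IsUnit b ∧ x = act b (f y)) (b : H (Quo act S)) :
    intg (Tq.fnd act' S') (H.map φ.q b) =
      intg (Tq.fnd act S) ((haveI := h.fp; (∏ i, lce act S (hs.hm i)).1) * b) := by
  let Z := {x | x ∈ S ∧ s x = 0}
  have e : Z ⊆ S := fun _ a => a.1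
  have h1 : ∀ x (hx : x ∈ S), x ∈ Z → ∀ w, ∃ v ∈ tan (Subtype.val : S → W) ⟨x, hx⟩,
      fderiv ℂ s x v = w := fun x hx a w => by
    obtain ⟨v, h1, h2⟩ := ht x hx a.2 w
    have := Arc.mem_tan (S := S) (a := x) (c := fun ε => x + ε • v)
      ⟨analyticAt_const.add (analyticAt_id.smul analyticAt_const), by simp, .of_forall h2⟩ hx
    rw [(((hasDerivAt_id' (0 : ℂ)).smul_const v).const_add x).deriv, one_smul] at this
    exact ⟨v, this, by rw [s.fderiv, h1]⟩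
  have k := h.zero (Z := Z) hs (fun _ => Iff.rfl) (fun x _ => s.analyticAt x) h1
  have ψ := φ.mono (Z' := Z) Subset.rfl fun y hy => ⟨φ.maps hy, h0 y hy⟩
  have e1 : (qinc act e).comp ψ.q = φ.q := ContinuousMap.ext fun z => by
    obtain ⟨z, rfl⟩ := mk_surj z
    rfl
  rw [← h.push_one hs (fun _ => Iff.rfl) (fun x _ => s.analyticAt x) h1 k e, ← e1, ← H.map_map]
  refine (h'.J_map' k ψ ⟨Injective.of_comp (f := qinc act e) (e1 ▸ hi :),
    ψ.q_surjective fun x hx => hj x hx.1 hx.2⟩ _).trans ?_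
  exact (congrArg _ (one_mul _).symm).trans (PS.J_push_mul (X := k.ps) (Y := h.ps) _ 1 b).symm

end gen

section triv

variable {S Λ Λ₀ R J K K' : Type} [Fintype S] [Fintype Λ] [Fintype Λ₀] [Fintype R] [Fintype J]
  [Fintype K] [Fintype K'] [DecidableEq R] {F : Fam S Λ R J K} {F₀ : Fam Empty Λ₀ R J K'}
  {l₀ : Λ₀ → ℂ} (hT : F.TrivC F₀ l₀) (h₀ : F₀.Nice 0) [FP F.actL F.B] [CompactSpace (F.Bs F.B)]
  {b : ℕ} (hB : Dim F.actL F.B b)
include hT h₀ hB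

theorem qm_triv : ∃ n, QM F.actT F.cone n := by
  haveI := h₀.toGood.fp
  haveI := h₀.toGood.compact (cp_of hT.B)
  obtain ⟨n, hn⟩ := h₀.exists_dim
  obtain ⟨_, a, -⟩ := (prdT hT).fnd_eq hB hn
  haveI := ((prdT hT).isHomeomorph.homeomorph _).symm.compactSpace
  exact ⟨_, .of_dim F.lin_actT a⟩

theorem qm_triv₃ : ∃ n, QM F.act3 F.cone3 n := by
  haveI := h₀.toGood.fp3
  haveI := h₀.toGood.compact3 (cp_of hT.B)
  obtain ⟨n, hn⟩ := h₀.exists_dim3
  obtain ⟨_, a, -⟩ := (prdT₃ hT).fnd_eq hB hn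
  haveI := ((prdT₃ hT).isHomeomorph.homeomorph _).symm.compactSpace
  exact ⟨_, .of_dim (lin3 _) a⟩

/-- the class of the diagonal of a trivial family -/
theorem intg_triv {t : Coch F₀.X3} (ht : Nd.IsD3 F₀ t) (c : H F.X3) :
    intg (Tq.fnd F.act3 F.cone3) (H.map (prdT₃ hT).eqM.map (hcls t) * c) =
      intg (Tq.fnd F.actT F.cone) (H.map (hold F).q c) := by
  have hc₀ := cp_of hT.B
  haveI := h₀.toGood.fp
  haveI := h₀.toGood.fp3
  haveI := h₀.toGood.compact hc₀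
  haveI := h₀.toGood.compact3 hc₀
  obtain ⟨_, q⟩ := qm_triv hT h₀ hB
  obtain ⟨_, q'⟩ := qm_triv₃ hT h₀ hB
  haveI := q.cpt
  haveI := q'.cpt
  obtain ⟨n, hn⟩ := h₀.exists_dim
  obtain ⟨m, hm⟩ := h₀.exists_dim3
  obtain ⟨_, -, e⟩ := (prdT hT).fnd_eq hB hn
  obtain ⟨_, -, e'⟩ := (prdT₃ hT).fnd_eq hB hm
  have hp := (prdT hT).isHomeomorph
  have hp' := (prdT₃ hT).isHomeomorph
  refine kun_ext hp' (f := intg _ ∘ₗ LinearMap.mulLeft ℂ _)
    (g := intg _ ∘ₗ (H.mapA (hold F).q).toLinearMap) (fun x y => ?_) c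
  change intg _ (H.map _ _ * _) = intg _ (H.map _ _)
  have e₁ : (prdT₃ hT).eqh.toEqv.qm.comp (hold F).q = (prdT hT).eqh.toEqv.qm :=
    ContinuousMap.ext fun z => by
      obtain ⟨z, rfl⟩ := mk_surj z
      rfl
  have e₂ : (prdT₃ hT).eqM.map.comp (hold F).q = (hold F₀).q.comp (prdT hT).eqM.map :=
    ContinuousMap.ext fun z => by
      obtain ⟨z, rfl⟩ := mk_surj z
      rfl
  rw [← mul_assoc, Ch.Hev.commute (Ch.map_mem_Hev _ (hev ht)), mul_assoc, ← map_mul,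
    e', intg_cross hp', intg_d3 h₀.toGood hc₀ ht, map_mul, H.map_map, H.map_map, e₁, e₂, ← H.map_map,
    e, intg_cross hp]

end triv

end Dg3

namespace LG

open Dg3

variable {R J K σ : Type} [Fintype R] [Fintype J] [Fintype K] [Fintype σ] [DecidableEq R]
  [DecidableEq σ] {K₀ : Set K} {k D : ℕ}

namespace PB

variable (P : PB R J K σ) (M : ℕ) (i : σ)

/-- the product of the base with the parameter space -/
@[reducible] noncomputable def F1 : Fam σ (σ × Fin (M + 1)) R J Empty where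
  w := P.F.w
  wt := 0
  wl a := Pi.single a.1 1
  θ := 0
  χ := 0
  wk := 0
  G := 0
  B := PMs σ M
  U := {z | (Empty.elim, z.2) ∈ P.F.cone}
  E := univ
  mov := univ
  zer := ∅

/-- the homomorphism of tori -/
noncomputable def θ1 (t : (σ → ℂ) × (R → ℂ)) : (σ → ℂ) × (Option R → ℂ) :=
  (t.1, fun o => o.elim (chT (-Pi.single i 1) (-P.wL i) t) t.2)

/-- the section -/
noncomputable def f1 (i : σ) (y : J → ℂ) : J ⊕ σ → ℂ := Sum.elim y (Pi.single i 1)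

variable {P M i}

theorem mem_F1 {z} : z ∈ (P.F1 M).cone ↔ z.1 ∈ PMs σ M ∧ (Empty.elim, z.2) ∈ P.F.cone :=
  ⟨fun h => ⟨h.1, h.2.1.1⟩, fun h => ⟨h.1, ⟨h.2, trivial, nofun⟩, nofun⟩⟩

theorem cp_EM1 {Z : Set σ} (M : ℕ) : (P.EM Z M).Cp :=
  haveI := fp_PMs (PB.actL_EM (P := P) (Z := Z) (M := M))
  let ⟨_, a, _⟩ := exists_eB (PB.actL_EM (P := P) (Z := Z) (M := M))
  (a.homeomorph _).compactSpace

theorem actL_F1 (τ l a) : (P.F1 M).actL τ l a = τ a.1 * l a := PB.actL_EM (P := P) (Z := ∅) τ l a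

instance fpL : FP (P.F1 M).actL (P.F1 M).B := fp_PMs actL_F1

instance cpL : CompactSpace ((P.F1 M).Bs (P.F1 M).B) := cp_EM1 (P := P) (Z := ∅) M

theorem hm_θ1 : Hm (P.θ1 i) := by
  have h := hm_chT (-Pi.single i 1 : σ → ℤ) (-P.wL i)
  refine ⟨Prod.ext rfl (funext fun o => ?_), fun a b ha hb => Prod.ext rfl (funext fun o => ?_),
    fun a ha => continuousAt_fst.prodMk (continuousAt_pi.2 fun o => ?_)⟩ <;> cases o
  exacts [h.one, rfl, h.mul a b ha hb, rfl, h.cont a ha,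
    ((continuous_apply _).comp continuous_snd).continuousAt]

theorem chT_θ1 (l : σ) {t : (σ → ℂ) × (R → ℂ)} (ht : IsUnit t) :
    chT (Pi.single l 1) (P.w (.inr l)) (P.θ1 i t) =
      chT (Pi.single l 1 - Pi.single i 1) (P.wL l - P.wL i) t := by
  rw [sub_eq_add_neg, sub_eq_add_neg, chT_add _ _ _ _ ht, chT, Fintype.prod_option]
  simp only [θ1, PB.w, Sum.elim_inr, Option.elim_none, Option.elim_some, zpow_one]
  rw [chT, chT]
  ring

theorem act_f1 {t : (σ → ℂ) × (R → ℂ)} (ht : IsUnit t) (z) : f1 i ((P.F1 M).actT t z).2 =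
    ((P.EM ∅ M).actT (P.θ1 i t) (z.1, f1 i z.2)).2 := funext fun j => by
  rcases j with j | l
  · simp [f1, Wt.actT, θ1, PB.w]
  · refine Eq.trans ?_ (congrArg (· * _) (chT_θ1 l ht)).symm
    by_cases e : l = i
    · rw [e, sub_self, sub_self, chT_zero, one_mul]
      rfl
    · simp [f1, e]

theorem an_f1 {W : Type} [NormedAddCommGroup W] [NormedSpace ℂ W] {y : W → J → ℂ} {x : W}
    (h : AnalyticAt ℂ y x) : AnalyticAt ℂ (fun w => f1 i (y w)) x :=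
  analyticAt_pi_iff.2 fun j => match j with
    | .inl j => analyticAt_pi_iff.1 h j
    | .inr _ => analyticAt_const

namespace Ok

variable (h : P.Ok K₀ k D)
include h

theorem B_eq : P.F.B = {Empty.elim} :=
  h.B.trans (eq_univ_of_forall fun _ => Subsingleton.elim _ _).symm

theorem triv : (P.F1 M).TrivC P.F Empty.elim :=
  ⟨rfl, h.B_eq, fun _ => .inl rfl, fun _ hl _ => mem_F1.trans (and_iff_right hl)⟩

theorem nice_F : P.F.Nice 0 := h.abs.nice h.good h.reg (sm_of_open (h.B ▸ isOpen_univ))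

theorem nice_EM (i : σ) (M : ℕ) : (P.EM ∅ M).Nice 0 :=
  haveI : Nonempty σ := ⟨i⟩
  (PB.abs h.abs).nice (h.good_EM empty_ne_univ M) (PB.reg h.B h.abs h.reg) (PB.sm_EM M)

theorem mem_EM {l y} : (l, f1 i y) ∈ (P.EM ∅ M).cone ↔ (l, y) ∈ (P.F1 M).cone :=
  (PB.mem_cone h.B h.abs).trans (Iff.trans (and_congr_right' (and_iff_left
    ⟨⟨i, by simp [f1]⟩, nofun⟩)) (mem_F1 (z := (l, y))).symm)

theorem mem_r {z} (hz : z ∈ (P.EM ∅ M).cone) : (z.1, fun j => z.2 (.inl j)) ∈ (P.F1 M).cone :=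
  mem_F1.2 (((PB.mem_cone h.B h.abs).1 hz).imp_right And.left)

variable (M i)

/-- the fixed component -/
theorem s1 : Hol (P.F1 M).actT (P.EM ∅ M).actT (P.F1 M).cone (P.EM ∅ M).cone (P.θ1 i)
    fun z => (z.1, f1 i z.2) :=
  .of_an hm_θ1 (fun _ a => h.mem_EM.2 a) (fun _ _ => analyticAt_fst.prod (an_f1 analyticAt_snd))
    fun _ ha x _ => Prod.ext rfl (act_f1 ha x)

/-- the fixed component of the fibre product -/
theorem s3 : Hol (P.F1 M).act3 (P.EM ∅ M).act3 (P.F1 M).cone3 (P.EM ∅ M).cone3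
    (fun t => (t.1, (P.θ1 i (t.1, t.2.1)).2, (P.θ1 i (t.1, t.2.2)).2))
    fun z => (z.1, f1 i z.2.1, f1 i z.2.2) :=
  have a := (hol₁ (P.F1 M)).hm.comp (hm_θ1 (P := P) (i := i))
  have b := (hol₂ (P.F1 M)).hm.comp (hm_θ1 (P := P) (i := i))
  .of_an ⟨Prod.ext rfl (Prod.ext (congrArg Prod.snd a.one :) (congrArg Prod.snd b.one :)),
      fun x y hx hy => Prod.ext rfl (Prod.ext (congrArg Prod.snd (a.mul x y hx hy) :)
        (congrArg Prod.snd (b.mul x y hx hy) :)), fun x hx => continuousAt_fst.prodMk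
          ((a.cont x hx).snd.prodMk (b.cont x hx).snd)⟩
    (fun _ a => ⟨h.mem_EM.2 a.1, h.mem_EM.2 a.2⟩) (fun _ _ => analyticAt_fst.prod
      ((an_f1 (Dg0.a₁ analyticAt_snd)).prod (an_f1 (Dg0.a₂ analyticAt_snd))))
    fun _ ha x _ => Prod.ext rfl (Prod.ext (act_f1 (Wt.isUnit3 ha).1 (x.1, x.2.1))
      (act_f1 (Wt.isUnit3 ha).2 (x.1, x.2.2)))

/-- the projection -/
theorem r3 : Eqv (P.EM ∅ M).act3 (P.F1 M).act3 (P.EM ∅ M).cone3 (P.F1 M).cone3
    fun z => (z.1, fun j => z.2.1 (.inl j), fun j => z.2.2 (.inl j)) :=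
  ⟨fun _ a => ⟨h.mem_r a.1, h.mem_r a.2⟩, by fun_prop, fun a ha x _ =>
    ⟨(a.1, fun r => a.2.1 (some r), fun r => a.2.2 (some r)), by
      simp only [Prod.isUnit_iff, Pi.isUnit_iff] at ha ⊢
      exact ⟨ha.1, fun r => ha.2.1 _, fun r => ha.2.2 _⟩, Prod.ext rfl (Prod.ext
      (funext fun j => by simp [Wt.act3, Wt.actT, PB.w])
        (funext fun j => by simp [Wt.act3, Wt.actT, PB.w]))⟩⟩

theorem r3_s3 (z) : (h.r3 M).qm ((h.s3 M i).q z) = z := by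
  obtain ⟨z, rfl⟩ := mk_surj z
  rfl

variable {M i}

theorem eq_act {z} (hz : z ∈ (P.EM ∅ M).cone) (h0 : ∀ l ≠ i, z.2 (.inr l) = 0) :
    ∃ t, IsUnit t ∧ z.2 = ((P.EM ∅ M).actT (1, t) (z.1, f1 i fun j => z.2 (.inl j))).2 := by
  obtain ⟨l, hl⟩ := ((PB.mem_cone h.B h.abs).1 hz).2.2.1
  obtain rfl : l = i := not_not.1 fun e => hl (h0 l e)
  refine ⟨fun o => o.elim (z.2 (.inr l)) 1, Pi.isUnit_iff.2 fun o => ?_, funext fun j => ?_⟩
  · cases o
    exacts [hl.isUnit, isUnit_one]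
  · rcases j with j | j
    · simp [f1, Wt.actT, PB.w]
    · by_cases e : j = l
      · simp [f1, Wt.actT, PB.w, e]
      · simp [f1, Wt.actT, PB.w, e, h0 j e]

theorem line {z} (hz : z ∈ (P.EM ∅ M).cone) (h0 : ∀ l ≠ i, z.2 (.inr l) = 0) (w : {l // l ≠ i} → ℂ) :
    ∃ η : J ⊕ σ → ℂ, (∀ l : {l // l ≠ i}, η (.inr l) = w l) ∧
      ∀ ε : ℂ, (z.1 + ε • 0, z.2 + ε • η) ∈ (P.EM ∅ M).cone := by
  obtain ⟨a, b, ⟨l, hl⟩, -⟩ := (PB.mem_cone h.B h.abs).1 hz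
  obtain rfl : l = i := not_not.1 fun e => hl (h0 l e)
  refine ⟨Sum.elim 0 fun j => if e : j ≠ l then w ⟨j, e⟩ else 0, fun j => dif_pos j.2,
    fun ε => (PB.mem_cone h.B h.abs).2 ⟨by simpa using a, ?_, ⟨l, by simpa using hl⟩, nofun⟩⟩
  simpa using b

variable (M) in
theorem qm1 : (∃ n, QM (P.F1 M).actT (P.F1 M).cone n) ∧ ∃ n, QM (P.F1 M).act3 (P.F1 M).cone3 n :=
  ⟨qm_triv h.triv h.nice_F (dim_PMs actL_F1), qm_triv₃ h.triv h.nice_F (dim_PMs actL_F1)⟩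

variable (M) in
theorem fp1 : FP (P.F1 M).actT (P.F1 M).cone := (h.qm1 M).1.elim fun _ a => a.fp

variable (M i) in
/-- the Euler class of the normal bundle of the fixed component -/
noncomputable def nb : Ch.Hev ((P.F1 M).X (P.F1 M).cone) :=
  haveI := h.fp1 M
  ∏ l : {l // l ≠ i}, (P.F1 M).lce _ (Pi.single l.1 1 - Pi.single i 1, P.wL l - P.wL i)

/-- **the class of the diagonal along a fixed component** -/
theorem res_d3 {t t₀} (ht : Nd.IsD3 (P.EM ∅ M) t) (h₀ : Nd.IsD3 P.F t₀) :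
    H.map (h.s3 M i).q (hcls t) =
      H.map (hol₁ (P.F1 M)).q (h.nb M i).1 * H.map (prdT₃ (h.triv (M := M))).eqM.map (hcls t₀) := by
  have hN := h.nice_EM i M
  have hc := cp_EM1 (P := P) (Z := ∅) M
  haveI := hN.toGood.fp
  haveI := hN.toGood.fp3
  haveI := hN.toGood.compact hc
  haveI := h.fp1 M
  obtain ⟨n, hn⟩ := hN.exists_dim
  have q := QM.of_dim (P.EM ∅ M).lin_actT hn
  obtain ⟨_, q3⟩ := hN.qm3 hc
  obtain ⟨⟨_, q'⟩, _, q3'⟩ := h.qm1 M
  have a1 := Wt.sec_fld (F := (P.EM ∅ M).toWt) (A := (P.EM ∅ M).cone) fun l : {l // l ≠ i} => .inr l.1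
  have a3 : Tq.Sec (P.EM ∅ M).act3 (P.EM ∅ M).cone3 (ι := {l // l ≠ i} ⊕ {l // l ≠ i})
      (Sum.elim (fun l t => chT (Pi.single l.1 1) (P.w (.inr l)) (t.1, t.2.1))
        fun l t => chT (Pi.single l.1 1) (P.w (.inr l)) (t.1, t.2.2))
      (ContinuousLinearMap.pi (Sum.elim (fun l => .proj (Sum.inr l.1) ∘L .fst ℂ _ _ ∘L .snd ℂ _ _)
        fun l => .proj (Sum.inr l.1) ∘L .snd ℂ _ _ ∘L .snd ℂ _ _)) :=
    ⟨Sum.forall.2 ⟨fun l => (hol₁ (P.EM ∅ M)).hm.comp (a1.hm l),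
      fun l => (hol₂ (P.EM ∅ M)).hm.comp (a1.hm l)⟩,
      (ContinuousLinearMap.continuous _).continuousOn, fun _ _ _ _ =>
        Sum.forall.2 ⟨fun _ => rfl, fun _ => rfl⟩⟩
  have b1 := intg_zero q q' (h.s1 M i) (s := ContinuousLinearMap.pi fun l : {l // l ≠ i} =>
      .proj (φ := fun _ : J ⊕ σ => ℂ) (Sum.inr l.1) ∘L .snd ℂ _ _) a1 (fun x hx h0 w => by
      obtain ⟨η, e1, e2⟩ := h.line hx (fun l hl => congrFun h0 ⟨l, hl⟩) w
      exact ⟨(0, η), funext e1, e2⟩)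
    (fun y _ => funext fun l => Pi.single_eq_of_ne l.2 _)
    (LeftInverse.injective (g := fun z => (hol₁ (P.F1 M)).q ((h.r3 M).qm ((hold (P.EM ∅ M)).q z))) fun z => by
      obtain ⟨z, rfl⟩ := mk_surj z
      rfl) fun x hx h0 => by
      obtain ⟨u, e1, e2⟩ := h.eq_act hx fun l hl => congrFun h0 ⟨l, hl⟩
      exact ⟨_, h.mem_r hx, (1, u), Prod.isUnit_iff.2 ⟨isUnit_one, e1⟩,
        Prod.ext (Wt.actL_one _ _).symm e2⟩
  have b3 := intg_zero q3 q3' (h.s3 M i) a3 (fun x hx h0 w => by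
      obtain ⟨η, e1, e2⟩ := h.line hx.1 (fun l hl => congrFun h0 (.inl ⟨l, hl⟩)) fun l => w (.inl l)
      obtain ⟨η', e3, e4⟩ := h.line hx.2 (fun l hl => congrFun h0 (.inr ⟨l, hl⟩)) fun l => w (.inr l)
      exact ⟨(0, η, η'), funext (Sum.forall.2 ⟨e1, e3⟩), fun ε => ⟨e2 ε, e4 ε⟩⟩)
    (fun y _ => funext (Sum.forall.2 ⟨fun l => Pi.single_eq_of_ne l.2 _,
      fun l => Pi.single_eq_of_ne l.2 _⟩)) (LeftInverse.injective (h.r3_s3 M i)) fun x hx h0 => by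
      obtain ⟨u, e1, e2⟩ := h.eq_act hx.1 fun l hl => congrFun h0 (.inl ⟨l, hl⟩)
      obtain ⟨u', e3, e4⟩ := h.eq_act hx.2 fun l hl => congrFun h0 (.inr ⟨l, hl⟩)
      exact ⟨(x.1, _, _), ⟨h.mem_r hx.1, h.mem_r hx.2⟩, (1, u, u'),
        Prod.isUnit_iff.2 ⟨isUnit_one, Prod.isUnit_iff.2 ⟨e1, e3⟩⟩,
        Prod.ext (Wt.actL_one _ _).symm (Prod.ext e2 e4)⟩
  have c1 : Ch.Hev.map (hold (P.EM ∅ M)).q (∏ l, lce _ _ (a3.hm l)) =
      (∏ l, lce _ _ (a1.hm l)) * ∏ l, lce _ _ (a1.hm l) := by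
    rw [map_prod, Fintype.prod_sum_type]
    refine congrArg₂ (· * ·) (Finset.prod_congr rfl fun l _ => Subtype.ext ?_)
      (Finset.prod_congr rfl fun l _ => Subtype.ext ?_) <;>
    · rw [Ch.Hev.coe_map, lce_val, lce_val]
      exact (hold (P.EM ∅ M)).toEqh.map_lcq (a3.hm _)
  have c2 : Ch.Hev.map (h.s1 M i).q (∏ l, lce _ _ (a1.hm l)) = h.nb M i := by
    rw [map_prod]
    refine Finset.prod_congr rfl fun l _ => Subtype.ext ?_
    rw [Ch.Hev.coe_map, lce_val, Wt.lce_val]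
    exact Wt.map_lc (h.s1 M i).toEqh fun _ => chT_θ1 l.1
  have c3 : ((h.r3 M).qm.comp (hold (P.EM ∅ M)).q).comp (h.s1 M i).q = (hold (P.F1 M)).q :=
    ContinuousMap.ext fun z => by
      obtain ⟨z, rfl⟩ := mk_surj z
      rfl
  refine q3'.ps.ext_left fun c => ?_
  change intg _ (_ * c) = intg _ (_ * c)
  rw [Ch.Hev.commute (Ch.map_mem_Hev _ (h.nb M i).2), mul_assoc, intg_triv h.triv h.nice_F
    (dim_PMs actL_F1) h₀, map_mul (H.map _), H.map_map,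
    H.map_id (f := (hol₁ (P.F1 M)).q.comp _) (q₁_d _), ← c2, ← c3, Ch.Hev.coe_map, ← H.map_map,
    ← map_mul (H.map _), b1, ← mul_assoc, ← MulMemClass.coe_mul, ← c1, Ch.Hev.coe_map, ← H.map_map,
    ← map_mul (H.map _), ← intg_d3 hN.toGood hc ht, ← mul_assoc, ← Ch.Hev.commute (Subtype.prop _),
    mul_assoc, ← b3, map_mul (H.map _), H.map_map, H.map_id (f := (h.r3 M).qm.comp _) (h.r3_s3 M i)]

end Ok

end PB

end LG

end Vale.Agent.P269
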