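import Vale.Agent.P269.LG.Lev

/-! Existence of the system of fixed loci. -/

set_option linter.unusedSectionVars false
set_option linter.style.haveILetI false

namespace Vale.Agent.P269.LG

open Set Function Topology TensorProduct Vale.Agent.P291Z Vale.Agent.P269.Ch Vale.Agent.P269.Loc

variable {R J K σ ν : Type} [Fintype R] [Fintype J] [Fintype K] [Fintype σ] [Fintype ν]
  [DecidableEq σ] {P : PB R J K σ} {K₀ : Set K}

namespace PB.Am

variable {ι : Type} [Fintype ι] [DecidableEq ι] {ch : Ch ι (J ⊕ σ)} {e : K → ι → ℕ}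
  {ℓ : Option R → ι → ℤ} {Z : Set σ} {O : Set (ch.WF ν (Fin 0) Empty)} {n : ℕ}
  (h : P.Am e K₀ ℓ Z O n) {x : ch.WF ν (Fin 0) Empty} (hx : x ∈ P.Z0 ν (Fin 0) ch Z)
  {m : AM0 R J σ ν} (hm : Rep ℓ univ x m) (q : ν)

include h hx hm in
theorem cm_iff (i : σ) : Cm m q i ↔ ∀ l ≠ i, (vl x (.inl q)).2 (.inr l) = 0 := by
  obtain ⟨t, a, b⟩ := hm.vl (W := (P.E Z).toWt) hx.1.1.2.1 h.gz0.wt
  refine forall₂_congr fun l _ => ?_
  rw [b, Wt.actT_snd, mul_eq_zero_iff_left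
    ((hm_chT _ _).isUnit (Prod.isUnit_iff.2 ⟨isUnit_one, a _⟩)).ne_zero]
  rfl

include hm in
theorem ev0_rep : ∃ a, h.ev0 (.inl q) (Quo.mk _ ⟨x, hx⟩) =
    Quo.mk _ ⟨(bas m).vl (m.p (.inl q)), a⟩ := by
  obtain ⟨t, a, b⟩ := hm.vl (W := (P.E Z).toWt) hx.1.1.2.1 h.gz0.wt
  have s := ((hm.mem_solF hx.1.1.2.1 h.std_E.inv h.gz0.wt).1 hx.1).2.2 (m.p (.inl q))
  have p := Lev.eqv_pr (wt := fun _ => Empty.elim) (wl := Empty.elim) (B := univ) (Z := Z) h.B h.abs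
  obtain ⟨c, hc, f⟩ := p.eqv (1, t (.inl q)) (Prod.isUnit_iff.2 ⟨isUnit_one, a _⟩) _ s
  have u : (Empty.elim, fun j => (m.vl (m.p (.inl q))).2 (.inl j)) = (bas m).vl (m.p (.inl q)) :=
    Prod.ext (Subsingleton.elim _ _) rfl
  exact ⟨u ▸ p.maps s, (Quot.sound ⟨c, hc, (congrArg (fun z : (Empty → ℂ) × (J ⊕ σ → ℂ) =>
    ((Empty.elim, fun j => z.2 (.inl j)) : (Empty → ℂ) × (J → ℂ))) (b (.inl q))).trans
      (f.trans (congrArg _ u))⟩).symm⟩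

end PB.Am

variable [DecidableEq R] {k D : ℕ} {a : σ → ℂ} {g : ℤ} {d : Option R → ℤ}

namespace Ex

variable (hP : P.Ok K₀ k D) (ha : LinearIndependent ℚ a)
  {O : Set ((P.ch ν k D g d).WF ν (Fin 0) Empty)} {n : ℕ} (h : P.As K₀ ∅ O n)

include hP in
theorem fx {z : h.tc.F} {m : AM0 R J σ ν} (f : (P.E ∅).At (h.tc.g₀ z) m) : Fx m P g d :=
  have s := f.sol hP.goodE.toInv
  have t := f.stable hP.bigD
  let ⟨x, b, c⟩ := f
  ⟨s, t, Fam.At.typ ⟨x, b, c⟩,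
    Fixd.str hP.good hP.B hP.abs s ((hP.mem_FZ h x.2 c).1 (h.mem_FZ_of b))⟩

include hP in
theorem surj {m : AM0 R J σ ν} (f : Fx m P g d) : ∃ z : h.tc.F, (P.E ∅).At (h.tc.g₀ z) m :=
  let ⟨_, x, _, c⟩ := Fam.exists_at_of (u := (0 : ν → _)) hP.goodE.toInv (PB.abs hP.abs) hP.big
    hP.bigD f.sol f.stable f.typ
  ⟨h.tc.cl x.1 ((hP.mem_FZ h x.2 c).2 (f.str.fixd f.sol)), x, rfl, c⟩

include hP in
theorem cm (q : ν) (i : σ) :
    IsClosed {z : h.tc.F | ∃ m, (P.E ∅).At (h.tc.g₀ z) m ∧ Cm m q i} := by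
  have c : Continuous fun x : h.tc.FZ => vl x.1 (.inl q) := continuousOn_iff_continuous_restrict.1
    ((continuousOn_vl _).mono fun _ b => b.1.1)
  refine isQuotientMap_quot_mk.isClosed_preimage.1 (mem_of_eq_of_mem (s := {T | IsClosed T})
    (Set.ext fun x => ?_) (isClosed_iInter fun l => isClosed_iInter fun _ : l ≠ i =>
      isClosed_eq ((continuous_apply (Sum.inr l)).comp c.snd) (continuous_const (y := 0))))
  obtain ⟨m, f⟩ := (Fam.chart_lat (F := P.E ∅) hP.bigD).exists_rep_sol x.2.1.1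
  have u : (P.E ∅).At (h.tc.g₀ (h.tc.cl x.1 x.2)) m := ⟨⟨_, x.2.1⟩, rfl, f⟩
  rw [mem_iInter₂]
  exact .trans ⟨fun ⟨_, v, w⟩ => inv_cm q i _ _ ((v.eq_iff hP.bigD u).1 rfl) w, fun w => ⟨m, u, w⟩⟩
    (h.cm_iff x.2.1 f q i)

/-- the fixed locus -/
noncomputable def md : Md P P.X ν g d where
  A := h.tc.F
  Rp z m := (P.E ∅).At (h.tc.g₀ z) m
  ex _ := Fam.exists_at hP.bigD _
  fx := fx hP h
  iso f := ⟨fun f' => (f.eq_iff hP.bigD f').1 rfl, f.of_iso hP.goodE.toInv hP.bigD⟩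
  inj f f' := h.tc.isClosedEmbedding_g₀.injective ((f.eq_iff hP.bigD f').2 (.refl _))
  surj := surj hP h
  I := haveI := fun M => (h.lv M).nice; (TC.exists_isLoc h.lv (chiA_lin_ne ha)).choose
  ψ q := bc _ (chiA a) (h.exists_psi (.inl q)).choose
  ev q := (h.ev0 (.inl q)).comp h.tc.g₀
  cm := cm hP h

/-- the fixed locus in the moduli space -/
noncomputable def geo : Geo k D a (md hP ha h) where
  g0 := h.tc.g₀
  emb := h.tc.isClosedEmbedding_g₀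
  rp _ _ := Iff.rfl
  nice M := (h.lv M).nice
  i M := (h.lv M).i
  pt M z p m := fun ⟨x, b, c⟩ => ⟨_, (congrArg (fun t => (h.lv M).i (t, bp p))
    (h.tc.isClosedEmbedding_g₀.injective (a₂ := h.tc.cl x.1 (h.mem_FZ_of b)) b)).trans
      ((h.lv M).i_cl _ _ p), rep_μA.2 c⟩
  loc := haveI := fun M => (h.lv M).nice
    (funext fun M => hP.vir_EM' h (hP.good_EM0 M) : P.vM ν k D g d = _) ▸
      (TC.exists_isLoc h.lv (chiA_lin_ne ha)).choose_spec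
  psi q := ⟨_, rfl, (h.exists_psi (.inl q)).choose_spec⟩
  ev q z m := fun ⟨x, b, c⟩ => let ⟨u, v⟩ := h.ev0_rep x.2 c q
    ⟨u, (congrArg (h.ev0 (.inl q)) b).trans v⟩

end Ex

/-- **existence of the fixed loci** -/
theorem exists_geo (h : P.Ok K₀ k D) (ha : LinearIndependent ℚ a) :
    ∃ T : Th P P.X, Nonempty (GeoT k D a T) :=
  ⟨fun ν _ g d => Ex.md h ha (h.exists_as' ν g d h.goodE).choose_spec,
    ⟨fun _ _ _ _ => Ex.geo h ha _⟩⟩

end Vale.Agent.P269.LG
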