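import Vale.Agent.P269.Cv.Rat

/-! A component with a pencil on which a self-map acts with infinite order is rational. -/

set_option linter.unusedSectionVars false

namespace Vale.Agent.P269.LG.FixA

open Set Function Topology Filter Cv

variable {X : Type} [TopologicalSpace X] [T2Space X] [CompactSpace X] {R : RS X} {M : LB R}
  {C : Set X} {u v s : X → ℂ} {g : X → X} {x : X} {c : ℂ}

theorem sub_gen (hC : IsClopen C) (hc : IsConnected C) (h : ∀ x ∈ C, M.Sec s x) (hx : x ∈ C)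
    (h0 : x ∈ Gen s) : C ⊆ Gen s := by
  classical
  have e : ∀ y ∈ C, y ∈ Gen (C.piecewise s 1) ↔ y ∈ Gen s := fun y hy =>
    gen_congr' (Eventually.mono (hC.isOpen.mem_nhds hy) fun z hz => piecewise_eq_of_mem _ _ _ hz)
  exact fun y hy => (e y hy).1 (hc.isPreconnected.subset_isClopen (isClopen_gen (LB.res_mem hC h))
    ⟨x, hx, (e x hx).2 h0⟩ hy)

theorem not_gen (R : RS X) (hC : IsOpen C) (hx : x ∈ C) (h : ∀ y ∈ C, s y = 0) : x ∉ Gen s :=
  fun a => by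
    have := R.neBot x
    obtain ⟨y, b, d⟩ := ((mem_gen.1 a).and (nhdsWithin_le_nhds (hC.mem_nhds hx))).exists
    exact b (h y d)

/-- removal of the common zeros -/
theorem reduce (hC : IsClopen C) (n : ℕ) : ∀ {M : LB R} {u v : X → ℂ}, degOn M C = n → u ∈ M.Γ →
    v ∈ M.Γ → C ⊆ Gen u → ∃ M' W : LB R, ∃ u' ∈ M'.Γ, ∃ v' ∈ M'.Γ, ∃ w ∈ W.Γ, Gen w = univ ∧
      u = u' * w ∧ v = v' * w ∧ ∀ x ∈ C, u' x ≠ 0 ∨ v' x ≠ 0 := by
  induction n using Nat.strong_induction_on with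
  | _ n ih =>
    intro M u v hd hu hv gu
    by_cases h : ∀ x ∈ C, u x ≠ 0 ∨ v x ≠ 0
    · exact ⟨M, 1, u, hu, v, hv, 1, LB.one_mem, gen_of_ne fun _ => one_ne_zero, (mul_one u).symm,
        (mul_one v).symm, h⟩
    push Not at h
    obtain ⟨p, hp, up, vp⟩ := h
    have k := card_le_degOn hC (fun x _ => hu x) gu (T := {p}) (by simpa using ⟨hp, up⟩)
    rw [← div_mul_cancel M (R.pt p)] at hu hv
    obtain ⟨u₁, a₁, b₁, -⟩ := exists_div hu up
    obtain ⟨v₁, a₂, b₂, -⟩ := exists_div hv vp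
    rw [Finset.card_singleton, hd] at k
    obtain ⟨M', W, u', c₁, v', c₂, w, c₃, c₄, c₅, c₆, c₇⟩ := ih (n - 1) (by omega)
      (by rw [degOn_div, degOn_pt hC, if_pos hp, hd]; omega) a₁ a₂
      fun x hx => (gen_mul.le (b₁ ▸ gu hx : x ∈ Gen (u₁ * RS.can p))).1
    exact ⟨M', W * R.pt p, u', c₁, v', c₂, w * RS.can p, LB.mul_mem c₃ (R.can_mem p),
      by rw [gen_mul, c₄, gen_can, inter_self], by rw [b₁, c₅, mul_assoc],
      by rw [b₂, c₆, mul_assoc], c₇⟩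

variable (R u v) in
/-- the local expression of the Wronskian -/
noncomputable def wd (z : X) : ℂ := v z ^ 2 * R.d (fun z => u z / v z) z

theorem wd_sec (hu : M.Sec u x) (hv : M.Sec v x) (h : v x ≠ 0) : (M ^ 2 * R.K).Sec (wd R u v) x :=
  (hv.pow 2).mul (hu.hol_div hv h).sec_d

theorem wd_ord (hu : M.Sec u x) (hv : M.Sec v x) (h : v x ≠ 0) (h0 : u x = 0) :
    (M ^ 2 * R.K).ord (wd R u v) x + 1 = M.ord u x := by
  have a := hu.hol_div hv h
  have b := LB.ord_mul (hv.pow 2) a.sec_d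
  have d := LB.ord_mul hu (hv.inv h)
  rw [(LB.ord_eq_zero (hv.pow 2)).2 (pow_ne_zero 2 h), zero_add] at b
  rw [(LB.ord_eq_zero (hv.inv h)).2 (inv_ne_zero h), add_zero, mul_inv_cancel] at d
  have e := AnalyticAt.analyticOrderAt_deriv_add_one a
  simp only [R.i_zero, h0, zero_div, sub_zero] at e
  rw [← d, show wd R u v = v ^ 2 * R.d fun z => u z / v z from rfl, b, LB.ord,
    analyticOrderAt_congr a.loc_d, e, LB.ord]
  exact congrArg (analyticOrderAt · 0) (funext fun t => by simp [LB.loc, div_eq_mul_inv])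

theorem wd_swap (hu : M.Sec u x) (hv : M.Sec v x) (h : v x ≠ 0) (h0 : u x ≠ 0) :
    wd R u v x = -wd R v u x := by
  have := RS.d_comp (u := fun t : ℂ => t⁻¹) (f := fun z => u z / v z)
    (analyticAt_id.inv (div_ne_zero h0 h)) (hu.hol_div hv h)
  simp only [inv_div, deriv_inv] at this
  rw [wd, wd, this]
  field_simp

open Classical in
variable (R u v) in
/-- the Wronskian -/
noncomputable def wr (z : X) : ℂ := if v z = 0 then -wd R v u z else wd R u v z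

theorem wr_right (hv : M.Sec v x) (h : v x ≠ 0) : wd R u v =ᶠ[𝓝 x] wr R u v :=
  (hv.ev_ne h).mono fun _ a => (if_neg a).symm

theorem wr_left (hu : M.Sec u x) (hv : M.Sec v x) (h : u x ≠ 0) :
    (-1 : ℂ) • wd R v u =ᶠ[𝓝 x] wr R u v :=
  ((hu.ev_ne h).and (hu.eventually.and hv.eventually)).mono fun y a => by
    by_cases b : v y = 0
    · simp [wr, b]
    · simp [wr, b, wd_swap a.2.1 a.2.2 b a.1]

theorem wr_sec (hu : M.Sec u x) (hv : M.Sec v x) (h : u x ≠ 0 ∨ v x ≠ 0) :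
    (M ^ 2 * R.K).Sec (wr R u v) x :=
  h.elim (fun h => ((wd_sec hv hu h).smul _).congr (wr_left hu hv h))
    fun h => (wd_sec hu hv h).congr (wr_right hv h)

theorem wr_ord_left (hu : M.Sec u x) (hv : M.Sec v x) (h : v x ≠ 0) (h0 : u x = 0) :
    (M ^ 2 * R.K).ord (wr R u v) x + 1 = M.ord u x := by
  rw [← wd_ord hu hv h h0, LB.ord, LB.ord, analyticOrderAt_congr (LB.loc_congr (wr_right hv h))]

theorem wr_ord_right (hu : M.Sec u x) (hv : M.Sec v x) (h : u x ≠ 0) (h0 : v x = 0) :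
    (M ^ 2 * R.K).ord (wr R u v) x + 1 = M.ord v x := by
  rw [← wd_ord hv hu h h0, LB.ord, LB.ord, ← analyticOrderAt_congr (LB.loc_congr (wr_left hu hv h)),
    LB.loc_smul, neg_one_smul, analyticOrderAt_neg]

theorem sum_toNat {Z : Finset X} {a b : X → ℕ∞} (h : ∀ x ∈ Z, a x + 1 = b x)
    (hb : ∀ x ∈ Z, b x ≠ ⊤) : ∑ x ∈ Z, (b x).toNat = ∑ x ∈ Z, (a x).toNat + Z.card := by
  rw [Finset.card_eq_sum_ones, ← Finset.sum_add_distrib]
  refine Finset.sum_congr rfl fun x hx => ?_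
  rw [← h x hx, ENat.toNat_add (fun e => hb x hx (by rw [← h x hx, e, top_add])) ENat.one_ne_top]
  rfl

variable (g C) in
/-- the points of `C` other than `a`, `b` have infinite orbits -/
def Two (a b : X) : Prop := ∀ S ⊆ C, S.Finite → MapsTo g S S → S ⊆ {a, b}

theorem pencil0 (hC : IsClopen C) (hc : IsConnected C) (hg : LIso R R g) (mg : MapsTo g C C)
    (hu : u ∈ M.Γ) (hv : v ∈ M.Γ) (gu : C ⊆ Gen u) (gv : C ⊆ Gen v)
    (co : ∀ x ∈ C, u x ≠ 0 ∨ v x ≠ 0) (c0 : c ≠ 0) (c1 : ∀ n : ℕ, 0 < n → c ^ n ≠ 1)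
    (eig : ∀ x ∈ C, u (g x) * v x = c * (v (g x) * u x)) :
    IsRat R C ∧ ∃ a ∈ C, ∃ b ∈ C, a ≠ b ∧ Two C g a b := by
  classical
  have step : ∀ x ∈ C, u x ≠ 0 → v x ≠ 0 →
      u (g x) ≠ 0 ∧ v (g x) ≠ 0 ∧ u (g x) / v (g x) = c * (u x / v x) := fun x hx a b => by
    have e := eig x hx
    have k : v (g x) ≠ 0 := fun k => (co _ (mg hx)).elim (fun d => by simp [k, d, b] at e) (· k)
    exact ⟨fun d => by simp [d, k, a, c0] at e, k, by field_simp; rw [e]; ring⟩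
  have orb : ∀ S ⊆ C, S.Finite → MapsTo g S S → ∀ x ∈ S, u x = 0 ∨ v x = 0 := by
    intro S hS fS mS x hx
    by_contra! k
    have it : ∀ n, u (g^[n] x) ≠ 0 ∧ v (g^[n] x) ≠ 0 ∧
        u (g^[n] x) / v (g^[n] x) = c ^ n * (u x / v x) := fun n => by
      induction n with
      | zero => simpa using k
      | succ n ih =>
        obtain ⟨a, b, d⟩ := step _ (hS (mS.iterate n hx)) ih.1 ih.2.1
        rw [iterate_succ_apply', pow_succ', mul_assoc, ← ih.2.2]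
        exact ⟨a, b, d⟩
    obtain ⟨i, j, a, b⟩ := fS.exists_lt_map_eq_of_forall_mem fun n : ℕ => mS.iterate n hx
    obtain ⟨l, rfl⟩ := Nat.exists_eq_add_of_lt a
    have e := (it i).2.2
    rw [b, (it _).2.2, add_assoc, pow_add] at e
    exact c1 (l + 1) l.succ_pos (mul_left_cancel₀ (pow_ne_zero i c0)
      ((mul_right_cancel₀ (div_ne_zero k.1 k.2) e).trans (mul_one _).symm))
  obtain ⟨p, hp⟩ := hc.nonempty
  obtain ⟨a, aC, ua⟩ : ∃ a ∈ C, u a = 0 := by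
    by_contra! k
    obtain ⟨l, e⟩ := exists_const hC hc (fun x _ => hu x) (fun x _ => hv x) k
    have := eig p hp
    rw [e p hp, e _ (mg hp)] at this
    have l0 : l ≠ 0 := fun l0 => not_gen R hC.isOpen hp (fun y hy => by simp [e y hy, l0]) (gv hp)
    refine c1 1 one_pos (mul_right_cancel₀ (mul_ne_zero (mul_ne_zero l0 (k _ (mg hp))) (k p hp)) ?_)
    linear_combination -this
  obtain ⟨b, bC, vb⟩ : ∃ b ∈ C, v b = 0 := by
    by_contra! k
    obtain ⟨l, e⟩ := exists_const hC hc (fun x _ => hv x) (fun x _ => hu x) k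
    have := eig p hp
    rw [e p hp, e _ (mg hp)] at this
    have l0 : l ≠ 0 := fun l0 => not_gen R hC.isOpen hp (fun y hy => by simp [e y hy, l0]) (gu hp)
    refine c1 1 one_pos (mul_right_cancel₀ (mul_ne_zero (mul_ne_zero l0 (k _ (mg hp))) (k p hp)) ?_)
    linear_combination -this
  have o₁ := fun x hx (h : u x = 0) => wr_ord_left (hu x) (hv x) ((co x hx).resolve_left (· h)) h
  have o₂ := fun x hx (h : v x = 0) => wr_ord_right (hu x) (hv x) ((co x hx).resolve_right (· h)) h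
  have ws := fun x hx => wr_sec (hu x) (hv x) (co x hx)
  have gw : C ⊆ Gen (wr R u v) := sub_gen hC hc ws aC ((ws a aC).ord_ne_top.1 fun e =>
    (hu a).ord_ne_top.2 (gu aC) (by rw [← o₁ a aC ua, e, top_add]))
  have crit : ∀ x ∈ C, u x ≠ 0 → v x ≠ 0 → wr R u v x ≠ 0 := fun x hx a b d => by
    refine (orb {x | (x ∈ C ∧ wr R u v x = 0) ∧ u x ≠ 0 ∧ v x ≠ 0} (fun _ h => h.1.1)
      ((finite_zeros_on hC ws gw).subset fun _ h => h.1) (fun y h => ?_) x ⟨⟨hx, d⟩, a, b⟩).elim a b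
    obtain ⟨⟨y₁, y₂⟩, y₃, y₄⟩ := h
    obtain ⟨z₁, z₂, -⟩ := step y y₁ y₃ y₄
    refine ⟨⟨mg y₁, ?_⟩, z₁, z₂⟩
    have k := hg.d_comp ((hu _).hol_div (hv _) z₂)
    have e : (fun z => u (g z) / v (g z)) =ᶠ[𝓝 y] fun z => c * (u z / v z) :=
      (((hu y).ev_ne y₃).and (((hv y).ev_ne y₄).and (hC.isOpen.mem_nhds y₁))).mono fun z h =>
        (step z h.2.2 h.1 h.2.1).2.2
    have k' := RS.d_comp (u := fun t : ℂ => c * t) (analyticAt_const.mul analyticAt_id)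
      ((hu y).hol_div (hv y) y₄)
    rw [wr, if_neg y₄, wd, mul_eq_zero] at y₂
    rw [RS.d_congr e, k', y₂.resolve_left (pow_ne_zero 2 y₄), mul_zero] at k
    rw [wr, if_neg z₂, wd, (mul_eq_zero.1 k.symm).resolve_left (hg.ne y), mul_zero]
  obtain ⟨Z, hZ⟩ := (finite_zeros_on hC (fun x _ => hu x) gu).exists_finset_coe
  obtain ⟨Z', hZ'⟩ := (finite_zeros_on hC (fun x _ => hv x) gv).exists_finset_coe
  have m : ∀ x, x ∈ Z ↔ x ∈ C ∧ u x = 0 := Set.ext_iff.1 hZ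
  have m' : ∀ x, x ∈ Z' ↔ x ∈ C ∧ v x = 0 := Set.ext_iff.1 hZ'
  have d₁ := degOn_eq_sum hC (fun x _ => hu x) gu (Z := Z) (fun y a b d => b ((m y).2 ⟨a, d⟩))
    fun y a => ((m y).1 a).1
  have d₂ := degOn_eq_sum hC (fun x _ => hv x) gv (Z := Z') (fun y a b d => b ((m' y).2 ⟨a, d⟩))
    fun y a => ((m' y).1 a).1
  have d₃ := degOn_eq_sum hC ws gw (Z := Z ∪ Z') (fun y a b => crit y a
      (fun d => b (Finset.mem_union_left _ ((m y).2 ⟨a, d⟩)))
      fun d => b (Finset.mem_union_right _ ((m' y).2 ⟨a, d⟩)))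
    fun y a => (Finset.mem_union.1 a).elim (fun a => ((m y).1 a).1) fun a => ((m' y).1 a).1
  rw [sum_toNat (fun x h => o₁ x ((m x).1 h).1 ((m x).1 h).2)
    fun x h => (hu x).ord_ne_top.2 (gu ((m x).1 h).1)] at d₁
  rw [sum_toNat (fun x h => o₂ x ((m' x).1 h).1 ((m' x).1 h).2)
    fun x h => (hv x).ord_ne_top.2 (gv ((m' x).1 h).1)] at d₂
  rw [Finset.sum_union (Finset.disjoint_left.2 fun x h h' =>
    (co x ((m x).1 h).1).elim (· ((m x).1 h).2) (· ((m' x).1 h').2)), degOn_mul, degOn_pow] at d₃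
  have k := (degOn_K_ge (R := R) hC hc).1
  have ma := (m a).2 ⟨aC, ua⟩
  have mb := (m' b).2 ⟨bC, vb⟩
  have k₁ := Finset.card_pos.2 ⟨a, ma⟩
  have k₂ := Finset.card_pos.2 ⟨b, mb⟩
  push_cast at d₁ d₂ d₃
  refine ⟨⟨hC, hc, by omega⟩, a, aC, b, bC, fun e => (co a aC).elim (· ua) (· (e ▸ vb)),
    fun S hS fS mS x hx => (orb S hS fS mS x hx).imp (fun h => ?_) fun h => ?_⟩
  · exact Finset.card_le_one.1 (by omega) x ((m x).2 ⟨hS hx, h⟩) a ma
  · exact Finset.card_le_one.1 (by omega) x ((m' x).2 ⟨hS hx, h⟩) b mb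

/-- **the pencil lemma** -/
theorem pencil (hC : IsClopen C) (hc : IsConnected C) (hg : LIso R R g) (mg : MapsTo g C C)
    (hu : u ∈ M.Γ) (hv : v ∈ M.Γ) (gu : C ⊆ Gen u) (gv : C ⊆ Gen v)
    (c0 : c ≠ 0) (c1 : ∀ n : ℕ, 0 < n → c ^ n ≠ 1)
    (eig : ∀ x ∈ C, u (g x) * v x = c * (v (g x) * u x)) :
    IsRat R C ∧ ∃ a ∈ C, ∃ b ∈ C, a ≠ b ∧ Two C g a b := by
  have k := card_le_degOn hC (fun x _ => hu x) gu (T := ∅) (by simp)
  obtain ⟨M', W, u', c₁, v', c₂, w, c₃, c₄, rfl, rfl, co⟩ :=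
    reduce hC _ (Int.toNat_of_nonneg k).symm hu hv gu
  rw [gen_mul] at gu gv
  refine pencil0 hC hc hg mg c₁ c₂ (fun x h => (gu h).1) (fun x h => (gv h).1) co c0 c1 fun x hx => ?_
  have a := sub_mem (LB.mul_mem (hg.pb_mem c₁) c₂)
    (Submodule.smul_mem _ c (LB.mul_mem (hg.pb_mem c₂) c₁))
  have b : x ∈ Gen fun y => w (g y) := (hg.pb_mem c₃ x).ord_ne_top.1 (by
    rw [hg.ord_pb]; exact (c₃ _).ord_ne_top.2 (c₄ ▸ mem_univ _))
  refine sub_eq_zero.1 (eq_zero_of_gen (x := x) a fun d => not_gen R hC.isOpen hx (fun y hy => ?_)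
    (gen_mul.ge ⟨d, (gen_mul (s' := w)).ge ⟨b, c₄ ▸ mem_univ x⟩⟩))
  have := eig y hy
  simp only [Pi.mul_apply, Pi.sub_apply, Pi.smul_apply, smul_eq_mul] at this ⊢
  linear_combination this

end Vale.Agent.P269.LG.FixA
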