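import Vale.Agent.P269.Loc.Imm
import Vale.Agent.P269.LG.KunB
import Vale.Agent.P269.LG.Kun
import Vale.Agent.P269.LG.Top
import Vale.Agent.P269.LG.Geo

/-! Normalisation of a node in localisation: the formal part. -/

set_option linter.unusedSectionVars false

namespace Vale.Agent.P269.LG

open Set Function Topology Filter Module TensorProduct B Vale.Agent.P291Z Vale.Agent.P269.Ch
  Vale.Agent.P269.Orb Vale.Agent.P269.Loc Vale.Agent.P269.Holo

variable {σ : Type} [Fintype σ] {A A' AL : Type} [TopologicalSpace A] [TopologicalSpace A']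
  [TopologicalSpace AL]

namespace HNA

/-- pull-back of even classes with polynomial coefficients -/
noncomputable abbrev pbR (φ : C(A', A)) : R σ ⊗[ℂ] Hev A →ₐ[ℂ] R σ ⊗[ℂ] Hev A' :=
  Algebra.TensorProduct.map (AlgHom.id ℂ _) (Hev.map φ)

theorem inH_pbR (φ : C(A', A)) (x : R σ ⊗[ℂ] Hev A) : inH A' (pbR φ x) = pb _ φ (inH A x) := by
  induction x with
  | zero => simp only [map_zero]
  | add a b ha hb => simp only [map_add, ha, hb]
  | tmul k c => rfl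

/-- the value at a point -/
noncomputable def ptR (a : A) : R σ ⊗[ℂ] Hev A →ₐ[ℂ] R σ :=
  Algebra.TensorProduct.lift (AlgHom.id ℂ _) ((Algebra.ofId ℂ _).comp (exists_pt.choose.comp
    ((H.mapA (.const Unit a)).comp (Hev A).val))) fun _ _ => Commute.all _ _

theorem ptR_tmul (a : A) (k : R σ) (c : Hev A) : ptR a (k ⊗ₜ c) =
    k * algebraMap ℂ _ (exists_pt.choose (H.map (ContinuousMap.const Unit a) c.1)) := rfl

theorem ptE_bc (χ : R σ →ₐ[ℂ] F) (a : A) (x : R σ ⊗[ℂ] Hev A) :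
    ptE a (bc _ χ x) = χ (ptR a x) := by
  induction x with
  | zero => simp only [map_zero]
  | add a b ha hb => simp only [map_add, ha, hb]
  | tmul k c => rw [bc_tmul, ptE_tmul, ptR_tmul, map_mul, AlgHom.commutes]

variable [Nice A] [CompactSpace A]

theorem lc_ptR (x : R σ ⊗[ℂ] Hev A) : IsLocallyConstant fun a => ptR a x := by
  induction x with
  | zero => simp only [map_zero]; exact IsLocallyConstant.const 0
  | add a b ha hb => simp only [map_add]; exact ha.add hb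
  | tmul k c =>
    exact (TopP.isLocallyConstant_val exists_pt.choose c.1).comp fun z => k * algebraMap ℂ _ z

theorem nil_of_ptR {x : R σ ⊗[ℂ] Hev A} (h : ∀ a, ptR a x = 0) : IsNilpotent x := by
  let b := Module.Basis.ofVectorSpace ℂ (R σ)
  obtain ⟨c, rfl⟩ := eq_repr_basis_left b x
  refine isNilpotent_sum fun i hi => ?_
  obtain ⟨n, hn⟩ : IsNilpotent (c i).1 := TopP.isNilpotent_of_val exists_pt.choose fun a => by
    refine linearIndependent_iff'.1 b.linearIndependent c.support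
      (fun i => exists_pt.choose (H.map (ContinuousMap.const Unit a) (c i).1)) ?_ i hi
    rw [← h a, Finsupp.sum, map_sum]
    exact Finset.sum_congr rfl fun j _ => by rw [ptR_tmul, Algebra.smul_def, mul_comm]
  refine ⟨n, ?_⟩
  rw [Algebra.TensorProduct.tmul_pow, show c i ^ n = 0 from Subtype.ext hn, tmul_zero]

/-- a class that becomes a unit divides a polynomial that becomes a unit -/
theorem exists_inv {χ : R σ →ₐ[ℂ] F} {ε : R σ ⊗[ℂ] Hev A} (h : IsUnit (bc _ χ ε)) :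
    ∃ ε' q, χ q ≠ 0 ∧ ε' * ε = q ⊗ₜ 1 := by
  have hf := (lc_ptR ε).range_finite
  obtain ⟨n, hn⟩ : IsNilpotent (∏ y ∈ hf.toFinset, (y ⊗ₜ[ℂ] (1 : Hev A) - ε)) :=
    nil_of_ptR fun a => by
      rw [map_prod]
      exact Finset.prod_eq_zero (hf.mem_toFinset.2 ⟨a, rfl⟩) (by
        rw [map_sub, ptR_tmul, OneMemClass.coe_one, map_one, map_one, map_one, mul_one, sub_self])
  have h1 := congrArg (Ideal.Quotient.mk (Ideal.span {ε})) hn
  simp only [map_pow, map_prod, map_sub, Ideal.Quotient.mk_singleton_self, sub_zero] at h1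
  rw [← map_prod, ← map_pow, map_zero, Ideal.Quotient.eq_zero_iff_mem,
    Ideal.mem_span_singleton'] at h1
  obtain ⟨ε', e⟩ := h1
  refine ⟨ε', (∏ y ∈ hf.toFinset, y) ^ n, ?_, e.trans ?_⟩
  · rw [map_pow, map_prod]
    refine pow_ne_zero _ (Finset.prod_ne_zero_iff.2 fun y hy => ?_)
    obtain ⟨a, rfl⟩ := hf.mem_toFinset.1 hy
    exact ptE_bc χ a ε ▸ isUnit_iff.1 h a
  · exact ((map_pow (Algebra.TensorProduct.includeLeft : R σ →ₐ[ℂ] R σ ⊗[ℂ] Hev A) _ _).trans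
      (congrArg (· ^ n) (map_prod _ _ _))).symm

theorem comm_of_ev {K : Type} [Field K] [Algebra ℂ K] (χ : R σ →ₐ[ℂ] K) {δ : R σ ⊗[ℂ] H A}
    (h : ∀ M, evA A M δ ∈ Hev _) (x : K ⊗[ℂ] H A) : bc _ χ δ * x = x * bc _ χ δ := by
  induction x with
  | zero => rw [zero_mul, mul_zero]
  | add a b ha hb => rw [add_mul, mul_add, ha, hb]
  | tmul k c =>
    have := congrArg (bc _ χ) (evA_ext (x := δ * 1 ⊗ₜ c) (y := 1 ⊗ₜ c * δ) fun M => by
      rw [map_mul, map_mul, Hev.commute (h M)])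
    rw [map_mul, map_mul, bc_tmul, map_one] at this
    rw [show k ⊗ₜ[ℂ] c = k • (1 : K) ⊗ₜ[ℂ] c by rw [smul_tmul', smul_eq_mul, mul_one],
      mul_smul_comm, smul_mul_assoc, this]

end HNA

open HNA

variable [Nice A] [CompactSpace A] [Nice A'] [CompactSpace A'] [Nice AL] [CompactSpace AL]
  {X X' XL : ℕ → Type} [∀ M, TopologicalSpace (X M)] [∀ M, Nice (X M)]
  [∀ M, TopologicalSpace (X' M)] [∀ M, Nice (X' M)] [∀ M, TopologicalSpace (XL M)]
  [∀ M, Nice (XL M)] {Y' Y : HO} {h' : TH σ Y'} {h : TH σ Y} {m : Mor Y'.toSp Y.toSp} (e : Imm m)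
  (he : h.toTS.IsEq h'.toTS m) (hb : ∀ s v, e.L (h'.b s v) = h.b s (e.L v))
  {ν : ∀ M, VB (h'.toTS.B M)} (hν : ∀ M, IsNb e he hb (ν M))
  {jL : ∀ M, C(XL M, (h'.toTS.B M).X)} {gL : C(AL, Y'.X)} {iL : ∀ M, C(AL × Bs σ M, XL M)}

include hν in
/-- if the normal weights are nonzero, fixed tangent vectors come from the source -/
theorem Pc.fl {Zs : Set Y'.T} (hL : Pc h'.toTS Zs jL gL iL) {ε : R σ ⊗[ℂ] H AL}
    (hε : ∀ M, H.map ((jL M).comp (iL M)) (ν M).eu.1 = evA AL M ε) (z : AL)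
    (hz : pb _ (.const Unit z) ε ≠ 0) : ∃ t, Y'.π t = gL z ∧ e.Fl h' h t := by
  obtain ⟨t, ht, e1⟩ := hL.sub ⟨z, rfl⟩
  obtain ⟨d, hd⟩ := h'.toTS.exists_dat h'.a_ph ht.1
  refine ⟨t, e1, d, hd, fun v hv hs => by_contra fun hn => hz (evA_ext fun M => ?_)⟩
  let c : FD h'.toTS := ⟨d, pt, ⟨1, fun _ => t, continuous_const, continuous_const,
    fun _ _ => (one_smul _ _).symm⟩, fun _ => hd, fun _ _ => Commute.one_right _⟩
  obtain ⟨q, q1, q2, q3⟩ := (hν M).ex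
  have m1 : ∀ p : PM σ M, ((h.b p.nrm v, 0) : (h.bo M).A) ∈
      tan (h.bo M).ι ((he.bo (pm σ M)).f (t, p)) := fun p =>
    (h.mem_tan_bo M).2 ((h.b_inv p.nrm v).symm ▸ hv)
  have s1 : ((ν M).pb (c.mor M)).IsSec fun x => q (t, x.2) (h.b x.2.nrm v, 0) := by
    refine ⟨fun x => q1.mem _ _ (m1 x.2), q1.continuous (continuous_const.prodMk continuous_snd)
      ((h.continuous_b (PM.continuous_nrm.comp continuous_snd) continuous_const).prodMk
        continuous_const) fun x => m1 x.2, fun k x => ?_⟩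
    refine Eq.trans ?_ (q1.eqv ((c.mor M).ρ k) (t, x.2) _ (m1 x.2))
    refine congrArg₂ (fun a b => q a b) ((c.mor M).eqv k x) (Prod.ext ?_
      (funext fun i => (smul_zero (M := ℂ) (A := Fin (M + 1) → ℂ) _).symm))
    change h.b (PM.nrm (k.2 ^ d.m • x.2)) v =
      m.ρ (1 * (d.ρ k.2)⁻¹) • h.b (k.2 ^ d.m) (h.b x.2.nrm v)
    rw [PM.nrm_smul, ← End.mul_apply, ← map_mul, one_mul, map_inv, eq_inv_smul_iff, ← h.bcomm,
      ← d.ph, ← hs _ (ph_mem _), ← End.mul_apply, ← map_mul, ← map_pow, mul_right_comm,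
      absT_mul_ph]
  have s2 := s1.eu_eq_zero fun x h0 => hn (by
    obtain ⟨a, a1, a2⟩ := (map_eq_ker (fun _ => (e.bo he hb M).mem_tan) (q3 _) (q1.mem _) (q2 _)
      ((congrArg₂ (· + ·) ((e.bo he hb M).finrank_map _) ((ν M).rank _)).trans (Eq.trans (by
        have := (hν M).rank
        change _ + (Y'.n + _) + _ = _ + (Y.n + _)
        omega) ((h.bo M).mfd _).finrank_tan.symm)) (m1 x.2)).1 h0
    refine ⟨_, (h'.mem_tan_bo M).1 a1, (hb _ _).trans ?_⟩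
    exact (congrArg (h.b _) (congrArg Prod.fst a2)).trans (h.b_inv _ _))
  have e2 := c.isEmbedding_mor (@IsEmbedding.of_subsingleton Unit _ _ _ _ _) M
  have h1 : ∀ y : Unit × Bs σ M, jL M (iL M (z, y.2)) ∈ range (c.mor M).map := fun y => by
    obtain ⟨p, e3⟩ := ((TS.triv σ pt).B M).surj y.2
    exact ⟨_, (c.mor_π M () p.2).trans ((hL.eq M z t p.2 e1.symm).symm.trans
      (congrArg (fun b => jL M (iL M (z, b))) e3))⟩
  let ξ : C(Unit × Bs σ M, (c.B M).X) := ⟨fun y => e2.toHomeomorph.symm ⟨_, h1 y⟩, by fun_prop⟩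
  have h2 : ((jL M).comp (iL M)).comp (pr (.const Unit z) M) = (c.mor M).map.comp ξ :=
    ContinuousMap.ext fun y =>
      (congrArg Subtype.val (e2.toHomeomorph.apply_symm_apply ⟨_, h1 y⟩)).symm
  rw [← map_evA, ← hε, H.map_map, h2, ← H.map_map, ← Hev.coe_map, ← VB.eu_pb, s2, map_zero]
  exact map_zero _

variable {k : KP Y.toSp} (κ : TKP h.toTS k) {j : ∀ M, C(X M, (h.toTS.B M).X)} {g : C(A, Y.X)}
  {i : ∀ M, C(A × Bs σ M, X M)} {i' : ∀ M, C(A' × Bs σ M, X' M)} {χ : R σ →ₐ[ℂ] F}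
  {I : F ⊗[ℂ] H A →ₗ[F] F} {I' : F ⊗[ℂ] H A' →ₗ[F] F} {β' : ∀ M, BM (X' M)}

include hν in
/-- **immersions whose normal Euler class is a unit** -/
theorem imm_unit (hP : Pc h.toTS k.Zs j g i) (hL : Pc h'.toTS (m.f ⁻¹' k.Zs) jL gL iL)
    {φ : C(AL, A)} (hφ : ∀ z, g (φ z) = m.map (gL z)) {ε : R σ ⊗[ℂ] Hev AL}
    (hε : ∀ M, H.map ((jL M).comp (iL M)) (ν M).eu.1 = evA AL M (inH _ ε))
    (hχ : ∀ w ≠ 0, χ (lin w) ≠ 0)
    (hI : IsLoc χ (fun M => (κ.bo (pm σ M)).vir (j M) (h.fundB M)) i I)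
    {IL : F ⊗[ℂ] H AL →ₗ[F] F}
    (hIL : IsLoc χ (fun M => ((κ.pb he).bo (pm σ M)).vir (jL M) (h'.fundB M)) iL IL)
    {η : F ⊗[ℂ] Hev AL} (hη : η * bc _ χ ε = 1) : ∃ n : A → ℕ, IsLocallyConstant n ∧
      (∀ z t, g z = Y.π t → Cnt m {t' | Y'.π t' ∈ range gL} t (n z)) ∧
      ∀ y, IL (pb F φ y * inF _ η) = I (inF _ (fnE fun z => (n z : ℂ)) * y) := by
  classical
  obtain ⟨ε', q, hq, h1⟩ := exists_inv (IsUnit.of_mul_eq_one_right _ hη)
  have h2 : inH _ ε' * inH _ ε = q ⊗ₜ 1 := (map_mul _ _ _).symm.trans (congrArg _ h1)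
  obtain ⟨n, n1, n2, -, n3⟩ := imm e he hb hP hL hφ (fun z => hL.fl e he hb hν hε z fun h0 => by
    have := congrArg (fun y => intT (R σ) exists_pt.choose.toLinearMap (pb _ (.const Unit z) y)) h2
    simp only [map_mul, h0, mul_zero, map_zero, pb_tmul, map_one, intT_tmul,
      AlgHom.toLinearMap_apply, one_smul] at this
    exact hq (this ▸ map_zero χ)) hν hε hχ κ rfl hI hIL
  refine ⟨n, n1, n2, fun y => mul_left_cancel₀ hq ?_⟩
  have h3 : bc _ χ (inH _ ε') = χ q • inF _ η := by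
    rw [← inF_bc, ← map_smul, ← tmul_one_mul, ← bc_tmul χ q, ← h1, map_mul (bc _ χ),
      mul_assoc, mul_comm _ η, hη, mul_one]
  rw [inF_comm, inF_fnE, ← n3 _ _ h2, h3, mul_smul_comm, map_smul, smul_eq_mul]

include hν in
/-- **an immersion and a Gysin pull-back** -/
theorem imm_gys (hP : Pc h.toTS k.Zs j g i) (hL : Pc h'.toTS (m.f ⁻¹' k.Zs) jL gL iL)
    {φ : C(AL, A)} (hφ : ∀ z, g (φ z) = m.map (gL z)) {ε : R σ ⊗[ℂ] Hev AL}
    (hε : ∀ M, H.map ((jL M).comp (iL M)) (ν M).eu.1 = evA AL M (inH _ ε))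
    (hχ : ∀ w ≠ 0, χ (lin w) ≠ 0)
    (hI : IsLoc χ (fun M => (κ.bo (pm σ M)).vir (j M) (h.fundB M)) i I) (hI' : IsLoc χ β' i' I')
    {Φ : ∀ M, XL M → X' M} (hΦ : ∀ M, IsClosedEmbedding (Φ M)) {θ : ∀ M, Coch (X' M)} {d : ℕ → ℕ}
    (hθ : ∀ M, IsCo (range (Φ M)) (d M) (θ M))
    (hg : ∀ M, gys (Φ M) (θ M) (β' M) = ((κ.pb he).bo (pm σ M)).vir (jL M) (h'.fundB M))
    {φ' : C(AL, A')} (hsq : ∀ M z, Φ M (iL M z) = i' M (pr φ' M z))
    (hr : ∀ M, Φ M ⁻¹' range (i' M) ⊆ range (iL M)) {δ : R σ ⊗[ℂ] H A'}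
    (hδ : ∀ M, H.map (i' M) (hcls (θ M)) = evA A' M δ) {η : F ⊗[ℂ] Hev A'}
    (hη : pbE φ' η * bc _ χ ε = 1) : ∃ n : A → ℕ, IsLocallyConstant n ∧
      (∀ z t, g z = Y.π t → Cnt m {t' | Y'.π t' ∈ range gL} t (n z)) ∧
      ∀ x x', pb F φ x = pb F φ' x' →
        I (inF _ (fnE fun z => (n z : ℂ)) * x) = I' (inF _ η * bc _ χ δ * x') := by
  obtain ⟨IL, hIL⟩ := hL.exists_isLoc hχ (isTw_vir (κ.pb he) hL.emb hL.rng)
  obtain ⟨n, n1, n2, n3⟩ := imm_unit e he hb hν κ hP hL hφ hε hχ hI hIL hη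
  refine ⟨n, n1, n2, fun x x' hx => ?_⟩
  rw [← n3, hx, ← pb_inF, ← map_mul, hIL.gys_eq hI' hΦ hθ hg hsq hr hδ, mul_assoc (inF _ η),
    comm_of_ev χ (fun M => hδ M ▸ map_mem_Hev _ (mem_Hev (hcls_isDeg (hθ M).deg))), ← inF_comm,
    mul_assoc]

set_option maxSynthPendingDepth 3 in
include hν in
/-- **(HN), formal part**: the same over an open and closed part `U` of the second fixed locus -/
theorem imm_gys_part (hP : Pc h.toTS k.Zs j g i) (hL : Pc h'.toTS (m.f ⁻¹' k.Zs) jL gL iL)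
    {φ : C(AL, A)} (hφ : ∀ z, g (φ z) = m.map (gL z)) {ε : R σ ⊗[ℂ] Hev AL}
    (hε : ∀ M, H.map ((jL M).comp (iL M)) (ν M).eu.1 = evA AL M (inH _ ε))
    (hχ : ∀ w ≠ 0, χ (lin w) ≠ 0)
    (hI : IsLoc χ (fun M => (κ.bo (pm σ M)).vir (j M) (h.fundB M)) i I) (hI' : IsLoc χ β' i' I')
    {Φ : ∀ M, XL M → X' M} (hΦ : ∀ M, IsClosedEmbedding (Φ M)) {θ : ∀ M, Coch (X' M)} {d : ℕ → ℕ}
    (hθ : ∀ M, IsCo (range (Φ M)) (d M) (θ M))
    (hg : ∀ M, gys (Φ M) (θ M) (β' M) = ((κ.pb he).bo (pm σ M)).vir (jL M) (h'.fundB M))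
    {φ' : C(AL, A')} (hsq : ∀ M z, Φ M (iL M z) = i' M (pr φ' M z))
    (hr : ∀ M, Φ M ⁻¹' range (i' M) ⊆ range (iL M)) {U : Set A'} (hU : IsClopen U)
    {δ : R σ ⊗[ℂ] H U} {δF : F ⊗[ℂ] H A'}
    (hδ : ∀ M, H.map ((i' M).comp (pr ⟨_, continuous_subtype_val⟩ M)) (hcls (θ M)) = evA U M δ)
    (hF : bc _ χ δ = pb F ⟨_, continuous_subtype_val⟩ δF) {η : F ⊗[ℂ] Hev A'}
    (hη : pbE φ' (idE U) * (bc _ χ ε * pbE φ' η - 1) = 0) : ∃ n : A → ℕ, IsLocallyConstant n ∧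
      (∀ z t, g z = Y.π t → Cnt m {t' | Y'.π t' ∈ gL '' (φ' ⁻¹' U)} t (n z)) ∧
      ∀ x x', pb F φ x = pb F φ' x' →
        I (inF _ (fnE fun z => (n z : ℂ)) * x) = I' (inF _ (idE U * η) * δF * x') := by
  classical
  have hU' := hU.preimage φ'.continuous
  have := Nice.of_isLocallyClosed hU.isClosed.isLocallyClosed
  have := Nice.of_isLocallyClosed hU'.isClosed.isLocallyClosed
  have := isCompact_iff_compactSpace.1 hU.isClosed.isCompact
  have := isCompact_iff_compactSpace.1 hU'.isClosed.isCompact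
  let v : C(U, A') := ⟨_, continuous_subtype_val⟩
  let w : C(φ' ⁻¹' U, AL) := ⟨_, continuous_subtype_val⟩
  let ψ : C(φ' ⁻¹' U, U) := ⟨fun z => ⟨φ' z.1, z.2⟩, by fun_prop⟩
  have s : v.comp ψ = φ'.comp w := rfl
  obtain ⟨IU, u1, u2⟩ := hI'.part (e := v) hU.isOpen.isOpenEmbedding_subtypeVal
  obtain ⟨n, n1, n2, n3⟩ := imm_gys e he hb hν κ hP
    (hL.part (e := w) hU'.isOpen.isOpenEmbedding_subtypeVal) (φ := φ.comp w) (fun z => hφ z.1)
    (ε := pbR w ε) (fun M => by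
      rw [inH_pbR, ← map_evA, ← hε, H.map_map]
      rfl) hχ hI u1 hΦ hθ hg (φ' := ψ) (fun M z => hsq M _) (fun M y ⟨z, hz⟩ => by
      obtain ⟨x, rfl⟩ := hr M ⟨_, hz⟩
      have := (hI'.emb M).injective (hz.trans (hsq M x))
      exact ⟨(⟨x.1, mem_preimage.2 ((show z.1.1 = φ' x.1 from congrArg Prod.fst this) ▸ z.1.2)⟩, x.2), rfl⟩) hδ (η := pbE v η) (by
      have := congrArg (pbE w) hη
      rw [map_mul, pbE_idE _ hU, pbE_idE _ hU', show w ⁻¹' (φ' ⁻¹' U) = univ from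
        Subtype.coe_preimage_self _, idE_univ] at this
      have := (one_mul (M := F ⊗[ℂ] Hev (φ' ⁻¹' U)) _).symm.trans this
      rwa [map_zero, map_sub, map_one, sub_eq_zero, map_mul, pbE_pbE, ← s, ← pbE_pbE, pbE_bc,
        mul_comm] at this)
  refine ⟨n, n1, fun z t a => (n2 z t a).congr fun t' _ => ⟨fun ⟨x, hx⟩ => ⟨_, x.2, hx⟩,
    fun ⟨x, hx, b⟩ => ⟨⟨x, hx⟩, b⟩⟩, fun x x' hx => ?_⟩
  rw [n3 x (pb F v x') (by rw [pb_pb, s, ← pb_pb, ← pb_pb, hx]), hF, ← pb_inF, ← map_mul, ← map_mul,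
    u2, ← inF_fnE, ← inF_comm, map_mul (inF A'), mul_assoc (_ * inF A' η), mul_assoc (inF A' (idE U)), mul_assoc]
  exact congrArg (fun S => I' (inF _ (idE S) * (inF _ η * (δF * x')))) Subtype.range_coe

end Vale.Agent.P269.LG
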