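import Vale.Agent.P269.Qrr.NdB
import Vale.Agent.P269.Qrr.NdL
import Vale.Agent.P269.Glu.PushA
import Vale.Agent.P269.LG.Lab

/-! The space of labelled nodes is immersed in the chart. -/

set_option linter.unusedSectionVars false

namespace Vale.Agent.P269

open P291Z Set Function Topology Filter Base Cv Holo Module Ch.KD

theorem HNC.rank {W W' : Type} [NormedAddCommGroup W] [NormedSpace ℂ W] [NormedAddCommGroup W']
    [NormedSpace ℂ W'] [FiniteDimensional ℂ W] {Z : Set W'} {C : Set W} {z : W'} (hz : z ∈ Z)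
    (f : W' →L[ℂ] W) {m : ℕ} (hC : MfdAt C m (f z)) {s : W → W'} (s1 : AnalyticAt ℂ s (f z))
    (s2 : s (f z) = z) (s3 : ∀ᶠ x in 𝓝 (f z), x ∈ C → s x ∈ Z ∧ f (s x) = x) :
    m ≤ finrank ℂ ((tan (Subtype.val : Z → W') ⟨z, hz⟩).map (f : W' →ₗ[ℂ] W)) := by
  refine hC.2.finrank_tan.ge.trans (Submodule.finrank_mono fun v hv =>
    ⟨fderiv ℂ s (f z) v, fun Φ h1 h2 => ?_, ?_⟩)
  · have h3 : AnalyticAt ℂ Φ (s (f z)) := s2.symm ▸ h1
    have t : Tendsto s (𝓝 (f z)) (𝓝 z) := s1.continuousAt.tendsto.trans (by rw [s2])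
    have h4 := hC.2.fderiv_eq_zero (Φ := fun x => Φ (s x)) (h3.comp s1)
      ((ev_sub hC.1 (p := fun x => Φ (s x) = 0)).2 ((s3.and (t.eventually
        ((ev_sub hz (p := fun y => Φ y = 0)).1 h2))).mono fun x a b => a.2 (a.1 b).1)) hv
    rw [fderiv_comp_an (f := s) h3 s1, s2] at h4
    exact h4
  · have h3 := (f.hasFDerivAt.comp (f z) s1.differentiableAt.hasFDerivAt).sub (hasFDerivAt_id _)
    have h4 := hv _ (((f.analyticAt _).comp s1).sub analyticAt_id)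
      ((ev_sub hC.1 (p := fun x => f (s x) - x = 0)).2 (s3.mono fun x a b => sub_eq_zero.2 (a b).2))
    rw [h3.fderiv] at h4
    exact sub_eq_zero.1 h4

variable {S Λ R J K ι ν κ ε : Type} [Fintype S] [Fintype Λ] [Fintype R] [Fintype J] [Fintype K]
  [Fintype ι] [DecidableEq ι] [Fintype ν] [Fintype κ] [Fintype ε]

namespace Ch

variable {ch : Ch ι J} {n : Nm ι J}

theorem lin_actG (Wg : Wt S Λ R J) (a : ch.AG n ν κ ε S) :
    IsLinearMap ℂ (actG Wg a : ch.WG n ν κ ε Λ → _) :=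
  ⟨fun z z' => Prod.ext ((linF Wg a.1).map_add z.1 z'.1) (Prod.ext
    (congrArg Prod.snd ((linF Wg (θG a)).map_add (μG z) (μG z'))) (Prod.ext
      (funext fun i => ContinuousLinearMap.ext fun _ => map_add (a.1.2.1 i) _ _)
      (funext fun l => ContinuousLinearMap.ext fun _ => map_add (a.2.2.1 l) _ _))),
    fun c z => Prod.ext ((linF Wg a.1).map_smul c z.1) (Prod.ext
      (congrArg Prod.snd ((linF Wg (θG a)).map_smul c (μG z))) (Prod.ext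
        (funext fun i => ContinuousLinearMap.ext fun _ => map_smul (a.1.2.1 i) _ _)
        (funext fun l => ContinuousLinearMap.ext fun _ => map_smul (a.2.2.1 l) _ _)))⟩

variable {F : Fam S Λ R J K} {e : K → ι → ℕ} {K₀ : Set K} {ℓ : R → ι → ℤ}
  {P U : Set (ch.WF ν κ Λ)} {V : Set ((ch.re n).WF ν (κ ⊕ Unit) Λ)} {N₀ N : ℕ}

/-- **the rank of the projection of the labelled space** -/
theorem NC.rank (h : ch.NC n F e K₀ ℓ P V N₀ N) (hU : IsOpen U) (hP : ch.adm ν κ F ∩ U ⊆ P)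
    [IsAct (actF F.toWt) (ch.adm ν κ F ∩ U)]
    (ho : Orb.Orb (ch.AF ν κ S)ˣ (Holo.Sp (actF F.toWt) (ch.adm ν κ F ∩ U)))
    {z : ch.WG n ν κ Unit Λ} (hz : z ∈ ch.OL n F (ch.adm ν κ F ∩ U)) :
    1 ≤ N₀ - finrank ℂ (ch.AF ν κ S) ∧
      finrank ℂ (ch.AF ν κ S) + (N₀ - finrank ℂ (ch.AF ν κ S) - 1) ≤ finrank ℂ ((tan (Subtype.val :
        ch.OL n F (ch.adm ν κ F ∩ U) → _) ⟨z, hz⟩).map (LinearMap.fst ℂ _ _)) := by
  have hn := h.gh.num
  have hv := (ver_adm h.abs).opn ⟨U, hU, rfl⟩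
  have hm := h.mf hU hP
  have h1 := hz.1.1.1.ηN_mem hz.2
  have h2 := hn.num.one_le hv ho (pcy_self hm).lc hm h1
  refine ⟨h2, ?_⟩
  have hf := hn.cuts.locFamF hv.base
  obtain ⟨τ, k1, k2⟩ := hn.num.exists_tauF hv.1 hz.2 (hv.2 _ hz.2) (c := fun _ : Unit => (ηN z).2)
    (fun _ => h1.2) fun _ _ _ => rfl
  obtain ⟨σ, a1, a2, a3, a4⟩ := k1 ()
  obtain ⟨m, e1, m1⟩ := (hm _ hz.2).sub' (Z := {y | y ∈ ch.adm ν κ F ∩ U ∧ τ () y = 0})
    (.of_an a2) a3 (fun t _ => Submodule.subset_span (let ⟨γ, b, _, c⟩ := k2 fun _ => t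
      ⟨γ, b, c ()⟩)) (.of_forall fun _ => Iff.rfl)
  rw [finrank_self] at e1
  have iO := ivt_OL (n := n) h.gh.std.inv (IsAct.mem (act := actF F.toWt) (S := ch.adm ν κ F ∩ U))
  have : IsAct (actH : (ch.re n).A Unit → _) (ch.OL n F (ch.adm ν κ F ∩ U)) :=
    IsAct.mono isActH_univ (subset_univ _) (GBa.ivt iO)
  have m2 := h.mf_OL hU hP ho z hz
  rw [finrank_AG, add_comm (finrank ℂ (ch.AF ν κ S)), add_assoc] at m2
  rw [show finrank ℂ (ch.AF ν κ S) + (N₀ - finrank ℂ (ch.AF ν κ S) - 1) = m by omega] at m2 ⊢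
  have t : Tendsto ηN (𝓝 z) (𝓝 (z.1, σ (z.1, 0))) := a1 ▸ (an_ηN z).continuousAt.tendsto
  obtain ⟨s, s1, s2, s3⟩ := GB.exists_sec (act := (actH : (ch.re n).A Unit → _)) (f := Prod.fst)
    m2 m1 analyticAt_fst ((t.eventually (ev_tot (T := ch.adm ν κ F ∩ U) hz.2
      (NdAt.eventually a4 a2 a3 (hf _)))).mono
      fun y a b => ⟨b.2, ((a b.2 (b.1.1.1.ηN_mem b.2).1.2).resolve_left fun c =>
        c.not_isNode (hf _) (b.1.1.1.ηN_mem b.2).2).1⟩)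
    (hz.1.1.1.freH hn.gOk) (Zf.fib hn (lev_adm h.gh.std.inv) inter_subset_left hz)
  exact HNC.rank hz (ContinuousLinearMap.fst ℂ _ _) m1 s1 s2 s3

end Ch

namespace Fam

variable [DecidableEq R] {F : Fam S Λ R J K} {k D : ℕ} {g g' : ℤ} {d : R → ℤ}

theorem posO_eq : F.posO ν κ k D g d = F.posG ν κ k D g d :=
  congrArg interior (Set.ext fun _ => imp_congr_right fun _ =>
    ⟨fun a => a ∅, fun a _ m r => a m (r.mono (empty_subset _))⟩)

/-- the normalisation of a positive curve is positive -/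
theorem μG_pos (hk : F.Big k) (hD : F.BigD k D)
    {z : (F.sch ν κ k D g d).WG (F.nms ν (κ ⊕ ε) k D g' d) ν κ ε Λ} (hz : Ch.Gl z.1.2 z.2)
    (hb : Ch.μG z ∈ Ch.baseF _ ν _ F.B) (hp : z.1 ∈ F.posG ν κ k D g d) :
    Ch.μG z ∈ F.posO ν (κ ⊕ ε) k D g' d := by
  obtain ⟨m, r⟩ := (chart_lat hD).exists_rep (A := ∅) hb fun _ h => h.elim
  obtain ⟨B, π, u, s, c⟩ := r.exists_data hz.mem'
  exact posO_eq.ge (mem_posG hk hD hz.mem' r (AM.pos_glue.1 (pos_of_posG hp hz.mem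
    (hz.repD c fun _ h => h.elim).rep)))

theorem OL_eq (hk : F.Big k) (hD : F.BigD k D) {O : Set ((F.sch ν (Fin 0) k D g d).WF ν (Fin 0) Λ)}
    (hO : O ⊆ F.posG ν (Fin 0) k D g d) : F.OL ν k D g g' d ∩ Prod.fst ⁻¹' O =
      Ch.OL _ (F.nms ν (Fin 0 ⊕ Unit) k D g' d) F O :=
  Set.ext fun _ => ⟨fun a => ⟨Ch.GPts.Zf_mono inter_subset_left a.1, a.2⟩, fun a =>
    ⟨⟨⟨a.1.1.1, ⟨a.1.1.2.1, μG_pos hk hD a.1.1.1 a.1.1.2.1.1 (hO a.2)⟩, a.1.1.2.2⟩, a.1.2⟩, a.2⟩⟩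

theorem lev_TL (hF : F.Inv) : Ch.Lev F (F.TL ν k D g' d) := by
  rw [TL, posO_eq]
  exact (Ch.lev_adm hF).interS ivt_posG (stb_posG _)

end Fam

end Vale.Agent.P269
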