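import Vale.Agent.P269.LG.HNK

/-! Normalisation of a node in localisation: reduction to statements about points. -/

set_option linter.unusedSectionVars false
set_option linter.style.haveILetI false

namespace Vale.Agent.P269.LG

open Set Function Topology Filter TensorProduct B Vale.Agent.P291Z Vale.Agent.P269.Ch
  Vale.Agent.P269.Loc

variable {V : Type} [AddCommGroup V] [Module ℂ V] {p : Fock.Par ℂ V} {ι : Type} [Fintype ι]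
  {fr : Fock.Frame p ι} {C : Type} [CommRing C] [Algebra ℂ C] {R J K σ ν : Type} [Fintype R]
  [Fintype J] [Fintype K] [Fintype σ] [Fintype ν] [DecidableEq R] [DecidableEq σ]
  {P : PB R J K σ} {K₀ : Set K} {k D : ℕ} {g : ℤ} {d : Option R → ℤ} {a : σ → ℂ}
  {τ : Md P P.X ν (g + 1) d} {τ' : Md P P.X (ν ⊕ Unit × Bool) g d} (G : Geo k D a τ)
  (G' : Geo k D a τ') (hP : P.Ok K₀ k D) {O : Set ((P.ch ν k D (g + 1) d).WF ν (Fin 0) Empty)}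
  {N : ℕ} (h : P.Al ν k D g d K₀ O N)

include hP in
theorem PB.Ok.gnc (hG : St.GNc) {S Λ : Type} [Fintype S] [Fintype Λ] {wt : σ → S → ℤ}
    {wl : Λ → S → ℤ} {B : Set (Λ → ℂ)} {b : ℕ} (h1 : (P.fam wt wl B ∅).Good)
    (h2 : (P.fam wt wl B ∅).Sm b) (h3 : (P.fam wt wl B ∅).Cp) : ∃ Ψ Φ, (P.fam wt wl B ∅).GNc
      (ν := ν) (k := k) (D := D) (g := g + 1) (g' := g) (d := d) Ψ Φ :=
  hG _ k D (g + 1) g d ((PB.abs hP.abs).nice h1 (PB.reg hP.B hP.abs hP.reg) h2)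
    (PB.abs hP.abs) h3 hP.big_fam hP.bigD_fam rfl

include hP in
theorem PB.Ok.gnc_EM (hG : St.GNc) (M : ℕ) : ∃ (Ψ : C(P.LM ν k D g d M, P.XM ν k D (g + 1) d M))
    (Φ : C(P.LM ν k D g d M, P.XM (ν ⊕ Unit × Bool) k D g d M)), (P.EM ∅ M).GNc Ψ Φ :=
  hP.gnc hG (hP.good_EM0 M) (PB.sm_EM M) (PB.cp_EM ∅ M)

section tc

variable {A B W A' B' W' T : Type} [NormedRing A] [NormedAlgebra ℂ A]
  [NormedRing B] [NormedAlgebra ℂ B] [NormedAddCommGroup W] [NormedSpace ℂ W] [NormedRing A']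
  [NormedAlgebra ℂ A'] [NormedRing B'] [NormedAlgebra ℂ B'] [NormedAddCommGroup W']
  [NormedSpace ℂ W'] [AddCommGroup T] [Module ℂ T] [TopologicalSpace T] [FiniteDimensional ℂ A]
  [FiniteDimensional ℂ B] [FiniteDimensional ℂ W] [FiniteDimensional ℂ A'] [FiniteDimensional ℂ B']
  [FiniteDimensional ℂ W'] {act₀ : A → W → W} {act : B → W → W} {act₀' : A' → W' → W'}
  {act' : B' → W' → W'} {Dk : KD B W T} {Z : Set W} {Z' : Set W'} {θ₀ : A' →ₐ[ℂ] A}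
  {θ : B' →ₐ[ℂ] B} {f : W' →L[ℂ] W} [IsTopologicalAddGroup T] [ContinuousSMul ℂ T] [T2Space T]
  {U U' : ℕ → Type} [∀ M, NormedAddCommGroup (U M)] [∀ M, NormedSpace ℂ (U M)]
  [∀ M, FiniteDimensional ℂ (U M)] [∀ M, NormedAddCommGroup (U' M)] [∀ M, NormedSpace ℂ (U' M)]
  [∀ M, FiniteDimensional ℂ (U' M)] {aM : ∀ M, B → U M → U M} {ZM : ∀ M, Set (U M)}
  {aM' : ∀ M, B' → U' M → U' M} {ZM' : ∀ M, Set (U' M)}

include hP in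
theorem Geo.nod_tc (ha : LinearIndependent ℚ a) {ac : Act fr C} (E : Dic ac P.X)
    (hint : ∀ x, E.int x = P.F.intX _ x) {c : σ → C}
    (hc : ∀ l, (E.jC (c l)).1 = P.F.lc _ 0 (P.wL l)) {χ : σ → F ⊗[ℂ] C}
    (hχ : ∀ l, χ l = (a l • tt) ⊗ₜ 1 + 1 ⊗ₜ c l) {s' : TC σ act₀' act' (Dk.pb θ f) Z'}
    {s : TC σ act₀ act Dk Z} (h : TC.Mp θ₀ s' s) (e : Imm h.mor)
    (hb : ∀ u v, e.L (s'.h.b u v) = s.h.b u (e.L v)) {N : ∀ M, VB (s'.h.toTS.B M)}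
    (hν : Nonempty s'.Y.T → ∀ M, IsNb e h.isEq hb (N M)) (L : ∀ M, s.Lv M (aM M) (ZM M))
    (L' : ∀ M, s'.Lv M (aM' M) (ZM' M)) (u : τ.A ≃ₜ s.F) {i : ∀ M, C(τ.A × Bs σ M, Quo (aM M) (ZM M))}
    (hp : Pc s.h.toTS s.k.Zs (fun M => (L M).j) (s.g.comp (u : C(_, _))) i)
    (hI : haveI := fun M => (L M).nice; IsLoc (chiA a) (fun M => (L M).β) i τ.I)
    {Φ : ∀ M, C(Quo (aM' M) (ZM' M), P.XM (ν ⊕ Unit × Bool) k D g d M)} {φ' : C(s'.F, τ'.A)}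
    (hsq : ∀ M z, Φ M ((L' M).i z) = G'.i M (pr φ' M z))
    (hε : ∀ M, H.map (L' M).j (N M).eu.1 = -H.map (Φ M) (hcls (psiF (.inl (qq false)))) -
      H.map (Φ M) (hcls (psiF (.inl (qq true))))) (hΦ : ∀ M, IsClosedEmbedding (Φ M))
    (hg : haveI := G'.nice; ∀ M, ∃ t n, Nd.IsD3 (P.EM ∅ M) t ∧
      IsDeg (2 * n) (evT (.inl (qq false)) (.inl (qq true)) (P.EM ∅ M).cone3 t :
        Coch (P.XM (ν ⊕ Unit × Bool) k D g d M)) ∧ push (Φ M) (L' M).β =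
        cap (hcls (evT (.inl (qq false)) (.inl (qq true)) (P.EM ∅ M).cone3 t)) (P.vM _ k D g d M))
    (hr : ∀ M, Φ M ⁻¹' range (G'.i M) ⊆ range (L' M).i)
    {Q : AM0 R J σ (ν ⊕ Unit × Bool) → Prop} {l : σ} {η : F ⊗[ℂ] Hev τ'.A} (hU : IsClopen (τ'.sel Q))
    (hQ : ∀ m, Q m → Cm m (qq false) l ∧ Cm m (qq true) l)
    (hη : pbE φ' (τ'.id Q * ((-τ'.ψ (qq false) - τ'.ψ (qq true)) * η - 1)) = 0)
    {r : AM0 R J σ ν → ℕ} (hf : ∀ z t n, s.g (u z) = s.Y.π t →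
      Loc.Cnt h.mor {t' | s'.Y.π t' ∈ s'.g '' (φ' ⁻¹' τ'.sel Q)} t n → (n : ℂ) = τ.cf r z) :
    IsLocallyConstant (τ.cf r) ∧ ∀ x x', pb F (.comp (u.symm : C(_, _)) h.φ) x = pb F φ' x' →
      τ.I (inF _ (fnE (τ.cf r)) * x) =
        τ'.I (inF _ (τ'.id Q * η) * τ'.dg E χ l (qq false) (qq true) * x') :=
  haveI := fun M => (L M).nice
  haveI := fun M => (L' M).nice
  G'.nod_eq hsq hP ha E hint hc hχ e h.isEq hb hν s.κ hp (h.pc L')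
    (fun z => (congrArg s.g (u.apply_symm_apply _)).trans (h.g_φ z)) hI hε hΦ
    (fun M => (h.vir_eq (L' M)).symm ▸ hg M) hr hU hQ hη hf

end tc

theorem Geo.nod_eq' {Ψ : ∀ M, C(P.LM ν k D g d M, P.XM ν k D (g + 1) d M)}
    {Φ : ∀ M, C(P.LM ν k D g d M, P.XM (ν ⊕ Unit × Bool) k D g d M)}
    (hN : ∀ M, (P.EM ∅ M).GNc (Ψ M) (Φ M)) {φ' : C(h.tl.F, τ'.A)}
    (hsq : ∀ M z, Φ M ((hP.ll h M).i z) = G'.i M (pr φ' M z))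
    (hr : ∀ M, Φ M ⁻¹' range (G'.i M) ⊆ range (hP.ll h M).i) (ha : LinearIndependent ℚ a)
    {ac : Act fr C} (E : Dic ac P.X) (hint : ∀ x, E.int x = P.F.intX _ x) {c : σ → C}
    (hc : ∀ l, (E.jC (c l)).1 = P.F.lc _ 0 (P.wL l)) {χ : σ → F ⊗[ℂ] C}
    (hχ : ∀ l, χ l = (a l • tt) ⊗ₜ 1 + 1 ⊗ₜ c l)
    {Q : AM0 R J σ (ν ⊕ Unit × Bool) → Prop} {l : σ} {η : F ⊗[ℂ] Hev τ'.A} (hU : IsClopen (τ'.sel Q))
    (hQ : ∀ m, Q m → Cm m (qq false) l ∧ Cm m (qq true) l)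
    (hη : pbE φ' (τ'.id Q * ((-τ'.ψ (qq false) - τ'.ψ (qq true)) * η - 1)) = 0)
    {f : AM0 R J σ ν → ℕ} (hf : ∀ z t n, G.gY hP h.toAm z = h.tc.Y.π t → Loc.Cnt h.mp.mor
      {t' | h.tl.Y.π t' ∈ h.tl.g '' (φ' ⁻¹' τ'.sel Q)} t n → (n : ℂ) = τ.cf f z) :
    IsLocallyConstant (τ.cf f) ∧ ∀ x x', pb F (G.φL hP h) x = pb F φ' x' →
      τ.I (inF _ (fnE (τ.cf f)) * x) =
        τ'.I (inF _ (τ'.id Q * η) * τ'.dg E χ l (qq false) (qq true) * x') :=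
  haveI := G'.nice
  G'.nod_tc hP ha E hint hc hχ h.mp h.imm h.mp.hb h.isNb h.toAm.lv (hP.ll h) (G.φ hP h.toAm)
    (G.pc hP h.toAm) (G.loc' hP h.toAm) hsq (fun M => hP.eu_eq h (hN M)) (fun M => PB.isPr (hN M))
    (fun M => let ⟨t, ht⟩ := (hN M).dg; let ⟨m, c⟩ := (hN M).co t ht
      ⟨t, m, ht, c.deg, hP.push_eq h (hN M) ht⟩) hr hU hQ hη hf

/-- the statements about points -/
structure Geo.Pw (Ψ : ∀ M, C(P.LM ν k D g d M, P.XM ν k D (g + 1) d M))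
    (Φ : ∀ M, C(P.LM ν k D g d M, P.XM (ν ⊕ Unit × Bool) k D g d M)) (φ' : C(h.tl.F, τ'.A)) :
    Prop where
  inj : Injective φ'
  pt : ∀ z, ∃ m n, ∃ b : m.Nds n, τ.Rp (G.φL hP h z) m ∧ τ'.Rp (φ' z) (ctp m b)
  all : ∀ z m n (b : m.Nds n), τ.Rp z m → ∃ z', G.φL hP h z' = z ∧ τ'.Rp (φ' z') (ctp m b)
  ev : ∀ n, (τ.ev n).comp (G.φL hP h) = (τ'.ev (.inl n)).comp φ'
  node : (τ'.ev (qq false)).comp φ' = (τ'.ev (qq true)).comp φ'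
  cnt : ∀ Q, Inv P Q → ∀ z t n, G.gY hP h.toAm z = h.tc.Y.π t →
    Loc.Cnt h.mp.mor {t' | h.tl.Y.π t' ∈ h.tl.g '' (φ' ⁻¹' τ'.sel Q)} t n →
      (n : ℂ) = τ.cf (cntN · Q) z
  sq : ∀ M z, Φ M ((hP.ll h M).i z) = G'.i M (pr φ' M z)
  rng : ∀ M, Φ M ⁻¹' range (G'.i M) ⊆ range (hP.ll h M).i
  sq' : ∀ M z, Ψ M ((hP.ll h M).i z) = G.i M (pr (G.φL hP h) M z)

theorem Geo.Pw.nod {Ψ Φ φ'} (w : G.Pw G' hP h Ψ Φ φ') (hN : ∀ M, (P.EM ∅ M).GNc (Ψ M) (Φ M))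
    (ha : LinearIndependent ℚ a) {ac : Act fr C} (E : Dic ac P.X)
    (hint : ∀ x, E.int x = P.F.intX _ x) {c : σ → C}
    (hc : ∀ l, (E.jC (c l)).1 = P.F.lc _ 0 (P.wL l)) {χ : σ → F ⊗[ℂ] C}
    (hχ : ∀ l, χ l = (a l • tt) ⊗ₜ 1 + 1 ⊗ₜ c l) : Nod E χ τ τ' (G.φL hP h) φ' :=
  ⟨w.inj, w.pt, w.all, fun n => G.nod_ψ G' w.sq w.sq' n fun M => PB.psi_eq (hN M) n, w.ev, w.node,
    fun Q _ _ b1 b2 b3 b4 =>
      G.nod_eq' G' hP h hN w.sq w.rng ha E hint hc hχ b2 b3 b4 (w.cnt Q b1)⟩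

end Vale.Agent.P269.LG
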