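import Vale.Agent.P269.LG.HNL
import Vale.Agent.P269.LG.HNP
import Vale.Agent.P269.LG.OpsB

/-! Normalisation of a node in localisation: the approximations of the Borel construction. -/

set_option linter.unusedSectionVars false
set_option linter.style.haveILetI false

namespace Vale.Agent.P269.LG

open Set Function Topology Filter TensorProduct B Vale.Agent.P291Z Vale.Agent.P269.Ch
  Vale.Agent.P269.Loc

variable {R J K σ ν : Type} [Fintype R] [Fintype J] [Fintype K] [Fintype σ] [Fintype ν]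
  [DecidableEq R] [DecidableEq σ] {P : PB R J K σ} {K₀ : Set K} {k D : ℕ} {g : ℤ}
  {d : Option R → ℤ} {a : σ → ℂ} {τ : Md P P.X ν (g + 1) d} {τ' : Md P P.X (ν ⊕ Unit × Bool) g d}
  (G : Geo k D a τ) (G' : Geo k D a τ') (hP : P.Ok K₀ k D)
  {O : Set ((P.ch ν k D (g + 1) d).WF ν (Fin 0) Empty)} {N : ℕ} (h : P.Al ν k D g d K₀ O N) {Ψ₀ Φ₀}
  (N₀ : (P.E ∅).GNc (ν := ν) (k := k) (D := D) (g := g + 1) (g' := g) (d := d) Ψ₀ Φ₀) {M : ℕ}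
  {Ψ : C(P.LM ν k D g d M, P.XM ν k D (g + 1) d M)}
  {Φ : C(P.LM ν k D g d M, P.XM (ν ⊕ Unit × Bool) k D g d M)} (hN : (P.EM ∅ M).GNc Ψ Φ)

include N₀ hP in
/-- a label over a fixed map is fixed -/
theorem PB.Al.mem_FZ {z} (hz : z ∈ (P.E ∅).SL ν k D (g + 1) g d) (hf : z.1 ∈ h.tc.FZ) :
    z ∈ h.tl.FZ :=
  h.mp.mem_FZ hz hf ((N₀.finite_fib hP.goodE.toInv (PB.abs hP.abs) hP.big hP.bigD rfl _).subset
    fun y hy => by
      obtain ⟨y, rfl⟩ := Quot.exists_rep y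
      obtain ⟨_, e⟩ := N₀.fst y
      exact e.trans hy)

include hN in
theorem PB.Ok.at_cl {z} (hz : z ∈ (P.E ∅).SL ν k D (g + 1) g d) (p : PM σ M) {m}
    (r : Rep ℓs univ (lf (P.E ∅) z) m) : (P.EM ∅ M).At (Φ ((hP.ll h M).cl z hz p))
      (par (uncurry p.val) (m.re (unp ν (Fin 0) Unit).toEmbedding)) :=
  hN.rep ⟨_, (hP.ll h M).mem_pm hz p⟩ (par (uncurry p.val) m) ⟨add_zero _, r.2⟩

include hN in
theorem Geo.sq' (z) : Ψ ((hP.ll h M).i z) = G.i M (pr (G.φL hP h) M z) := by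
  obtain ⟨z, b⟩ := z
  obtain ⟨p, rfl⟩ := HR.bp_surj b
  obtain ⟨x, hx, rfl⟩ := h.tl.cl_surj z
  obtain ⟨_, e⟩ := hN.fst ⟨_, (hP.ll h M).mem_pm hx.1 p⟩
  exact (congrArg Ψ ((hP.ll h M).i_cl x hx p)).trans (e.trans (Eq.trans
    (((h.toAm.lv M).i_cl _ (h.mp.mapsFZ hx) p).symm.trans (congrArg (fun y => (h.toAm.lv M).i (y, _))
      ((G.φ hP h.toAm).apply_symm_apply _).symm)) (G.i_φ hP h.toAm M _ _)))

include hN N₀ in
theorem Geo.sq {φ' : C(h.tl.F, τ'.A)} (hφ : ∀ z, G'.g0 (φ' z) = Φ₀ (h.tl.g₀ z)) (z) :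
    Φ ((hP.ll h M).i z) = G'.i M (pr φ' M z) := by
  obtain ⟨z, b⟩ := z
  obtain ⟨p, rfl⟩ := HR.bp_surj b
  obtain ⟨x, hx, rfl⟩ := h.tl.cl_surj z
  obtain ⟨m, r⟩ := (Fam.chart_lat (F := P.E ∅) hP.bigD).exists_rep_sol hx.1.2
  obtain ⟨v, b, c⟩ := Fam.exists_nds hP.goodE.toInv hP.big hP.bigD rfl hx.1 r
  exact (congrArg Φ ((hP.ll h M).i_cl x hx p)).trans (((hP.at_cl h hN hx.1 p c).eq_iff hP.bigD_fam
    (G'.pt M _ p _ ((G'.rp _ _).2 ((hφ _).symm ▸ N₀.rep ⟨x, hx.1⟩ _ c)))).2 (.refl _))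

include hN N₀ in
theorem Geo.rng : Φ ⁻¹' range (G'.i M) ⊆ range (hP.ll h M).i := fun y hy => by
  obtain ⟨x, hx, p, rfl⟩ := (hP.ll h M).cl_surj y
  obtain ⟨m, r⟩ := (Fam.chart_lat (F := P.E ∅) hP.bigD).exists_rep_sol hx.2
  obtain ⟨v, b, c⟩ := Fam.exists_nds hP.goodE.toInv hP.big hP.bigD rfl hx r
  have s : m.Sol (P.E ∅) := (r.mem_solF hx.2.1.2.1 hP.goodE.toInv Fam.chart_wd').1 hx.2
  have f := Fx.of_ctp b s (G'.fx_of_range hP (hP.at_cl h hN hx p c) hy)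
  exact ((hP.ll h M).mem_range_i hx p).2 (h.mem_FZ hP N₀ hx
    ((hP.mem_FZ h.toAm (h.mp.mapsZ hx) r).2 (f.str.fixd f.sol)))

end Vale.Agent.P269.LG
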