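import Vale.Agent.P269.LG.HNT

/-! The labelled torus chart in the standard charts. -/

set_option linter.unusedSectionVars false
set_option linter.style.haveILetI false

namespace Vale.Agent.P269.LG

open Set Function Topology Filter Module Vale.Agent.P291Z Vale.Agent.P269.Ch Vale.Agent.P269.Holo

variable {R J K σ ν κ : Type} [Fintype R] [Fintype J] [Fintype K] [Fintype σ] [Fintype ν]
  [Fintype κ] [DecidableEq R] [DecidableEq σ] {P : PB R J K σ} {K₀ : Set K} {k D M : ℕ} {g : ℤ}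
  {d : Option R → ℤ}

namespace PB

theorem cp_EM (Z : Set σ) (M : ℕ) : (P.EM Z M).Cp := by
  let C : Set (σ → Fin (M + 1) → ℂ) := univ.pi fun _ => Metric.sphere 0 1
  have := isCompact_iff_compactSpace.1 (isCompact_univ_pi fun _ => isCompact_sphere _ _ : IsCompact C)
  have h : ∀ x : C, uncurry x.1 ∈ PMs σ M := fun x i => ne_iff.1 (norm_ne_zero_iff.1
    ((mem_sphere_zero_iff_norm.1 (x.2 i trivial)).trans_ne one_ne_zero))
  refine Surjective.compactSpace (f := fun x : C => Quo.mk (P.EM Z M).actL ⟨_, h x⟩)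
    (Tq.continuous_mk.comp ((continuous_pi fun a => (continuous_apply a.2).comp
      ((continuous_apply a.1).comp continuous_subtype_val)).subtype_mk _)) fun z => ?_
  obtain ⟨⟨l, hl⟩, rfl⟩ := Tq.mk_surj z
  have e : ∀ i, (‖curry l i‖ : ℂ) ≠ 0 := fun i =>
    Complex.ofReal_ne_zero.2 (norm_ne_zero_iff.2 (ne_iff.2 (hl i)))
  refine ⟨⟨fun i => (‖curry l i‖ : ℂ)⁻¹ • curry l i, fun i _ => mem_sphere_zero_iff_norm.2 ?_⟩,
    Quot.sound ⟨fun i => ‖curry l i‖, isUnit_pi_iff.2 e, funext fun a =>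
      ((PB.actL_EM _ _ a).trans (mul_inv_cancel_left₀ (e a.1) _)).symm⟩⟩
  rw [norm_smul, norm_inv, Complex.norm_real, norm_norm]
  exact inv_mul_cancel₀ (Complex.ofReal_ne_zero.1 (e i))

theorem mem_posO (x : ((P.E ∅).sch ν κ k D g d).WF ν κ Empty) (p : σ → Fin (M + 1) → ℂ) :
    μA σ ν κ _ M (x, p) ∈ (P.EM ∅ M).posO ν κ k D g d ↔ x ∈ (P.E ∅).posO ν κ k D g d := by
  let μ := μA σ ν κ ((P.E ∅).sch ν κ k D g d) M
  have e := (isOpenMap_fst.comp μ.symm.toHomeomorph.isOpenMap).preimage_interior_eq_interior_preimage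
    μ.symm.continuous.fst {x | x.2 ∈ Ch.base _ _ → ∀ A m, Rep ℓs A x m → m.Pos P.θ k}
  refine Iff.trans ?_ ((Set.ext_iff.1 e (μ (x, p))).symm.trans
    (congrArg (fun y => y.1 ∈ (P.E ∅).posO ν κ k D g d) (μ.symm_apply_apply (x, p))).to_iff)
  refine Set.ext_iff.1 (congrArg interior (Set.ext fun y => imp_congr_right fun _ => ?_)) _
  exact ⟨fun a A m r => a A (par y.1 m) ⟨rfl, r.2⟩, fun a A m r => a A (par 0 m) ⟨rfl, r.2⟩⟩

variable (hP : P.Ok K₀ k D)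
include hP

theorem Ok.mem_TL (x : ((P.E ∅).sch ν (Fin 0 ⊕ Unit) k D g d).WF ν (Fin 0 ⊕ Unit) Empty)
    (p : σ → Fin (M + 1) → ℂ) : μA σ ν (Fin 0 ⊕ Unit) _ M (x, p) ∈ (P.EM ∅ M).TL ν k D g d ↔
      x ∈ (P.E ∅).TL ν k D g d ∧ ∀ i, p i ≠ 0 := by
  have h : P.Sd ((P.E ∅).sch ν (Fin 0 ⊕ Unit) k D g d) _ K₀ ℓs := ⟨hP.good.toInv, hP.reg, hP.abs,
    hP.B, Fam.chart_std hP.goodE (PB.reg hP.B hP.abs hP.reg) hP.bigD⟩
  have e := h.mem_cyc_EM (Z := ∅) (x := x) (p := p)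
  rw [h.cyc_eq, (PB.abs hP.abs).cyc_eq h.std_EM.inv] at e
  exact (and_congr e (mem_posO x p)).trans and_right_comm

variable (P ν k D g d) in
omit hP in
/-- domains in the standard chart over which the labelled space is smooth -/
abbrev Al (K₀ : Set K) (O : Set ((P.ch ν k D (g + 1) d).WF ν (Fin 0) Empty)) (N : ℕ) : Prop :=
  P.An ((P.E ∅).nms ν (Fin 0 ⊕ Unit) k D g d) (P.td ν k D (g + 1) d) K₀ ℓs ((P.E ∅).TL ν k D g d) O N

/-- **existence of domains** -/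
theorem Ok.exists_al (hc : CompactSpace ((P.E ∅).ML ν k D (g + 1) g d)) :
    ∃ O N, P.Al ν k D g d K₀ O N := by
  obtain ⟨O, h⟩ := hP.exists_as' ν (g + 1) d hP.goodE
  obtain ⟨Q, V, N₀, N, nc⟩ := hP.goodE.exists_nc (ν := ν) (κ := Fin 0) (PB.abs hP.abs)
    (PB.reg hP.B hP.abs hP.reg) PB.sm_E hP.big hP.bigD g d
  obtain ⟨U, a, b, c⟩ := h.exists_le (U := Q ∩ (P.E ∅).posG ν (Fin 0) k D (g + 1) d)
    (nc.pr.opn.inter Fam.isOpen_posG)
    (fun s hs x hx => ⟨nc.pr.inv s hs x hx.1, Fam.ivt_posG s hs x hx.2⟩)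
    fun x hx => ⟨nc.pr.sol hx.1, Fam.sol_posG hP.goodE.toInv hP.big hP.bigD hx.1⟩
  obtain ⟨U', b', e⟩ := c.dom.opn
  rw [c.cyc_eq] at e
  generalize hO : O ∩ U = O' at c e
  have s : O' ⊆ Q ∩ (P.E ∅).posG ν (Fin 0) k D (g + 1) d := fun x hx => a (hO.ge hx).2
  subst e
  have := c.dom.isAct
  have e := Fam.OL_eq (g' := g) hP.big hP.bigD fun x hx => (s hx).2
  have f := fun x hx => Nat.add_left_cancel ((c.mf x hx).unique (nc.mf b' (fun x hx => (s hx).1) x hx))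
  refine ⟨_, _, c, nc.gh.num, Fam.lev_TL (F := P.ET ∅) c.std_ET.inv, fun z hz => ?_, ?_, hc⟩
  · rw [f _ hz.2]
    exact e.symm ▸ nc.mf_OL b' (fun x hx => (s hx).1) c.dom.orb z (e.le hz)
  · refine e.symm ▸ fun z hz => ?_
    rw [f _ hz.2]
    exact nc.rank b' (fun x hx => (s hx).1) c.dom.orb hz

end PB

end Vale.Agent.P269.LG
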