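import Vale.Agent.P269.LG.NrmA
import Vale.Agent.P269.Spl.GBn
import Vale.Agent.P269.Spl.GBu
import Vale.Agent.P269.Base.NdU

/-! The differential of the smoothing parameter of a labelled node. -/

set_option linter.unusedSectionVars false

namespace Vale.Agent.P269.Ch

open Set Function Topology Filter Vale.Agent.P291Z KD Base Holo Cv

variable {S Λ R J K ι ν κ : Type} [Fintype S] [Fintype Λ] [Fintype R] [Fintype J] [Fintype K]
  [Fintype ι] [DecidableEq ι] [Fintype ν] [Fintype κ] {ch : Ch ι J} {n : Nm ι J}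

namespace NrQ

section gen

variable {M : ι → ℕ} {o : ι}

theorem fac_deriv {γ δ : ℂ → V M} (h : Nrm.Fac γ δ) (a : AnalyticAt ℂ γ 0) (e : δ 0 = γ 0)
    (hne : ∀ i, γ 0 i ≠ 0) : ∃ (r : ℂ) (t : ι → ℂ), deriv δ 0 = r • deriv γ 0 + t • γ 0 := by
  obtain ⟨s, φ, a1, a2, -, a4, -, a6⟩ := h
  have b0 := a6.self_of_nhds
  rw [a4, e] at b0
  have b : s 0 = 1 := Dict.smul_cancel hne (b0.symm.trans (one_smul _ _).symm)
  have d := (hasDerivAt_smul' a1.differentiableAt.hasDerivAt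
    (a.differentiableAt.hasDerivAt.scomp_of_eq 0 a2.differentiableAt.hasDerivAt a4.symm)).deriv
  rw [b, one_smul, comp_apply, a4] at d
  exact ⟨_, _, (EventuallyEq.deriv_eq a6).trans d⟩

theorem ndCmp {σ σ' : ℂ × ℂ → V M} (a : AnalyticAt ℂ σ 0) (a' : AnalyticAt ℂ σ' 0) {α β : ℂ}
    {t t' : ι → ℂ} (h : deriv (fun z => σ' (z, 0)) 0 = α • deriv (fun z => σ (z, 0)) 0 + t • σ 0)
    (h' : deriv (fun z => σ' (0, z)) 0 = β • deriv (fun z => σ (0, z)) 0 + t' • σ 0) :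
    ∃ A, NdCmp o σ σ' A ∧ ndc A = α * β := by
  rw [deriv_inl a, deriv_inl a'] at h
  rw [deriv_inr a, deriv_inr a'] at h'
  refine ⟨(α • ContinuousLinearMap.fst ℂ ℂ ℂ).prod (β • ContinuousLinearMap.snd ℂ ℂ ℂ),
    fun e => ⟨e.1 * t o + e.2 * t' o, ?_⟩, by simp [ndc]⟩
  rw [NdU.apply_eq (fderiv ℂ σ 0), NdU.apply_eq (fderiv ℂ σ' 0), h, h']
  simp only [Pi.add_apply, Pi.smul_apply, Pi.smul_apply', ContinuousLinearMap.prod_apply,
    _root_.smul_apply, ContinuousLinearMap.coe_fst', ContinuousLinearMap.coe_snd',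
    smul_eq_mul]
  module

variable {T P E : Type*} [TopologicalSpace T] [NormedAddCommGroup P] [NormedSpace ℂ P]
  [NormedAddCommGroup E] [NormedSpace ℂ E] {C : T → Set (V M)} {π : T → P} {t₀ : T}

theorem chart_map {σ : P × E → V M} {X : P → Set E} (h : Chart o C π t₀ σ X)
    (g : ∀ i, (Fin (M i) → ℂ) ≃L[ℂ] (Fin (M i) → ℂ)) :
    Chart o (fun t => gV g '' C t) π t₀ (fun q => gV g (σ q)) X := by
  refine ⟨((gV g).analyticAt _).comp h.an, fun e s he => h.imm e s ((g o).injective ?_),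
    h.mem.mono fun q a b => mem_image_of_mem _ (a b), fun U hU => ?_⟩
  · rw [map_smul]
    exact (congrFun (DFunLike.congr_fun
      ((gV g).comp_fderiv (f := fun z => σ (π t₀, z)) (x := 0)) e) o).symm.trans he
  · have k : Tendsto (fun q : T × V M => (q.1, (gV g).symm q.2)) (𝓝 (t₀, gV g (σ (π t₀, 0))))
        (𝓝 (t₀, σ (π t₀, 0))) :=
      Continuous.tendsto' (by fun_prop) _ _ (Prod.ext rfl ((gV g).symm_apply_apply _))
    filter_upwards [k.eventually (h.sub U hU)] with q a ⟨c, b, d⟩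
    obtain ⟨s, z, e1, e2, e3⟩ := a (by rwa [← d, (gV g).symm_apply_apply])
    exact ⟨s, z, e1, e2, ((gV g).symm_apply_eq.1 e3).trans (funext fun i => map_smul (g i) _ _)⟩

theorem exists_arc {A : Type*} [NormedAddCommGroup A] [NormedSpace ℂ A] {Z : Set A} {N : ℕ} {a v : A}
    (h : MfdAt Z N a) (hv : v ∈ tan (Subtype.val : Z → A) ⟨a, h.1⟩) :
    ∃ c, Arc Z a c ∧ deriv c 0 = v := by
  obtain ⟨ha, ψ, hψ, e⟩ := h
  rw [← e, hψ.tan_eq] at hv
  obtain ⟨w, rfl⟩ := hv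
  have h6 : HasDerivAt (fun a : ℂ => a • w) w 0 := by
    simpa using (hasDerivAt_id (0 : ℂ)).smul_const w
  have e0 : (0 : ℂ) • w = 0 := zero_smul _ _
  exact ⟨fun ε => (ψ (ε • w)).1, ⟨hψ.an.comp_of_eq (analyticAt_id.smul analyticAt_const) e0,
    congrArg Subtype.val ((congrArg ψ e0).trans e), .of_forall fun _ => Subtype.prop _⟩,
    (hψ.an.differentiableAt.hasFDerivAt.comp_hasDerivAt_of_eq 0 h6 e0.symm).deriv⟩

end gen

/-- the tensor of the two axes -/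
noncomputable def wdS (σ : ℂ × ℂ → V ch.M) : ch.N4 :=
  wd4 (σ 0) (deriv (fun z => σ (z, 0)) 0) (deriv (fun z => σ (0, z)) 0)

theorem an_ax {E : Type*} [NormedAddCommGroup E] [NormedSpace ℂ E] {σ : ℂ × ℂ → E}
    (a : AnalyticAt ℂ σ 0) (b : Bool) : AnalyticAt ℂ (fun z => σ (cond b (0, z) (z, 0))) 0 := by
  cases b
  exacts [a.comp_of_eq (analyticAt_id.prod analyticAt_const) rfl,
    a.comp_of_eq (analyticAt_const.prod analyticAt_id) rfl]

theorem wdS_smul {σ : ℂ × ℂ → V ch.M} (a : AnalyticAt ℂ σ 0) (s : ι → ℂ) :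
    wdS (fun z => s • σ z) = s ch.o ^ 4 • wdS σ := by
  have k := wd4_lin (σ 0) (deriv (fun z => σ (z, 0)) 0) (deriv (fun z => σ (0, z)) 0) (s ch.o)
    (s ch.o) (s ch.o) 0 0
  rw [zero_smul, add_zero, add_zero, ← pow_succ, ← pow_succ] at k
  refine Eq.trans ?_ k
  have e1 : deriv (fun z => s • σ (z, 0)) 0 ch.o = _ := Dict.deriv_const_smul s (an_ax a false) _
  have e2 : deriv (fun z => s • σ (0, z)) 0 ch.o = _ := Dict.deriv_const_smul s (an_ax a true) _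
  simp only [wdS, wd4, e1, e2, Pi.smul_apply, Pi.smul_apply', cond_false, cond_true]

theorem wdS_apV {σ : ℂ × ℂ → V ch.M} (a : AnalyticAt ℂ σ 0) (g : HV ch.M ch.M) :
    wdS (fun z => apV g (σ z)) = wd4 (apV g (σ 0)) (apV g (deriv (fun z => σ (z, 0)) 0))
      (apV g (deriv (fun z => σ (0, z)) 0)) :=
  congrArg₂ (wd4 _) (GlP.hasDerivAt_apV g (an_ax a false).differentiableAt.hasDerivAt).deriv
    (GlP.hasDerivAt_apV g (an_ax a true).differentiableAt.hasDerivAt).deriv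

/-- **independence of the chart** for one parameter families -/
theorem one {C : ℂ → Set (V ch.M)} {σ σ' : ℂ × (ℂ × ℂ) → V ch.M} {τ τ' : ℂ → ℂ}
    (h : Chart ch.o C id 0 σ fun p => {z | z.1 * z.2 = τ p})
    (h' : Chart ch.o C id 0 σ' fun p => {z | z.1 * z.2 = τ' p}) (hτ : AnalyticAt ℂ τ 0)
    (hτ' : AnalyticAt ℂ τ' 0) (h0 : τ 0 = 0) (h0' : τ' 0 = 0) (hf : LocFam ch.o C id 0) {s : ι → ℂ}
    (e : σ' (0, 0) = s • σ (0, 0)) (f : ∀ b, Nrm.Fac (fun z => σ (0, cond b (0, z) (z, 0)))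
      fun z => σ' (0, cond b (0, z) (z, 0))) :
    deriv τ' 0 • wdS (fun z => σ' (0, z)) = (deriv τ 0 * s ch.o ^ 4) • wdS fun z => σ (0, z) := by
  have hne := hf.ne_zero.self_of_nhds _ (h'.mem0.self_of_nhds ((mul_zero _).trans h0'.symm))
  have hs : ∀ i, s i ≠ 0 := ne_of_smul_ne (e ▸ hne)
  have k := h.smul hf.cone hs
  obtain ⟨α, t, e1⟩ := fac_deriv ((Nrm.fac_smul hs).symm.trans (f false)) (an_ax k.an0 false) e
    (e ▸ hne)
  obtain ⟨β, t', e2⟩ := fac_deriv ((Nrm.fac_smul hs).symm.trans (f true)) (an_ax k.an0 true) e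
    (e ▸ hne)
  obtain ⟨A, a1, a2⟩ := ndCmp (o := ch.o) k.an0 h'.an0 e1 e2
  have e3 : wdS (fun z => σ' (0, z)) = (α * β) • wdS fun z => s • σ (0, z) := by
    have := wd4_lin (s • σ (0, 0)) (deriv (fun z => s • σ (0, (z, 0))) 0)
      (deriv (fun z => s • σ (0, (0, z))) 0) 1 α β t t'
    rw [one_smul, one_pow, one_mul] at this
    exact (congr(wd4 $e $e1 $e2)).trans this
  rw [e3, wdS_smul (σ := fun z => σ (0, z)) h.an0, k.deriv_tau h' hτ hτ' h0 h0' hf e a1, a2, smul_smul, smul_smul,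
    mul_comm (deriv τ' 0)]

theorem lin_actF (F : Wt S Λ R J) (s : ch.AF ν κ S) :
    IsLinearMap ℂ (actF F s : ch.WF ν κ Λ → _) := by
  refine ⟨fun x y => Prod.ext (funext fun _ => mul_add _ _ _) (Prod.ext (funext fun l => ?_)
    (Prod.ext (funext₂ fun n i => ?_) (Prod.ext ?_ (funext fun j => ?_)))),
    fun z x => Prod.ext (funext fun _ => mul_left_comm _ _ _) (Prod.ext (funext fun l => ?_)
    (Prod.ext (funext₂ fun n i => ?_) (Prod.ext ?_ (funext fun j => ?_))))⟩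
  · exact ContinuousLinearMap.ext fun _ => map_add ((dup s.2).2.1 l) _ _
  · exact (congrArg _ (map_add _ _ _)).trans (smul_add _ _ _)
  · exact ContinuousLinearMap.ext fun _ => map_add ((dup s.2).2.1 none) _ _
  · exact ContinuousLinearMap.ext fun μ => (congrArg ((dup s.2).2.1 (some j))
      (smul_add (∏ i, s.1 i ^ F.wt j i) (x.2.X j (sub (dup s.2) _ μ))
        (y.2.X j (sub (dup s.2) _ μ)))).trans (map_add _ _ _)
  · exact ContinuousLinearMap.ext fun _ => map_smul ((dup s.2).2.1 l) _ _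
  · exact (congrArg _ (map_smul ((dup s.2).1 i) _ _)).trans (smul_comm _ _ _)
  · exact ContinuousLinearMap.ext fun _ => map_smul ((dup s.2).2.1 none) _ _
  · exact ContinuousLinearMap.ext fun μ => (congrArg ((dup s.2).2.1 (some j))
      (smul_comm (∏ i, s.1 i ^ F.wt j i) z (x.2.X j (sub (dup s.2) _ μ)))).trans (map_smul _ _ _)

theorem mem_bm {x : ch.WF ν κ Λ} : x ∈ ch.baseF ν κ univ ↔ x.2 ∈ ch.bm ν κ :=
  mem_baseF.trans (and_iff_right trivial)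

theorem deriv_snd {τ : ch.W (Mk ν κ) → ℂ} {x : ch.WF ν κ Λ} {Γ : ℂ → ch.WF ν κ Λ} {v}
    (a : AnalyticAt ℂ τ x.2) (h : HasDerivAt Γ v 0) (e : Γ 0 = x) :
    deriv (fun ε => τ (Γ ε).2) 0 = fderiv ℂ τ x.2 v.2 :=
  have k : HasDerivAt (fun ε => (Γ ε).2) v.2 0 :=
    (ContinuousLinearMap.snd ℂ (Λ → ℂ) (ch.W (Mk ν κ))).hasFDerivAt.comp_hasDerivAt 0 h
  (a.differentiableAt.hasFDerivAt.comp_hasDerivAt_of_eq 0 k (congrArg Prod.snd e).symm).deriv

variable {z : ch.WG n ν κ Unit Λ} {σ σ' : ch.W (Mk ν κ) × (ℂ × ℂ) → V ch.M}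
  {τ τ' : ch.W (Mk ν κ) → ℂ} {F : Wt S Λ R J} {a : ch.AG n ν κ Unit S}

variable (z σ τ) in
/-- An oriented chart at the labelled node. -/
structure OC : Prop where
  gl : Gl z.1.2 z.2
  bm : z.1.2 ∈ ch.bm ν κ
  chart : Chart ch.o (fun y : ch.bm ν κ => crv y.1) Subtype.val ⟨z.1.2, bm⟩ σ
    fun y => {v | v.1 * v.2 = τ y}
  an : AnalyticAt ℂ τ z.1.2
  zero : τ z.1.2 = 0
  brs : Brs z.2 (axs fun _ v => σ (z.1.2, v))

variable (z) in
/-- the labelled node -/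
noncomputable def nd : V ch.M := apV z.2.2.1 (z.2.1.p (nq () false))

variable (z σ τ) in
/-- the differential of the smoothing parameter in a chart -/
noncomputable def vq : ch.WF ν κ Λ →ₗ[ℂ] ch.N4 :=
  ((fderiv ℂ τ z.1.2).toLinearMap ∘ₗ LinearMap.snd ℂ _ _).smulRight (wdS fun v => σ (z.1.2, v))

theorem vq_apply (v) : vq z σ τ v = fderiv ℂ τ z.1.2 v.2 • wdS fun v => σ (z.1.2, v) := rfl

theorem brs_fac (h : Gl z.1.2 z.2) {γ γ'} (b : Brs z.2 γ) (b' : Brs z.2 γ') (q : Bool) :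
    Nrm.Fac (γ () q) (γ' () q) :=
  let ⟨_, _, _, _, _, _, a⟩ := h.exists_gd
  (a.fac b () q).symm.trans (a.fac b' () q)

theorem brs_act (h : Gl z.1.2 z.2) {γ} (b : Brs z.2 γ) (ha : IsUnit a) :
    Brs (actG F a z).2 fun e q t => apV a.1.2.1 (γ e q t) := fun e q => by
  obtain ⟨δ, b1, b2, b3⟩ := b e q
  obtain ⟨a1, -, a3⟩ := Cv.isUnit_iff.1 (AP.isUnit_iff.1 ha).2
  obtain ⟨u, hu⟩ := isUnit_dupF (isUnit_θG ha)
  have k : ∀ t, apV (actG F a z).2.2.1 (a.2.2.2 e • apV a.2.1 (δ t)) =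
      a.2.2.2 e • apV a.1.2.1 (apV z.2.2.1 (δ t)) := fun t => (P269.apV_smul _ _ _).trans
    (congrArg _ (funext fun i => congrArg (fun v => a.1.2.1 i (z.2.2.1 i v)) (inv_ap (a1 i) _)))
  have m : IsBranch ch.o (crv (act u.val (scl (F.cS a.1.1) z.2.1)))
      fun t => apV u.val.1 (δ t) := by
    rw [crv_actU]
    exact b1.map (g := gU u)
  rw [hu] at m
  refine ⟨fun t => a.2.2.2 e • apV a.2.1 (δ t), m.const_smul (h.act ha).mem'.2.2.1.cone (a3 e),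
    congrArg (fun y => a.2.2.2 e • apV a.2.1 y) b2, ?_⟩
  simp only [k]
  exact (Nrm.fac_smul (a3 e)).symm.trans (GBx.fac_apV _ b3)

theorem OC.orb (h : OC z σ τ) : ∃ s : ι → ℂ, nd z = s • σ (z.1.2, 0) := by
  obtain ⟨δ, -, b, s, φ, -, -, c, d, -, e⟩ := h.brs () false
  have f := e.self_of_nhds
  rw [d] at f
  exact ⟨(s 0)⁻¹, (Dict.inv_smul c _).symm.trans
    (congrArg _ (f.trans (congrArg (s 0 • apV z.2.2.1 ·) b)).symm)⟩

theorem exists_oc (hc : ch.Cuts) (hz : z ∈ ch.allG Λ ν κ n) :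
    ∃ σ τ, OC z σ τ ∧ σ (z.1.2, 0) = nd z := by
  have hf := locFam_bm hc ⟨_, hz.2⟩
  have hC := hz.1.mem.2.2.1.isNodal
  obtain ⟨τ, σ, a1, a2, a3, a4⟩ := (hf.chart (nd z) (hz.1.apV_mem (hz.1.mem'.2.2.2.1 _).1)).resolve_left
    fun b => b.not_isNode hf (hz.1.isNode ())
  choose δ h1 h2 using fun b => exists_branch_p hz.1.mem' (nq () b)
  have b : Brs z.2 fun _ b t => apV z.2.2.1 (δ b t) := fun _ b => ⟨_, h1 b, h2 b, dc_refl _⟩
  have c := GBx.cross a4 hf a3 false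
  have d := fun b => GBx.J_or hC c (hz.1.isBranch (h1 b)) (congrArg Nrm.P (a1.trans (by
    rw [h2]
    cases b
    exacts [rfl, hz.1.node ()])))
  have f := fun b {γ} (k : IsBranch _ _ γ) j => Nrm.fac_of_J hC (hz.1.isBranch (h1 b)) k j
  have g : Nrm.J ch.o (fun t => apV z.2.2.1 (δ false t)) 0 ≠
      Nrm.J ch.o (fun t => apV z.2.2.1 (δ true t)) 0 := by
    obtain ⟨c, A, π, u, ξ, ξ', a⟩ := hz.1.exists_gd
    rw [a.cr.par.dc_J (a.fac b () false), a.cr.par.dc_J (a.fac b () true)]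
    exact a.cr.par.dc_ne (AC.jn_glue.2 (.inr ⟨(), false, rfl, rfl⟩))
  rcases d false with d1 | d1 <;> rcases d true with d2 | d2
  · exact (g (d1.trans d2.symm)).elim
  · refine ⟨σ, τ, ⟨hz.1, hz.2, a4, a2, a3, fun _ q => ⟨_, h1 q, h2 q, ?_⟩⟩, a1⟩
    cases q
    exacts [f _ c.1 d1, f _ c.2.1 d2]
  · refine ⟨_, τ, ⟨hz.1, hz.2, a4.swap_node hf.cont.self_of_nhds, a2, a3,
      fun _ q => ⟨_, h1 q, h2 q, ?_⟩⟩, a1⟩
    cases q
    exacts [f _ c.2.1 d1, f _ c.1 d2]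
  · exact (g (d1.trans d2.symm)).elim

theorem OC.ev (hc : ch.Cuts) (h : OC z σ τ) :
    ∀ᶠ y in 𝓝 z, y ∈ ch.allG Λ ν κ n → OC y σ τ := by
  have c : ContinuousAt (fun y : ch.WG n ν κ Unit Λ => (y.1.2, y.2)) z := by fun_prop
  have c' : ContinuousAt (fun y : ch.WG n ν κ Unit Λ => y.1.2) z := by fun_prop
  filter_upwards [c.eventually (h.gl.ev_brs hc h.bm (σ := fun _ => σ) (τ := fun _ => τ)
    (fun _ => h.chart) (fun _ => ⟨h.an, h.zero⟩) h.brs), c'.eventually h.an.eventually_analyticAt,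
    c'.eventually (ev_sub' (h.chart.eventually_node h.zero (locFam_bm hc _)))] with y a b d e
  exact ⟨e.1, e.2, d e.2, b, (a e.1 e.2).1 (), (a e.1 e.2).2⟩

/-- **equivariance and independence of the chart** -/
theorem OC.act (hn : ch.GN n Unit) (ha : IsUnit a) (h : OC z σ τ) (h' : OC (actG F a z) σ' τ')
    {s : ι → ℂ} (e : σ' ((actG F a z).1.2, 0) = s • apV a.1.2.1 (σ (z.1.2, 0))) {v}
    (hv : v ∈ Tan (ch.baseF ν κ univ) z.1) : vq (actG F a z) σ' τ' (actF F a.1 v) =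
      (fderiv ℂ τ z.1.2 v.2 * s ch.o ^ 4) • wdS fun v => apV a.1.2.1 (σ (z.1.2, v)) := by
  have h1 := (AP.isUnit_iff.1 ha).1
  obtain ⟨N, -, m⟩ := hn.num.mfd_bm hv.1
  obtain ⟨Γ, a1, rfl⟩ := exists_arc m hv.2
  obtain ⟨u, u0, u1, u2, u3⟩ := a1.exists_lift m.1
  obtain ⟨g, hg⟩ := isUnit_dupF h1
  let w : ℂ → ch.bm ν κ := fun ε => ⟨(u ε).1.2, mem_bm.1 (u ε).2⟩
  let w' : ℂ → ch.bm ν κ := fun ε =>
    ⟨(actF F a.1 (u ε).1).2, mem_bm.1 (actF_mem_baseF h1 (u ε).2 trivial)⟩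
  have e0 : (u 0).1 = z.1 := congrArg Subtype.val u0
  have w0 : w 0 = ⟨z.1.2, h.bm⟩ := Subtype.ext (congrArg Prod.snd e0)
  have w0' : w' 0 = ⟨(actG F a z).1.2, h'.bm⟩ := Subtype.ext (congrArg (actF F a.1 · |>.2) e0)
  have b : AnalyticAt ℂ (fun ε => (w ε).1) 0 := analyticAt_snd.comp u2
  have b' : AnalyticAt ℂ (fun ε => (w' ε).1) 0 :=
    analyticAt_snd.comp (an_actF analyticAt_const u2 (ne_S h1))
  have c : ContinuousAt w 0 := IsInducing.subtypeVal.continuousAt_iff.2 b.continuousAt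
  have c' : ContinuousAt w' 0 := IsInducing.subtypeVal.continuousAt_iff.2 b'.continuousAt
  have k : ∀ {v : ℂ → ch.bm ν κ}, ∀ᶠ t in 𝓝 (0 : ℂ), (v t).1 = (fun ε => (v ε).1) (id t) :=
    .of_forall fun _ => rfl
  have d1 := chart_map (Chart.comp (π' := id) (w0 ▸ h.chart) c b k) (gU g)
  have d2 := Chart.comp (π' := id) (w0' ▸ h'.chart) c' b' k
  have d3 : (fun t => gV (gU g) '' crv (w t).1) = fun t => crv (w' t).1 := funext fun t =>
    (crv_actU g (scl _ (u t).1.2)).symm.trans (by rw [hg]; rfl)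
  have d4 : ∀ c, gV (gU g) c = apV a.1.2.1 c := fun c =>
    congrArg (fun s : ch.A (Mk ν κ) => apV s.1 c) hg
  have x0 : (w 0).1 = z.1.2 := congrArg Subtype.val w0
  have x0' : (w' 0).1 = (actG F a z).1.2 := congrArg Subtype.val w0'
  rw [d3] at d1
  have d5 := one d1 d2 (h.an.comp_of_eq b x0) (h'.an.comp_of_eq b' x0') ((congrArg τ x0).trans h.zero)
    ((congrArg τ' x0').trans h'.zero)
    ((locFam_bm hn.cuts _).comp c' (.of_forall fun _ => continuousAt_id) b' k) (s := s)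
    (by simpa only [x0, x0', d4] using e) fun q => by
      simp only [x0, x0', d4]
      exact brs_fac h'.gl (brs_act h.gl h.brs ha) h'.brs q
  have d6 : HasDerivAt (fun ε => (u ε).1) (deriv Γ 0) 0 :=
    a1.an.differentiableAt.hasDerivAt.congr_of_eventuallyEq u3
  have d7 : HasDerivAt (fun ε => actF F a.1 (u ε).1) (actF F a.1 (deriv Γ 0)) 0 :=
    ((lin_actF F a.1).mk' _).toContinuousLinearMap.hasFDerivAt.comp_hasDerivAt 0 d6
  simp only [x0, x0', d4] at d5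
  rwa [deriv_snd (x := z.1) h.an d6 e0, deriv_snd (x := (actG F a z).1) h'.an d7
    (congrArg (actF F a.1) e0)] at d5

theorem OC.indep (hn : ch.GN n Unit) (h : OC z σ τ) (h' : OC z σ' τ') {s : ι → ℂ}
    (e : σ' (z.1.2, 0) = s • σ (z.1.2, 0)) {v} (hv : v ∈ Tan (ch.baseF ν κ univ) z.1) :
    vq z σ' τ' v = (fderiv ℂ τ z.1.2 v.2 * s ch.o ^ 4) • wdS fun v => σ (z.1.2, v) := by
  let F : Wt Empty Λ Empty J := ⟨fun _ _ => 0, fun _ _ => 0, fun _ _ => 0⟩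
  have k : actG F (1 : ch.AG n ν κ Unit Empty) z = z := isAct_actG.one z trivial
  have := h.act (F := F) hn isUnit_one (k.symm ▸ h') (by rw [k]; exact e) hv
  rwa [k, show actF F (1 : ch.AG n ν κ Unit Empty).1 v = v from actF_one v] at this

theorem OC.line (hn : ch.GN n Unit) (h : OC z σ τ) : (wdS fun v => σ (z.1.2, v)) ≠ 0 ∧
    (ch.sdN S Λ ν κ n).B z = ℂ ∙ wdS fun v => σ (z.1.2, v) := (sdN_B (S := S) hn h.gl h.brs rfl :)

theorem OC.ker (h : OC z σ τ) (hc : ch.Cuts) {v} (hv : v ∈ Tan (ch.allG Λ ν κ n) z) :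
    vq z σ τ v.1 = 0 := by
  have a : AnalyticAt ℂ (fun y : ch.WG n ν κ Unit Λ => τ y.1.2) z :=
    h.an.comp (f := fun y : ch.WG n ν κ Unit Λ => y.1.2) (analyticAt_snd.comp analyticAt_fst)
  have b := hv.2 (fun y => τ y.1.2 • v) (a.smul analyticAt_const)
    (((ev_sub hv.1).2 (h.ev hc)).mono fun y k => by rw [k.zero, zero_smul])
  have c := (h.an.differentiableAt.hasFDerivAt.comp z
    (hasFDerivAt_snd.comp z hasFDerivAt_fst)).smul_const v
  have d : fderiv ℂ τ z.1.2 v.1.2 • v = 0 := (DFunLike.congr_fun c.fderiv v).symm.trans b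
  rcases smul_eq_zero.1 d with d | rfl
  exacts [(congrArg (· • _) d).trans (zero_smul _ _), map_zero _]

theorem OC.ne (h : OC z σ τ) (hn : ch.GN n Unit) :
    ∃ v ∈ Tan {x | x ∈ ch.baseF ν κ univ ∧ x.1 = z.1.1 ∧ x.2.X = z.1.2.X} z.1, vq z σ τ v ≠ 0 := by
  obtain ⟨γ, a1, a2⟩ := hn.num.exists_arc_bm h.bm (σ := fun _ : Unit => σ) (τ := fun _ => τ)
    (fun _ => h.chart) (fun _ => ⟨h.an, h.zero⟩) (fun _ _ _ => rfl) 1
  have a3 : Arc (ch.bm ν κ) z.1.2 fun ε => setX (γ ε) z.1.2.X :=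
    ⟨W.an_iff.2 ⟨fun l => (W.an_Q a1.an l :), fun q => (W.an_p a1.an q :), (W.an_Ξ a1.an :),
      fun _ => analyticAt_const⟩, congrArg (setX · z.1.2.X) a1.zero,
      a1.mem.mono fun _ b => ⟨b.1, b.2⟩⟩
  have a4 : Arc {x | x ∈ ch.baseF ν κ univ ∧ x.1 = z.1.1 ∧ x.2.X = z.1.2.X} z.1
      fun ε => (z.1.1, setX (γ ε) z.1.2.X) := ⟨analyticAt_const.prod a3.an, Prod.ext rfl a3.zero,
    a3.mem.mono fun _ b => ⟨mem_bm.2 b, rfl, rfl⟩⟩
  obtain ⟨u, u0, u1, u2, u3⟩ := a1.exists_lift h.bm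
  obtain ⟨w, w0, w1, w2, w3⟩ := a3.exists_lift h.bm
  have k : NdAt ch.o (fun y : ch.bm ν κ => crv y.1) Subtype.val ⟨_, h.bm⟩ _ τ :=
    ⟨_, rfl, h.an, h.zero, h.chart⟩
  obtain ⟨c, -, c1, c2⟩ := k.deriv_arc k (locFam_bm hn.cuts _)
  have b := c2 u w u0 w0 u1 w1 u2 w2 ((u3.and w3).mono fun ε k => by rw [k.1, k.2]; rfl)
  rw [c1 rfl, one_mul, EventuallyEq.deriv_eq (u3.mono fun s b => congrArg τ b),
    EventuallyEq.deriv_eq (w3.mono fun s b => congrArg τ b), a2 ()] at b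
  have m : z.1 ∈ {x | x ∈ ch.baseF ν κ univ ∧ x.1 = z.1.1 ∧ x.2.X = z.1.2.X} :=
    ⟨mem_bm.2 h.bm, rfl, rfl⟩
  refine ⟨_, ⟨m, a4.mem_tan m⟩, ?_⟩
  rw [vq_apply, ← deriv_snd h.an a4.an.differentiableAt.hasDerivAt a4.zero, ← b, Pi.one_apply,
    one_smul]
  exact (h.line (S := Empty) hn).1

theorem OC.cont (h : OC z σ τ) {j} (hj : σ (z.1.2, 0) ch.o j ≠ 0) (v : ch.WF ν κ Λ) :
    ContinuousAt (fun y : ch.WG n ν κ Unit Λ × ch.WF ν κ Λ => (fderiv ℂ τ y.1.1.2 y.2.2 *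
      (nd y.1 ch.o j / σ (y.1.1.2, 0) ch.o j) ^ 4) • wdS fun v => σ (y.1.1.2, v)) (z, v) := by
  have c : ContinuousAt (fun y : ch.WG n ν κ Unit Λ × ch.WF ν κ Λ => y.1.1.2) (z, v) := by fun_prop
  have a : ∀ b, AnalyticAt ℂ (fun q : ch.W (Mk ν κ) × ℂ => σ (q.1, cond b (0, q.2) (q.2, 0)))
      (z.1.2, 0) := fun b => by
    cases b
    exacts [h.chart.an.comp_of_eq (analyticAt_fst.prod (analyticAt_snd.prod analyticAt_const)) rfl,
      h.chart.an.comp_of_eq (analyticAt_fst.prod (analyticAt_const.prod analyticAt_snd)) rfl]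
  have c' : ContinuousAt (fun y : ch.W (Mk ν κ) => (y, (0 : ℂ))) z.1.2 := by fun_prop
  have c0 : ContinuousAt (fun y => σ (y, 0)) z.1.2 := (a false).continuousAt.comp_of_eq c' rfl
  have c1 := fun b => (an_deriv_snd (a b)).continuousAt.comp_of_eq c' rfl
  have c2 : ContinuousAt (fun y => wdS fun v => σ (y, v)) z.1.2 :=
    (continuous_wd4.continuousAt.comp (c0.prodMk ((c1 false).prodMk (c1 true))) :)
  have l := Lb.an_iff.1 (analyticAt_snd (𝕜 := ℂ) (p := z))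
  have c3 : ContinuousAt (fun y : ch.WG n ν κ Unit Λ => nd y ch.o) z :=
    (an_apply (l.2.1 ch.o) (analyticAt_pi_iff.1 (W.an_p l.1 _) ch.o)).continuousAt
  exact (((h.an.fderiv.continuousAt.comp_of_eq c rfl).clm_apply continuousAt_snd.snd).mul
    ((((continuousAt_pi.1 c3 j).comp_of_eq continuousAt_fst rfl).div
      ((continuousAt_pi.1 (continuousAt_pi.1 c0 ch.o) j).comp_of_eq c rfl) hj).pow 4)).smul
    (c2.comp_of_eq c rfl)

end NrQ

open NrQ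

theorem exists_nrmQ (hn : ch.GN n Unit) (F : Wt S Λ R J) :
    ∃ q : ch.WG n ν κ Unit Λ → ch.WF ν κ Λ →ₗ[ℂ] ch.N4, NrmQ F q := by
  choose! σ τ h e using fun (z : ch.WG n ν κ Unit Λ) => exists_oc (z := z) hn.cuts
  refine ⟨fun z => vq z (σ z) (τ z), fun z hz v => ?_, fun ⟨z, v⟩ hz => ?_,
    fun z hz a ha v hv => ?_, fun z v hv => (h z hv.1).ker hn.cuts hv, fun z hz => (h z hz).ne hn⟩
  · rw [((h z hz).line hn).2]
    exact Submodule.smul_mem _ _ (Submodule.mem_span_singleton_self _)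
  · obtain ⟨j, hj⟩ := ne_iff.1 (crv_ne (hz.1.1.apV_mem (hz.1.1.mem'.2.2.2.1 (nq () false)).1) ch.o)
    have hj' : σ z (z.1.2, 0) ch.o j ≠ 0 := by rwa [e z hz.1]
    have c : ContinuousAt (fun y : ch.WG n ν κ Unit Λ × ch.WF ν κ Λ => σ z (y.1.1.2, 0) ch.o j)
        (z, v) := continuousAt_pi.1 (continuousAt_pi.1
      ((h z hz.1).chart.an.continuousAt.comp_of_eq (f := fun y : ch.WG n ν κ Unit Λ × ch.WF ν κ Λ =>
        (y.1.1.2, (0 : ℂ × ℂ))) (by fun_prop) rfl) ch.o) j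
    refine ((h z hz.1).cont hj' v).continuousWithinAt.congr_of_eventuallyEq_of_mem ?_ hz
    filter_upwards [self_mem_nhdsWithin, nhdsWithin_le_nhds
      ((continuousAt_fst.eventually ((h z hz.1).ev hn.cuts)).and (c.eventually_ne hj'))] with y a b
    obtain ⟨s, k⟩ := (b.1 a.1).orb
    rw [(b.1 a.1).indep hn (h _ a.1) ((e _ a.1).trans k) a.2, k]
    exact congrArg (fun r => (_ * r ^ 4) • _) (mul_div_cancel_right₀ _ b.2).symm
  · have hz' := ivt_allG (F := F) a ha z hz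
    have k : nd (actG F a z) = a.2.2.2 () • apV a.1.2.1 (σ z (z.1.2, 0)) := by
      rw [e z hz]
      exact funext fun i => (map_smul _ _ _).trans (congrArg (a.2.2.2 () i • ·)
        (congrArg (fun v => a.1.2.1 i (z.2.2.1 i v))
          (inv_ap ((Cv.isUnit_iff.1 (AP.isUnit_iff.1 ha).2).1 i) _)))
    rw [(h z hz).act hn ha (h _ hz') ((e _ hz').trans k) hv, vq_apply,
      wdS_apV (h z hz).chart.an0, mul_smul, ← sdN_ρ (Λ := Λ) a]
    exact ((congrArg _ (ContinuousLinearMap.smul_comp _ _ _)).trans (smul_comm _ _ _)).symm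

end Vale.Agent.P269.Ch
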