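import Vale.Agent.P269.LG.Mp
import Vale.Agent.P269.Map.SQ
import Vale.Agent.P269.Map.W

/-! Equivariant bundles on torus charts. -/

set_option linter.unusedSectionVars false
set_option linter.style.haveILetI false

namespace Vale.Agent.P269.LG

open Set Function Topology Filter Module TensorProduct Vale.Agent.P291Z Vale.Agent.P269.Ch
  Vale.Agent.P269.Orb Vale.Agent.P269.Loc Vale.Agent.P269.Holo KD

variable {σ : Type} [Fintype σ] {A B W A' B' W' V P N : Type} [NormedRing A] [NormedAlgebra ℂ A]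
  [NormedRing B] [NormedAlgebra ℂ B] [NormedAddCommGroup W] [NormedSpace ℂ W] [NormedRing A']
  [NormedAlgebra ℂ A'] [NormedRing B'] [NormedAlgebra ℂ B'] [NormedAddCommGroup W']
  [NormedSpace ℂ W'] [NormedAddCommGroup V] [NormedSpace ℂ V] [AddCommGroup P] [Module ℂ P]
  [TopologicalSpace P] [NormedAddCommGroup N] [NormedSpace ℂ N] [FiniteDimensional ℂ A]
  [FiniteDimensional ℂ B] [FiniteDimensional ℂ W] [FiniteDimensional ℂ A'] [FiniteDimensional ℂ B']
  [FiniteDimensional ℂ W'] [FiniteDimensional ℂ V] [FiniteDimensional ℂ N]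

section gen

variable {act : B → W → W} {S : Set W} {E : SD B W N} {r : ℕ} (hE : E.Ok act S r 0)
  (h0 : E.P₀ = ⊤)

namespace SB

include hE h0 in
theorem exists_rp : ∃ b : Bˣ →* End ℂ N, (Continuous fun p : Bˣ × N => b p.1 p.2) ∧
    ∀ g w, b g w = E.ρ g w :=
  exists_endo hE.rep (i := LinearMap.id) IsEmbedding.id (LinearMap.range_id.trans h0.symm)

/-- the representation -/
noncomputable def rp : Bˣ →* End ℂ N := (exists_rp hE h0).choose

theorem continuous_rp : Continuous fun p : Bˣ × N => rp hE h0 p.1 p.2 :=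
  (exists_rp hE h0).choose_spec.1

theorem rp_apply (g : Bˣ) (w : N) : rp hE h0 g w = E.ρ g w := (exists_rp hE h0).choose_spec.2 g w

theorem rp_mem {x : W} (hx : x ∈ S) (g : Bˣ) {w : N} (hw : w ∈ E.B x) :
    rp hE h0 g w ∈ E.B (act g x) :=
  (rp_apply hE h0 g w).symm ▸ hE.famB.inv x hx _ g.isUnit w hw

theorem rp_inv (g : Bˣ) (w : N) : rp hE h0 g⁻¹ (rp hE h0 g w) = w := by
  rw [← End.mul_apply, ← map_mul, inv_mul_cancel, map_one, End.one_apply]

include hE in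
theorem N_eq {x : W} (hx : x ∈ S) : E.N x = ⊥ := Submodule.finrank_eq_zero.1 (hE.famN.rank x hx)

/-- the bundle on a space over `S` -/
noncomputable def vb (Y : Ch.Sp) (τ : Y.G →* Bˣ) (hτ : Continuous τ) (i : Y.T → W)
    (hi : Continuous i) (mem : ∀ t, i t ∈ S) (eqv : ∀ g t, i (g • t) = act (τ g) (i t)) : VB Y :=
  VB.ofLin N (fun g => rp hE h0 (τ g)) (fun w => by rw [map_one, map_one, End.one_apply])
    (fun g g' w => by rw [map_mul, map_mul, End.mul_apply])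
    ((continuous_rp hE h0).comp (hτ.prodMap continuous_id)) (fun t => E.B (i t)) r
    (hE.famB.closed.preimage (f := fun x : Y.T × N => ((⟨i x.1, mem _⟩ : S), x.2))
      (((hi.comp continuous_fst).subtype_mk _).prodMk continuous_snd))
    (fun t => hE.famB.rank _ (mem t)) fun g t w hw => (eqv g t).symm ▸ rp_mem hE h0 (mem t) _ hw

end SB

open SB

namespace TC

variable {act₀ : A → W → W} {D : KD B W P} {Z : Set W} (c : TC σ act₀ act D Z) (hS : c.O ⊆ S)

/-- the bundle on the chart -/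
noncomputable def vb : VB c.Y.toSp :=
  SB.vb hE h0 _ (c.U.toMonoidHom.comp (MonoidHom.inl _ _))
    (c.continuous_U.comp (continuous_id.prodMk continuous_const)) c.Y.ι c.Y.cι
    (fun t => hS (c.ι_mem t)) fun g _ => c.eqU g _

theorem vb_r : (c.vb hE h0 hS).r = r := rfl

/-- the action of the compact torus -/
noncomputable def tv : TV c.h.toTS (c.vb hE h0 hS) where
  b := (rp hE h0).comp (c.t.comp ph)
  cont := (continuous_rp hE h0).comp ((c.continuous_t.comp continuous_ph).prodMap continuous_id)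
  comm s g w := LinearMap.congr_fun ((c.commute_t g (ph s)).map (rp hE h0)).eq w
  inv s t _ hw := rp_mem hE h0 (hS (c.ι_mem t)) (c.t (ph s)) hw

variable {c} [IsTopologicalAddGroup P] [ContinuousSMul ℂ P] [T2Space P]

/-- **the Euler class at a finite level** -/
theorem Lv.eu_tv {M : ℕ} {ac : B → V → V} {ZM : Set V} (L : c.Lv M ac ZM) :
    H.map L.j ((c.tv hE h0 hS).bo (pm σ M)).eu.1 = hcls ((E.pb id L.pr).eu ac ZM) := by
  haveI := L.gd.isActZ
  let m : Mor (spA L.gd.orbZ) L.Y.toSp := ⟨MonoidHom.id _, Holo.Sp.incl ac L.dom.sub, continuous_id,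
    (Holo.Sp.isEmbedding_incl _).continuous, fun _ _ => rfl⟩
  have e : L.j = (L.mO.comp m).map :=
    DFunLike.coe_injective ((L.mO.comp m).map_eq fun t => L.mO.map_π (m.f t))
  have hZ : ∀ t : (spA L.gd.orbZ).T, L.pr (Holo.Sp.val (act := ac) t) ∈ Z := fun t => by
    obtain ⟨x, hx, p, e⟩ := L.exists_eq (Holo.Sp.val_mem (act := ac) t)
    rwa [← e, L.pr_μ]
  let E₀ := SB.vb hE h0 (spA L.gd.orbZ) (MonoidHom.id _) continuous_id
    (fun t => L.pr (Holo.Sp.val (act := ac) t)) (L.continuous_pr.comp Holo.Sp.isEmbedding_val.continuous)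
    (fun t => hS (c.dom.sub (hZ t))) fun g t => L.pr_act _ (Units.isUnit g) _
  have hN : ∀ t : (spA L.gd.orbZ).T, E.N (L.pr (Holo.Sp.val (act := ac) t)) = ⊥ := fun t =>
    N_eq hE (hS (c.dom.sub (hZ t)))
  have h1 : IsMod (presA L.gd.orbZ) E.ρ (fun y => E.B (L.pr y)) (fun y => E.N (L.pr y)) E₀ E₀
      LinearMap.id fun _ => LinearMap.id :=
    ⟨IsEmbedding.id, fun _ => Submodule.map_id _, fun g t w _ => mem_of_eq_of_mem
      (sub_eq_zero.2 (rp_apply hE h0 g w)) (zero_mem _), fun t => (hN t).le.trans bot_le,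
      Hom.of_continuous (fun _ _ a => a) continuous_snd fun _ _ _ _ => rfl,
      fun _ w a => ⟨w, a, rfl⟩, fun t w _ => ((hN t).symm ▸ Submodule.mem_bot ℂ :).symm⟩
  have h2 : ∀ t : (spA L.gd.orbZ).T, c.b ((L.mO.comp m).f t).2.nrm (c.Y.ι ((L.mO.comp m).f t).1) =
      L.pr (Holo.Sp.val (act := ac) t) := fun t => (L.pr_μ (_, _)).symm.trans (congrArg L.pr
    ((L.φ_val _).symm.trans (congrArg Holo.Sp.val (L.φ.apply_symm_apply (m.f t)))))
  have h4 : ∀ (k : Aˣ × Tor σ) (p : PM σ M) (w : N), rp hE h0 (c.t (k.2 • p).nrm⁻¹) (rp hE h0 (c.U k) w) =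
      rp hE h0 (c.U (k.1, 1)) (rp hE h0 (c.t (ph k.2)) (rp hE h0 (c.t p.nrm⁻¹) w)) := fun k p w => by
    rw [← End.mul_apply, ← End.mul_apply, ← End.mul_apply, ← map_mul, ← map_mul, ← map_mul]
    refine congrArg (rp hE h0 · w) ((map_mul c.U (1, _) k).symm.trans ((congrArg c.U ?_).trans
      ((map_mul c.U _ (1, _)).trans (congrArg (· * _) (map_mul c.U (k.1, 1) (1, ph k.2))))))
    refine Prod.ext ((one_mul _).trans ((mul_one _).trans (mul_one _)).symm) ?_
    change (k.2 • p).nrm⁻¹ * k.2 = 1 * ph k.2 * p.nrm⁻¹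
    rw [PM.nrm_smul, one_mul, mul_inv, mul_right_comm]
    rfl
  have h3 : Iso (L.mO.comp m) E₀ ((c.tv hE h0 hS).bo (pm σ M))
      fun t => rp hE h0 (c.t ((L.mO.comp m).f t).2.nrm⁻¹) := by
    refine Iso.of_inj (Hom.of_continuous (fun t w hw => ?_) ((continuous_rp hE h0).comp
      ((c.continuous_t.comp (PM.continuous_nrm.comp (continuous_snd.comp
        (L.mO.comp m).cf)).inv).prodMap continuous_id)) fun g t w _ => ?_) (fun t w _ h => ?_) rfl
    · exact (congrArg E.B ((congrArg (c.h.b _) (h2 t).symm).trans (c.h.b_inv _ _))).le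
        (rp_mem hE h0 (hS (c.dom.sub (hZ t))) (c.t ((L.mO.comp m).f t).2.nrm⁻¹) hw)
    · obtain ⟨k, rfl⟩ := c.U.surjective g
      have e1 : (L.mO.comp m).ρ (c.U k) = k := c.U.symm_apply_apply k
      refine Eq.trans ?_ (congrArg (fun a : (c.h.toTS.B M).G =>
        a • (show ((c.tv hE h0 hS).bo (pm σ M)).W from _)) e1.symm)
      refine (congrArg (fun x : (c.h.toTS.B M).T => rp hE h0 (c.t x.2.nrm⁻¹) _)
        (((L.mO.comp m).eqv (c.U k) t).trans (congrArg (· • _) e1))).trans (h4 k _ w)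
    · exact (rp_inv hE h0 _ w).symm.trans ((congrArg _ h).trans (map_zero _))
  exact (congrArg (fun j => H.map j _) e).trans
    ((congrArg Subtype.val h3.eu).symm.trans (SD.hcls_presA L.gd.orbZ h1).symm)

end TC

end gen

namespace TC.Mp

variable {act₀ : A → W → W} {act : B → W → W} {act₀' : A' → W' → W'} {act' : B' → W' → W'}
  {D : KD B W P} {Z : Set W} {Z' S : Set W'} {θ₀ : A' →ₐ[ℂ] A} {θ : B' →ₐ[ℂ] B} {f : W' →L[ℂ] W}
  {c' : TC σ act₀' act' (D.pb θ f) Z'} {c : TC σ act₀ act D Z} (h : Mp θ₀ c' c) {E : SD B' W' N}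
  {r : ℕ} (hE : E.Ok act' S r 0) (h0 : E.P₀ = ⊤) (hS : c'.O ⊆ S)

/-- **the normal bundle of a map of torus charts** -/
theorem isNb (e : Imm h.mor) (eL : ∀ v, e.L v = f v)
    (hb : ∀ s v, e.L (c'.h.b s v) = c.h.b s (e.L v)) (hr : c'.n + r = c.n) {q : W' → W →ₗ[ℂ] N}
    (mem : ∀ x ∈ c'.O, ∀ v ∈ Tan c.O (f x), q x v ∈ E.B x)
    (cont : ContinuousOn (fun y : W' × W => q y.1 y.2) {y | y.1 ∈ c'.O ∧ y.2 ∈ Tan c.O (f y.1)})
    (eqv : ∀ x ∈ c'.O, ∀ b, IsUnit b → ∀ v ∈ Tan c.O (f x),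
      q (act' b x) (act (θ b) v) = E.ρ b (q x v))
    (srj : ∀ x ∈ c'.O, ∀ w ∈ E.B x, ∃ v ∈ Tan c.O (f x), q x v = w)
    (ker : ∀ x ∈ c'.O, ∀ v ∈ Tan c'.O x, q x (f v) = 0) (M : ℕ) :
    IsNb e h.isEq hb ((c'.tv hE h0 hS).bo (pm σ M)) := by
  have m : ∀ {t v}, v ∈ tan c.Y.ι (h.mor.f t) → v ∈ Tan c.O (f (c'.Y.ι t)) := fun a => ⟨_, a⟩
  refine isNb_bo e h.isEq hb _ hr (q := fun t => q (c'.Y.ι t))
    (hom_of_cont (fun t v hv => mem _ (c'.ι_mem t) v (m hv)) (fun a b ha hb hc =>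
      cont.comp_continuous ((c'.Y.cι.comp ha).prodMk hb) fun z => ⟨c'.ι_mem _, m (hc z)⟩)
      fun g t v hv => ?_) (fun s t v hv => ?_) (fun t w hw => ?_) (fun t v hv => ?_) M
  · refine Eq.trans ?_ ((eqv _ (c'.ι_mem t) _ (c'.U (g, 1)).isUnit v (m hv)).trans
      (SB.rp_apply hE h0 _ _).symm)
    exact congrArg₂ (fun a b => q a b) (c'.eqU g _)
      ((c.eq _ ((Units.isUnit (show A'ˣ from g)).map θ₀) v).trans
        (congrArg (act · v) (h.u (show A'ˣ from g) 1).symm))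
  · refine Eq.trans ?_ ((eqv _ (c'.ι_mem t) _ (c'.t (ph s)).isUnit v (m hv)).trans
      (SB.rp_apply hE h0 _ _).symm)
    exact congrArg (q _) (congrArg (act · v)
      ((h.u 1 _).trans (congrArg (fun a => c.u (a, _)) (map_one θ₀))).symm)
  · obtain ⟨v, ⟨_, a⟩, b⟩ := srj _ (c'.ι_mem t) w hw
    exact ⟨v, a, b⟩
  · exact (congrArg (q _) (eL v)).trans (ker _ (c'.ι_mem t) v ⟨_, hv⟩)

end TC.Mp

end Vale.Agent.P269.LG
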