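import Vale.Agent.P269.LG.Amb
import Vale.Agent.P269.LG.HNC
import Vale.Agent.P269.LG.SB
import Vale.Agent.P269.LG.NrmB
import Vale.Agent.P269.LG.NrmQ
import Vale.Agent.P269.LG.NrmM

/-! The space of maps with a labelled node as a torus chart. -/

set_option linter.unusedSectionVars false
set_option linter.style.haveILetI false

namespace Vale.Agent.P269.LG

open Set Function Topology Filter Module TensorProduct Vale.Agent.P291Z Vale.Agent.P269.Ch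
  Vale.Agent.P269.Orb Vale.Agent.P269.Loc Vale.Agent.P269.Holo KD

/-- the first projection -/
noncomputable def HNT.fstA (A B : Type) [NormedRing A] [NormedAlgebra ℂ A] [NormedRing B]
    [NormedAlgebra ℂ B] : AP A B →ₐ[ℂ] A where
  toFun a := a.1
  map_one' := rfl
  map_mul' _ _ := rfl
  map_zero' := rfl
  map_add' _ _ := rfl
  commutes' _ := rfl

theorem HNT.line {A W V : Type} [NormedRing A] [NormedAlgebra ℂ A] [NormedAddCommGroup W]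
    [NormedSpace ℂ W] [NormedAddCommGroup V] [NormedSpace ℂ V] {act : A → W → W} {S : Set W}
    {E : SD A W V} (h : E.Ok act S 1 0) {x : W} (hx : x ∈ S) {v w : V} (hv : v ∈ E.B x) (h0 : v ≠ 0)
    (hw : w ∈ E.B x) : ∃ s : ℂ, s • v = w :=
  ((finrank_eq_one_iff_of_nonzero' (⟨v, hv⟩ : E.B x) fun e => h0 (congrArg Subtype.val e)).1
    (h.famB.rank x hx) ⟨w, hw⟩).imp fun _ => congrArg Subtype.val

open HNT

variable {R J K σ ι ν κ : Type} [Fintype R] [Fintype J] [Fintype K] [Fintype σ] [Fintype ι]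
  [DecidableEq ι] [Fintype ν] [Fintype κ]

section alg

variable {J' : Type} [Fintype J'] (ch : Ch ι J') (n : Nm ι J') (ν κ σ)

/-- the algebra of the group with the torus -/
noncomputable def uL : (ch.AG n ν κ Unit Empty × (σ → ℂ)) ≃ₐ[ℂ] ch.AG n ν κ Unit σ where
  toFun a := ((a.2, a.1.1.2), a.1.2)
  invFun b := (((1, b.1.2), b.2), b.1.1)
  left_inv _ := Prod.ext (Prod.ext (Prod.ext (Subsingleton.elim _ _) rfl) rfl) rfl
  right_inv _ := rfl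
  map_mul' _ _ := rfl
  map_add' _ _ := rfl
  commutes' _ := rfl

/-- the coordinates of the Borel construction -/
noncomputable def μB (M : ℕ) : (ch.WG n ν κ Unit Empty × (σ → Fin (M + 1) → ℂ)) ≃L[ℂ]
    ch.WG n ν κ Unit (σ × Fin (M + 1)) :=
  LinearEquiv.toContinuousLinearEquiv
    { toFun := fun x => ((uncurry x.2, x.1.1.2), x.1.2)
      invFun := fun y => (((0, y.1.2), y.2), curry y.1.1)
      left_inv := fun _ => Prod.ext (Prod.ext (Prod.ext (Subsingleton.elim _ _) rfl) rfl) rfl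
      right_inv := fun _ => rfl
      map_add' := fun _ _ => rfl
      map_smul' := fun _ _ => rfl }

variable {ch n ν κ σ}

theorem μB_apply {M : ℕ} (z : ch.WG n ν κ Unit Empty) (p : σ → Fin (M + 1) → ℂ) :
    μB σ ν κ ch n M (z, p) = (μA σ ν κ ch M (z.1, p), z.2) := rfl

end alg

variable [DecidableEq σ]

namespace PB

variable (P : PB R J K σ) {ch : Ch ι (J ⊕ σ)} (n : Nm ι (J ⊕ σ)) (e : K → ι → ℕ) (K₀ : Set K)
  (ℓ : Option R → ι → ℤ) (T : Set ((ch.re n).WF ν (κ ⊕ Unit) Empty))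

/-- a domain over which the labelled space is smooth -/
structure An (O : Set (ch.WF ν κ Empty)) (N : ℕ) : Prop extends P.Am e K₀ ℓ ∅ O N where
  gn : ch.GN n Unit
  lev : Ch.Lev (P.ET ∅) T
  mfL : KD.Mf (ch.AG n ν κ Unit Empty) (Zf (P.E ∅) T ∩ Prod.fst ⁻¹' O) (N - 1)
  rk : ∀ z (hz : z ∈ Zf (P.E ∅) T ∩ Prod.fst ⁻¹' O), 1 ≤ N ∧
    finrank ℂ (ch.AF ν κ Empty) + (N - 1) ≤ finrank ℂ ((tan (Subtype.val :
      ↥(Zf (P.E ∅) T ∩ Prod.fst ⁻¹' O) → ch.WG n ν κ Unit Empty) ⟨z, hz⟩).map (LinearMap.fst ℂ _ _))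
  cL : CompactSpace (Quo (actG (P.E ∅).toWt) (ZL (P.E ∅) T : Set (ch.WG n ν κ Unit Empty)))

variable {P n e K₀ ℓ T} {O : Set (ch.WF ν κ Empty)} {N : ℕ}

theorem actG_E (a : ch.AG n ν κ Unit Empty) (z : ch.WG n ν κ Unit Empty) :
    actG (P.E ∅).toWt a z = actG (P.ET ∅).toWt (uL σ ν κ ch n (a, 1)) z :=
  Prod.ext (actF_E a.1 z.1) (congrArg (fun c => actLb c a.1.2 _ z.2) (funext fun _ =>
    (Fintype.prod_empty _).trans (Finset.prod_eq_one fun _ _ => one_zpow _).symm))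

theorem actG_EM {M : ℕ} (b : ch.AG n ν κ Unit σ) (z : ch.WG n ν κ Unit Empty)
    (p : σ → Fin (M + 1) → ℂ) : actG (P.EM ∅ M).toWt b (μB σ ν κ ch n M (z, p)) =
      μB σ ν κ ch n M (actG (P.ET ∅).toWt b z, fun i => b.1.1 i • p i) :=
  Prod.ext (actF_EM b.1 z.1 p) rfl

namespace An

variable (h : P.An n e K₀ ℓ T O N)
include h

theorem fst_mem {z : ch.WG n ν κ Unit Empty} (hz : z ∈ Zf (P.E ∅) T) : z.1 ∈ ch.cyc κ (P.E ∅) 0 :=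
  h.cyc_eq.ge (Zb.adm h.gn h.std_E.inv h.lev.adm hz.1)

theorem pb : h.tc.Pb (actG (P.E ∅).toWt) (actG (P.ET ∅).toWt) (fstA _ _) (fstA _ _)
    (ContinuousLinearMap.fst ℂ _ _) (uL σ ν κ ch n) (Zf (P.E ∅) T) (ZL (P.E ∅) T) (N - 1) where
  isAct₀ := isActG_univ
  isAct := isActG_univ
  lin b _ := lin_actG _ b
  eq a _ := actG_E a
  u _ _ := rfl
  eqv _ _ _ := rfl
  ivt := ivt_Zf (F := P.ET ∅) h.lev.inv
  zero := congrArg (fun S => Zf (P.E ∅) T ∩ Prod.fst ⁻¹' S) h.Z0_eq.symm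
  prp :=
    haveI := h.dom.isAct
    haveI := h.dom.orb.proper
    (prp_Gl h.gn prp_of_properSMul h.dom.isAct.mem).mono fun _ a => ⟨a.1.1.1, a.2⟩
  mf := h.mfL
  cZ := h.cL

/-- the labelled torus chart -/
noncomputable abbrev tl := h.pb.tc

theorem mp : TC.Mp (fstA _ _) h.tl h.tc := h.pb.mp

theorem O_sub : O ⊆ ch.adm ν κ (P.ET ∅) := let ⟨_, _, e⟩ := h.dom.opn
  fun _ a => h.cyc_eq.le (e.le a).1

theorem sub_allG : Zf (P.E ∅) T ⊆ ch.allG Empty ν κ n := fun _ =>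
  Zf.allG (F := P.ET ∅) h.gn h.lev.adm

theorem opn : ∃ U, IsOpen U ∧ h.tl.O = Zf (P.E ∅) T ∩ U :=
  let ⟨U, a, e⟩ := h.dom.opn
  ⟨Prod.fst ⁻¹' U, a.preimage continuous_fst, Set.ext fun _ => and_congr_right fun b =>
    ⟨fun c => (e.le c).2, fun c => e.ge ⟨h.fst_mem b, c⟩⟩⟩

/-- the immersion -/
noncomputable def imm : Imm h.mp.mor :=
  h.mp.imm (fun a => ⟨(a, 1), rfl⟩) (fun a b => ⟨(a, 1), AP.isUnit_iff.2 ⟨b, isUnit_one⟩, rfl⟩)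
    (fun _ hx _ a b c => hx.1.1.1.free h.gn a b c) fun t => (h.rk _ (h.tl.ι_mem t)).2

theorem okN : (ch.sdN σ Empty ν κ n).Ok (actG (P.ET ∅).toWt) (ch.allG Empty ν κ n) 1 0 :=
  Ch.okN h.gn Subset.rfl

theorem O_allG : h.tl.O ⊆ ch.allG Empty ν κ n := fun _ a => h.sub_allG a.1

/-- the normal bundle -/
noncomputable abbrev nb (M : ℕ) := (h.tl.tv (N := ch.N4) h.okN rfl h.O_allG).bo (pm σ M)

theorem srj {q : ch.WG n ν κ Unit Empty → ch.WF ν κ Empty →ₗ[ℂ] ch.N4} (hq : NrmQ (P.ET ∅).toWt q)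
    (x : ch.WG n ν κ Unit Empty) (hx : x ∈ h.tl.O) (w : ch.N4)
    (hw : w ∈ (ch.sdN σ Empty ν κ n).B x) : ∃ v ∈ Tan O x.1, q x v = w := by
  have hz := h.O_allG hx
  have hO : ∃ U, IsOpen U ∧ O = ch.adm ν κ (P.ET ∅) ∩ U :=
    h.dom.opn.imp fun U c => ⟨c.1, c.2.trans (congrArg (· ∩ U) h.cyc_eq)⟩
  obtain ⟨v, ⟨a, a'⟩, b⟩ := hq.ne' (F := P.ET ∅) (PB.abs h.abs) hz hO hx.2
  obtain ⟨s, e⟩ := line (V := ch.N4) h.okN hz (hq.mem x hz v) b hw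
  exact ⟨s • v, ⟨a, Submodule.smul_mem _ _ a'⟩, ((q x).map_smul s v).trans e⟩

theorem isNb (hne : Nonempty h.tl.Y.T) (M : ℕ) : IsNb h.imm h.mp.isEq h.mp.hb (h.nb M) := by
  obtain ⟨q, hq⟩ := exists_nrmQ (ν := ν) (κ := κ) h.gn (P.ET ∅).toWt
  obtain ⟨t⟩ := hne
  refine h.mp.isNb (N := ch.N4) h.okN rfl h.O_allG h.imm (fun _ => rfl) _
    (Nat.sub_add_cancel (h.rk _ (h.tl.ι_mem t)).1) (q := q) ?_ ?_ ?_ (h.srj hq) ?_ M
  · exact fun x hx v _ => hq.mem x (h.O_allG hx) v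
  · exact hq.cont.mono fun y a => ⟨h.O_allG a.1, tan_adm h.O_sub a.2⟩
  · exact fun x hx b hb v hv => hq.eqv x (h.O_allG hx) b hb v (tan_adm h.O_sub hv)
  · exact fun x _ v hv => hq.ker x v (NrmM.tan_mono (.of_forall fun _ a => h.O_allG a) hv)

variable {M : ℕ} {T' : Set ((ch.re n).WF ν (κ ⊕ Unit) (σ × Fin (M + 1)))}
  (hT : ∀ x p, μA σ ν (κ ⊕ Unit) (ch.re n) M (x, p) ∈ T' ↔ x ∈ T ∧ ∀ i, p i ≠ 0)
include hT

omit h in
theorem mem_Zf (z : ch.WG n ν κ Unit Empty) (p : σ → Fin (M + 1) → ℂ) :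
    μB σ ν κ ch n M (z, p) ∈ Zf (P.EM ∅ M) T' ↔ z ∈ Zf (P.E ∅) T ∧ ∀ i, p i ≠ 0 :=
  ⟨fun a => ⟨⟨⟨a.1.1, ((hT (μG z) p).1 a.1.2.1).1, a.1.2.2⟩, a.2⟩, ((hT (μG z) p).1 a.1.2.1).2⟩,
    fun a => ⟨⟨a.1.1.1, (hT (μG z) p).2 ⟨a.1.1.2.1, a.2⟩, a.1.1.2.2⟩, a.1.2⟩⟩

theorem mem_ZL (z : ch.WG n ν κ Unit Empty) (p : σ → Fin (M + 1) → ℂ) :
    μB σ ν κ ch n M (z, p) ∈ ZL (P.EM ∅ M) T' ↔ z ∈ ZL (P.E ∅) T ∧ ∀ i, p i ≠ 0 :=
  ⟨fun a => let b := (mem_Zf hT z p).1 a.1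
    ⟨⟨b.1, (h.mem_ZM.1 ⟨a.2, h.mem_cyc_EM.2 ⟨h.fst_mem b.1, b.2⟩⟩).1.1⟩, b.2⟩, fun a =>
    ⟨(mem_Zf hT z p).2 ⟨a.1.1, a.2⟩, (h.mem_ZM.2 ⟨⟨a.1.2, h.fst_mem a.1.1⟩, a.2⟩).1⟩⟩

/-- the approximations of the Borel construction -/
noncomputable def ll : h.tl.Lv M (actG (P.EM ∅ M).toWt) (ZL (P.EM ∅ M) T') where
  μ := μB σ ν κ ch n M
  isAct := isActG_univ
  eqv b _ := actG_EM b
  mem := h.mem_ZL hT

theorem ll_μ : (h.ll hT).μ = μB σ ν κ ch n M := rfl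

theorem D'_eq : (h.ll hT).D' = ch.kdL ν κ Unit n (P.EM ∅ M) e :=
  (congrArg (fun D : KD (ch.AF ν κ σ) (ch.WF ν κ (σ × Fin (M + 1))) (ch.P K) =>
    (D.pb (fun a => a.1) Prod.fst : KD (ch.AG n ν κ Unit σ) (ch.WG n ν κ Unit (σ × Fin (M + 1))) _))
      (kd_EM (P := P) (Z := ∅) (e := e)) :)

theorem isV : (ch.kdL ν κ Unit n (P.EM ∅ M) e).IsV (actG (P.EM ∅ M).toWt) (ZL (P.EM ∅ M) T')
    (Zf (P.EM ∅ M) T') (h.ll hT).β :=
  h.D'_eq hT ▸ ((h.ll hT).isW h.pb.ivt h.opn (mem_Zf hT)).isV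

theorem eu_nb : H.map (h.ll hT).j (h.nb M).eu.1 =
    hcls ((((ch.re n).sdψ σ _ (nq () false)).pb θG μG).eu (actG (P.EM ∅ M).toWt) (ZL (P.EM ∅ M) T')) +
      hcls ((((ch.re n).sdψ σ _ (nq () true)).pb θG μG).eu (actG (P.EM ∅ M).toWt)
        (ZL (P.EM ∅ M) T')) :=
  haveI := (h.ll hT).gd.isActZ
  ((h.ll hT).eu_tv (N := ch.N4) h.okN rfl h.O_allG).trans (euN h.gn (fun z a => by
    obtain ⟨x, hx, p, rfl⟩ := (h.ll hT).exists_eq a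
    exact h.sub_allG hx.1) (h.ll hT).gd.orbZ)

end An

end PB

end Vale.Agent.P269.LG
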