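import Vale.Agent.P269.Orb.Vir2
import Vale.Agent.P269.Orb.Ori

/-! Gysin maps along finite coverings: the topological part. -/

set_option linter.unusedSectionVars false

namespace Vale.Agent.P269.LG.HSA

open Set Function Topology Filter Vale.Agent.P291Z Vale.Agent.P269.Orb Vale.Agent.P269.Ch

variable {X X' N N' Z Z' Y Y' : Type} [TopologicalSpace X] [TopologicalSpace X']
  [TopologicalSpace N] [TopologicalSpace N'] [TopologicalSpace Z] [TopologicalSpace Z']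
  [TopologicalSpace Y] [TopologicalSpace Y'] [Nice X] [Nice X'] [Nice N] [Nice N'] [Nice Z]
  [Nice Z'] [Nice Y] [Nice Y']

/-- one Gysin map -/
theorem stage {f : X' → X} {o : N → X} {o' : N' → X'} (ho : IsOpenEmbedding o)
    (ho' : IsOpenEmbedding o') {f₀ : N' → N} (hf₀ : IsPr f₀) (s₀ : ∀ x, f (o' x) = o (f₀ x))
    {β : BM X} {β' : BM X'} {c : N → ℂ} (hc : IsLocallyConstant c)
    (e : push f₀ (res o' β') = cap (hcls (fn c)) (res o β)) {j : Z → X} {j' : Z' → X'}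
    (hj : IsClosedEmbedding j) (hj' : IsClosedEmbedding j') {t : Coch X} (ht : LCo (range j) t)
    (ht' : LCo (range j') (pull f t)) {d : ℤ} (hd : IsDeg (2 * d) t) {p : Y → Z} {p' : Y' → Z'}
    (hp : IsOpenEmbedding p) (hp' : IsOpenEmbedding p') {k : Y → N} {k' : Y' → N'}
    (hk : IsClosedEmbedding k) (hk' : IsClosedEmbedding k') (s : ∀ y, o (k y) = j (p y))
    (s' : ∀ y, o' (k' y) = j' (p' y)) {g : Y' → Y} (hg : IsPr g) (s₁ : ∀ y, f₀ (k' y) = k (g y))
    (hr : f₀ ⁻¹' range k ⊆ range k') :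
    push g (res p' (lgys j' (pull f t) β')) = cap (hcls (fn (c ∘ k))) (res p (lgys j t β)) := by
  have h1 := (ht.pull_open hj ho hp s).2
  rw [res_lgys hj' ht' hk' ho' hp' s', res_lgys hj ht hk ho hp s, pull_pull,
    show f ∘ o' = o ∘ f₀ from funext s₀, ← pull_pull, ← lgys_push hk h1 hk' hf₀ hg s₁ hr, e,
    lgys_cap hk h1 (hd.pull _) (cocycle_fn.2 hc), pull_fn]

/-- two Gysin maps -/
theorem two {f : X' → X} {o : N → X} {o' : N' → X'} (ho : IsOpenEmbedding o)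
    (ho' : IsOpenEmbedding o') {f₀ : N' → N} (hf₀ : IsPr f₀) (s₀ : ∀ x, f (o' x) = o (f₀ x))
    {β : BM X} {β' : BM X'} {c : N → ℂ} (hc : IsLocallyConstant c)
    (e : push f₀ (res o' β') = cap (hcls (fn c)) (res o β)) {j : Z → X} {j' : Z' → X'}
    (hj : IsClosedEmbedding j) (hj' : IsClosedEmbedding j') {t : Coch X} (ht : LCo (range j) t)
    (ht' : LCo (range j') (pull f t)) {d : ℤ} (hd : IsDeg (2 * d) t) {g : Z' → Z}
    (hg : Continuous g) (s₁ : ∀ z, f (j' z) = j (g z)) (hr : f ⁻¹' range j ⊆ range j')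
    {i : Y → Z} {i' : Y' → Z'} (hi : IsClosedEmbedding i) (hi' : IsClosedEmbedding i')
    {φ : Y' → Y} (hφ : IsPr φ) (s₂ : ∀ y, g (i' y) = i (φ y)) {a : Y → N} (ha : ∀ y, o (a y) = j (i y))
    (ha' : ∀ y, j' (i' y) ∈ range o') (hs : ∀ x y, f₀ x = a y → o' x ∈ range (j' ∘ i'))
    {u : Coch Z} (hu : LCo (range i) u) {d' : ℤ} (hd' : IsDeg (2 * d') u) :
    push φ (lgys i' (pull g u) (lgys j' (pull f t) β')) =
      cap (hcls (fn (c ∘ a))) (lgys i u (lgys j t β)) := by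
  have o1 := ho.isOpen_range.preimage hj.continuous
  have o2 := ho'.isOpen_range.preimage hj'.continuous
  have := Nice.of_isLocallyClosed o1.isLocallyClosed
  have := Nice.of_isLocallyClosed o2.isLocallyClosed
  choose k hk using fun z : j ⁻¹' range o => z.2
  choose k' hk' using fun z : j' ⁻¹' range o' => z.2
  have cl : ∀ {X N Z : Type} [TopologicalSpace X] [TopologicalSpace N] [TopologicalSpace Z]
      {o : N → X} {j : Z → X} {k : j ⁻¹' range o → N}, IsOpenEmbedding o → IsClosedEmbedding j →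
      (∀ z, o (k z) = j z) → IsClosedEmbedding k := fun {X N Z _ _ _ o j k} ho hj hk =>
    ⟨ho.isEmbedding.of_comp_iff.1 ((funext hk : o ∘ k = j ∘ Subtype.val) ▸
      hj.isEmbedding.comp .subtypeVal), by
      rw [show range k = o ⁻¹' range j from Set.ext fun x => ⟨fun ⟨z, e⟩ => ⟨z, e ▸ (hk z).symm⟩,
        fun ⟨z, e⟩ => ⟨⟨z, x, e.symm⟩, ho.injective ((hk _).trans e)⟩⟩]
      exact hj.isClosed_range.preimage ho.continuous⟩
  let g₀ : j' ⁻¹' range o' → j ⁻¹' range o := fun z =>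
    ⟨g z, f₀ (k' z), by rw [← s₀, hk', s₁]⟩
  have b1 : ∀ z, f₀ (k' z) = k (g₀ z) := fun z => ho.injective (by rw [← s₀, hk', s₁, hk])
  have b2 : IsPr g₀ := isPr_of_comp (cl ho hj hk).isEmbedding b1
    (hf₀.comp (.of_isClosedEmbedding (cl ho' hj' hk')))
  have b3 := stage ho ho' hf₀ s₀ hc e hj hj' ht ht' hd o1.isOpenEmbedding_subtypeVal
    o2.isOpenEmbedding_subtypeVal (cl ho hj hk) (cl ho' hj' hk') hk hk' b2 b1 fun x ⟨z, hz⟩ => by
      obtain ⟨w, hw⟩ := hr (a := o' x) ⟨z, by rw [s₀, ← hz, hk]⟩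
      exact ⟨⟨w, x, hw.symm⟩, ho'.injective ((hk' _).trans hw)⟩
  let i₀ : Y → j ⁻¹' range o := fun y => ⟨i y, a y, ha y⟩
  let i₀' : Y' → j' ⁻¹' range o' := fun y => ⟨i' y, ha' y⟩
  have b4 : g₀ ⁻¹' range i₀ ⊆ range i₀' := fun z ⟨y, hy⟩ => by
    obtain ⟨w, hw⟩ := hs (k' z) y (ho.injective (by rw [b1, hk, ← hy, ha]))
    exact ⟨w, Subtype.ext (hj'.injective (hw.trans (hk' z)))⟩
  have b5 : LCo (range i') (pull g u) := (hu.pull hg).mono
    (by rintro _ ⟨y, rfl⟩; exact ⟨_, (s₂ y).symm⟩) (Isol.of_isOpen o2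
      (by rintro _ ⟨y, rfl⟩; exact ha' y) fun z ⟨h1, y, h2⟩ =>
        let ⟨w, hw⟩ := b4 (a := ⟨z, h1⟩) ⟨y, Subtype.ext h2⟩
        ⟨w, congrArg Subtype.val hw⟩)
  have := stage o1.isOpenEmbedding_subtypeVal o2.isOpenEmbedding_subtypeVal b2 (fun _ => rfl)
    (hc.comp_continuous (cl ho hj hk).continuous) b3 hi hi' hu b5 hd' IsOpenEmbedding.id
    IsOpenEmbedding.id (k := i₀) (k' := i₀')
    (isClosedEmbedding_of_comp .subtypeVal (fun _ => rfl) hi)
    (isClosedEmbedding_of_comp .subtypeVal (fun _ => rfl) hi') (fun _ => rfl) (fun _ => rfl) hφ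
    (fun y => Subtype.ext (s₂ y)) b4
  rwa [← push_id' (res id (lgys i' _ _)), ← push_id' (res id (lgys i _ _)),
    push_res_homeo IsHomeomorph.id, push_res_homeo IsHomeomorph.id, show (c ∘ k) ∘ i₀ = c ∘ a from
      funext fun y => congrArg c (ho.injective ((hk _).trans (ha y).symm))] at this

end Vale.Agent.P269.LG.HSA
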