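import Vale.Agent.P269.LG.HSE
import Vale.Agent.P269.Glu.PrMain
import Vale.Agent.P269.Glu.PrPt
import Vale.Agent.P269.Glu.PrPsi
import Vale.Agent.P269.Glu.PrPrp
import Vale.Agent.P269.Glu.FpD
import Vale.Agent.P269.Bas.RelC

/-! Decompositions of the domain into two parts, on the level of classes. -/

set_option linter.unusedSectionVars false
set_option linter.style.haveILetI false

namespace Vale.Agent.P269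

open P291Z Set Function Topology Filter Module Orb Holo LG.HSE

variable {S Λ R J K ι ν κ ν₁ κ₁ ν₂ κ₂ : Type} [Fintype S] [Fintype Λ] [Fintype R] [Fintype J]
  [Fintype K] [Fintype ι] [DecidableEq ι] [Fintype ν] [Fintype κ]
  [Fintype ν₁] [Fintype κ₁] [Fintype ν₂] [Fintype κ₂] (s : Sv ν κ ν₁ κ₁ ν₂ κ₂)
  {F : Fam S Λ R J K}

/-- `Ψ` forgets the decomposition, `Φ` is the pair of parts, `v` and `w` are the virtual classes -/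
structure Dcm {X X₁ X₂ Q B : Type} [TopologicalSpace X] [TopologicalSpace X₁] [TopologicalSpace X₂]
    [TopologicalSpace Q] [Nice X] [Nice Q] (At : X → AM Λ R J ν κ → Prop)
    (At₁ : X₁ → AM Λ R J ν₁ κ₁ → Prop) (At₂ : X₂ → AM Λ R J ν₂ κ₂ → Prop) (p₁ : X₁ → B)
    (p₂ : X₂ → B) (ψ : Ch.Mk ν κ → H X) (ψ₁ : Ch.Mk ν₁ κ₁ → H X₁) (ψ₂ : Ch.Mk ν₂ κ₂ → H X₂)
    (w : BM X) (Ψ : C(Q, X)) (Φ : C(Q, X₁ × X₂)) (v : BM Q) : Prop where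
  emb : IsClosedEmbedding Φ
  rng : range Φ = {p | p₁ p.1 = p₂ p.2}
  rep : ∀ z m, At (Ψ z) m → ∃ m₁ m₂ j₁ j₂, AM.Split m m₁ m₂ s.φ s.ψ j₁ j₂ ∧ At₁ (Φ z).1 m₁ ∧
    At₂ (Φ z).2 m₂
  psi₁ : ∀ q, H.map Ψ (ψ (s.mk₁ q)) = H.map (.comp .fst Φ) (ψ₁ q)
  psi₂ : ∀ q, H.map Ψ (ψ (s.mk₂ q)) = H.map (.comp .snd Φ) (ψ₂ q)
  vir : ∀ {Y Y' : Type} [TopologicalSpace Y] [TopologicalSpace Y'] [Nice Y] [Nice Y']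
    [CompactSpace Y'] {i : Y → X} {i' : Y' → Q} {φ : Y' → Y}, IsClosedEmbedding i →
    IsClosedEmbedding i' → (∀ y, Ψ (i' y) = i (φ y)) → Isol (range i') (Ψ ⁻¹' range i) →
    ∃ c : Y → ℕ, IsLocallyConstant c ∧ (∀ y m, At (i y) m → c y = {U | ∃ m₁ m₂ j₁ j₂,
      AM.Split m m₁ m₂ s.φ s.ψ j₁ j₂ ∧ range j₁ = U ∧
        ∃ y', At₁ (Φ (i' y')).1 m₁ ∧ At₂ (Φ (i' y')).2 m₂}.ncard) ∧
      ∀ u (d' : ℤ), LCo (range i) u → IsDeg (2 * d') u → push φ (lgys i' (pull Ψ u) v) =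
        cap (hcls (fn fun y => (c y : ℂ))) (lgys i u w)

namespace Ch

variable {ch : Ch ι J} {n₁ n₂ : Nm ι J} {e : K → ι → ℕ} {K₀ : Set K} {ℓ : R → ι → ℤ}

/-- forgetting the labels is etale -/
theorem HSB.eta (hN : ch.QN n₁ n₂) (Wg : Wt S Λ R J) {O : Set (ch.WF ν κ Λ)}
    (hO : O ⊆ ch.bsF ν κ Λ) : Eta (actQ s Wg) (actF Wg)
      (CQ s ∩ Prod.fst ⁻¹' O : Set (ch.WQ n₁ n₂ ν κ ν₁ κ₁ ν₂ κ₂ Λ)) O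
      (fun a : ch.AQ n₁ n₂ ν κ S => a.1) Prod.fst := by
  refine ⟨eqM_fstQ fun _ a => a.2, fun z _ => ⟨_, analyticAt_fst, .of_forall fun _ _ => rfl⟩,
    fun b hb => ⟨(b, 1), AP.isUnit_iff.2 ⟨hb, isUnit_one⟩, rfl⟩, fun a ha h z hz k => ?_,
    fun z hz => ?_⟩
  · obtain ⟨a, c⟩ := a
    obtain rfl : a = 1 := h
    exact Prod.ext rfl (CQ.fre (Wg := Wg) hz.1 c (AP.isUnit_iff.1 ha).2 k)
  · obtain ⟨σ, a, b, c⟩ := CQ.sec hN hz.1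
    refine ⟨σ, a, b, ?_⟩
    filter_upwards [mem_nhdsWithin_of_mem_nhds c, self_mem_nhdsWithin] with y h1 h2
    exact ⟨⟨(h1 (hO h2)).1, mem_of_eq_of_mem (s := O) (h1 (hO h2)).2 h2⟩, (h1 (hO h2)).2⟩

theorem HSB.cyc (hN : ch.QN n₁ n₂) {Wg : Wt S Λ R J} {O : Set (ch.WF ν κ Λ)} {d : ℕ}
    (hO : O ⊆ ch.bsF ν κ Λ) (c : Cyc (actF Wg : ch.AF ν κ S → _) O O d) :
    Cyc (actQ s Wg : ch.AQ n₁ n₂ ν κ S → ch.WQ n₁ n₂ ν κ ν₁ κ₁ ν₂ κ₂ Λ → _)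
      (CQ s ∩ Prod.fst ⁻¹' O) (CQ s ∩ Prod.fst ⁻¹' O) d := by
  have a := pcy_CQ (s := s) hN hO c.pcy
  rw [add_right_comm, ← AP.finrank] at a
  refine a.cyc (fun g hg z hz => ⟨ivt_CQ g hg z hz.1, c.inv _ (AP.isUnit_iff.1 hg).1 _ hz.2⟩)
    fun z hz => ?_
  obtain ⟨_, _, k⟩ := CQ.smoAt hN hz.1
  refine closure_mono (fun y hy => ?_) (k.mem_closure (fun _ a => hO a.1) hz.1 (c.free hz.2))
  exact ⟨⟨hy.1, hy.2.1⟩, fun g hg b => (HSB.eta s hN Wg hO).free g hg (hy.2.2 _ (AP.isUnit_iff.1 hg).1 (congrArg Prod.fst b)) y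
    ⟨hy.1, hy.2.1⟩ b⟩

variable {b b' N₁ N₂ d : ℕ} {U₁ Z₁ : Set ((ch.re n₁).WF ν₁ κ₁ Λ)}
  {U₂ Z₂ : Set ((ch.re n₂).WF ν₂ κ₂ Λ)} {T O : Set (ch.WF ν κ Λ)}

theorem QH.eta (h : QH F e K₀ ℓ b b' U₁ Z₁ U₂ Z₂ N₁ N₂) (v : Vd F e T O O d)
    (hT : T = ch.adm ν κ F) (h₁ : clo F Z₁ = (ch.re n₁).adm ν₁ κ₁ F)
    (h₂ : clo F Z₂ = (ch.re n₂).adm ν₂ κ₂ F) : Nice (ModQ s F (clo F Z₁) (clo F Z₂)) ∧
    ∀ [IsAct F.actL F.B] [Nice (F.Bs F.B)] [Nice (ModS F (clo F Z₁))] [Nice (ModS F (clo F Z₂))]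
      [Nice (ModS F T)] [Nice (ModQ s F (clo F Z₁) (clo F Z₂))] {Δ : Coch (F.Bs F.B × F.Bs F.B)}
      (_ : IsDB F.actL F.B b' Δ)
      (m : MapsTo Prod.fst (LQ s F (clo F Z₁) (clo F Z₂)) (ch.solF ν κ F ∩ T))
      {Y Y' : Type} [TopologicalSpace Y] [TopologicalSpace Y'] [Nice Y] [Nice Y'] [CompactSpace Y']
      {i : Y → ModS F T} {i' : Y' → ModQ s F (clo F Z₁) (clo F Z₂)} {φ : Y' → Y},
      IsClosedEmbedding i → IsClosedEmbedding i' → (∀ y, (eqM_fstQ m).map (i' y) = i (φ y)) →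
      Isol (range i') ((eqM_fstQ (s := s) (Wg := F.toWt) m).map ⁻¹' range i) →
      ∃ c : Y → ℕ, IsLocallyConstant c ∧ (∀ y x, i y = Quo.mk _ x →
        (part '' {z | (∃ hz : z ∈ LQ s F (clo F Z₁) (clo F Z₂), Quo.mk _ ⟨z, hz⟩ ∈ range i') ∧
          z.1 = x.1}).ncard = c y) ∧
        ∀ u (d' : ℤ), LCo (range i) u → IsDeg (2 * d') u →
          push φ (lgys i' (pull (eqM_fstQ (s := s) (Wg := F.toWt) m).map u)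
            (gys (ΦQ s F (clo F Z₁) (clo F Z₂)) (pull (Prod.map (parM F _) (parM F _)) Δ)
              (cross Prod.fst Prod.snd (virF F e (clo F Z₁)) (virF F e (clo F Z₂))))) =
            cap (hcls (fn fun y => (c y : ℂ))) (lgys i u (virF F e T)) := by
  have hO : O ⊆ ch.bsF ν κ Λ := fun _ a => (v.adm (v.dom.subset a)).1.2.1
  have c := HSB.cyc s h.qn hO v.cyc
  have eZ : ZQ s F (clo F Z₁) (clo F Z₂) = CQ s ∩ Prod.fst ⁻¹' T := by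
    rw [h₁, h₂, hT, ZQ_adm h.std.inv]
  obtain ⟨n, g⟩ := v.gd h.std
  obtain ⟨n', g'⟩ := h.std.gdQ (s := s) (Z := LQ s F (clo F Z₁) (clo F Z₂))
    (fun _ a => Dom.subset_dom v.adm v.dom a.2) c.inv c.lc (prp_CQ (PrMain.prp v) v.cyc.inv)
    (subset_antisymm (fun z a => ⟨⟨a.1.1, v.dom.sub ⟨a.2, (eZ.le a.1).2⟩⟩, a.2⟩)
      fun z a => ⟨eZ.ge ⟨a.1.1, v.dom.subset a.1.2⟩, a.2⟩)
  refine ⟨g'.niceZ, ?_⟩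
  intro _ _ _ _ _ _ Δ hΔ m Y Y' _ _ _ _ _ i i' φ hi hi' sq hr
  obtain ⟨k, k1, k2, k3⟩ := (HSB.eta s h.qn F.toWt hO).main g g' v.cyc.pcy.mfd c.pcy.mfd
    (eqM_fstQ m) hi hi' sq hr
  refine ⟨k, k1, fun y x a => (k2 y x a).ncard part fun z hz z' hz' e e' =>
    ⟨fun p => ?_, ?_⟩, fun u d' hu hd => ?_⟩
  · obtain ⟨t, t1, t2⟩ := CQ.uniq (Wg := F.toWt) h.qn hz.1.1.1 hz'.1.1.1 (e.trans e'.symm) p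
    exact ⟨(1, t), PrU.unit t1, rfl, t2⟩
  · rintro ⟨⟨a, t⟩, t1, rfl : a = 1, rfl⟩
    exact (part_actA (s := s) (Wg := F.toWt) (AP.isUnit_iff.1 t1).2).symm
  · obtain ⟨V, v1, v2⟩ := v.dom.opn
    rw [← h.vr_eq s hΔ g' ⟨Prod.fst ⁻¹' V, v1.preimage continuous_fst, by
      rw [eZ, v2, preimage_inter, inter_assoc]⟩ c, v.virF_vr h.std]
    exact k3 u d' hu hd

/-- the point `y` is represented by `m` -/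
abbrev HSB.At (ℓ : R → ι → ℤ) (y : ModS F T) (m : AM Λ R J ν κ) : Prop :=
  ∃ x, y = Quo.mk _ x ∧ Rep ℓ univ x.1 m

theorem HSB.dcm {ch₁ ch₂ : Ch ι J} (c₁ : ch.re n₁ = ch₁) (c₂ : ch.re n₂ = ch₂) {e₁ e₂ : K → ι → ℕ}
    (a₁ : e = e₁) (a₂ : e = e₂) {U : Set (ch.WF ν κ Λ)} {U₁ Z₁ : Set (ch₁.WF ν₁ κ₁ Λ)}
    {U₂ Z₂ : Set (ch₂.WF ν₂ κ₂ Λ)} (hN : ch.QN n₁ n₂) (o : ch.Ok F e K₀ ℓ b U)
    (o₁ : ch₁.Ok F e₁ K₀ ℓ b U₁) (o₂ : ch₂.Ok F e₂ K₀ ℓ b U₂) (s₁ : Stra F Z₁ N₁)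
    (s₂ : Stra F Z₂ N₂) (p₂ : PrB F.B Z₂) (hB : BsOk F.actL F.B b') (v : Vd F e T O O d)
    (hT : T = ch.adm ν κ F) (h₁ : clo F Z₁ = ch₁.adm ν₁ κ₁ F) (h₂ : clo F Z₂ = ch₂.adm ν₂ κ₂ F)
    {P : AM Λ R J ν₁ κ₁ → Prop} (hP : ∀ y m, HSB.At ℓ (y : ModS F (clo F Z₁)) m → P m)
    (dec : ∀ {x : ch.WF ν κ Λ} {m m₁ m₂ j₁ j₂ B π u t}, RepD ℓ univ x m B π u t →
      AM.Split m m₁ m₂ s.φ s.ψ j₁ j₂ → P m₁ → ∃ z : ch.WQ n₁ n₂ ν κ ν₁ κ₁ ν₂ κ₂ Λ, z ∈ CQ s ∧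
        z.1 = x ∧ range j₁ = π ⁻¹' part z ∧ Rep ℓ univ (pt₁ z) m₁ ∧ Rep ℓ univ (pt₂ z) m₂)
    [IsAct F.actL F.B] [Nice (F.Bs F.B)] [Nice (ModS F (clo F Z₁))] [Nice (ModS F (clo F Z₂))]
    [Nice (ModS F T)] {Δ : Coch (F.Bs F.B × F.Bs F.B)} (hΔ : IsDB F.actL F.B b' Δ) :
    ∃ (Q : Type) (_ : TopologicalSpace Q) (_ : Nice Q) (Ψ : C(Q, ModS F T))
      (Φ : C(Q, ModS F (clo F Z₁) × ModS F (clo F Z₂))),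
      Dcm s (HSB.At ℓ) (HSB.At ℓ) (HSB.At ℓ) (parM F _) (parM F _) (fun q => hcls (psiF q))
        (fun q => hcls (psiF q)) (fun q => hcls (psiF q)) (virF F e T) Ψ Φ
        (gys Φ (pull (Prod.map (parM F _) (parM F _)) Δ)
          (cross Prod.fst Prod.snd (virF F e₁ (clo F Z₁)) (virF F e₂ (clo F Z₂)))) := by
  subst c₁ c₂ a₁ a₂
  have q : QH F e K₀ ℓ b b' U₁ Z₁ U₂ Z₂ N₁ N₂ := ⟨hN, o.toStd, o₁, o₂, s₁, s₂, p₂, hB⟩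
  have m : MapsTo Prod.fst (LQ s F (clo F Z₁) (clo F Z₂)) (ch.solF ν κ F ∩ T) :=
    fun _ a => ⟨a.2, hT.ge a.1.2.1⟩
  have c := CQ.cls (fun _ a => a.1.1) (v.gz o.toStd).toOZ (q.vd₁.gz o₁.toStd).toOZ
    (q.vd₂.gz o₂.toStd).toOZ m (eqL₁ s F _ _).maps (eqL₂ s F _ _).maps hN
  haveI := (q.eta s v hT h₁ h₂).1
  refine ⟨_, inferInstance, this, (eqM_fstQ m).map, ΦQ s F _ _, (q.isClosedEmbedding s).1,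
    (q.isClosedEmbedding s).2, fun z n ⟨x, x1, x2⟩ => ?_, c.1, c.2.1, fun hi hi' sq hr => ?_⟩
  · obtain ⟨z, rfl⟩ := Quot.exists_rep z
    obtain ⟨t, t1, t2⟩ := mk_eq_iff.1 x1
    have u : IsUnit ((t, 1) : ch.AQ n₁ n₂ ν κ S) := AP.isUnit_iff.2 ⟨t1, isUnit_one⟩
    have w := ivt_LQ o.inv q.vd₁.inv q.vd₂.inv _ u _ z.2
    obtain ⟨m₁, m₂, j₁, j₂, a, r₁, r₂⟩ := CQ.exists_rep o.lat w.1.1 (t2 ▸ x2 :)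
    rw [show (Quot.mk _ z : ModQ s F _ _) = Quo.mk _ ⟨_, w⟩ from Quot.sound ⟨_, u, rfl⟩]
    exact ⟨m₁, m₂, j₁, j₂, a, ⟨_, rfl, r₁⟩, _, rfl, r₂⟩
  · obtain ⟨c, c1, c2, c3⟩ := (q.eta s v hT h₁ h₂).2 hΔ m hi hi' sq hr
    refine ⟨c, c1, fun y n ⟨x, x1, x2⟩ => ?_, c3⟩
    obtain ⟨B, π, u, t, r⟩ := x2.exists_data x.2.1.1.2.1
    rw [← c2 y x x1, ← InjOn.ncard_image (f := (π ⁻¹' ·)), image_image]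
    · refine congrArg ncard (subset_antisymm ?_ ?_)
      · rintro _ ⟨z, ⟨⟨hz, y', p⟩, a⟩, rfl⟩
        obtain ⟨m₁, m₂, j₁, j₂, b1, b2⟩ := CQ.exists_split hz.1.1 (a ▸ r :)
        obtain ⟨r₁, r₂⟩ := CQ.rep o.lat hz.1.1 (a ▸ r :) b1 b2
        exact ⟨m₁, m₂, j₁, j₂, b1, b2, y', p ▸ ⟨_, rfl, r₁⟩, p ▸ ⟨_, rfl, r₂⟩⟩
      · rintro _ ⟨m₁, m₂, j₁, j₂, b1, rfl, y', ⟨x₁, a₁, b₁⟩, x₂, a₂, b₂⟩
        obtain ⟨z, z1, z2, z3, r₁, r₂⟩ := dec r b1 (hP _ _ ⟨x₁, a₁, b₁⟩)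
        have z4 := z2 ▸ hT.le x.2.2
        have z5 := ((CQ.adm_iff z1 o.inv).1 z4).2
        have hz : z ∈ LQ s F _ _ := ⟨⟨z1, z4, h₁.ge z5.1, h₂.ge z5.2⟩, (z2 ▸ x.2.1 :)⟩
        exact ⟨z, ⟨⟨hz, y', (q.isClosedEmbedding s).1.injective (Prod.ext
          (a₁.trans ((mk_eq_iff_iso o₁.lat o₁.cuts.ne hN.tight₁.1 (fun _ a => a.1.1.2.1) b₁
            (x' := ⟨_, (eqL₁ s F _ _).maps hz⟩) r₁).2 (.refl _)))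
          (a₂.trans ((mk_eq_iff_iso o₂.lat o₂.cuts.ne hN.tight₂.1 (fun _ a => a.1.1.2.1) b₂
            (x' := ⟨_, (eqL₂ s F _ _).maps hz⟩) r₂).2 (.refl _))))⟩, z2⟩, z3.symm⟩
    · rintro _ ⟨z, ⟨⟨hz, -⟩, a⟩, rfl⟩ _ ⟨z', ⟨⟨hz', -⟩, a'⟩, rfl⟩ p
      exact CQ.part_eq hz.1.1 hz'.1.1 (a.trans a'.symm) (a ▸ r :) p

end Ch

namespace Fam

variable [DecidableEq R] {k D : ℕ} {g g₁ g₂ : ℤ} {d d₁ d₂ : R → ℤ}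

theorem At.par {u : ν → J → ℕ} {y : F.Mod κ k D g d u} {m : AM Λ R J ν κ} (h : F.At y m) :
    ∃ a, Ch.parM F _ y = Quo.mk _ ⟨m.l, a⟩ :=
  let ⟨x, a, b⟩ := h
  ⟨b.1 ▸ x.2.1.1.1, a ▸ congrArg (Quo.mk _) (Subtype.ext b.1)⟩

theorem HSB.stra (h : F.Nice 0) (hA : F.Abs) (hk : F.Big k) (hD : F.BigD k D) : ∃ K₀ b,
    ∀ (ν κ : Type) [Fintype ν] [Fintype κ] (g : ℤ) (d : R → ℤ),
      ∃ (U O : Set ((F.sch ν κ k D g d).WF ν κ Λ)) (N n : ℕ),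
      (F.sch ν κ k D g d).Ok F (F.tdeg (F.sch ν κ k D g d)) K₀ ℓs b U ∧
      Ch.Stra F ((F.sch ν κ k D g d).main κ F (0 : ν → J → ℕ)) N ∧
      Ch.Vd F (F.tdeg (F.sch ν κ k D g d)) ((F.sch ν κ k D g d).cyc κ F 0) O O n ∧
      PrB F.B ((F.sch ν κ k D g d).main κ F (0 : ν → J → ℕ)) ∧
      (F.sch ν κ k D g d).cyc κ F 0 = (F.sch ν κ k D g d).adm ν κ F := by
  obtain ⟨K₀, a⟩ := h.reg
  obtain ⟨b, c⟩ := h.sm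
  obtain ⟨_, _, _, _, t⟩ := h.sh
  refine ⟨K₀, b, fun ν κ _ _ g d => ?_⟩
  obtain ⟨U, o⟩ := h.toGood.ok' ν κ a c hk hD g d
  have e : (F.sch ν κ k D g d).main κ F (0 : ν → J → ℕ) = (F.sch ν κ k D g d).adm ν κ F :=
    Set.ext fun _ => and_iff_left fun _ c e => (e (hA.1 c)).elim
  have e' : (F.sch ν κ k D g d).cyc κ F 0 = (F.sch ν κ k D g d).adm ν κ F :=
    (o.cuts.cyc_subset_adm o.inv 0).antisymm fun _ a => ⟨subset_closure (e.ge a), a.1⟩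
  have v : Ch.Vm F _ 0 U _ := o.vd_sh h.pol t 0
  rw [Ch.Vm, e.trans e'.symm] at v
  exact ⟨U, _, _, _, o, ⟨Ch.lev_main o.inv _, fun _ a =>
    (o.num.mfd_main o.sm (o.lat.gr o.inv t 0) a).2, Ch.locAn_main o.cuts o.wt h.pol _⟩, v,
    fun x hx => ⟨hx.1.1.1, fun l hl =>
      e.ge ⟨⟨hl, hx.1.1.2⟩, hx.1.2.1, fun _ _ => hA.2.ge trivial, hx.1.2.2.2⟩⟩, e'⟩

/-- **decompositions in the absolute theory** -/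
theorem exists_dcm (h : F.Nice 0) (hA : F.Abs) (hk : F.Big k) (hD : F.BigD k D)
    (hg : g₁ + g₂ = g + 1) (hd : d₁ + d₂ = d) {b' : ℕ} (hB : BsOk F.actL F.B b')
    [P291Z.Nice (F.Mod κ k D g d (0 : ν → J → ℕ))]
    [P291Z.Nice (F.Mod κ₁ k D g₁ d₁ (0 : ν₁ → J → ℕ))]
    [P291Z.Nice (F.Mod κ₂ k D g₂ d₂ (0 : ν₂ → J → ℕ))]
    [IsAct F.actL F.B] [P291Z.Nice (F.Bs F.B)] {Δ : Coch (F.Bs F.B × F.Bs F.B)}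
    (hΔ : IsDB F.actL F.B b' Δ) : ∃ (Q : Type) (_ : TopologicalSpace Q) (_ : P291Z.Nice Q)
      (Ψ : C(Q, F.Mod κ k D g d (0 : ν → J → ℕ)))
      (Φ : C(Q, F.Mod κ₁ k D g₁ d₁ (0 : ν₁ → J → ℕ) × F.Mod κ₂ k D g₂ d₂ (0 : ν₂ → J → ℕ))),
      Dcm s F.At F.At F.At (Ch.parM F _) (Ch.parM F _) (fun q => hcls (Ch.psiF q))
        (fun q => hcls (Ch.psiF q)) (fun q => hcls (Ch.psiF q)) (F.vir κ k D g d 0) Ψ Φ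
        (gys Φ (pull (Prod.map (Ch.parM F _) (Ch.parM F _)) Δ)
          (cross Prod.fst Prod.snd (F.vir κ₁ k D g₁ d₁ 0) (F.vir κ₂ k D g₂ d₂ 0))) := by
  obtain ⟨K₀, b, a⟩ := HSB.stra h hA hk hD
  obtain ⟨U, O, N, n, o, -, v, -, e⟩ := a ν κ g d
  obtain ⟨U₁, -, N₁, -, o₁, s₁, -, -, e₁⟩ := a ν₁ κ₁ g₁ d₁
  obtain ⟨U₂, -, N₂, -, o₂, s₂, -, p₂, e₂⟩ := a ν₂ κ₂ g₂ d₂
  exact @Ch.HSB.dcm _ _ _ _ _ _ _ _ _ _ _ _ _ _ _ _ _ _ _ _ _ _ _ _ _ s F _ _ _ _ _ _ _ _ _ _ _ _ _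
    _ _ (F.sch_re ν κ k D g d ν₁ κ₁ g₁ d₁) (F.sch_re ν κ k D g d ν₂ κ₂ g₂ d₂) _ _ rfl rfl _ _ _ _ _
    (qn (s := s) hk hD hg hd) o o₁ o₂ s₁ s₂ p₂ hB v e e₁ e₂ _ (fun _ _ => At.typ)
    (exists_dec hk hD hg hd) _ _ ‹_› ‹_› _ _ hΔ

end Fam

end Vale.Agent.P269
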