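import Vale.Agent.P269.LG.HSE
import Vale.Agent.P269.LG.Amb
import Vale.Agent.P269.Glu.PrCn
import Vale.Agent.P269.Glu.PrPush

/-! Localised virtual classes of the spaces of decomposed curves. -/

set_option linter.unusedSectionVars false
set_option linter.style.haveILetI false

namespace Vale.Agent.P269

open P291Z Set Function Topology Filter Module Base Cv Holo Vir Ch Ch.KD Orb LG.HSE

variable {S Λ R J K ι ν κ ν₁ κ₁ ν₂ κ₂ : Type} [Fintype S] [Fintype Λ] [Fintype R] [Fintype J]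
  [Fintype K] [Fintype ι] [DecidableEq ι] [Fintype ν] [Fintype κ]
  [Fintype ν₁] [Fintype κ₁] [Fintype ν₂] [Fintype κ₂] {F : Fam S Λ R J K} {K₀ : Set K} {b b' : ℕ}

namespace Ch.QZ

variable {ch : Ch ι J} {n₁ n₂ : Nm ι J} {s : Sv ν κ ν₁ κ₁ ν₂ κ₂} {e : K → ι → ℕ} {ℓ : R → ι → ℤ}
  {N₁ N₂ d : ℕ} {U₁ Z₁ : Set ((ch.re n₁).WF ν₁ κ₁ Λ)} {U₂ Z₂ : Set ((ch.re n₂).WF ν₂ κ₂ Λ)}
  {Z O M : Set (ch.WF ν κ Λ)} (h : QZ s F e K₀ ℓ b b' U₁ Z₁ U₂ Z₂ N₁ N₂ Z O M d)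
include h

theorem mapsL : MapsTo Prod.fst (LQ s F (clo F Z₁) (clo F Z₂)) (ch.solF ν κ F ∩ clo F Z) :=
  fun _ a => ⟨a.2, (h.clo_eq.le a.1).2⟩

theorem mem_LQ {z : ch.WQ n₁ n₂ ν κ ν₁ κ₁ ν₂ κ₂ Λ} (hz : z ∈ CQ s)
    (a : z.1 ∈ ch.solF ν κ F ∩ clo F Z) : z ∈ LQ s F (clo F Z₁) (clo F Z₂) :=
  ⟨h.clo_eq.ge ⟨hz, a.2⟩, a.1⟩

theorem bs_O : O ⊆ ch.bsF ν κ Λ := fun _ a => (h.vd.dom.subset a).2.2.1

theorem opnQ : ∃ V, IsOpen V ∧ (CQ s ∩ Prod.fst ⁻¹' O : Set (ch.WQ n₁ n₂ ν κ ν₁ κ₁ ν₂ κ₂ Λ)) =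
    ZQ s F (clo F Z₁) (clo F Z₂) ∩ V :=
  let ⟨V, v, k⟩ := h.vd.dom.opn
  ⟨Prod.fst ⁻¹' V, v.preimage continuous_fst, by rw [h.clo_eq, k, preimage_inter, inter_assoc]⟩

theorem ivtQ : Ivt (actQ s F.toWt : ch.AQ n₁ n₂ ν κ S → ch.WQ n₁ n₂ ν κ ν₁ κ₁ ν₂ κ₂ Λ → _)
    (CQ s ∩ Prod.fst ⁻¹' O) := fun c hc z a =>
  ⟨ivt_CQ c hc z a.1, h.vd.dom.isAct.mem _ (AP.isUnit_iff.1 hc).1 _ a.2⟩

theorem gdQ : ∃ n, (ch.kdPQ n₁ n₂ ν κ ν₁ κ₁ ν₂ κ₂ F e).Gd (actQ s F.toWt)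
    (LQ s F (clo F Z₁) (clo F Z₂)) (CQ s ∩ Prod.fst ⁻¹' O) n (ch.rk F ℓ K₀).toNat :=
  let ⟨_, v, k⟩ := h.opnQ
  let ⟨_, c⟩ := h.pcy s
  h.std.gdQ (fun _ a => Dom.subset_dom h.vd.adm h.vd.dom a.2) h.ivtQ
    (k ▸ c.lc.inter v.isLocallyClosed) (prp_CQ (PrMain.prp h.vd) h.vd.dom.isAct.mem)
    (Set.ext fun _ => ⟨fun a => ⟨⟨a.1.1, h.vd.dom.sub (h.mapsL a)⟩, a.2⟩,
      fun a => h.mem_LQ a.1.1 ⟨a.2, h.vd.dom.subset a.1.2⟩⟩)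

theorem etaQ : Eta (actQ s F.toWt) (actF F.toWt)
    (CQ s ∩ Prod.fst ⁻¹' O : Set (ch.WQ n₁ n₂ ν κ ν₁ κ₁ ν₂ κ₂ Λ)) O
    (fun a : ch.AQ n₁ n₂ ν κ S => a.1) Prod.fst :=
  ⟨eqM_fstQ fun _ a => a.2, fun _ _ => ⟨Prod.fst, analyticAt_fst, .of_forall fun _ _ => rfl⟩,
    fun c hc => ⟨(c, 1), AP.isUnit_iff.2 ⟨hc, isUnit_one⟩, rfl⟩, fun c hc p z a q => Prod.ext p
      (CQ.fre (Wg := F.toWt) a.1 _ (AP.isUnit_iff.1 hc).2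
        ((congrArg (actQ s F.toWt · z) (Prod.ext p rfl : c = (1, c.2))).symm.trans q)),
    fun _ a => let ⟨σ, p, q, r⟩ := CQ.sec h.qn a.1
      ⟨σ, p, q, (r.filter_mono nhdsWithin_le_nhds).mp (eventually_mem_nhdsWithin.mono fun _ u v =>
        let ⟨p, q⟩ := v (h.bs_O u)
        ⟨⟨p, mem_preimage.2 (mem_of_eq_of_mem q u)⟩, q⟩)⟩⟩

variable (hm : Mf (ch.AF ν κ S) O d)
include hm

theorem mfQ : Mf (ch.AQ n₁ n₂ ν κ S)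
    (CQ s ∩ Prod.fst ⁻¹' O : Set (ch.WQ n₁ n₂ ν κ ν₁ κ₁ ν₂ κ₂ Λ)) d := fun _ a => by
  rw [finrank_AQ, add_right_comm]
  exact CQ.mfdAt_pre h.qn a.1 h.bs_O (hm _ a.2)

theorem strQ : Str (actQ s F.toWt : ch.AQ n₁ n₂ ν κ S → ch.WQ n₁ n₂ ν κ ν₁ κ₁ ν₂ κ₂ Λ → _)
    (CQ s ∩ Prod.fst ⁻¹' O) d := by
  refine ⟨h.ivtQ, fun z => (h.mfQ hm z z.2).2, fun z a => ?_⟩
  obtain ⟨σ, p, q, r⟩ := CQ.sec h.qn a.1
  rw [← q]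
  refine mem_closure_of_frequently_of_tendsto (((mem_closure_iff_frequently.1 (closure_minimal
    h.vd.cyc.free isClosed_closure (h.vd.cyc.dense a.2))).and_eventually r).mono fun x u => ?_)
    p.continuousAt
  have k := h.vd.cyc.sub u.1.1
  obtain ⟨v, w⟩ := u.2 (h.bs_O k)
  exact ⟨⟨v, mem_preimage.2 (mem_of_eq_of_mem w k)⟩, CQ.freQ v (w.symm ▸ u.1.2)⟩

variable [IsAct F.actL F.B] [Nice (F.Bs F.B)] [Nice (ModS F (clo F Z₁))]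
  [Nice (ModS F (clo F Z₂))] [Nice (ModS F (clo F Z))] [Nice (ModQ s F (clo F Z₁) (clo F Z₂))]
  {Δ : Coch (F.Bs F.B × F.Bs F.B)} {Y Y' : Type} [TopologicalSpace Y] [TopologicalSpace Y'] [Nice Y]
  [Nice Y'] [CompactSpace Y']

/-- **localised virtual classes of decomposed curves** -/
theorem eta (hΔ : IsDB F.actL F.B b' Δ) {i : Y → ModS F (clo F Z)}
    {i' : Y' → ModQ s F (clo F Z₁) (clo F Z₂)} (hi : IsClosedEmbedding i)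
    (hi' : IsClosedEmbedding i') {φ : Y' → Y}
    (sq : ∀ y, (eqM_fstQ (s := s) (Wg := F.toWt) h.mapsL).map (i' y) = i (φ y))
    (hr : Isol (range i') ((eqM_fstQ (s := s) (Wg := F.toWt) h.mapsL).map ⁻¹' range i)) :
    ∃ c : Y → ℕ, IsLocallyConstant c ∧ (∀ y x, i y = Quo.mk _ x →
      (part '' {z | (∃ hz : z ∈ LQ s F (clo F Z₁) (clo F Z₂), Quo.mk _ ⟨z, hz⟩ ∈ range i') ∧
        z.1 = x.1}).ncard = c y) ∧ ∀ u (d' : ℤ), LCo (range i) u → IsDeg (2 * d') u →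
      push φ (lgys i' (pull (eqM_fstQ (s := s) (Wg := F.toWt) h.mapsL).map u)
        (gys (ΦQ s F (clo F Z₁) (clo F Z₂)) (pull (Prod.map (parM F _) (parM F _)) Δ)
          (cross Prod.fst Prod.snd (virF F e (clo F Z₁)) (virF F e (clo F Z₂))))) =
        cap (hcls (fn fun y => (c y : ℂ))) (lgys i u (virF F e (clo F Z))) := by
  obtain ⟨n, g⟩ := h.vd.gd h.std
  obtain ⟨n', g'⟩ := h.gdQ
  obtain ⟨c, c₁, c₂, c₃⟩ := h.etaQ.main g g' hm (h.mfQ hm) (eqM_fstQ h.mapsL) hi hi' sq hr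
  rw [((h.isV s hΔ).isW g' h.opnQ (h.strQ hm)).eq_vr g' h.opnQ (h.mfQ hm), h.vd.virF_vr h.std]
  refine ⟨c, c₁, fun y x k => (c₂ y x k).ncard part fun z ⟨p, _⟩ z' ⟨p', _⟩ q q' =>
    ⟨fun r => ?_, ?_⟩, c₃⟩
  · obtain ⟨a, u, v⟩ := CQ.uniq (Wg := F.toWt) h.qn p.1.1 p'.1.1 (q.trans q'.symm) r
    exact ⟨(1, a), PrU.unit u, rfl, v⟩
  · rintro ⟨a, u, v, rfl⟩
    exact ((congrArg (fun a => part (actQ s F.toWt a z)) (Prod.ext v rfl : a = (1, a.2))).trans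
      (part_actA (AP.isUnit_iff.1 u).2)).symm

end Ch.QZ

theorem Ch.Ok.stra0 {ch : Ch ι J} {e : K → ι → ℕ} {ℓ : R → ι → ℤ} {U : Set (ch.WF ν κ Λ)}
    (h : ch.Ok F e K₀ ℓ b U) (hA : F.Abs) :
    Stra F (ch.main κ F (0 : ν → J → ℕ)) (ch.dimM ν κ F b 0).toNat :=
  have hG : Gr ch F (0 : ν → _) (Fin.elim0 : Fin 0 → J) 0 1 :=
    h.lat.gr h.inv (δ := 0) ⟨nofun, linearIndependent_empty_type, nofun,
      fun _ a b => (b (hA.1 a)).elim, fun _ _ _ => ⟨analyticAt_const, one_ne_zero⟩,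
      fun _ a b => (b (hA.1 a)).elim, fun _ a b => (b (hA.1 a)).elim, fun _ _ _ _ _ =>
        iff_of_true (hA.2.ge (mem_univ _)) fun _ a b => (b (hA.1 a)).elim, fun _ _ => rfl⟩ 0
  ⟨lev_main h.inv _, fun _ a => (h.num.mfd_main h.sm hG a).2, locAn_main h.cuts h.wt
    ⟨∅, nofun, hA.2.trans (eq_univ_of_forall fun _ _ e => nomatch e).symm⟩ _⟩

/-- the standard charts of an absolute family -/
theorem Fam.qz0 [DecidableEq R] {k D : ℕ} {g g₁ g₂ : ℤ} {d d₁ d₂ : R → ℤ} (s : Sv ν κ ν₁ κ₁ ν₂ κ₂)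
    (h : F.Good) (r : F.Reg K₀) (m : F.Sm b) (hA : F.Abs) (hk : F.Big k) (hD : F.BigD k D)
    (c : BsOk F.actL F.B b') (hg : g₁ + g₂ = g + 1) (hd : d₁ + d₂ = d) :
    ∃ U₁ U₂ N₁ N₂ O M n, QZ (ch := F.sch ν κ k D g d) (n₁ := F.nms ν₁ κ₁ k D g₁ d₁)
      (n₂ := F.nms ν₂ κ₂ k D g₂ d₂) s F (F.tdeg (F.sch ν κ k D g d)) K₀ ℓs b b'
      U₁ (Ch.main _ κ₁ F 0) U₂ (Ch.main _ κ₂ F 0) N₁ N₂ (Ch.main _ κ F 0) O M n ∧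
      Mf ((F.sch ν κ k D g d).AF ν κ S) O n := by
  obtain ⟨U, o⟩ := h.ok' ν κ r m hk hD g d
  obtain ⟨U₁, o₁⟩ := h.ok' ν₁ κ₁ r m hk hD g₁ d₁
  obtain ⟨U₂, o₂⟩ := h.ok' ν₂ κ₂ r m hk hD g₂ d₂
  obtain ⟨O, M, v, w⟩ := LG.abs_vd o hA
  exact ⟨U₁, U₂, _, _, O, M, _, ⟨⟨Fam.qn (s := s) hk hD hg hd, o.toStd, o₁, o₂, o₁.stra0 hA,
    o₂.stra0 hA, fun x a => ⟨a.1.1.1, fun _ p => ⟨⟨⟨p, a.1.1.2⟩, a.1.2.1,
      fun _ _ => hA.2.ge (mem_univ _), a.1.2.2.2⟩, a.2⟩⟩, c⟩, o.lat, fun _ a => a.1.1, v,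
    Set.ext fun _ => ⟨fun a => ⟨a.1, (CQ.main_iff a.1 o.inv a.2.1 0).2 a.2.2⟩,
      fun a => ⟨a.1, a.2.1, (CQ.main_iff a.1 o.inv a.2.1 0).1 a.2⟩⟩⟩, w⟩

end Vale.Agent.P269
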