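import Vale.Agent.P269.LG.HSA
import Vale.Agent.P269.Glu.Fnd
import Vale.Agent.P269.Loc.Deg
import Vale.Agent.P269.Loc.Core

/-! Virtual classes along finite etale maps. -/

set_option linter.unusedSectionVars false
set_option linter.style.haveILetI false

namespace Vale.Agent.P269.LG.HSE

open Set Function Topology Filter Module Vale.Agent.P291Z Vale.Agent.P269.Orb Holo Ch Ch.KD

variable {A A' W W' P : Type} [NormedRing A] [NormedAlgebra ℂ A] [NormedAddCommGroup W]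
  [NormedSpace ℂ W] [NormedRing A'] [NormedAlgebra ℂ A'] [NormedAddCommGroup W'] [NormedSpace ℂ W']
  [FiniteDimensional ℂ A] [FiniteDimensional ℂ W] [FiniteDimensional ℂ A'] [FiniteDimensional ℂ W']
  [AddCommGroup P] [Module ℂ P] [TopologicalSpace P] [IsTopologicalAddGroup P] [ContinuousSMul ℂ P]
  [T2Space P] {act : A → W → W} {act' : A' → W' → W'} {Z O O₀ : Set W} {Z' O' O₀' B : Set W'}
  {θ : A' → A} {f : W' → W} {d n r n' r' : ℕ}

/-- an equivariant map with analytic local sections through every point -/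
structure Eta (act' : A' → W' → W') (act : A → W → W) (O' : Set W') (O : Set W) (θ : A' → A)
    (f : W' → W) : Prop where
  eqm : EqM act' act O' O θ f
  hol : ∀ z ∈ O', HolOn O' f z
  usurj : ∀ b, IsUnit b → ∃ a, IsUnit a ∧ θ a = b
  free : ∀ a, IsUnit a → θ a = 1 → ∀ z ∈ O', act' a z = z → a = 1
  sec : ∀ z ∈ O', ∃ σ : W → W', AnalyticAt ℂ σ (f z) ∧ σ (f z) = z ∧
    ∀ᶠ y in 𝓝[O] f z, σ y ∈ O' ∧ f (σ y) = y

/-- the part of the fibre of `x` in `B` consists of `n` orbits of the kernel -/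
def Cn (act' : A' → W' → W') (θ : A' → A) (f : W' → W) (B : Set W') (x : W) (n : ℕ) : Prop :=
  ∃ e : Fin n → W', (∀ k, e k ∈ B ∧ f (e k) = x) ∧
    ∀ z ∈ B, f z = x → ∃! k, ∃ a, IsUnit a ∧ θ a = 1 ∧ act' a (e k) = z

theorem Cn.congr {B' : Set W'} {x : W} (h : Cn act' θ f B x n)
    (e : ∀ z, f z = x → (z ∈ B ↔ z ∈ B')) : Cn act' θ f B' x n :=
  let ⟨u, h1, h2⟩ := h
  ⟨u, fun k => ⟨(e _ (h1 k).2).1 (h1 k).1, (h1 k).2⟩, fun z hz a => h2 z ((e z a).2 hz) a⟩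

/-- counting with a complete invariant -/
theorem Cn.ncard {α : Type} {x : W} (h : Cn act' θ f B x n) (p : W' → α)
    (hp : ∀ z ∈ B, ∀ z' ∈ B, f z = x → f z' = x →
      (p z = p z' ↔ ∃ a, IsUnit a ∧ θ a = 1 ∧ act' a z = z')) :
    (p '' {z | z ∈ B ∧ f z = x}).ncard = n := by
  obtain ⟨u, h1, h2⟩ := h
  have h3 : p '' {z | z ∈ B ∧ f z = x} = range (p ∘ u) := Subset.antisymm (by
    rintro _ ⟨z, hz, rfl⟩
    obtain ⟨k, hk, -⟩ := h2 z hz.1 hz.2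
    exact ⟨k, (hp _ (h1 k).1 z hz.1 (h1 k).2 hz.2).2 hk⟩) (by
    rintro _ ⟨k, rfl⟩
    exact ⟨_, h1 k, rfl⟩)
  rw [h3, ncard_range_of_injective (f := p ∘ u) fun k l e => (h2 _ (h1 l).1 (h1 l).2).unique
    ((hp _ (h1 k).1 _ (h1 l).1 (h1 k).2 (h1 l).2).1 e)
    ((hp _ (h1 l).1 _ (h1 l).1 (h1 l).2 (h1 l).2).1 rfl), Nat.card_fin]

theorem Eta.mono (h : Eta act' act O' O θ f) (e' : ∃ U, IsOpen U ∧ O₀' = O' ∩ U) (e : O₀ ⊆ O)
    (m : MapsTo f O₀' O₀) : Eta act' act O₀' O₀ θ f := by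
  obtain ⟨U, hU, rfl⟩ := e'
  refine ⟨h.eqm.mono inter_subset_left m, fun z hz => ?_, h.usurj,
    fun a ha b z hz => h.free a ha b z hz.1, fun z hz => ?_⟩
  · obtain ⟨Φ, a, b⟩ := h.hol z hz.1
    exact ⟨Φ, a, b.mono fun s c hs => c hs.1⟩
  · obtain ⟨σ, a, b, c⟩ := h.sec z hz.1
    refine ⟨σ, a, b, ?_⟩
    filter_upwards [c.filter_mono (nhdsWithin_mono _ e), mem_nhdsWithin_of_mem_nhds
      (a.continuousAt.eventually (hU.mem_nhds (b.symm ▸ hz.2)))] with y h1 h2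
    exact ⟨⟨h1.1, h2⟩, h1.2⟩

section mf

variable [IsAct act O] [IsAct act' O']

/-- images of slices are charts -/
theorem Eta.rep (h : Eta act' act O' O θ f) {φ : (Fin d → ℂ) → Holo.Sp act O}
    {φ' : (Fin d → ℂ) → Holo.Sp act' O'} (h₀ : IsSlice Aˣ Holo.Sp.val φ)
    (h' : IsSlice A'ˣ Holo.Sp.val φ') (h0 : f (φ' 0).val = (φ 0).val) :
    Rep (h.eqm.map ∘ Holo.Sp.mk ∘ φ') (Holo.Sp.mk ∘ φ) := by
  classical
  obtain ⟨ρ, c, eρ⟩ := h.eqm.hom
  obtain ⟨w, κ₀, a1, a2, a3, a4⟩ := h₀.exists_coord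
  obtain ⟨w', κ, b1, b2, b3, b4⟩ := h'.exists_coord
  obtain ⟨Φ, c1, c2⟩ := h.hol _ (φ' 0).val_mem
  obtain ⟨σ, s1, s2, s3⟩ := h.sec _ (φ' 0).val_mem
  rw [h0] at s1 s2 s3
  have s4 := (tendsto_nhdsWithin_iff.2 ⟨h₀.2.1.continuousAt.tendsto,
    .of_forall fun z => (φ z).val_mem⟩).eventually s3
  let u : (Fin d → ℂ) → Holo.Sp act' O' := fun z =>
    if k : σ (φ z).val ∈ O' then .of act' _ k else φ' 0
  have s5 : ∀ᶠ z in 𝓝 0, σ (φ z).val = (u z).val := s4.mono fun z hz =>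
    (congrArg Holo.Sp.val (dif_pos hz.1 : u z = _)).symm
  have e : ∀ᶠ z in 𝓝 0, f (u z).val = (φ z).val := (s4.and s5).mono fun z hz => hz.2 ▸ hz.1.2
  have u0 : u 0 = φ' 0 := Holo.Sp.ext (s5.self_of_nhds.symm.trans s2)
  have hu : AnalyticAt ℂ (fun z => (u z).val) 0 :=
    (AnalyticAt.comp_of_eq s1 h₀.2.1 rfl).congr s5
  have t1 : Tendsto u (𝓝 0) (𝓝 (φ' 0)) :=
    u0 ▸ Holo.Sp.isEmbedding_val.isInducing.continuousAt_iff.2 hu.continuousAt
  have z0 : w' (u 0).val = 0 := by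
    have := b2.self_of_nhds
    rwa [one_smul, ← u0] at this
  have an : AnalyticAt ℂ (fun z => w' (u z).val) 0 :=
    AnalyticAt.comp_of_eq (g := w') b1 hu (congrArg Holo.Sp.val u0)
  have t2 : Tendsto (fun z => (φ' (w' (u z).val)).val) (𝓝 0) (𝓝 (φ' 0).val) :=
    h'.2.1.continuousAt.tendsto.comp (an.continuousAt.tendsto.mono_right (congrArg 𝓝 z0).le)
  have t3 : Tendsto (fun z => ((ρ (κ (u z)))⁻¹, z)) (𝓝 0) (𝓝 (1, 0)) := by
    have := ((c.tendsto 1).comp (b3.comp t1)).inv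
    rw [map_one, inv_one] at this
    exact this.prodMk_nhds tendsto_id
  have f0 : Φ (φ' 0).val = (φ 0).val := (c2.self_of_nhds (φ' 0).val_mem).symm.trans h0
  have an' : AnalyticAt ℂ (fun z => w (Φ (φ' z).val)) 0 :=
    AnalyticAt.comp_of_eq (g := w) a1 (AnalyticAt.comp_of_eq (g := Φ) c1 h'.2.1 rfl) f0
  have li : ∀ᶠ z in 𝓝 0, w (Φ (φ' (w' (u z).val)).val) = z := by
    filter_upwards [t1.eventually b4, t2.eventually c2, t3.eventually a2, e] with z k1 k2 k3 k4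
    have k5 : ρ (κ (u z)) • (Holo.Sp.of act _ (h.eqm.maps (φ' (w' (u z).val)).val_mem)) = φ z :=
      Holo.Sp.ext ((congrArg (act · _) (eρ _)).trans
        ((h.eqm.eqv _ (κ (u z)).isUnit _ (Holo.Sp.val_mem _)).symm.trans
          ((congrArg (fun t => f t.val) k1).trans k4)))
    rw [← k5, inv_smul_smul] at k3
    exact (congrArg w (k2 (Holo.Sp.val_mem _)).symm).trans k3
  have d1 := (HasFDerivAt.comp (0 : Fin d → ℂ) (g := fun z => w (Φ (φ' z).val))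
    (g' := fderiv ℂ (fun z => w (Φ (φ' z).val)) 0) (z0.symm ▸ an'.differentiableAt.hasFDerivAt)
    an.differentiableAt.hasFDerivAt).unique
    ((hasFDerivAt_id _).congr_of_eventuallyEq li)
  have t4 : Tendsto (fun z => Holo.Sp.of act _ (h.eqm.maps (φ' z).val_mem)) (𝓝 0) (𝓝 (φ 0)) :=
    Holo.Sp.isEmbedding_val.tendsto_nhds_iff.2 (h0 ▸ (h.eqm.cont _ (φ' 0).val_mem).tendsto.comp
      (tendsto_nhdsWithin_iff.2 ⟨h'.2.1.continuousAt.tendsto, .of_forall fun z => (φ' z).val_mem⟩))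
  refine ⟨_, posGerm_of_hasFDerivAt (by
      have := a2.self_of_nhds
      rwa [one_smul, ← f0] at this) (an'.eventually_analyticAt.mono fun _ k => k.continuousAt)
    an'.differentiableAt.hasFDerivAt (LinearMap.injective_iff_surjective.2 fun v =>
      ⟨_, DFunLike.congr_fun d1 v⟩), ?_⟩
  filter_upwards [t4.eventually a4, h'.2.1.continuousAt.eventually c2] with z k1 k2
  exact (Holo.Sp.mk_eq_iff.2 ⟨_, k1⟩).symm.trans
    (congrArg (fun t => (φ (w t)).mk) (k2 (Holo.Sp.val_mem _)))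

/-- **the degree of a proper etale map** -/
theorem Eta.push_fnd (h : Eta act' act O' O θ f) (ho : Orb Aˣ (Holo.Sp act O))
    (ho' : Orb A'ˣ (Holo.Sp act' O')) (hm : Mf A O d) (hm' : Mf A' O' d) (hp : IsPr h.eqm.map) :
    ∃ c : Quo act O → ℕ, IsLocallyConstant c ∧ (∀ x : O, Cn act' θ f O' x (c (Quo.mk act x))) ∧
      push h.eqm.map (fnd act' O' d) = cap (hcls (fn fun x => (c x : ℂ))) (fnd act O d) := by
  have hM := holOrb_of_orb ho fun x => (hm x x.2).2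
  have hM' := holOrb_of_orb ho' fun x => (hm' x x.2).2
  haveI := nice_of_orb ho
  haveI := nice_of_orb ho'
  obtain ⟨θ', cθ, eθ⟩ := h.eqm.hom
  let m : Mor (spA ho') (spA ho) := ⟨θ', fun x => ⟨f x.1, h.eqm.maps x.2⟩, cθ,
    h.eqm.cont.domRestrict.subtype_mk _, fun (g : A'ˣ) x =>
      Subtype.ext ((h.eqm.eqv _ g.isUnit _ x.2).trans (congrArg (act · _) (eθ g).symm))⟩
  have h2 : ⇑h.eqm.map = m.map := m.map_eq fun _ => rfl
  have key : ∀ (x : Quo act' O') (ψ : (Fin d → ℂ) → Holo.Sp act O), IsSlice Aˣ Holo.Sp.val ψ →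
      h.eqm.map x = (ψ 0).mk → ∃ φ' : (Fin d → ℂ) → Holo.Sp act' O', IsSlice A'ˣ Holo.Sp.val φ' ∧
        φ' 0 = (spA ho').out x ∧ Rep (h.eqm.map ∘ Holo.Sp.mk ∘ φ') (Holo.Sp.mk ∘ ψ) :=
    fun x ψ k1 k2 => by
      obtain ⟨φ', a, b⟩ := hM'.slice ((spA ho').out x)
      obtain ⟨φ, a', b'⟩ := hM.slice (.of act _ (h.eqm.maps (φ' 0).val_mem))
      refine ⟨φ', a, b, (h.rep a' a (congrArg Holo.Sp.val b').symm).trans
        (hM.rep isQuo_sp a' k1 ?_)⟩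
      rw [b', ← k2, ← (spA ho').π_out x, ← b]
      rfl
  have fin : ∀ y, (h.eqm.map ⁻¹' {y}).Finite := fun y => by
    refine (hp.pre _ isCompact_singleton).finite (IsDiscrete.of_nhdsWithin fun x hx => ?_)
    obtain ⟨t, rfl⟩ := Holo.Sp.surjective_mk y
    obtain ⟨ψ, k1, rfl⟩ := hM.slice t
    obtain ⟨φ', a, b, c⟩ := key x ψ k1 hx
    obtain rfl : x = (φ' 0).mk := by rw [b]; exact ((spA ho').π_out x).symm
    have h4 := LH.map_nhds a.1
    rw [one_smul] at h4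
    rw [le_pure_iff, ← eventually_mem_set, eventually_nhdsWithin_iff,
      ← Holo.Sp.isOpenQuotientMap_mk.map_nhds_eq, ← h4, eventually_map, eventually_map]
    filter_upwards [(continuous_snd.tendsto' _ 0 rfl).eventually
      (c.pch (hM.gch isQuo_sp k1).pch)] with p hp e'
    rw [Holo.Sp.mk_smul] at e' ⊢
    rw [hp.2 (Eq.trans e' hx.symm)]
    rfl
  obtain ⟨g, h1, h3⟩ := (hM.ori isQuo_sp).exists_fn ((hM'.deg isQuo_sp).push h.eqm.map)
  have h5 : ∀ t : Holo.Sp act O, ∃ k : ℕ, Loc.Cnt m univ t k ∧ (k : ℂ) = g t.mk := fun t => by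
    obtain ⟨k, a, b⟩ := Loc.exists_cnt m (fun (b : Aˣ) =>
      let ⟨a, k1, k2⟩ := h.usurj b b.isUnit
      ⟨k1.unit, Units.ext ((eθ _).trans k2)⟩) (fun (g : A'ˣ) t k1 k2 => Units.ext
        (h.free g g.isUnit ((eθ g).symm.trans (congrArg Units.val k1)) _ t.2
          (congrArg Subtype.val k2))) t (fin t.mk).toFinset
      fun x => h2 ▸ (fin t.mk).mem_toFinset
    refine ⟨k, a, b.trans ?_⟩
    obtain ⟨ψ, h4, rfl⟩ := hM.slice t
    obtain ⟨a, h6, h7⟩ := (hM.gch isQuo_sp h4).gen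
    have h8 := hM.val isQuo_sp h4 a 1 h6.cyc h6.pt h7
    have h9 := ev_push_finite hp (fnd act' O' d) (hM.gch isQuo_sp h4).pch (fin (ψ 0).mk).toFinset
      (fun x hx => (fin _).mem_toFinset.2 hx) 
      (fun x => (stab (spA ho').G ((spA ho').out x) : ℂ)⁻¹)
      (fun x hx => by
        obtain ⟨φ', k1, k2, τ, k3, k4⟩ := key x ψ h4 ((fin _).mem_toFinset.1 hx)
        exact ⟨Holo.Sp.mk ∘ φ', τ, _, 1, (congrArg Holo.Sp.mk k2).trans ((spA ho').π_out x),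
          (hM'.gch isQuo_sp k1).pch.cont, hM'.val isQuo_sp k1, hM'.stab_cast_ne_zero _, k3.germ,
          k3.co, k4, k2 ▸ (mul_inv_cancel₀ (hM'.stab_cast_ne_zero _)).symm⟩) h6.cyc h6.pt h7
    rw [fnd, ← h3, ev_cap_fn h1 _ h6.cyc h6.pt, comp_apply] at h9
    rw [one_mul] at h9
    exact (congrArg (_ * ·) h9.symm).trans ((mul_left_comm _ _ _).trans
      ((congrArg (_ * ·) h8).trans (mul_one _)))
  choose N h6 h7 using h5
  have h8 : (fun x => (N ((spA ho).out x) : ℂ)) = g := funext fun x =>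
    (h7 _).trans (congrArg g ((spA ho).π_out x))
  refine ⟨fun x => N ((spA ho).out x), IsLocallyConstant.desc _ (Nat.cast : ℕ → ℂ)
    (by rwa [← h8] at h1) Nat.cast_injective, fun t => ?_,
    h3.symm.trans (congrArg (fun t => cap (hcls (fn t)) _) h8.symm)⟩
  obtain ⟨u, k1, k2⟩ := (congrArg (Loc.Cnt m univ t)
    (Nat.cast_injective (R := ℂ) ((h7 t).trans (congrFun h8 _).symm))).mp (h6 t)
  refine ⟨fun k => (u k).1, fun k => ⟨(u k).2, congrArg Subtype.val (k1 k).2⟩, fun z hz e => ?_⟩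
  refine (existsUnique_congr fun k => ⟨fun ⟨γ, a, b⟩ => ?_, fun ⟨a, k3, k4, k5⟩ => ?_⟩).1
    (k2 ⟨z, hz⟩ trivial (Subtype.ext e))
  · exact ⟨_, Units.isUnit γ, (eθ γ).symm.trans (congrArg Units.val a), congrArg Subtype.val b⟩
  · exact ⟨k3.unit, Units.ext ((eθ _).trans k4), Subtype.ext k5⟩

end mf

variable {D : KD A W P} {Y Y' : Type} [TopologicalSpace Y] [TopologicalSpace Y'] [Nice Y] [Nice Y']
  [CompactSpace Y']

/-- **localised virtual classes along an etale map** -/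
theorem Eta.main (e : Eta act' act O' O θ f) (h : D.Gd act Z O n r)
    (h' : (D.pb θ f).Gd act' Z' O' n' r') (hm : Mf A O d) (hm' : Mf A' O' d)
    (g : EqM act' act Z' Z θ f) [Nice (Quo act Z)] [Nice (Quo act' Z')] {i : Y → Quo act Z}
    {i' : Y' → Quo act' Z'} (hi : IsClosedEmbedding i) (hi' : IsClosedEmbedding i') {φ : Y' → Y}
    (sq : ∀ y, g.map (i' y) = i (φ y)) (hr : Isol (range i') (g.map ⁻¹' range i)) :
    ∃ c : Y → ℕ, IsLocallyConstant c ∧ (∀ y (x : Z), i y = Quo.mk act x →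
      Cn act' θ f {z | ∃ hz : z ∈ Z', Quo.mk act' ⟨z, hz⟩ ∈ range i'} x (c y)) ∧
      ∀ u (d' : ℤ), LCo (range i) u → IsDeg (2 * d') u →
        push φ (lgys i' (pull g.map u) ((D.pb θ f).vr act' Z' O' (h'.fu d))) =
          cap (hcls (fn fun y => (c y : ℂ))) (lgys i u (D.vr act Z O (h.fu d))) := by
  haveI := h.dom.isAct
  haveI := h'.dom.isAct
  haveI := h.nice
  haveI := h'.nice
  obtain ⟨k, ι, hk, -, -, h1⟩ := h.exists_isKP
  obtain ⟨θ', cθ, eθ⟩ := e.eqm.hom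
  let m : Mor h'.dom.sp h.dom.sp := ⟨θ', fun x => ⟨f x.1, e.eqm.maps x.2⟩, cθ,
    e.eqm.cont.domRestrict.subtype_mk _, fun (g : A'ˣ) x =>
      Subtype.ext ((e.eqm.eqv _ g.isUnit _ x.2).trans (congrArg (act · _) (eθ g).symm))⟩
  have h2 : ⇑e.eqm.map = m.map := m.map_eq fun _ => rfl
  have hk' : h'.dom.IsKP (k.pb m) ι := isKP_pb.2 ((funext eθ : _ = _) ▸ hk.pb m)
  have z := h.dom.isZ hk
  have z' := h'.dom.isZ hk'
  have h3 : ∀ x, e.eqm.map (Quo.incl act' h'.dom.sub x) = Quo.incl act h.dom.sub (g.map x) :=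
    fun x => Quot.inductionOn x fun _ => rfl
  have h4 : e.eqm.map ⁻¹' range (Quo.incl act h.dom.sub) ⊆ range (Quo.incl act' h'.dom.sub) :=
    fun x hx => (h'.dom.range_incl hk').ge ((k.Z_pb m).ge (h2 ▸ (h.dom.range_incl hk).le hx))
  obtain ⟨U', U, o', o, s', s, mp, sb, pr⟩ := Loc.exists_proper_nhds e.eqm.map.continuous
    (isCompact_range (h'.isClosedEmbedding.comp hi').continuous)
    (K := range (Quo.incl act h.dom.sub ∘ i)) (by
      rintro _ ⟨y, rfl⟩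
      exact ⟨φ y, ((h3 _).trans (congrArg _ (sq y))).symm⟩) (by
      rw [range_comp _ i']
      refine ((hr.mono (B' := Quo.incl act' h'.dom.sub ⁻¹' (e.eqm.map ⁻¹'
        range (Quo.incl act h.dom.sub ∘ i))) fun x ⟨y, hy⟩ => ⟨y, h.isClosedEmbedding.injective
          (hy.trans (h3 x))⟩).image h'.isClosedEmbedding.isInducing).mono ?_
      rintro x ⟨y, hy⟩
      exact ⟨h4 ⟨i y, hy⟩, y, hy⟩)
  have op : ∀ {A W : Type} [NormedRing A] [NormedAlgebra ℂ A] [NormedAddCommGroup W]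
      [NormedSpace ℂ W] {act : A → W → W} {O : Set W} [IsAct act O] {U : Set (Quo act O)},
      IsOpen U → ∃ V, IsOpen V ∧ Ivt act (O ∩ V) ∧ ∀ x : O, x.1 ∈ V ↔ Quo.mk act x ∈ U :=
    fun {A W _ _ _ _ act O _ U} hU => by
      obtain ⟨V, a, b⟩ := isOpen_induced_iff.1 (hU.preimage (Holo.Sp.continuous_mk (act := act)))
      have c : ∀ x : O, x.1 ∈ V ↔ Quo.mk act x ∈ U := fun x => Set.ext_iff.1 b x
      refine ⟨V, a, fun _ ⟨g, hg⟩ x hx => ⟨IsAct.mem _ ⟨g, hg⟩ _ hx.1, ?_⟩, c⟩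
      subst hg
      exact (c (g • Holo.Sp.of act x hx.1 : Holo.Sp act O)).2
        ((congrArg (· ∈ U) (Holo.Sp.mk_smul g (.of act x hx.1))).mpr ((c ⟨x, hx.1⟩).1 hx.2))
  obtain ⟨V, v1, v2, v3⟩ := op o
  obtain ⟨V', v1', v2', v3'⟩ := op o'
  have g₀ := h.mono inter_subset_left v2 (h.lc.inter v1.isLocallyClosed) rfl
  have g₀' := h'.mono inter_subset_left v2' (h'.lc.inter v1'.isLocallyClosed) rfl
  haveI := g₀.dom.isAct
  haveI := g₀'.dom.isAct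
  haveI := g₀.nice
  haveI := g₀'.nice
  have e₀ : Eta act' act (O' ∩ V') (O ∩ V) θ f := e.mono ⟨V', v1', rfl⟩ inter_subset_left
    fun x hx => ⟨e.eqm.maps hx.1, (v3 ⟨_, e.eqm.maps hx.1⟩).2 (mp ((v3' ⟨x, hx.1⟩).1 hx.2))⟩
  have j₀ := Quo.isOpenEmbedding_incl (act := act) (inter_subset_left : O ∩ V ⊆ O) ⟨V, v1, rfl⟩
  have j₀' := Quo.isOpenEmbedding_incl (act := act') (inter_subset_left : O' ∩ V' ⊆ O')
    ⟨V', v1', rfl⟩
  have r₀ : ∀ x ∈ U, x ∈ range (Quo.incl act (inter_subset_left : O ∩ V ⊆ O)) := fun x =>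
    Quot.inductionOn x fun x hx => ⟨Quo.mk act ⟨x, x.2, (v3 x).2 hx⟩, rfl⟩
  have r₀' : ∀ x, x ∈ U' ↔ x ∈ range (Quo.incl act' (inter_subset_left : O' ∩ V' ⊆ O')) := fun x =>
    ⟨Quot.inductionOn x fun x hx => ⟨Quo.mk act' ⟨x, x.2, (v3' x).2 hx⟩, rfl⟩, fun ⟨y, hy⟩ =>
      hy ▸ Quot.inductionOn y fun y => (v3' ⟨y, y.2.1⟩).1 y.2.2⟩
  have s₀ : ∀ x, e.eqm.map (Quo.incl act' inter_subset_left x) =
      Quo.incl act inter_subset_left (e₀.eqm.map x) := fun x => Quot.inductionOn x fun _ => rfl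
  have p₀ : IsPr e₀.eqm.map := ⟨e₀.eqm.map.continuous, fun C hC => by
    have := pr _ (by
      rintro _ ⟨x, -, rfl⟩
      exact Quot.inductionOn x fun y => (v3 ⟨y, y.2.1⟩).1 y.2.2) (hC.image j₀.continuous)
    rw [j₀'.isEmbedding.isCompact_iff]
    refine (congrArg IsCompact (Subset.antisymm ?_ ?_)).mp this
    · rintro x ⟨a, y, b, c⟩
      obtain ⟨w, rfl⟩ := (r₀' x).1 a
      exact ⟨w, show _ ∈ C from j₀.injective (c.trans (s₀ w)) ▸ b, rfl⟩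
    · rintro _ ⟨w, a, rfl⟩
      exact ⟨(r₀' _).2 ⟨w, rfl⟩, _, a, (s₀ w).symm⟩⟩
  obtain ⟨m₀, f₀⟩ := h.res_fu hm g₀ inter_subset_left ⟨V, v1, rfl⟩
  obtain ⟨m₀', f₀'⟩ := h'.res_fu hm' g₀' inter_subset_left ⟨V', v1', rfl⟩
  obtain ⟨c, c1, c2, c3⟩ := e₀.push_fnd g₀.dom.orb g₀'.dom.orb m₀ m₀' p₀
  choose a ha using fun y => r₀ _ (s ⟨y, rfl⟩)
  have ca : Continuous a := j₀.isEmbedding.continuous_iff.2
    ((funext ha : _ ∘ a = _) ▸ (h.isClosedEmbedding.comp hi).continuous)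
  refine ⟨c ∘ a, c1.comp_continuous ca, fun y x hx => ?_, fun u d' hu hd => ?_⟩
  · have x1 : x.1 ∈ O ∩ V := ⟨h.dom.sub x.2, (v3 ⟨x, h.dom.sub x.2⟩).2
      (s ⟨y, congrArg (Quo.incl act h.dom.sub) hx⟩)⟩
    have x2 : a y = Quo.mk act ⟨x, x1⟩ :=
      j₀.injective ((ha y).trans (congrArg (Quo.incl act h.dom.sub) hx))
    rw [comp_apply, x2]
    refine (c2 ⟨x, x1⟩).congr fun w hw => ⟨fun b => ?_, fun ⟨b, y', hy'⟩ => ⟨h'.dom.sub b,
      (v3' ⟨w, h'.dom.sub b⟩).2 (s' ⟨y', congrArg (Quo.incl act' h'.dom.sub) hy'⟩)⟩⟩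
    obtain ⟨y', hy'⟩ := sb (a := Quo.mk act' ⟨w, b.1⟩) ⟨(v3' ⟨w, b.1⟩).1 b.2, y,
      (congrArg (Quo.incl act h.dom.sub) hx).trans (congrArg (Quo.mk act) (Subtype.ext hw.symm))⟩
    have b' : w ∈ Z' := (h'.dom.zero w b.1).1 ((h.dom.zero _ (e.eqm.maps b.1)).2 (hw ▸ x.2))
    exact ⟨b', y', h'.isClosedEmbedding.injective hy'⟩
  · rw [h1, h'.dom.vr_eq hk', k.vir_pb m z', ← h2]
    exact HSA.two j₀ j₀' p₀ s₀ (c := fun x => (c x : ℂ)) (c1.comp _) (by rw [f₀, f₀']; exact c3)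
      h.isClosedEmbedding h'.isClosedEmbedding z.lco (h2 ▸ z'.lco' (k.cmp_pb m).lcoh) k.eul_deg
      g.map.continuous h3 h4 hi hi'
      (.of_compact (hi.isEmbedding.continuous_iff.2 ((funext sq : _ = i ∘ φ) ▸
        g.map.continuous.comp hi'.continuous))) sq ha (fun y => (r₀' _).1 (s' ⟨y, rfl⟩))
      (fun x y b => sb ⟨(r₀' _).2 ⟨x, rfl⟩, y, (ha y).symm.trans
        ((congrArg _ b.symm).trans (s₀ x).symm)⟩) hu hd

end Vale.Agent.P269.LG.HSE
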