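import Vale.Agent.P269.LG.HSD
import Vale.Agent.P269.LG.EB
import Vale.Agent.P269.LG.OpsC
import Vale.Agent.P269.LG.Top
import Vale.Agent.P269.LG.HNQ
import Vale.Agent.P269.LG.KunB
import Vale.Agent.P269.Glu.FpB

/-! Disjoint unions: the local contributions. -/

set_option linter.unusedSectionVars false
set_option linter.style.haveILetI false

namespace Vale.Agent.P269.LG

open Set Function Topology TensorProduct B Vale.Agent.P291Z Vale.Agent.P269.Ch Vale.Agent.P269.Orb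
  Vale.Agent.P269.Loc

variable {R J K σ ν ν₁ ν₂ : Type} [Fintype R] [Fintype J] [Fintype K] [Fintype σ] [Fintype ν]
  [Fintype ν₁] [Fintype ν₂] {M : ℕ}

namespace HSF

section base

variable {W : Wt σ (σ × Fin (M + 1)) R J} (hW : ∀ τ l a, W.actL τ l a = τ a.1 * l a)
include hW

theorem bsOk : BsOk W.actL (PMs σ M) (Fintype.card σ * M) :=
  haveI := fp_PMs hW
  ⟨this.toIsAct, Tq.orb _ _, fun l hl =>
    (Holo.Sp.free_iff (x := .of W.actL l hl)).2 (this.free _), dim_PMs hW⟩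

/-- the class of the diagonal of the parameter space -/
theorem exists_dg [Holo.IsAct W.actL (PMs σ M)] [Nice (W.Bs (PMs σ M))] :
    ∃ (eB : C(Bs σ M, W.Bs (PMs σ M))) (Δ : Coch (W.Bs (PMs σ M) × W.Bs (PMs σ M))),
      IsDB W.actL (PMs σ M) (Fintype.card σ * M) Δ ∧
      (∀ p, eB (bp p) = Quo.mk W.actL ⟨uncurry p.val, mem_PMs p⟩) ∧
      H.map (eB.prodMap eB) (hcls Δ) = dgB σ M := by
  haveI := fp_PMs hW
  obtain ⟨eB, b1, b2, -, b4⟩ := exists_eB hW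
  obtain ⟨Δ, hΔ⟩ := (bsOk hW).exists_isDB
  have ho : IsOpenEmbedding eB := b1.isOpenEmbedding
  have hr : eB.prodMap eB ⁻¹' (range fun x => (x, x)) ⊆ range fun x => (x, x) := by
    rintro ⟨x, y⟩ ⟨z, e⟩
    exact ⟨x, Prod.ext rfl (b1.injective
      ((congrArg Prod.fst e).symm.trans (congrArg Prod.snd e)))⟩
  refine ⟨eB, Δ, hΔ, b2, (H.map_hcls _ hΔ.co.cocycle).trans (hcls_eq_dgB b4
    (IsCo.mono' (IsCo.pull' hΔ.co (eB.prodMap eB).continuous) hr) ?_)⟩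
  rw [← res_cross (p₁ := Prod.fst) (p₂ := Prod.snd) (q₁ := Prod.fst) (q₂ := Prod.snd)
    (f := eB.prodMap eB) (f₁ := eB) (f₂ := eB) IsHomeomorph.id IsHomeomorph.id (fun _ => rfl) (fun _ => rfl)
    ho ho, ← res_gys (f := eB.prodMap eB) FpB.emb_diag FpB.emb_diag (ho.prodMap ho) ho
    (fun _ => rfl) hr hΔ.co.cocycle hΔ.co.supp, (dim_PMs hW).fnd_eq]
  exact congrArg _ hΔ.gys

end base

theorem emb_par {Λ Λ' T J' κ κ₁ : Type} [Fintype Λ] [Fintype Λ'] [Fintype T] [Fintype J'] [Fintype κ]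
    [Fintype κ₁] {m : AM Λ T J' ν κ} {m₁ : AM Λ T J' ν₁ κ₁} {φ ψ j} (h : AM.Emb m₁ m φ ψ j)
    (l : Λ' → ℂ) : AM.Emb (par l m₁) (par l m) φ ψ j :=
  ⟨h.liso, h.inj, h.node, h.mark, h.all, h.L, rfl, h.y⟩

theorem emb_par' {Λ T J' κ κ₁ : Type} [Fintype Λ] [Fintype T] [Fintype J'] [Fintype κ] [Fintype κ₁]
    {m : AM Empty T J' ν κ} {m₁ : AM Λ T J' ν₁ κ₁} {l φ ψ j} (h : AM.Emb m₁ (par l m) φ ψ j) :
    AM.Emb (par Empty.elim m₁) m φ ψ j :=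
  ⟨h.liso, h.inj, h.node, h.mark, h.all, h.L, Subsingleton.elim _ _, h.y⟩

end HSF

variable [DecidableEq R] [DecidableEq σ] {P : PB R J K σ} {K₀ : Set K} {k D : ℕ} {g g₁ g₂ : ℤ}
  {d d₁ d₂ : Option R → ℤ} {a : σ → ℂ} {τ : Md P P.X ν g d} {τ₁ : Md P P.X ν₁ g₁ d₁}
  {τ₂ : Md P P.X ν₂ g₂ d₂}

namespace HSF

theorem rp_of_at (G : Geo k D a τ) (hP : P.Ok K₀ k D) {x : τ.A} {b : Bs σ M} {p : PM σ M}
    {m : AM0 R J σ ν} (h : (P.EM ∅ M).At (G.i M (x, b)) (par (uncurry p.val) m)) : τ.Rp x m := by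
  haveI := G.nice
  obtain ⟨y, hy⟩ := τ.surj (G.fx_of_range hP h ⟨_, rfl⟩)
  have := (G.loc.emb M).injective (((G.pt M y p m hy).eq_iff hP.bigD_fam h).2 (.refl _))
  exact (show y = x from congrArg Prod.fst this) ▸ hy

theorem par_i (G : Geo k D a τ) {eB : C(Bs σ M, (P.EM ∅ M).Bs (PMs σ M))}
    (he : ∀ p, eB (bp p) = Quo.mk (P.EM ∅ M).actL ⟨uncurry p.val, mem_PMs p⟩)
    (z : τ.A × Bs σ M) : (P.EM ∅ M).pM0 ν k D g d (G.i M z) = eB z.2 := by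
  obtain ⟨x, b⟩ := z
  obtain ⟨p, rfl⟩ := isOpenQuotientMap_bp.surjective b
  obtain ⟨m, hm⟩ := τ.ex x
  obtain ⟨y, e, r⟩ := G.pt M x p m hm
  rw [e]
  exact (congrArg (Quo.mk _) (Subtype.ext r.1)).trans (he p).symm

end HSF

open HSF

/-- **products and multiplicities** -/
theorem Geo.hs_eq (G : Geo k D a τ) (G₁ : Geo k D a τ₁) (G₂ : Geo k D a τ₂) (hP : P.Ok K₀ k D)
    (hg : g = g₁ + g₂ - 1) (hd : d = d₁ + d₂) {φ : ν₁ ⊕ ν₂ ≃ ν} {Y : ℕ → Type}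
    [∀ M, TopologicalSpace (Y M)] [∀ M, Nice (Y M)]
    {Φ : ∀ M, C(Y M, (P.EM ∅ M).M0 ν₁ k D g₁ d₁ × (P.EM ∅ M).M0 ν₂ k D g₂ d₂)}
    {Ψ : ∀ M, C(Y M, (P.EM ∅ M).M0 ν k D g d)} (hD : ∀ M, (P.EM ∅ M).Dec φ (Φ M) (Ψ M))
    {f : C(τ₁.A × τ₂.A, τ.A)} {s : ∀ M, C((τ₁.A × τ₂.A) × Bs σ M, Y M)}
    (h1 : ∀ M a₁ a₂ b, Φ M (s M ((a₁, a₂), b)) = (G₁.i M (a₁, b), G₂.i M (a₂, b)))
    (h2 : ∀ M z, Ψ M (s M z) = G.i M (pr f M z))
    (h3 : ∀ M, Ψ M ⁻¹' range (G.i M) ⊆ range (s M))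
    (h4 : ∀ M x, (Φ M x).1 ∈ range (G₁.i M) → (Φ M x).2 ∈ range (G₂.i M) → x ∈ range (s M)) :
    ∃ I : F ⊗[ℂ] H (τ₁.A × τ₂.A) →ₗ[F] F,
      (∀ x₁ x₂, I (pb F .fst x₁ * pb F .snd x₂) = τ₁.I x₁ * τ₂.I x₂) ∧
      ∀ Q₁ Q₂, Inv P Q₁ → Inv P Q₂ → IsClopen (τ₁.sel Q₁) → IsClopen (τ₂.sel Q₂) →
        IsLocallyConstant (τ.cf (cntS · φ (fun m => m.Typ g₁ d₁ ∧ Q₁ m) Q₂)) ∧
        ∀ x, τ.I (inF _ (fnE (τ.cf (cntS · φ (fun m => m.Typ g₁ d₁ ∧ Q₁ m) Q₂))) * x) =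
          I (inF _ (pbE .fst (τ₁.id Q₁) * pbE .snd (τ₂.id Q₂)) * pb F f x) := by
  haveI := G.nice
  haveI := G₁.nice
  haveI := G₂.nice
  have hB := fun M => bsOk (PB.actL_EM (P := P) (Z := ∅) (M := M))
  haveI := fun M => (hB M).isAct
  haveI := fun M => (hB M).nice
  choose eB Δ hΔ e1 e2 using fun M => exists_dg (PB.actL_EM (P := P) (Z := ∅) (M := M))
  have cp := fun M => (((P.EM ∅ M).pM0 ν₁ k D g₁ d₁).prodMap
    ((P.EM ∅ M).pM0 ν₂ k D g₂ d₂)).continuous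
  obtain ⟨I, hI, mul⟩ := G₁.loc.prod G₂.loc (fun M => (hD M).emb)
    (θ := fun M => pull (Prod.map ((P.EM ∅ M).pM0 ν₁ k D g₁ d₁) ((P.EM ∅ M).pM0 ν₂ k D g₂ d₂)) (Δ M))
    (fun M => IsCo.mono' (IsCo.pull' (hΔ M).co (cp M)) fun z ⟨y, e⟩ => (hD M).rng.ge
      ((congrArg Prod.fst e).symm.trans (congrArg Prod.snd e))) h1 h4 fun M => by
      rw [← e2, H.map_map]
      refine (congrArg _ (H.map_hcls (((P.EM ∅ M).pM0 ν₁ k D g₁ d₁).prodMap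
        ((P.EM ∅ M).pM0 ν₂ k D g₂ d₂)) (hΔ M).co.cocycle).symm).trans ((H.map_map ..).trans ?_)
      exact congrArg (H.map · _) (ContinuousMap.ext fun z =>
        Prod.ext (par_i G₁ (e1 M) z.1) (par_i G₂ (e1 M) z.2))
  refine ⟨I, mul, fun Q₁ Q₂ q₁ q₂ c₁ c₂ => ?_⟩
  have hU := c₁.prod c₂
  haveI := Nice.of_isLocallyClosed hU.isOpen.isLocallyClosed
  haveI : CompactSpace ↥(τ₁.sel Q₁ ×ˢ τ₂.sel Q₂) :=
    isCompact_iff_compactSpace.1 hU.isClosed.isCompact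
  let ι : C(↥(τ₁.sel Q₁ ×ˢ τ₂.sel Q₂), τ₁.A × τ₂.A) := ⟨Subtype.val, continuous_subtype_val⟩
  have hι : IsOpenEmbedding ι := hU.isOpen.isOpenEmbedding_subtypeVal
  obtain ⟨I', hI', e'⟩ := hI.part hι
  have sq : ∀ M z, Ψ M ((s M).comp (pr ι M) z) = G.i M (pr (f.comp ι) M z) := fun M z => h2 M _
  have hr : ∀ M, Isol (range ((s M).comp (pr ι M))) (Ψ M ⁻¹' range (G.i M)) := fun M => by
    have := (Isol.of_isOpen (B := univ) (hι.prodMap (.id (X := Bs σ M))).isOpen_range Subset.rfl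
      inter_subset_left).image (B := univ) (hI.emb M).isInducing
    rw [inter_univ, ← range_comp] at this
    exact this.mono (h3 M)
  choose c k1 k2 k3 using fun M => (hD M).deg _ _ (hB M) (hΔ M) (G.i M) ((s M).comp (pr ι M))
    (pr (f.comp ι) M) (G.loc.emb M) (hI'.emb M) (sq M) (hr M)
  have k4 : ∀ M z, (c M z : ℂ) = τ.cf (cntS · φ (fun m => m.Typ g₁ d₁ ∧ Q₁ m) Q₂) z.1 := by
    rintro M ⟨x, b⟩
    obtain ⟨p, rfl⟩ := isOpenQuotientMap_bp.surjective b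
    have hm := (τ.ex x).choose_spec
    refine congrArg Nat.cast ((k2 M _ _ (G.pt M x p _ hm)).trans (congrArg ncard (Set.ext fun U =>
      ⟨fun ⟨m₁, m₂, j₁, j₂, h, e, ⟨⟨⟨a₁, a₂⟩, ⟨n₁, r₁, t₁⟩, n₂, r₂, t₂⟩, b⟩, u₁, u₂⟩ => ?_,
        fun ⟨m₁, m₂, j₁, j₂, h, e, ⟨t, t₁⟩, t₂⟩ => ?_⟩)))
    · have v := h1 M a₁ a₂ b
      have w₁ : τ₁.Rp a₁ (par Empty.elim m₁) := rp_of_at G₁ hP (b := b) (p := p) (by
        have : par (uncurry p.val) (par Empty.elim m₁) = m₁ := congrArg (par · m₁) h.one.l.symm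
        exact this.symm ▸ (congrArg (fun y => Fam.At _ y.1 m₁) v).mp u₁)
      have w₂ : τ₂.Rp a₂ (par Empty.elim m₂) := rp_of_at G₂ hP (b := b) (p := p) (by
        have : par (uncurry p.val) (par Empty.elim m₂) = m₂ := congrArg (par · m₂) h.two.l.symm
        exact this.symm ▸ (congrArg (fun y => Fam.At _ y.2 m₂) v).mp u₂)
      exact ⟨par Empty.elim m₁, par Empty.elim m₂, j₁, j₂, ⟨emb_par' h.one, emb_par' h.two, h.compl⟩,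
        e, ⟨(τ₁.fx w₁).typ, q₁ _ _ ((τ₁.iso r₁).1 w₁) t₁⟩, q₂ _ _ ((τ₂.iso r₂).1 w₂) t₂⟩
    · subst hg hd
      obtain ⟨f₁, f₂⟩ := (τ.fx hm).split h t
      obtain ⟨a₁, r₁⟩ := τ₁.surj f₁
      obtain ⟨a₂, r₂⟩ := τ₂.surj f₂
      have v := h1 M a₁ a₂ (bp p)
      exact ⟨par _ m₁, par _ m₂, j₁, j₂, ⟨emb_par h.one _, emb_par h.two _, h.compl⟩, e,
        (⟨(a₁, a₂), ⟨m₁, r₁, t₁⟩, m₂, r₂, t₂⟩, bp p), congrArg Prod.fst v ▸ G₁.pt M a₁ p m₁ r₁,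
        congrArg Prod.snd v ▸ G₂.pt M a₂ p m₂ r₂⟩
  have lc : IsLocallyConstant (τ.cf (cntS · φ (fun m => m.Typ g₁ d₁ ∧ Q₁ m) Q₂)) := by
    let b : Bs σ 0 := bp ⟨1, fun _ => one_ne_zero⟩
    rw [show τ.cf _ = Nat.cast ∘ c 0 ∘ fun x => (x, b) from funext fun x => (k4 0 (x, b)).symm]
    exact ((k1 0).comp_continuous (.prodMk_left b)).comp _
  refine ⟨lc, fun x => ?_⟩
  have := hI'.eq_of_push G.loc (fun M => (Ψ M).continuous) sq hr (n := 1 ⊗ₜ hcls (fn _))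
    (fun M u n hu hn => (k3 M u n hu hn).trans (by
      rw [evA_tmul, map_one, map_one, one_mul, map_fn _ lc, funext (k4 M)]
      rfl)) x
  rw [← pb_pb, e', bc_tmul, map_one] at this
  rw [inF_comm, inF_comm, inF_fnE, ← this, Md.id, Md.id, pbE_idE _ c₁, pbE_idE _ c₂,
    idE_mul (c₁.preimage (ContinuousMap.continuous _)) (c₂.preimage (ContinuousMap.continuous _)),
    show range ι = _ from Subtype.range_coe]
  rfl

end Vale.Agent.P269.LG
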