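import Vale.Agent.P269.LG.LT
import Vale.Agent.P269.Qrr.AlgA

/-! The contribution of a vertex: algebra. -/

set_option linter.unusedSectionVars false
set_option maxSynthPendingDepth 3

namespace Vale.Agent.P269.LG.HVa

open Set Function TensorProduct B Vale.Agent.P291Z Vale.Agent.P269.Ch Vale.Agent.P269.Loc Fock
  Vale.Agent.P269.Qrr PowerSeries

/-- the inverse of the equivariant parameter -/
noncomputable def eps : F := Hat.single ℂ 1 1

theorem tt_eps : tt * eps = 1 := (Hat.single_mul _ _ _ _).trans (by simp [Hat.one_def])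

variable {A : Type} [CommRing A] [Algebra ℂ A]

/-- the Euler class of a twisted bundle -/
noncomputable def euG (x : F) (r : ℕ) (c : A⟦X⟧) : F ⊗[ℂ] A :=
  ∑ m ∈ Finset.range (r + 1), (x ^ (r - m)) ⊗ₜ coeff m c

variable (A) in
/-- substitution of the inverse of the parameter -/
noncomputable def evP : Polynomial A →+* F ⊗[ℂ] A :=
  Polynomial.eval₂RingHom (Algebra.TensorProduct.includeRight (R := ℂ) (A := F)).toRingHom
    (eps ⊗ₜ 1)

theorem evP_monomial (m : ℕ) (c : A) : evP A (Polynomial.monomial m c) = (eps ^ m) ⊗ₜ c := by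
  simp [evP]

theorem exists_pol {b : ℂ} (hb : b ≠ 0) {r : ℕ} {c : A⟦X⟧} (hc : ∀ m, r < m → coeff m c = 0) :
    ∃ p : Polynomial A, (p : A⟦X⟧) = rescale (algebraMap ℂ A b⁻¹) c ∧
      euG (b • tt) r c = (b • tt) ^ r • evP A p := by
  refine ⟨∑ m ∈ Finset.range (r + 1), Polynomial.monomial m (b⁻¹ ^ m • coeff m c), ?_, ?_⟩
  · ext1 m
    rw [Polynomial.coeff_coe, coeff_rescale, ← map_pow, ← Algebra.smul_def,
      Polynomial.finsetSum_coeff]
    simp only [Polynomial.coeff_monomial, Finset.sum_ite_eq', Finset.mem_range]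
    split_ifs with h
    · rfl
    · rw [hc m (by omega), smul_zero]
  · rw [map_sum, Finset.smul_sum]
    refine Finset.sum_congr rfl fun m hm => ?_
    obtain ⟨n, rfl⟩ := Nat.exists_eq_add_of_le (Nat.lt_succ_iff.1 (Finset.mem_range.1 hm))
    have e : b⁻¹ • eps * b • tt = 1 := by
      rw [smul_mul_smul_comm, inv_mul_cancel₀ hb, mul_comm, tt_eps, one_smul]
    rw [evP_monomial, ← smul_tmul, ← smul_pow, smul_tmul', smul_eq_mul, pow_add, mul_right_comm,
      ← mul_pow, mul_comm (b • tt), e, one_pow, one_mul, Nat.add_sub_cancel_left]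

theorem exists_one {b : ℂ} (hb : b ≠ 0) {r s : ℕ} {x y : A⟦X⟧} (x0 : constantCoeff x = 1)
    (y0 : constantCoeff y = 1) (hx : ∀ m, r < m → coeff m x = 0) (hy : ∀ m, s < m → coeff m y = 0)
    (nil : ∀ m ≠ 0, IsNilpotent (coeff m x)) : ∃ (q : Polynomial A) (η : F ⊗[ℂ] A),
      (q : A⟦X⟧) = (rescale (algebraMap ℂ A b⁻¹) (x * y.invOfUnit 1)).invOfUnit 1 ∧
      η * euG (b • tt) r x = 1 ∧
      η * euG (b • tt) s y = (b • tt) ^ ((s : ℤ) - r) • evP A q := by
  obtain ⟨p, p1, p2⟩ := exists_pol hb hx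
  obtain ⟨q, q1, q2⟩ := exists_pol hb hy
  have c : ∀ m, p.coeff m = algebraMap ℂ A b⁻¹ ^ m * coeff m x := fun m => by
    rw [← Polynomial.coeff_coe, p1, coeff_rescale]
  obtain ⟨u, hu⟩ := (Polynomial.isUnit_of_coeff_isUnit_isNilpotent (P := p)
    (by rw [c, pow_zero, one_mul, coeff_zero_eq_constantCoeff_apply, x0]; exact isUnit_one)
    fun m hm => c m ▸ (Commute.all _ _).isNilpotent_mul_left (nil m hm)).exists_left_inv
  have t : b • tt ≠ 0 := fun e => zero_ne_one (α := F) (by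
    rw [← tt_eps, ← one_smul ℂ tt, ← inv_mul_cancel₀ hb, mul_smul, e, smul_zero, zero_mul])
  refine ⟨u * q, ((b • tt) ^ r)⁻¹ • evP A u, (AlgA.inv_eq ?_ ?_).symm, ?_, ?_⟩
  · rw [AlgA.cc_rescale, map_mul, x0, AlgA.cc_inv, one_mul]
  · have e := congrArg (rescale (algebraMap ℂ A b⁻¹)) (AlgA.mul_inv y0)
    have e' := congrArg (fun z : Polynomial A => (z : A⟦X⟧)) hu
    simp only [Polynomial.coe_mul, Polynomial.coe_one, map_mul, map_one, p1, q1] at e e' ⊢
    linear_combination (u * rescale (algebraMap ℂ A b⁻¹) x) * e + e'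
  · rw [p2, smul_mul_smul_comm, inv_mul_cancel₀ (pow_ne_zero _ t), ← map_mul, hu, map_one, one_smul]
  · rw [q2, smul_mul_smul_comm, ← map_mul, zpow_sub₀ t, zpow_natCast, zpow_natCast,
      div_eq_inv_mul]

theorem exists_eta {L J : Type} (T : Finset L) {b : L → ℂ} (hb : ∀ l ∈ T, b l ≠ 0) (f : L → J)
    {c : J → A⟦X⟧} {x y : L → A⟦X⟧} {r s : L → ℕ} (hc : ∀ l, c (f l) = x l * (y l).invOfUnit 1)
    (x0 : ∀ l, constantCoeff (x l) = 1) (y0 : ∀ l, constantCoeff (y l) = 1)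
    (hx : ∀ l m, r l < m → coeff m (x l) = 0) (hy : ∀ l m, s l < m → coeff m (y l) = 0)
    (nil : ∀ l, ∀ m ≠ 0, IsNilpotent (coeff m (x l))) : ∃ (q : Polynomial A) (η : F ⊗[ℂ] A),
      (q : A⟦X⟧) = thC T b f c ∧ η * ∏ l ∈ T, euG (b l • tt) (r l) (x l) = 1 ∧
      η * ∏ l ∈ T, euG (b l • tt) (s l) (y l) =
        (∏ l ∈ T, (b l • tt) ^ ((s l : ℤ) - r l)) • evP A q := by
  choose! q η h1 h2 h3 using fun l hl =>
    exists_one (hb l hl) (x0 l) (y0 l) (hx l) (hy l) (nil l)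
  refine ⟨∏ l ∈ T, q l, ∏ l ∈ T, η l, (map_prod Polynomial.coeToPowerSeries.ringHom _ _).trans
    (Finset.prod_congr rfl fun l hl => (h1 l hl).trans (by rw [hc])), ?_, ?_⟩
  · rw [← Finset.prod_mul_distrib, Finset.prod_eq_one h2]
  · rw [← Finset.prod_mul_distrib, Finset.prod_congr rfl h3, Finset.prod_smul, map_prod]

theorem intT_evP {Y : Type} [TopologicalSpace Y] (I : H Y →ₗ[ℂ] ℂ) (c : H Y)
    (q : Polynomial (Hev Y)) : intT F I (1 ⊗ₜ c * inF Y (evP _ q)) =
      Hat.ofPS ℂ (mk fun m => I ((coeff m (q : (Hev Y)⟦X⟧)).1 * c)) := by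
  induction q using Polynomial.induction_on' with
  | add p q hp hq =>
    rw [map_add, map_add, mul_add, map_add, hp, hq, ← map_add]
    refine congrArg _ (PowerSeries.ext fun m => ?_)
    simp only [map_add, coeff_mk, Polynomial.coe_add, Subalgebra.coe_add, add_mul]
  | monomial m x =>
    have e : (mk fun n => I ((coeff n (Polynomial.monomial m x : (Hev Y)⟦X⟧)).1 * c)) =
        C (I (x.1 * c)) * X ^ m := PowerSeries.ext fun n => by
      rw [coeff_mk, Polynomial.coeff_coe, Polynomial.coeff_monomial, coeff_C_mul, coeff_X_pow]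
      split_ifs with h h' h'
      exacts [(mul_one _).symm, (h' h.symm).elim, (h h'.symm).elim, by simp]
    rw [e, map_mul (Hat.ofPS ℂ), map_pow, Hat.ofPS_C, Hat.ofPS_X, evP_monomial]
    rw [show inF Y ((eps ^ m) ⊗ₜ x) = (eps ^ m) ⊗ₜ x.1 from rfl,
      Algebra.TensorProduct.tmul_mul_tmul, intT_tmul, one_mul, Algebra.smul_def]
    exact congrArg (fun z => algebraMap ℂ F (I z) * eps ^ m) (Hev.commute x.2 c).symm

end Vale.Agent.P269.LG.HVa
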