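import Vale.Agent.P269.Bas.Prd
import Vale.Agent.P269.Bas.Cmp
import Vale.Agent.P269.Map.Tr

set_option linter.unusedSectionVars false
set_option linter.style.haveILetI false

/-!
# Products with a free orbit space for an abstract splitting of the group
-/

namespace Vale.Agent.P269

open Set Function Topology Filter Module Vale.Agent.P291Z Vale.Agent.P269.Orb Holo Ch

variable {A A' C W W' V : Type} [NormedRing A] [NormedAlgebra ℂ A] [NormedRing A']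
  [NormedAlgebra ℂ A'] [NormedRing C] [NormedAlgebra ℂ C] [NormedAddCommGroup W] [NormedSpace ℂ W]
  [NormedAddCommGroup W'] [NormedSpace ℂ W'] [NormedAddCommGroup V] [NormedSpace ℂ V]
  [FiniteDimensional ℂ A] [FiniteDimensional ℂ A'] [FiniteDimensional ℂ C] [FiniteDimensional ℂ W]
  [FiniteDimensional ℂ W'] [FiniteDimensional ℂ V]

/-- `S = B × S'`, with the product action of `Aˣ = Cˣ × A'ˣ`. -/
structure TPrd (act : A → W → W) (act' : A' → W' → W') (actB : C → V → V)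
    (θ : C × A' → A) (θ₁ : A → C) (θ₂ : A → A') (p : W →L[ℂ] V) (q : W → W')
    (j : V → W' → W) (B : Set V) (S : Set W) (S' : Set W') : Prop where
  rk : finrank ℂ A = finrank ℂ C + finrank ℂ A'
  hm₀ : Tq.Hm θ
  hm : Tq.Hm θ₁
  hm₂ : Tq.Hm θ₂
  e₀ : ∀ a, IsUnit a → θ (θ₁ a, θ₂ a) = a
  e₁ : ∀ a, IsUnit a → θ₁ (θ a) = a.1
  e₂ : ∀ a, IsUnit a → θ₂ (θ a) = a.2
  an_q : ∀ x, AnalyticAt ℂ q x
  an_j : ∀ y, AnalyticAt ℂ (fun y : V × W' => j y.1 y.2) y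
  mem : ∀ x, x ∈ S ↔ p x ∈ B ∧ q x ∈ S'
  p_j : ∀ v y, p (j v y) = v
  q_j : ∀ v y, q (j v y) = y
  j_pq : ∀ x, j (p x) (q x) = x
  p_act : ∀ a, IsUnit a → ∀ x, p (act a x) = actB (θ₁ a) (p x)
  q_act : ∀ a, IsUnit a → ∀ x ∈ S, q (act a x) = act' (θ₂ a) (q x)

variable {act : A → W → W} {actB : C → V → V} {p : W →L[ℂ] V} {B : Set V}
  [IsAct act univ] [IsAct actB univ] [Mono.FP actB B] {n N : ℕ}

namespace TPrd

variable {act' : A' → W' → W'} [IsAct act' univ] {q : W → W'} {j : V → W' → W} {S : Set W}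
  {S' O' : Set W'} {θ : C × A' → A} {θ₁ : A → C} {θ₂ : A → A'}
  (h : TPrd act act' actB θ θ₁ θ₂ p q j B S S')
include h

theorem mono (e' : O' ⊆ S') : TPrd act act' actB θ θ₁ θ₂ p q j B (S ∩ q ⁻¹' O') O' :=
  { h with
    mem := fun x => ⟨fun a => ⟨((h.mem x).1 a.1).1, a.2⟩, fun a => ⟨(h.mem x).2 ⟨a.1, e' a.2⟩, a.2⟩⟩
    q_act := fun a ha x hx => h.q_act a ha x hx.1 }

/-- the splitting of the group -/
def ρ : Aˣ ≃ₜ* Cˣ × A'ˣ where
  toFun g := (h.hm.ρ g, h.hm₂.ρ g)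
  invFun y := h.hm₀.ρ (MulEquiv.prodUnits.symm y)
  left_inv g := Units.ext (h.e₀ _ g.isUnit)
  right_inv y := Prod.ext (Units.ext (h.e₁ _ (MulEquiv.prodUnits.symm y).isUnit))
    (Units.ext (h.e₂ _ (MulEquiv.prodUnits.symm y).isUnit))
  map_mul' a b := Prod.ext (map_mul h.hm.ρ a b) (map_mul h.hm₂.ρ a b)
  continuous_toFun := h.hm.ρ.continuous.prodMk h.hm₂.ρ.continuous
  continuous_invFun := h.hm₀.ρ.continuous.comp Homeomorph.prodUnits.symm.continuous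

theorem ivt (hi : Ivt act' S') : Ivt act S := fun a ha x hx => (h.mem _).2
  ⟨h.p_act a ha x ▸ IsAct.mem _ (h.hm.isUnit ha) _ ((h.mem x).1 hx).1,
    h.q_act a ha x hx ▸ hi _ (h.hm₂.isUnit ha) _ ((h.mem x).1 hx).2⟩

theorem eqh : Tq.Eqh act actB S B θ₁ p :=
  ⟨h.hm, fun x hx => ((h.mem x).1 hx).1, p.continuous.continuousOn,
    fun a ha x _ => h.p_act a ha x⟩

theorem cont_q : Continuous q := continuous_iff_continuousAt.2 fun x => (h.an_q x).continuousAt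

theorem cont_j : Continuous fun y : V × W' => j y.1 y.2 :=
  continuous_iff_continuousAt.2 fun x => (h.an_j x).continuousAt

theorem j_mem {v : V} {y : W'} (hv : v ∈ B) (hy : y ∈ S') : j v y ∈ S :=
  (h.mem _).2 ⟨(h.p_j v y).symm ▸ hv, (h.q_j v y).symm ▸ hy⟩

theorem eqM : EqM act act' S S' θ₂ q :=
  ⟨⟨h.hm₂.ρ.toMonoidHom, h.hm₂.ρ.continuous, fun _ => rfl⟩,
    fun x hx => ((h.mem x).1 hx).2, h.cont_q.continuousOn, h.q_act⟩

/-- the splitting of the space -/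
def spl : Sp act S ≃ₜ Sp actB B × Sp act' S' where
  toFun x := (.of _ (p x.val) (h.eqh.maps x.val_mem), .of _ (q x.val) (h.eqM.maps x.val_mem))
  invFun y := .of _ (j y.1.val y.2.val) (h.j_mem y.1.val_mem y.2.val_mem)
  left_inv _ := Sp.ext (h.j_pq _)
  right_inv _ := Prod.ext (Sp.ext (h.p_j _ _)) (Sp.ext (h.q_j _ _))
  continuous_toFun := ((p.continuous.comp Sp.continuous_val).subtype_mk _).prodMk
    ((h.cont_q.comp Sp.continuous_val).subtype_mk _)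
  continuous_invFun := (h.cont_j.comp (Sp.continuous_val.prodMap Sp.continuous_val)).subtype_mk _

theorem pact [IsAct act S] [IsAct act' S'] : PAct h.ρ h.spl := fun g x =>
  Prod.ext (Sp.ext (h.p_act _ g.isUnit _)) (Sp.ext (h.q_act _ g.isUnit _ x.val_mem))

theorem isAct [IsAct act' S'] : IsAct act S :=
  IsAct.mono ‹IsAct act univ› (subset_univ _) (h.ivt IsAct.mem)

theorem isHomeomorph [IsAct act' S'] : IsHomeomorph fun z => (h.eqh.toEqv.qm z, h.eqM.map z) :=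
  haveI := h.isAct
  h.pact.isHomeomorph isQuo_sp isQuo_sp isQuo_sp fun _ => rfl

theorem orb [IsAct act S] [IsAct act' S'] (ho : Orb A'ˣ (Sp act' S')) : Orb Aˣ (Sp act S) :=
  h.pact.orb (Tq.orb actB B) ho

theorem mfdAt (hB : Tq.Dim actB B n) {x : W} (hx : x ∈ S)
    (hm : MfdAt S' (finrank ℂ A' + N) (q x)) : MfdAt S (finrank ℂ A + (n + N)) x := by
  haveI := FiniteDimensional.complete ℂ W
  haveI := FiniteDimensional.complete ℂ W'
  haveI := FiniteDimensional.complete ℂ V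
  have := ((hB _ (h.eqh.maps hx)).prod hm).iso (S' := S) (F := fun y => j y.1 y.2)
    (G := fun x => (p x, q x)) (h.an_j _) ((p.analyticAt _).prod (h.an_q _))
    (.of_forall fun s a => ⟨h.j_mem a.1 a.2, Prod.ext (h.p_j _ _) (h.q_j _ _)⟩)
    (.of_forall fun s a => ⟨(h.mem s).1 a, h.j_pq s⟩)
  rwa [h.j_pq, add_add_add_comm, ← h.rk] at this

/-- the product formula for manifolds -/
theorem cross_mfd [IsAct act S] [IsAct act' S'] (ho : Orb A'ˣ (Sp act' S')) (hB : Tq.Dim actB B n)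
    (hm : ∀ x : S', IsMfd (Subtype.val : S' → W') (finrank ℂ A' + N) x) :
    cross h.eqh.toEqv.qm h.eqM.map (Tq.fnd actB B) (fnd act' S' N) = fnd act S (n + N) := by
  have h2 := holOrb_of_orb ho hm
  rw [hB.fnd_eq, ← one_smul ℂ (fnd act S _)]
  refine HolOrb.cross_fund (holOrb_of_orb (h.orb ho) fun x => (h.mfdAt hB x.2
    ⟨h.eqM.maps x.2, hm _⟩).isMfd x.2) isQuo_sp hB.holOrb isQuo_sp h2 isQuo_sp h.isHomeomorph
    (isQuo_sp.meets dense_univ) fun t _ => ?_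
  obtain ⟨φ₁, a₁, b₁⟩ := hB.holOrb.slice (h.spl t).1
  obtain ⟨φ₂, a₂, b₂⟩ := h2.slice (h.spl t).2
  refine ⟨_, φ₁, φ₂, isSlice_of_prod (h.pact.isSl (P := fun x => (p x, q x))
    (fun x => (p.analyticAt x).prod (h.an_q x)) h.an_j
    (fun y => Prod.ext (h.p_j _ _) (h.q_j _ _)) (fun _ => rfl) a₁ a₂), ?_, a₁, a₂,
    .of_forall fun z => ⟨congrArg (Sp.mk ∘ Prod.fst) (h.spl.apply_symm_apply (_, _)),
      congrArg (Sp.mk ∘ Prod.snd) (h.spl.apply_symm_apply (_, _))⟩, ?_⟩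
  · rw [map_zero, Prod.fst_zero, Prod.snd_zero, b₁, b₂]
    exact h.spl.symm_apply_apply t
  · rw [h.pact.stab_eq, b₁, b₂, Nat.cast_mul, one_mul]

variable {P P' : Type} [AddCommGroup P] [Module ℂ P] [TopologicalSpace P] [IsTopologicalAddGroup P]
  [ContinuousSMul ℂ P] [T2Space P] [AddCommGroup P'] [Module ℂ P'] [TopologicalSpace P']
  [IsTopologicalAddGroup P'] [ContinuousSMul ℂ P'] [T2Space P'] {D : KD A W P} {D' : KD A' W' P'}
  {Z O : Set W} {Z' : Set W'} {n₀ r n₀' r' d : ℕ} {L : P →ₗ[ℂ] P'}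

/-- **the virtual class of a product** -/
theorem isW (hB : Tq.Dim actB B n) (hz : TPrd act act' actB θ θ₁ θ₂ p q j B Z Z')
    (hD : D.Reg act Z S O n₀ r) (hD' : D'.Reg act' Z' S' O' n₀' r')
    (hO : ∀ x ∈ S, q x ∈ O' → x ∈ O) (hL : D.Lin D' θ₂ q S L) (hi : D.Inj D' q Z L)
    (hr : Z.Nonempty → r = r') {v : BM (Quo act' Z')} (hv : D'.IsW act' Z' S' d v) :
    D.IsW act Z S (n + d) (cross hz.eqh.toEqv.qm hz.eqM.map (Tq.fnd actB B) v) := by
  obtain ⟨O₁, n₁, r₁, g', e₁, ⟨U, hU, e₂⟩, hm, rfl⟩ := hv.exists_sub hD'.opn hD'.inv hD'.sub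
  have e₃ : O₁ ⊆ S' := e₂ ▸ inter_subset_left
  have k := h.mono e₃
  haveI := g'.dom.isAct
  haveI := k.isAct
  haveI := nice_of_orb (Tq.orb actB B)
  have e₄ : S ∩ q ⁻¹' O₁ ⊆ O := fun x hx => hO x hx.1 (e₁ hx.2)
  have e₅ : Z ⊆ S ∩ q ⁻¹' O₁ := fun x hx =>
    (k.mem x).2 ⟨((hz.mem x).1 hx).1, g'.dom.sub ((hz.mem x).1 hx).2⟩
  have g : D.Gd act Z (S ∩ q ⁻¹' O₁) n₀ r := ⟨⟨e₅, ⟨univ, isOpen_univ, (inter_univ _).symm⟩,
    k.isAct, k.orb g'.dom.orb, fun x hx => hD.zero x (e₄ hx)⟩, hD.ok.mono e₄⟩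
  refine ⟨_, _, _, g, ⟨q ⁻¹' U, hU.preimage h.cont_q, Set.ext fun x => and_congr_right fun a =>
    ⟨fun b => (e₂.le b).2, fun b => e₂.ge ⟨h.eqM.maps a, b⟩⟩⟩,
    fun x hx => k.mfdAt hB hx (hm _ hx.2), ?_⟩
  have := (g.vr_cross g' k.eqM (hL.mono inter_subset_left) hi (fun ⟨x, hx⟩ => (hr ⟨x, hx⟩).trans
    (Nat.add_left_cancel (((hD'.ok.obs_rank _ (hD'.sub (hz.eqM.maps hx))
      ((hD'.zero _ (hD'.sub (hz.eqM.maps hx))).2 (hz.eqM.maps hx))).symm.trans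
        (g'.ok.obs_rank _ (g'.dom.sub (hz.eqM.maps hx))
          ((g'.dom.zero _ (g'.dom.sub (hz.eqM.maps hx))).2 (hz.eqM.maps hx)))).trans
      (congrArg (· + r₁) ((g'.ok.fam.rank _ (g'.dom.sub (hz.eqM.maps hx))).symm.trans
        (hD'.ok.fam.rank _ (hD'.sub (hz.eqM.maps hx))))))))
    (fun x hx a => (hz.mem x).2 ⟨((k.mem x).1 hx).1, a⟩) hz.eqM k.isHomeomorph (Tq.fnd actB B)
    (g'.fu d)).2
  rw [show g.fu (n + d) = _ from (k.cross_mfd g'.dom.orb hB fun x => (hm _ x.2).isMfd x.2).symm]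
  refine Eq.trans ?_ this.symm
  exact congrArg (cross · _ _ _) (funext fun z => Quot.inductionOn z fun _ => rfl)

end TPrd

end Vale.Agent.P269
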