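import Vale.Agent.P269.Loc.Imm

/-! The class of the diagonal of the approximations of the classifying space. -/

namespace Vale.Agent.P269.LG

open MvPolynomial Vale.Agent.P291Z

open Classical in
/-- the class of the diagonal of `Bs σ M` -/
noncomputable def dgB (σ : Type) [Fintype σ] (M : ℕ) : H (Bs σ M × Bs σ M) :=
  ∑ q ∈ Finset.HasAntidiagonal.antidiagonal (Loc.topM σ M),
    H.map ContinuousMap.fst (lam M (monomial q.1 1)) *
      H.map ContinuousMap.snd (lam M (monomial q.2 1))

end Vale.Agent.P269.LG
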