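import Vale.Agent.P269.LG.Lev

/-! The hyperplane class at a marked point. -/

set_option linter.unusedSectionVars false
set_option linter.style.haveILetI false

namespace Vale.Agent.P269.LG

open Set Function Topology Filter Module TensorProduct Vale.Agent.P291Z Vale.Agent.P269.Ch
  Vale.Agent.P269.Orb Vale.Agent.P269.Loc

variable {R J K σ ι ν κ : Type} [Fintype R] [Fintype J] [Fintype K] [Fintype σ] [Fintype ι]
  [DecidableEq ι] [Fintype ν] [Fintype κ] [DecidableEq σ] {P : PB R J K σ} {ch : Ch ι (J ⊕ σ)}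
  {e : K → ι → ℕ} {K₀ : Set K} {ℓ : Option R → ι → ℤ} {Z : Set σ} {O : Set (ch.WF ν κ Empty)}
  {n : ℕ}

namespace LevB

variable {S Λ T : Type} [Fintype S] [Fintype Λ] [Fintype T] [DecidableEq S] [DecidableEq T]

omit [DecidableEq S] in
/-- the projection to the base -/
theorem eqh_pr {wt : σ → S → ℤ} {wl : Λ → S → ℤ} {B : Set (Λ → ℂ)} (hB : P.F.B = univ)
    (hA : P.F.Abs) : Tq.Eqh (P.fam wt wl B Z).actT P.F.actT (P.fam wt wl B Z).cone P.F.cone
      (fun t => (1, fun r => t.2 (some r))) fun z => (Empty.elim, fun j => z.2 (.inl j)) :=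
  ⟨⟨rfl, fun _ _ _ _ => Prod.ext (mul_one _).symm rfl, fun _ _ => by fun_prop⟩,
    fun _ hz => ((PB.mem_cone hB hA).1 hz).2.1, PB.cont.continuousOn, fun t _ z _ =>
      Prod.ext (Subsingleton.elim _ _) (funext fun j => by
        simp [Wt.actT_snd, chT, Fintype.prod_option, PB.w])⟩

theorem prod_single (t : S → ℂ) (i : S) : ∏ l, t l ^ (Pi.single i 1 : S → ℤ) l = t i :=
  (Finset.prod_eq_single i (fun l _ e => by simp [e]) (by simp)).trans (by simp)

omit [DecidableEq S] in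
theorem chT_right (t : (S → ℂ) × (T → ℂ)) (i : T) : chT 0 (Pi.single i 1) t = t.2 i := by
  simp [chT, prod_single]

omit [DecidableEq T] in
theorem chT_left (t : (S → ℂ) × (T → ℂ)) (i : S) : chT (Pi.single i 1) 0 t = t.1 i := by
  simp [chT, prod_single]

end LevB

namespace PB.Am

variable (h : P.Am e K₀ ℓ Z O n) (M : ℕ) (q : Mk ν κ) [DecidableEq R]

/-- classes of the projective bundle -/
theorem cl_ev (hE : (P.E ∅).Good) (l : ℕ) (v : H P.X) :
    (P.E Z).cl (P.Z0 ν κ ch Z) (.ev q (P.E ∅).cone ((P.E ∅).lc _ 0 (Pi.single none 1) ^ l *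
      (P.E ∅).pb P.F.toWt (fun z => (z.1, z.2 ∘ .inl)) _ v)) =
      h.ξ0 q ^ l * H.map (h.ev0 q) v := by
  haveI := hE.fp
  haveI := h.gz0.act
  have hA : ∀ x ∈ P.Z0 ν κ ch Z, vl x q ∈ (P.E ∅).cone := fun x hx =>
    mem_of_eq_of_mem (show vl x q = (Empty.elim, (vl x q).2) from
      Prod.ext (Subsingleton.elim _ _) rfl) (PB.cone_iff.1 (vl_mem hx.1 q)).2.1
  rw [h.gz0.cl_ev q hA, map_mul, map_pow]
  refine congrArg₂ (· ^ l * ·) ((map_lcq h.gz0.orb (Tq.orb _ _) (h.gz0.eqh_vl q hA)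
    (hm_chT 0 (Pi.single none 1))).trans (congrArg _ (funext fun s => LevB.chT_right _ _))) ?_
  rw [show (fun z : (Empty → ℂ) × (J ⊕ σ → ℂ) => (z.1, z.2 ∘ Sum.inl)) =
      fun z => (Empty.elim, fun j => z.2 (.inl j)) from
    funext fun z => Prod.ext (Subsingleton.elim _ _) rfl, Wt.pb_eq (LevB.eqh_pr h.B h.abs).toEqv]
  exact (h.gz0.eqh_vl q hA).toEqv.map_map _ _

/-- the relation over the fixed component `i` -/
theorem ξ_fix (hF : P.F.Good) (hG : (P.EM Z M).Good) (i : σ) {Y : Type} [TopologicalSpace Y]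
    (f : C(Y, Quo (actF (P.EM Z M).toWt) (P.ZM ν κ ch Z M)))
    (hf : ∀ y, ∃ x, f y = Quo.mk _ x ∧ ∀ l ≠ i, (vl x.1 q).2 (.inr l) = 0) :
    H.map f (h.ξM M q + (h.lv M).e (MvPolynomial.X i) +
      H.map (h.evM M q) (P.F.lc _ 0 (P.wL i))) = 0 := by
  haveI := hG.fp
  haveI := hF.fp
  haveI := (h.gzM M).act
  have hA : ∀ x ∈ P.ZM ν κ ch Z M, vl x q ∈ (P.EM Z M).cone := fun x hx => vl_mem hx.1 q
  have ev := (h.gzM M).eqh_vl q hA
  have k : ∀ ψ χ, H.map ev.toEqv.qm ((P.EM Z M).lc _ ψ χ) =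
      Tq.lcq _ _ fun s => chT ψ χ (θv ℓ q s) := fun ψ χ =>
    map_lcq (h.gzM M).orb (Tq.orb _ _) ev (hm_chT ψ χ)
  have e1 : h.ξM M q = H.map ev.toEqv.qm ((P.EM Z M).lc _ 0 (Pi.single none 1)) :=
    ((k _ _).trans (congrArg _ (funext fun s => LevB.chT_right _ _))).symm
  have e2 : (h.lv M).e (MvPolynomial.X i) =
      H.map ev.toEqv.qm ((P.EM Z M).lc _ (Pi.single i 1) 0) :=
    ((h.lv M).e_X i).trans ((k _ _).trans (congrArg _ (funext fun s => LevB.chT_left _ _))).symm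
  have e3 : H.map (h.evM M q) (P.F.lc _ 0 (P.wL i)) =
      H.map ev.toEqv.qm ((P.EM Z M).lc _ 0 fun o => o.elim 0 (P.wL i)) := by
    have pr : Tq.Eqh (P.EM Z M).actT P.F.actT (P.EM Z M).cone P.F.cone _ _ := LevB.eqh_pr h.B h.abs
    rw [← Wt.map_lc pr (ψ' := 0) (χ' := P.wL i) fun t _ => by simp [chT, Fintype.prod_option],
      ev.toEqv.map_map pr.toEqv]
    rfl
  have hC := Fam.isClosed_fld (Λ := σ × Fin (M + 1)) (Sum.inr '' {i}ᶜ : Set (J ⊕ σ))
  have hs : (P.EM Z M).cone ∩ {z | ∀ j ∈ (Sum.inr '' {i}ᶜ : Set (J ⊕ σ)), z.2 j = 0} ⊆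
      (P.EM Z M).cone := inter_subset_left
  haveI := hG.fp_of hs (fun t ht z hz => ⟨hG.cone_act ht hz.1, fun j hj => by
    rw [Wt.actT_snd, hz.2 j hj, mul_zero]⟩) (hG.lc_cone.inter hC.isLocallyClosed)
  have hi := Mono.isClosedEmbedding_qinc (act := (P.EM Z M).actT) hs (by
    rw [Subtype.preimage_coe_self_inter]
    exact hC.preimage continuous_subtype_val)
  choose g hg using show ∀ y, ∃ z, Mono.qinc _ hs z = ev.toEqv.qm (f y) from fun y => by
    obtain ⟨x, a, b⟩ := hf y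
    rw [a]
    exact ⟨Quo.mk _ ⟨vl x.1 q, hA _ x.2, forall_mem_image.2 b⟩, rfl⟩
  have hc : Continuous g := hi.isEmbedding.continuous_iff.2
    ((ev.toEqv.qm.comp f).continuous.congr fun y => (hg y).symm)
  rw [e1, e2, e3, ← map_add, ← map_add, ← Wt.lc_add, ← Wt.lc_add, H.map_map,
    show ev.toEqv.qm.comp f = (Mono.qinc _ hs).comp ⟨g, hc⟩ from
      ContinuousMap.ext fun y => (hg y).symm, ← H.map_map, ← Wt.rs_eq, Wt.rs_lc, zero_add, add_zero,
    add_zero, show (Pi.single none 1 + fun o : Option R => o.elim 0 (P.wL i)) = P.w (.inr i) from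
      funext fun o => by cases o <;> simp [PB.w]]
  refine (congrArg _ (Wt.lc_eq_zero (F := (P.EM Z M).toWt) (j := .inr i) fun z hz a => ?_)).trans
    (map_zero _)
  obtain ⟨l, b⟩ := ((PB.mem_cone h.B h.abs).1 hz.1).2.2.1
  exact b ((eq_or_ne l i).elim (fun c => c ▸ a) fun c => hz.2 _ ⟨l, c, rfl⟩)

end PB.Am

end Vale.Agent.P269.LG
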