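import Vale.Agent.P269.LG.WtB
import Vale.Agent.P269.LG.OpsD

/-! The global localisation formula as a sum over the number of edges and the vertex degrees. -/

set_option linter.unusedSectionVars false

namespace Vale.Agent.P269.LG

open Set Function TensorProduct B Fock Finset Vale.Agent.P291Z

namespace L1

theorem tt_pow (n : ℕ) : tt ^ n = Hat.single ℂ (-(n : ℤ)) 1 := by
  induction n with
  | zero => rfl
  | succ n ih => rw [pow_succ, ih, tt, Hat.single_mul, one_mul, Nat.cast_succ, neg_add]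

theorem co_aeval (Q : Polynomial ℂ) (n : ℕ) :
    (Polynomial.aeval tt Q).co (-(n : ℤ)) = Q.coeff n := by
  induction Q using Polynomial.induction_on' with
  | add a b ha hb => rw [map_add, Hat.co_add, ha, hb, Polynomial.coeff_add]
  | monomial k a =>
    rw [Polynomial.aeval_monomial, ← Algebra.smul_def, Hat.co_smul, tt_pow, Hat.co_single,
      Polynomial.coeff_monomial]
    by_cases e : k = n
    · rw [if_pos e, if_pos (by rw [e]), smul_eq_mul, mul_one]
    · rw [if_neg e, if_neg (by omega), smul_zero]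

theorem aeval_inj {Q Q' : Polynomial ℂ} (e : Polynomial.aeval tt Q = Polynomial.aeval tt Q') :
    Q = Q' := Polynomial.ext fun n => by rw [← co_aeval, e, co_aeval]

theorem exists_lin {M α : Type} [AddCommGroup M] [Module ℂ M] {G : Set M}
    (hG : Submodule.span ℂ G = ⊤) (s : Finset α) (A : α → ℕ → M →ₗ[ℂ] F) (Z : M →ₗ[ℂ] ℂ)
    (h : ∀ x ∈ G, (∀ b, (support fun m => A b m x).Finite) ∧
      ∃ Q, Polynomial.aeval tt Q = ∑ b ∈ s, ∑ᶠ m, A b m x ∧ Q.coeff 0 = Z x) :
    ∃ ZT : M →ₗ[ℂ] Polynomial ℂ, (∀ x, (ZT x).coeff 0 = Z x) ∧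
      ∀ x, Polynomial.aeval tt (ZT x) = ∑ b ∈ s, ∑ᶠ m, A b m x := by
  have fin : ∀ x b, (support fun m => A b m x).Finite := fun x b => by
    have hx : x ∈ Submodule.span ℂ G := hG ▸ Submodule.mem_top
    induction hx using Submodule.span_induction with
    | mem x hx => exact (h x hx).1 b
    | zero => simp
    | add x y _ _ hx hy =>
      simp only [map_add]
      exact (hx.union hy).subset (support_add _ _)
    | smul c x _ hx =>
      simp only [map_smul]
      exact hx.subset (support_const_smul_subset c fun m => A b m x)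
  let Φ : M →ₗ[ℂ] F :=
    { toFun := fun x => ∑ b ∈ s, ∑ᶠ m, A b m x
      map_add' := fun x y => by
        rw [← sum_add_distrib]
        exact sum_congr rfl fun b _ => by
          simpa only [map_add] using finsum_add_distrib (fin x b) (fin y b)
      map_smul' := fun c x => by
        rw [RingHom.id_apply, smul_sum]
        exact sum_congr rfl fun b _ => by
          simpa only [map_smul] using (smul_finsum' c (fin x b)).symm }
  have key : ∀ x, ∃ Q, Polynomial.aeval tt Q = Φ x ∧ Q.coeff 0 = Z x := fun x => by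
    have hx : x ∈ Submodule.span ℂ G := hG ▸ Submodule.mem_top
    induction hx using Submodule.span_induction with
    | mem x hx => exact (h x hx).2
    | zero => exact ⟨0, by rw [map_zero, map_zero], by rw [map_zero, Polynomial.coeff_zero]⟩
    | add x y _ _ hx hy =>
      obtain ⟨Q, a, b⟩ := hx
      obtain ⟨Q', a', b'⟩ := hy
      exact ⟨Q + Q', by rw [map_add, map_add, a, a'], by rw [map_add, Polynomial.coeff_add, b, b']⟩
    | smul c x _ hx =>
      obtain ⟨Q, a, b⟩ := hx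
      exact ⟨c • Q, by rw [map_smul, map_smul, a], by rw [map_smul, Polynomial.coeff_smul, b]⟩
  choose Q h1 h2 using key
  exact ⟨⟨⟨Q, fun x y => aeval_inj (by rw [map_add, h1, h1, h1, map_add])⟩, fun c x =>
    aeval_inj (by rw [RingHom.id_apply, map_smul, h1, h1, map_smul])⟩, h2, h1⟩

theorem span_single {W : Type} [AddCommGroup W] [Module ℂ W] :
    Submodule.span ℂ {y : ℕ →₀ W | ∃ k v, y = Finsupp.single k v} = ⊤ :=
  eq_top_iff.2 fun y _ => by
    induction y using Finsupp.induction_linear with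
    | zero => exact zero_mem _
    | add a b ha hb => exact add_mem (ha trivial) (hb trivial)
    | single k v => exact Submodule.subset_span ⟨k, v, rfl⟩

end L1

variable {V : Type} [AddCommGroup V] [Module ℂ V] {p : Fock.Par ℂ V} {ι : Type} [Fintype ι]
  {fr : Fock.Frame p ι} {C : Type} [CommRing C] [Algebra ℂ C] {R J K : Type} [Fintype R]
  [Fintype J] [Fintype K] {X : Type} [TopologicalSpace X] {ac : Act fr C} [DecidableEq R] {r : ℕ}
  {P : PB R J K (Fin (r + 1))} {T : Th P X} {D : Dic ac X} {a : Fin (r + 1) → ℂ}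
  {c : Fin (r + 1) → C} {ZV : Fin (r + 1) → (R → ℤ) → ℤ → ℕ → Fock.S (p.fs ℕ) →ₗ[ℂ] ℂ}
  {ZE : (Option R → ℤ) → ℤ → Fock.S ((p.pi (Fin (r + 1))).fs ℕ) →ₗ[ℂ] ℂ}
  {ZZ : ℕ → (Fin (r + 1) → R → ℤ) → ℤ → ℤ → S ((p.bc F).fs (Sym (Fin (r + 1)))) →ₗ[F] F}
  {ν ν' : Type} [Fintype ν] [Fintype ν'] {g g' : ℤ} {d d' : Option R → ℤ}

namespace L1

theorem totD_eq {β : R → ℤ} {βv : Fin (r + 1) → R → ℤ} (h : ∑ i, βv i = β) (e : ℤ) :
    totD P βv (e - ∑ n, dgV P.wL n (βv n) none) = fun o => o.elim e β := by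
  funext o
  cases o with
  | none => simp [totD, dgV]
  | some s => rw [← h, Option.elim_some, Finset.sum_apply]; rfl

theorem ins_res (τ : Md P X ν g d) (χ : Fin (r + 1) → F ⊗[ℂ] C) (n : ν) (k : ℕ)
    (v : Fin (r + 1) → V) :
    τ.ins D χ n (res (ac.bc F) χ (jV V (Fin (r + 1)) F (Finsupp.single k v))) =
      inF _ (τ.ψ n ^ k) * ∑ i, ∑ l : Fin (r + 1), inF _ (τ.id (Cm · n i)) *
        τ.evH D n ((ac.bc F).act ((-χ i) ^ (l : ℕ)) (1 ⊗ₜ v l)) := by
  have e : jV V (Fin (r + 1)) F (Finsupp.single k v) = Finsupp.single k fun l => 1 ⊗ₜ[ℂ] v l :=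
    Finsupp.mapRange_single (hf := map_zero _)
  rw [e, B.res, Finsupp.lsum_single, LinearMap.sum_apply, map_sum, ← mulF_apply, map_sum]
  refine sum_congr rfl fun i _ => ?_
  rw [LinearMap.sum_apply, map_sum, map_sum]
  refine sum_congr rfl fun l _ => ?_
  rw [mulF_apply, ← mulF_assoc, ← map_mul, mul_comm (τ.ψ n ^ k)]
  exact τ.ins_single D n _ _

end L1

namespace Hy

variable (h : Hy T D a c ZV ZE)
include h

theorem exists_Wp_eq_zero (ν : Type) [Fintype ν] (g : ℤ) (d : Option R → ℤ) :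
    ∃ N, (∀ m : AM0 R J _ ν, Fx m P g d → nfl m < 2 * N) ∧
      ∀ k ∉ range N, ∀ χ β L, (T ν g d).Wp D χ k β L = 0 := by
  obtain ⟨N, hN⟩ := (finite_nfl h.goodE ν g d).bddAbove
  have k : ∀ m : AM0 R J _ ν, Fx m P g d → nfl m < 2 * (N + 1) := fun m hm => by
    have : nfl m ≤ N := hN ⟨m, hm, rfl⟩
    omega
  refine ⟨N + 1, k, fun l hl χ β L => ?_⟩
  rw [Md.Wp, Md.W, Md.fnE_ite _ inv_pcs, Md.id, show (T ν g d).sel (Pcs l β) = ∅ from ?_, idE_empty,
    map_zero, ← mulF_apply, map_zero, LinearMap.zero_apply, map_zero]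
  refine eq_empty_of_forall_notMem fun x ⟨m, hm, e, _⟩ => hl (mem_range.2 ?_)
  have := k m ((T ν g d).fx hm)
  omega

theorem finite_Wp (χ) (β) (L) : (support fun k => (T ν g d).Wp D χ k β L).Finite := by
  obtain ⟨N, -, hN⟩ := h.exists_Wp_eq_zero ν g d
  exact (range N).finite_toSet.subset fun k hk => by_contra fun e => hk (hN k e χ β L)

theorem sum_Wp {s : Finset (Fin (r + 1) → R → ℤ)}
    (hs : ∀ m : AM0 R J _ ν, Fx m P g d → vdeg m ∈ s) (χ) (L) :
    ∑ β ∈ s, ∑ᶠ k, (T ν g d).Wp D χ k β L =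
      (T ν g d).I (L.map fun x => (T ν g d).ins D χ x.1 x.2).prod := by
  obtain ⟨N, h1, hN⟩ := h.exists_Wp_eq_zero ν g d
  have e : ∑ x ∈ s ×ˢ range N,
      ((T ν g d).sel (Pcs x.2 x.1)).indicator (1 : (T ν g d).A → ℂ) = 1 := by
    funext y
    obtain ⟨m, hm⟩ := (T ν g d).ex y
    obtain ⟨k, hk⟩ := even_nfl m
    have := h1 m ((T ν g d).fx hm)
    rw [Finset.sum_apply, sum_eq_single_of_mem (vdeg m, k)
      (mem_product.2 ⟨hs m ((T ν g d).fx hm), mem_range.2 (by omega)⟩) fun x _ hx =>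
        indicator_of_notMem (fun hy => hx ?_) _]
    · exact indicator_of_mem (((T ν g d).mem_sel inv_pcs hm).2 ⟨by omega, rfl⟩) _
    · obtain ⟨e1, e2⟩ := ((T ν g d).mem_sel inv_pcs hm).1 hy
      exact Prod.ext e2.symm (by omega)
  have e' := fnE_sum (s ×ˢ range N) fun x _ =>
    isLocallyConstant_ind (h.clopen_pcs (ν := ν) (g := g) (d := d) x.2 x.1)
  rw [e, fnE_one] at e'
  rw [sum_congr rfl fun β _ => finsum_eq_sum_of_support_subset _ (s := range N)
    fun k hk => by_contra fun e => hk (hN k e χ β L), ← sum_product']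
  refine Eq.trans ?_ (congrArg _ ((congrArg (· * _) (inF (T ν g d).A).map_one).trans (one_mul _)))
  refine Eq.trans ?_ (congrArg (fun z => (T ν g d).I (mulF _ (inF _ z) _)) e'.symm)
  rw [map_sum, map_sum, LinearMap.sum_apply, map_sum]
  exact sum_congr rfl fun x _ => by rw [Md.Wp, Md.W, Md.fnE_ite _ inv_pcs]; rfl

theorem loc1 (hZ : IsZZ T D (chi a c) ZZ) :
    ∃ (ZT : (R → ℤ) → ℤ → ℤ → S ((p.pi (Fin (r + 1))).fs ℕ) →ₗ[ℂ] Polynomial ℂ)
      (tup : (R → ℤ) → Finset (Fin (r + 1) → R → ℤ)), tup 0 = {0} ∧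
      (∀ β e j x, (ZT β e j x).coeff 0 = ZE (fun o => o.elim e β) j x) ∧
      ∀ β e j x, Polynomial.aeval tt (ZT β e j x) = ∑ βv ∈ tup β, ∑ᶠ m,
        ZZ m βv (e - ∑ n, dgV P.wL n (βv n) none) j
          (Fock.map _ (isEv_res (ac.bc F) (chi a c)) (bcS _ (isEvS_jV p F) x)) := by
  obtain ⟨tup, h0, h1, h2⟩ := exists_tup h.good h.B h.abs
  let A : (S ((p.bc F).fs (Sym (Fin (r + 1)))) →ₗ[F] F) → S ((p.pi (Fin (r + 1))).fs ℕ) →ₗ[ℂ] F :=
    fun Z =>
      { toFun := fun x => Z (Fock.map _ (isEv_res (ac.bc F) (chi a c)) (bcS _ (isEvS_jV p F) x))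
        map_add' := fun x y => by rw [map_add, map_add, map_add]
        map_smul' := fun z x => by
          rw [bcS_smul, map_smul, map_smul]
          exact (Algebra.smul_def z _).symm }
  have hA : ∀ Z (n : ℕ) (L : List (Fin n × _)), A Z (mon _ L) = Z (mon _ (L.map fun x =>
      (x.1, res (ac.bc F) (chi a c) (jV V (Fin (r + 1)) F x.2)))) := fun Z n L => by
    refine congrArg Z ?_
    simp only [mon, map_list_prod, List.map_map, comp_def, bcS_ι, map_ι]
  have key := fun β e j => L1.exists_lin (span_mon (p := (p.pi (Fin (r + 1))).fs ℕ) L1.span_single)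
    (tup β) (fun βv m => A (ZZ m βv (e - ∑ n, dgV P.wL n (βv n) none) j))
    (ZE (fun o => o.elim e β) j) ?_
  · choose ZT k1 k2 using key
    exact ⟨ZT, tup, h0, k1, k2⟩
  rintro _ ⟨n, L, hL, hs, rfl⟩
  simp only [hA, hZ _ _ _ _ _ _ (hL.map_snd _)]
  refine ⟨fun b => h.finite_Wp _ _ _, ?_⟩
  obtain ⟨L, rfl⟩ := exists_map_eq (fun x : Fin n × ℕ × (Fin (r + 1) → V) =>
    (x.1, Finsupp.single x.2.1 x.2.2)) L fun x hx =>
      let ⟨k, v, e⟩ := hs x hx
      ⟨(x.1, k, v), Prod.ext rfl e⟩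
  obtain ⟨Q, q1, q2⟩ := h.hG (Fin n) (j + 1) (fun o => o.elim e β) L
    (hL.congr (by simp [comp_def]))
  refine ⟨Q, q1.trans ?_, q2.trans ?_⟩
  · rw [sum_congr rfl fun βv hv => by rw [L1.totD_eq (h1 β βv hv)],
      h.sum_Wp (s := tup β) fun m hm => h2 _ m _ _ hm]
    simp only [List.map_map, comp_def, L1.ins_res]
  · simp only [add_sub_cancel_right, mon, List.map_map, comp_def]

end Hy

end Vale.Agent.P269.LG
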