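import Vale.Agent.P269.LG.BorV
import Vale.Agent.P269.Map.SQD
import Vale.Agent.P269.Glu.Pcy

/-! Maps of torus charts. -/

set_option linter.unusedSectionVars false
set_option linter.style.haveILetI false

namespace Vale.Agent.P269.LG

open Set Function Topology Filter Module TensorProduct Vale.Agent.P291Z Vale.Agent.P269.Ch
  Vale.Agent.P269.Orb Vale.Agent.P269.Loc Vale.Agent.P269.Holo

/-- a rank criterion for immersions -/
theorem imm_of_rank {Y' Y : HO} {m : Mor Y'.toSp Y.toSp} {L : Y'.A →L[ℂ] Y.A} {d : Y'.L →L[ℂ] Y.L}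
    (h1 : ∀ t, Y.ι (m.f t) = L (Y'.ι t)) (h2 : ∀ x, m.ρ (Y'.κ x) = Y.κ (d x)) (sd : Surjective d)
    {t : Y'.T} (hr : finrank ℂ Y.L + Y'.n ≤ finrank ℂ ((tan Y'.ι t).map (L : Y'.A →ₗ[ℂ] Y.A)))
    {v : Y'.A} (hv : v ∈ tan Y'.ι t) (h : L v ∈ Y.orbB.F (m.f t)) : v ∈ Y'.orbB.F t := by
  obtain ⟨x, hx⟩ := h
  obtain ⟨x, rfl⟩ := sd x
  have e : ∀ y, L (Y'.inf t y) = Y.inf (m.f t) (d y) := HO.map_inf h1 h2 t
  have h3 := KD.finrank_inf_ker' (tan Y'.ι t) (L : Y'.A →ₗ[ℂ] Y.A)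
  have h4 := LinearMap.finrank_range_add_finrank_ker (d : Y'.L →ₗ[ℂ] Y.L)
  rw [LinearMap.range_eq_top.2 sd, finrank_top] at h4
  rw [(Y'.mfd t).finrank_tan] at h3
  have h5 : (LinearMap.ker (d : Y'.L →ₗ[ℂ] Y.L)).map (Y'.inf t : Y'.L →ₗ[ℂ] Y'.A) =
      tan Y'.ι t ⊓ LinearMap.ker (L : Y'.A →ₗ[ℂ] Y.A) := by
    refine Submodule.eq_of_le_of_finrank_le ?_ ?_
    · rintro _ ⟨y, hy, rfl⟩
      exact ⟨Y'.inf_mem_tan t y, (e y).trans ((congrArg _ hy).trans (map_zero _))⟩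
    · rw [← (Submodule.equivMapOfInjective _ (Y'.inf_inj t) _).finrank_eq]
      omega
  obtain ⟨y, -, hy⟩ := h5.ge (x := v - Y'.inf t x) ⟨sub_mem hv (Y'.inf_mem_tan t x),
    (map_sub L _ _).trans (sub_eq_zero.2 (hx.symm.trans (e x).symm))⟩
  exact ⟨y + x, (map_add _ _ _).trans (eq_sub_iff_add_eq.1 hy)⟩

variable {σ : Type} [Fintype σ] {A B W A' B' W' P : Type} [NormedRing A] [NormedAlgebra ℂ A]
  [NormedRing B] [NormedAlgebra ℂ B] [NormedAddCommGroup W] [NormedSpace ℂ W] [NormedRing A']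
  [NormedAlgebra ℂ A'] [NormedRing B'] [NormedAlgebra ℂ B'] [NormedAddCommGroup W']
  [NormedSpace ℂ W'] [AddCommGroup P] [Module ℂ P] [TopologicalSpace P] [FiniteDimensional ℂ A]
  [FiniteDimensional ℂ B] [FiniteDimensional ℂ W] [FiniteDimensional ℂ A'] [FiniteDimensional ℂ B']
  [FiniteDimensional ℂ W'] {act₀ : A → W → W} {act : B → W → W} {act₀' : A' → W' → W'}
  {act' : B' → W' → W'} {D : KD B W P} {Z : Set W} {Z' : Set W'} {θ₀ : A' →ₐ[ℂ] A}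
  {θ : B' →ₐ[ℂ] B} {f : W' →L[ℂ] W}

namespace TC

/-- a linear map of torus charts; the Kuranishi data are pulled back -/
structure Mp (θ₀ : A' →ₐ[ℂ] A) (c' : TC σ act₀' act' (D.pb θ f) Z') (c : TC σ act₀ act D Z) :
    Prop where
  u : ∀ a s, θ (c'.u (a, s)) = c.u (θ₀ a, s)
  eqv : ∀ b, IsUnit b → ∀ x, f (act' b x) = act (θ b) (f x)
  maps : MapsTo f c'.O c.O

/-- the data for the pull-back of a chart -/
structure Pb (c : TC σ act₀ act D Z) (act₀' : A' → W' → W') (act' : B' → W' → W')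
    (θ₀ : A' →ₐ[ℂ] A) (θ : B' →ₐ[ℂ] B) (f : W' →L[ℂ] W) (u' : (A' × (σ → ℂ)) ≃ₐ[ℂ] B')
    (S Z' : Set W') (n' : ℕ) : Prop where
  isAct₀ : IsAct act₀' univ
  isAct : IsAct act' univ
  lin : ∀ b, IsUnit b → IsLinearMap ℂ (act' b)
  eq : ∀ a, IsUnit a → ∀ x, act₀' a x = act' (u' (a, 1)) x
  u : ∀ a s, θ (u' (a, s)) = c.u (θ₀ a, s)
  eqv : ∀ b, IsUnit b → ∀ x, f (act' b x) = act (θ b) (f x)
  ivt : Ivt act' S
  zero : Z' = S ∩ f ⁻¹' Z
  prp : Prp act₀' (S ∩ f ⁻¹' c.O)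
  mf : KD.Mf A' (S ∩ f ⁻¹' c.O) n'
  cZ : CompactSpace (Quo act₀' Z')

namespace Pb

variable {c : TC σ act₀ act D Z} {u' : (A' × (σ → ℂ)) ≃ₐ[ℂ] B'} {S : Set W'} {n' : ℕ}
  (h : c.Pb act₀' act' θ₀ θ f u' S Z' n')
include h

theorem ivtO : Ivt act₀' (S ∩ f ⁻¹' c.O) := fun a ha x hx => by
  have h1 : IsUnit (u' (a, 1)) := (Prod.isUnit_iff.2 ⟨ha, isUnit_one⟩).map u'
  rw [h.eq a ha]
  refine ⟨h.ivt _ h1 x hx.1, ?_⟩
  rw [mem_preimage, h.eqv _ h1, h.u, ← c.eq _ (ha.map θ₀)]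
  exact c.dom.isAct.mem _ (ha.map θ₀) _ hx.2

/-- the pull-back of a chart -/
noncomputable def tc : TC σ act₀' act' (D.pb θ f) Z' where
  u := u'
  O := S ∩ f ⁻¹' c.O
  dm := f ⁻¹' c.dm
  n := n'
  v := c.v
  r := c.r
  isAct₀ := h.isAct₀
  isAct := h.isAct
  lin := h.lin
  eq := h.eq
  ok := c.ok.pb (Units.map θ.toMonoidHom)
    (Continuous.units_map _ θ.toLinearMap.continuous_of_finiteDimensional) (fun _ => rfl)
    f.continuous.continuousOn (fun _ a => a) fun x _ a ha => h.eqv a ha x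
  sub _ a := c.sub a.2
  ivt b hb x hx := mem_of_eq_of_mem (s := c.dm) (h.eqv b hb x) (c.ivt _ (hb.map θ) _ hx)
  ivtZ := h.zero ▸ fun b hb x hx => ⟨h.ivt b hb x hx.1,
    mem_of_eq_of_mem (s := Z) (h.eqv b hb x) (c.ivtZ _ (hb.map θ) _ hx.2)⟩
  dom :=
    haveI := FiniteDimensional.proper ℂ W'
    haveI := (pcy_self h.mf).lc.locallyCompactSpace
    haveI := h.isAct₀
    haveI := h.isAct₀.mono (subset_univ _) h.ivtO
    ⟨fun _ a => ⟨(h.zero.le a).1, c.dom.sub (h.zero.le a).2⟩,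
      ⟨univ, isOpen_univ, (inter_univ _).symm⟩, ‹_›, h.prp.orb, fun x hx =>
        (c.dom.zero _ hx.2).trans (h.zero ▸ (and_iff_right hx.1).symm)⟩
  cpt s hs x hx := by
    have h1 : IsUnit (u' (1, s)) := (Prod.isUnit_iff.2 ⟨isUnit_one, Pi.isUnit_iff.2 fun i =>
      (norm_ne_zero_iff.1 ((hs i).trans_ne one_ne_zero)).isUnit⟩).map u'
    refine ⟨h.ivt _ h1 x hx.1, ?_⟩
    rw [mem_preimage, h.eqv _ h1, h.u, map_one]
    exact c.cpt s hs _ hx.2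
  mf := h.mf
  cZ := h.cZ

theorem mp : Mp θ₀ h.tc c := ⟨h.u, h.eqv, fun _ a => a.2⟩

end Pb

namespace Mp

variable {c' : TC σ act₀' act' (D.pb θ f) Z'} {c : TC σ act₀ act D Z} (h : Mp θ₀ c' c)
include h

theorem eqv₀ (a : A') (ha : IsUnit a) (x : W') : f (act₀' a x) = act₀ (θ₀ a) (f x) := by
  rw [c'.eq a ha, h.eqv (c'.u (a, 1)) (c'.U (ha.unit, 1)).isUnit, h.u, c.eq _ (ha.map θ₀)]

theorem hb (s : Tor σ) (x : W') : f (c'.b s x) = c.b s (f x) := by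
  rw [b_apply, h.eqv _ (c'.t s).isUnit, t_val, h.u, map_one]
  rfl

theorem mem_Z {x : W'} (hx : x ∈ c'.O) : f x ∈ Z ↔ x ∈ Z' :=
  (c.dom.zero _ (h.maps hx)).symm.trans (c'.dom.zero _ hx)

theorem mapsZ : MapsTo f Z' Z := fun _ a => (h.mem_Z (c'.dom.sub a)).2 a

/-- the morphism of orbifolds -/
noncomputable def mor : Mor c'.Y.toSp c.Y.toSp where
  ρ := Units.map θ₀.toMonoidHom
  f t := c.pt (f (c'.Y.ι t)) (h.maps (c'.ι_mem t))
  cρ := Continuous.units_map _ θ₀.toLinearMap.continuous_of_finiteDimensional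
  cf := (f.continuous.comp c'.Y.cι).subtype_mk _
  eqv g t := c.Y.emb.injective (h.eqv₀ _ (Units.isUnit g) _)

theorem ι_mor (t : c'.Y.T) : c.Y.ι (h.mor.f t) = f (c'.Y.ι t) := rfl

theorem isEq : c.h.toTS.IsEq c'.h.toTS h.mor := fun s t => c.Y.emb.injective (h.hb (ph s) _)

theorem mor_κ (x : A') : h.mor.ρ (c'.Y.κ x) = c.Y.κ (θ₀ x) := by
  haveI := FiniteDimensional.complete ℂ A
  haveI := FiniteDimensional.complete ℂ A'
  letI := NormedAlgebra.restrictScalars ℚ ℂ A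
  letI := NormedAlgebra.restrictScalars ℚ ℂ A'
  exact Units.ext (NormedSpace.map_exp θ₀ θ₀.toLinearMap.continuous_of_finiteDimensional x)

/-- the immersion -/
noncomputable def imm (sd : Surjective θ₀) (sr : ∀ a, IsUnit a → ∃ a', IsUnit a' ∧ θ₀ a' = a)
    (fr : ∀ x ∈ c'.O, ∀ a, IsUnit a → θ₀ a = 1 → act₀' a x = x → a = 1)
    (rk : ∀ t, finrank ℂ A + c'.n ≤ finrank ℂ ((tan c'.Y.ι t).map (f : W' →ₗ[ℂ] W))) :
    Imm h.mor where
  L := f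
  d := LinearMap.toContinuousLinearMap θ₀.toLinearMap
  ι _ := rfl
  smul g := h.eqv₀ _ (Units.isUnit g)
  hd := h.mor_κ
  sd := sd
  sr g := let ⟨_, a, b⟩ := sr _ (Units.isUnit g); ⟨a.unit, Units.ext b⟩
  free g t a b := Units.ext (fr _ (c'.ι_mem t) _ (Units.isUnit g) (congrArg Units.val a)
    (congrArg c'.Y.ι b))
  imm t _ := imm_of_rank (m := h.mor) (L := f) (d := LinearMap.toContinuousLinearMap θ₀.toLinearMap)
    (fun _ => rfl) h.mor_κ sd (rk t)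

variable [IsTopologicalAddGroup P] [ContinuousSMul ℂ P] [T2Space P]

theorem isKP : c'.dom.IsKP (c.k.pb h.mor) c.e :=
  ⟨c.isKP.emb, c.isKP.range, fun _ => c.isKP.top _, fun g w => (c.isKP.eqv (h.mor.ρ g) w).trans
    (congrArg (D.ρ · _) (h.u (show A'ˣ from g) 1).symm), fun _ => c.isKP.van _, fun _ => c.isKP.sec _,
    fun _ => c.isKP.obs _⟩

theorem Zs_eq : h.mor.f ⁻¹' c.k.Zs = c'.k.Zs :=
  Set.ext fun t => c.mem_Zs.trans ((h.mem_Z (c'.ι_mem t)).trans c'.mem_Zs.symm)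

theorem vir_eq {M : ℕ} {V : Type} [NormedAddCommGroup V] [NormedSpace ℂ V] [FiniteDimensional ℂ V]
    {ac : B' → V → V} {ZM : Set V} (L : c'.Lv M ac ZM) :
    ((c.κ.pb h.isEq).bo (pm σ M)).vir L.j (c'.h.fundB M) = L.β :=
  L.vir_eq h.isKP _ fun s w => (c.e_κ s w).trans (congrArg (D.ρ · _)
    ((h.u 1 _).trans (congrArg (fun a => c.u (a, _)) (map_one θ₀))).symm)

theorem mapsFZ : MapsTo f c'.FZ c.FZ := fun x hx => ⟨h.mapsZ hx.1, fun s hs =>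
  let ⟨a, ha, e⟩ := hx.2 s hs
  ⟨_, ha.map θ₀, (h.hb s x).symm.trans ((congrArg f e).trans (h.eqv₀ a ha x))⟩⟩

theorem eqM : EqM act₀' act₀ c'.FZ c.FZ θ₀ f :=
  ⟨⟨h.mor.ρ, h.mor.cρ, fun _ => rfl⟩, h.mapsFZ, f.continuous.continuousOn,
    fun a ha x _ => h.eqv₀ a ha x⟩

theorem eqZ : EqM act₀' act₀ Z' Z θ₀ f :=
  ⟨⟨h.mor.ρ, h.mor.cρ, fun _ => rfl⟩, h.mapsZ, f.continuous.continuousOn,
    fun a ha x _ => h.eqv₀ a ha x⟩

/-- points of finite fibres over fixed points are fixed -/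
theorem mem_FZ {x : W'} (hx : x ∈ Z') (hf : f x ∈ c.FZ)
    (fin : (h.eqZ.map ⁻¹' {Quo.mk _ ⟨f x, hf.1⟩}).Finite) : x ∈ c'.FZ := by
  haveI := c'.niceZ
  haveI := c'.gd.isActZ
  let γ : (σ → ℂ) → Quo act₀' Z' := fun y =>
    Quo.mk _ ⟨c'.b (ph (expT y)) x, c'.b_mem c'.ivtZ _ hx⟩
  have h1 : Continuous γ := Tq.continuous_mk.comp ((c'.h.continuous_b
    (continuous_ph.comp isExp_expT.cont) continuous_const).subtype_mk _)
  have h2 : (range γ).Subsingleton := not_nontrivial_iff.1 fun e =>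
    (isPreconnected_range h1).infinite_of_nontrivial e (fin.subset (by
      rintro _ ⟨y, rfl⟩
      obtain ⟨a, ha, e⟩ := hf.2 _ (ph_mem (expT y))
      exact (Quot.sound ⟨a, ha, (h.hb _ x).trans e⟩).symm))
  refine ⟨hx, fun s hs => ?_⟩
  obtain ⟨y, rfl⟩ := expT_surjective s
  obtain ⟨g, e⟩ := (Holo.Sp.mk_eq_iff (act := act₀')).1 (h2 ⟨0, rfl⟩ ⟨y, rfl⟩)
  refine ⟨_, g.isUnit, (congrArg (c'.b · x) (ph_of_mem hs).symm).trans
    ((congrArg Holo.Sp.val e).symm.trans (congrArg (act₀' g) ?_))⟩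
  change c'.b (ph (expT 0)) x = x
  rw [isExp_expT.zero, map_one, map_one, End.one_apply]

/-- the map of the fixed loci -/
noncomputable def φ : C(c'.F, c.F) := h.eqM.map

theorem φ_cl (x : W') (hx : x ∈ c'.FZ) : h.φ (c'.cl x hx) = c.cl (f x) (h.mapsFZ hx) := rfl

theorem g_φ (z : c'.F) : c.g (h.φ z) = h.mor.map (c'.g z) := by
  obtain ⟨x, hx, rfl⟩ := c'.cl_surj z
  exact (h.mor.map_π (c'.pt x (c'.FZ_sub_O hx))).symm

theorem pc {V : ℕ → Type} [∀ M, NormedAddCommGroup (V M)] [∀ M, NormedSpace ℂ (V M)]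
    [∀ M, FiniteDimensional ℂ (V M)] {ac : ∀ M, B' → V M → V M} {ZM : ∀ M, Set (V M)}
    (L : ∀ M, c'.Lv M (ac M) (ZM M)) :
    Pc c'.h.toTS (h.mor.f ⁻¹' c.k.Zs) (fun M => (L M).j) c'.g fun M => (L M).i :=
  h.Zs_eq ▸ TC.pc L

end Mp

end TC

end Vale.Agent.P269.LG
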