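import Vale.Agent.P269.LG.Nrm0
import Vale.Agent.P269.Spl.GBx
import Vale.Agent.P269.Glu.Act

/-! The normal line is a line bundle. -/

set_option linter.unusedSectionVars false

namespace Vale.Agent.P269.Ch

open Set Function Topology Filter Vale.Agent.P291Z KD Base

theorem NrmA.ok_line {A W P : Type} [NormedRing A] [NormedAlgebra ℂ A] [NormedAddCommGroup W]
    [NormedSpace ℂ W] [NormedAddCommGroup P] [NormedSpace ℂ P] [FiniteDimensional ℂ P]
    {act : A → W → W} {Z : Set W} {ρ : A → P → P} {G : W → Set P}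
    (add : ∀ a q q', ρ a (q + q') = ρ a q + ρ a q') (smul : ∀ a (s : ℂ) q, ρ a (s • q) = s • ρ a q)
    (one : ∀ q, ρ 1 q = q) (mul : ∀ a b q, ρ (a * b) q = ρ a (ρ b q))
    (cont : ∀ q, Continuous fun g : Aˣ => ρ g q) (fr : ∀ z₀ : Z, ∃ e : Z → P, ContinuousAt e z₀ ∧
      ∀ᶠ z in 𝓝 z₀, e z ≠ 0 ∧ Submodule.span ℂ (G z) = ℂ ∙ e z)
    (inv : ∀ z ∈ Z, ∀ a, IsUnit a → ∀ q ∈ G z, ρ a q ∈ Submodule.span ℂ (G (act a z))) :
    (⟨ρ, ⊤, fun z => Submodule.span ℂ (G z), fun _ => ⊥⟩ : SD A W P).Ok act Z 1 0 := by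
  refine ⟨inferInstanceAs (FiniteDimensional ℂ (⊤ : Submodule ℂ P)), ⟨fun _ _ _ _ => trivial,
    fun a _ q _ q' _ => add a q q', fun a _ s q _ => smul a s q, fun q _ => one q,
    fun a b _ _ q _ => mul a b q, fun q _ => cont q⟩, ⟨fun _ _ => le_top,
      Psi.isClosed_span (κ := Unit) (B := fun z : Z => Submodule.span ℂ (G z)) fun z => ?_,
      fun z hz => ?_, fun z hz a ha q hq => (Submodule.span_le (p := Submodule.comap
        (⟨⟨ρ a, add a⟩, smul a⟩ : P →ₗ[ℂ] P) (Submodule.span ℂ (G (act a z))))).2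
          (fun q => inv z hz a ha q) hq⟩, ⟨fun _ _ => le_top,
      (isClosed_eq (f := fun y : Z × P => y.2) continuous_snd continuous_const :), fun _ _ => finrank_bot _ _,
      fun z hz a ha q hq => ?_⟩, fun _ _ => bot_le⟩
  · obtain ⟨e, a, b⟩ := fr z
    exact ⟨fun y _ => e y, continuousAt_pi.2 fun _ => a,
      linearIndependent_unique_iff.2 b.self_of_nhds.1, b.mono fun y c => by rw [c.2, range_const]⟩
  · obtain ⟨e, -, b⟩ := fr ⟨z, hz⟩
    exact (congrArg (fun B : Submodule ℂ P => Module.finrank ℂ B) b.self_of_nhds.2).trans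
      (finrank_span_singleton b.self_of_nhds.1)
  · obtain rfl : q = 0 := hq
    exact map_zero (⟨⟨ρ a, add a⟩, smul a⟩ : P →ₗ[ℂ] P)

variable {S Λ R J K ι ν κ : Type} [Fintype S] [Fintype Λ] [Fintype R] [Fintype J] [Fintype K]
  [Fintype ι] [DecidableEq ι] [Fintype ν] [Fintype κ] {ch : Ch ι J} {n : Nm ι J} {F : Wt S Λ R J}

namespace NrmA

theorem tn4_apply (a b c d : Fin (ch.M ch.o) → ℂ) (μ : Tn ch.M fun _ : Fin 4 => ch.o) :
    tn4 a b c d μ = ∑ r : Fin 4 → Fin (ch.M ch.o),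
      a (r 0) * b (r 1) * c (r 2) * d (r 3) * μ fun k => Pi.single (r k) 1 := by
  refine (congrArg μ (funext fun k => (pi_eq_sum_univ' (![a, b, c, d] k)))).trans
    ((μ.map_sum _).trans (Finset.sum_congr rfl fun r _ => (μ.map_smul_univ _ _).trans ?_))
  rw [Fin.prod_univ_four]
  rfl

theorem wd4_apply (c u u' : V ch.M) (μ : Tn ch.M fun _ : Fin 4 => ch.o) :
    wd4 c u u' μ = ∑ r : Fin 4 → Fin (ch.M ch.o),
      (c ch.o (r 0) * u ch.o (r 1) - u ch.o (r 0) * c ch.o (r 1)) *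
        (c ch.o (r 2) * u' ch.o (r 3) - u' ch.o (r 2) * c ch.o (r 3)) *
          μ fun k => Pi.single (r k) 1 := by
  simp only [wd4, _root_.add_apply, _root_.sub_apply, tn4_apply,
    ← Finset.sum_sub_distrib, ← Finset.sum_add_distrib]
  exact Finset.sum_congr rfl fun r _ => by ring

/-- only the components at `ch.o` matter -/
theorem wd4_eq {c u u' c₁ u₁ u₁' : V ch.M} {s a b t t' : ℂ} (h : c₁ ch.o = s • c ch.o)
    (h1 : u₁ ch.o = a • u ch.o + t • c ch.o) (h2 : u₁' ch.o = b • u' ch.o + t' • c ch.o) :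
    (wd4 c₁ u₁ u₁' : ch.N4) = (s ^ 2 * a * b) • wd4 c u u' := ContinuousLinearMap.ext fun μ => by
  simp only [_root_.smul_apply, wd4_apply, h, h1, h2, Pi.add_apply, Pi.smul_apply,
    smul_eq_mul, Finset.mul_sum]
  exact Finset.sum_congr rfl fun r _ => by ring

theorem exists_ne {m : ℕ} {c u : Fin m → ℂ} (hc : c ≠ 0) (h : ¬∃ s : ℂ, u = s • c) :
    ∃ i j, c i * u j - u i * c j ≠ 0 := by
  obtain ⟨i, hi⟩ := ne_iff.1 hc
  by_contra k
  refine h ⟨u i / c i, funext fun j => ?_⟩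
  have := not_not.1 fun e => k ⟨i, j, e⟩
  rw [Pi.smul_apply, smul_eq_mul, div_mul_eq_mul_div, eq_div_iff hi]
  linear_combination this

/-- The tensor as a bilinear map. -/
noncomputable def wdL (c : V ch.M) : V ch.M →ₗ[ℂ] V ch.M →ₗ[ℂ] ch.N4 :=
  LinearMap.mk₂ ℂ (wd4 c) (fun u v w => ContinuousLinearMap.ext fun μ => by
      simp only [_root_.add_apply, wd4_apply, Pi.add_apply, ← Finset.sum_add_distrib]
      exact Finset.sum_congr rfl fun r _ => by ring)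
    (fun a u w => (wd4_eq (c := c) (u := u) (u' := w) (s := 1) (a := a) (b := 1) (t := 0) (t' := 0)
      (by simp) (by simp) (by simp)).trans (by simp))
    (fun u v w => ContinuousLinearMap.ext fun μ => by
      simp only [_root_.add_apply, wd4_apply, Pi.add_apply, ← Finset.sum_add_distrib]
      exact Finset.sum_congr rfl fun r _ => by ring)
    fun a u w => (wd4_eq (c := c) (u := u) (u' := w) (s := 1) (a := 1) (b := a) (t := 0) (t' := 0)
      (by simp) (by simp) (by simp)).trans (by simp)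

/-- The map of the ambient spaces. -/
noncomputable def apL {M M' : ι → ℕ} (φ : HV M M') : V M →L[ℂ] V M' := .pi fun i => φ i ∘L .proj i

end NrmA

open NrmA

theorem wd4_eq_zero {c u u' : V ch.M} (hc : c ch.o ≠ 0) :
    (wd4 c u u' : ch.N4) = 0 ↔ (∃ s : ℂ, u ch.o = s • c ch.o) ∨ ∃ s : ℂ, u' ch.o = s • c ch.o := by
  refine ⟨fun h => by_contra fun k => ?_, ?_⟩
  · obtain ⟨i, j, a⟩ := exists_ne hc fun e => k (.inl e)
    obtain ⟨i', j', b⟩ := exists_ne hc fun e => k (.inr e)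
    have := DFunLike.congr_fun h ((ContinuousMultilinearMap.mkPiAlgebra ℂ (Fin 4) ℂ
      ).compContinuousLinearMap fun k => .proj (![i, j, i', j'] k))
    refine mul_ne_zero a b (Eq.trans ?_ this)
    simp [wd4, tn4, Fin.prod_univ_four]
    ring
  · rintro (⟨s, e⟩ | ⟨s, e⟩)
    · exact (wd4_eq (c := c) (u := u) (u' := u') (s := 1) (a := 0) (b := 1) (t := s) (t' := 0)
        (by simp) (by simp [e]) (by simp)).trans (ContinuousLinearMap.ext fun _ => by simp)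
    · exact (wd4_eq (c := c) (u := u) (u' := u') (s := 1) (a := 1) (b := 0) (t := 0) (t' := s)
        (by simp) (by simp) (by simp [e])).trans (ContinuousLinearMap.ext fun _ => by simp)

theorem wd4_lin (c u u' : V ch.M) (s a b : ℂ) (t t' : ι → ℂ) :
    (wd4 (s • c) (a • u + t • c) (b • u' + t' • c) : ch.N4) = (s ^ 2 * a * b) • wd4 c u u' :=
  wd4_eq rfl rfl rfl

theorem continuous_wd4 : Continuous fun y : V ch.M × V ch.M × V ch.M =>
    (wd4 y.1 y.2.1 y.2.2 : ch.N4) := continuous_clm_apply.2 fun μ => by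
  simp only [wd4_apply]
  fun_prop

theorem sdN_ρ (a : ch.AG n ν κ Unit S) (c u u' : V ch.M) : (ch.sdN S Λ ν κ n).ρ a (wd4 c u u') =
    a.2.2.2 () ch.o ^ 4 • wd4 (apV a.1.2.1 c) (apV a.1.2.1 u) (apV a.1.2.1 u') := by
  have k : ∀ x y z w, (tn4 x y z w : ch.N4) ∘L P269.pbT a.1.2.1 _ = tn4 (a.1.2.1 ch.o x)
      (a.1.2.1 ch.o y) (a.1.2.1 ch.o z) (a.1.2.1 ch.o w) := fun x y z w =>
    ContinuousLinearMap.ext fun μ => congrArg μ (funext fun i => by fin_cases i <;> rfl)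
  refine congrArg (a.2.2.2 () ch.o ^ 4 • ·) ?_
  rw [wd4, ContinuousLinearMap.add_comp, ContinuousLinearMap.sub_comp,
    ContinuousLinearMap.sub_comp, k, k, k, k]
  rfl

theorem ivt_allG : Ivt (actG F) (ch.allG Λ ν κ n) := fun _ ha _ hz =>
  ⟨hz.1.act ha, (mem_baseF.1 (actF_mem_baseF (B := univ) (AP.isUnit_iff.1 ha).1
    (mem_baseF.2 ⟨trivial, hz.2⟩) trivial)).2⟩

namespace NrmA

variable {z : ch.WG n ν κ Unit Λ} {v v' u : V n.M} {q : Mk ν (κ ⊕ Unit)}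

/-- The tangent space at a marked point of the normalisation. -/
abbrev Tb (z : ch.WG n ν κ Unit Λ) (q : Mk ν (κ ⊕ Unit)) : Submodule ℂ (V n.M) :=
  Psi.Tg (crv z.2.1) (z.2.1.p q)

/-- The pairing of the tangent spaces of the branches. -/
noncomputable def wz (z : ch.WG n ν κ Unit Λ) : V n.M →ₗ[ℂ] V n.M →ₗ[ℂ] ch.N4 :=
  (wdL (apV z.2.2.1 (z.2.1.p (nq () false)))).compl₁₂ (apL z.2.2.1) (apL z.2.2.1)

theorem wz_apply (z : ch.WG n ν κ Unit Λ) (v v' : V n.M) : wz z v v' =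
    wd4 (apV z.2.2.1 (z.2.1.p (nq () false))) (apV z.2.2.1 v) (apV z.2.2.1 v') := rfl

theorem wz_mem (hv : v ∈ Tb z (nq () false)) (hv' : v' ∈ Tb z (nq () true)) :
    wz z v v' ∈ (ch.sdN S Λ ν κ n).B z := Submodule.subset_span ⟨v, hv, v', hv', rfl⟩

theorem wz_act {a : ch.AG n ν κ Unit S} (ha : IsUnit a) (z : ch.WG n ν κ Unit Λ) (v v' : V n.M) :
    wz (actG F a z) (((ch.re n).sdψ S Λ (nq () false)).ρ (θG a) v)
      (((ch.re n).sdψ S Λ (nq () true)).ρ (θG a) v') = (ch.sdN S Λ ν κ n).ρ a (wz z v v') := by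
  have k : ∀ y : V n.M, apV (actG F a z).2.2.1 (fun i => a.2.2.2 () i • a.2.1 i (y i)) ch.o =
      a.2.2.2 () ch.o • apV a.1.2.1 (apV z.2.2.1 y) ch.o := fun y => (map_smul _ _ _).trans
    (congrArg _ (actLb_V (c := 1) (isUnit_dupF (isUnit_θG ha)) ch.o _))
  rw [wz_apply, wz_apply, sdN_ρ]
  refine (wd4_eq (t := 0) (t' := 0) (k _) ((k v).trans ?_) ((k v').trans ?_)).trans
    (congrArg (· • _) (by ring)) <;> rw [zero_smul, add_zero]

theorem continuous_wz {T : Type} [TopologicalSpace T] {t : T}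
    {z : T → ch.WG n ν κ Unit Λ} {v v' : T → V n.M} (hz : ContinuousAt z t) (hv : ContinuousAt v t)
    (hv' : ContinuousAt v' t) : ContinuousAt (fun t => wz (z t) (v t) (v' t)) t := by
  have a : ContinuousAt (fun t => (z t).2.2.1) t :=
    continuousAt_fst.comp (continuousAt_snd.comp (continuousAt_snd.comp hz))
  have b : ∀ {y : T → V n.M}, ContinuousAt y t → ContinuousAt (fun t => apV (z t).2.2.1 (y t)) t :=
    fun h => continuousAt_pi.2 fun i => (continuousAt_pi.1 a i).clm_apply (continuousAt_pi.1 h i)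
  have c : ContinuousAt (fun t => (z t).2.1.p (nq () false)) t :=
    (W.pL (ch := ch.re n) (nq () false : Mk ν (κ ⊕ Unit))).continuous.continuousAt.comp
      (continuousAt_fst.comp (continuousAt_snd.comp hz))
  simp only [wz_apply]
  exact (continuous_wd4.continuousAt.comp ((b c).prodMk ((b hv).prodMk (b hv'))) :)

variable (hz : Gl z.1.2 z.2)
include hz

theorem mem_Tb {δ : ℂ → V n.M} (b : IsBranch ch.o (crv z.2.1) δ) (e : δ 0 = z.2.1.p q) :
    v ∈ Tb z q ↔ ∃ a : ℂ, v - a • deriv δ 0 ∈ Psi.Nr (z.2.1.p q) := by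
  have := Psi.mem_Tg (v := v) hz.mem'.2.2.1.nod b (e ▸ (hz.mem'.2.2.2.1 q).2)
  rwa [e] at this

/-- the gluing map is an immersion -/
theorem mem_Nr (hv : v ∈ Tb z q) : (∃ s : ℂ, apV z.2.2.1 v ch.o =
    s • apV z.2.2.1 (z.2.1.p q) ch.o) ↔ v ∈ Psi.Nr (z.2.1.p q) := by
  refine ⟨fun ⟨t, h7⟩ => ?_, fun h => ?_⟩
  · obtain ⟨γ, b1, b2⟩ := Psi.exists_br hz.mem'.2.2.1.nod (hz.mem'.2.2.2.1 q).1
    obtain ⟨r, h4⟩ := (mem_Tb hz b1 b2).1 hv
    obtain ⟨s, h5⟩ := Psi.mem_Nr.1 h4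
    have h9 := congrArg (z.2.2.1 ch.o) (congrFun h5 ch.o)
    rw [Pi.sub_apply, map_sub, Pi.smul_apply, map_smul, Pi.smul_apply', map_smul] at h9
    rwa [Psi.eq_zero (hz.isBranch b1) (a := r) (s := t - s ch.o) (by
      rw [(GlP.hasDerivAt_apV _ b1.holo.differentiableAt.hasDerivAt).deriv, sub_smul, b2, ← h7]
      exact (sub_sub_cancel _ _).symm.trans (congrArg _ h9)), zero_smul, sub_zero] at h4
  · obtain ⟨b, rfl⟩ := Psi.mem_Nr.1 h
    exact ⟨b ch.o, map_smul (z.2.2.1 ch.o) _ _⟩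

theorem wz_eq_zero (hv : v ∈ Tb z (nq () false)) (hv' : v' ∈ Tb z (nq () true)) :
    wz z v v' = 0 ↔ v ∈ Psi.Nr (z.2.1.p (nq () false)) ∨ v' ∈ Psi.Nr (z.2.1.p (nq () true)) :=
  (wd4_eq_zero (crv_ne (hz.apV_mem (hz.mem'.2.2.2.1 _).1) _)).trans
    (or_congr (mem_Nr hz hv) (by rw [hz.node]; exact mem_Nr hz hv'))

theorem exists_coeff (hv : v ∈ Tb z q) (h0 : v ∉ Psi.Nr (z.2.1.p q)) (hu : u ∈ Tb z q) :
    ∃ a : ℂ, u - a • v ∈ Psi.Nr (z.2.1.p q) := by
  obtain ⟨γ, b1, b2⟩ := Psi.exists_br hz.mem'.2.2.1.nod (hz.mem'.2.2.2.1 q).1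
  obtain ⟨r, a⟩ := (mem_Tb hz b1 b2).1 hv
  obtain ⟨s, b⟩ := (mem_Tb hz b1 b2).1 hu
  have hr : r ≠ 0 := fun e => h0 (by rwa [e, zero_smul, sub_zero] at a)
  refine ⟨s / r, mem_of_eq_of_mem ?_ (sub_mem b (Submodule.smul_mem _ (s / r) a))⟩
  rw [smul_sub, smul_smul, div_mul_cancel₀ _ hr, sub_sub_sub_cancel_right]

theorem B_eq (hv : v ∈ Tb z (nq () false)) (h0 : v ∉ Psi.Nr (z.2.1.p (nq () false)))
    (hv' : v' ∈ Tb z (nq () true)) (h0' : v' ∉ Psi.Nr (z.2.1.p (nq () true))) :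
    wz z v v' ≠ 0 ∧ (ch.sdN S Λ ν κ n).B z = ℂ ∙ wz z v v' := by
  refine ⟨fun e => ((wz_eq_zero hz hv hv').1 e).elim h0 h0', le_antisymm (Submodule.span_le.2 ?_)
    ((Submodule.span_singleton_le_iff_mem _ _).2 (wz_mem hv hv'))⟩
  rintro _ ⟨u, hu, u', hu', rfl⟩
  obtain ⟨a, k⟩ := exists_coeff hz hv h0 hu
  obtain ⟨a', k'⟩ := exists_coeff hz hv' h0' hu'
  obtain ⟨t, e⟩ := Psi.mem_Nr.1 k
  obtain ⟨t', e'⟩ := Psi.mem_Nr.1 k'
  have f : ∀ (a : ℂ) (t : ι → ℂ) (v p : V n.M), apV z.2.2.1 (a • v + t • p) ch.o =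
      a • apV z.2.2.1 v ch.o + t ch.o • apV z.2.2.1 p ch.o := fun a t v p =>
    (map_add (z.2.2.1 ch.o) _ _).trans 
      (congrArg₂ _ (map_smul (z.2.2.1 ch.o) _ _) (map_smul (z.2.2.1 ch.o) _ _))
  rw [sub_eq_iff_eq_add'.1 e, sub_eq_iff_eq_add'.1 e']
  exact Submodule.mem_span_singleton.2 ⟨_, (wd4_eq (one_smul ℂ _).symm (f _ _ _ _)
    ((f _ _ _ _).trans (congrArg (fun y : V ch.M => _ + t' ch.o • y ch.o) (hz.node ()).symm))).symm⟩

theorem B_br {δ δ' : ℂ → V n.M} (b : IsBranch ch.o (crv z.2.1) δ) (e : δ 0 = z.2.1.p (nq () false))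
    (b' : IsBranch ch.o (crv z.2.1) δ') (e' : δ' 0 = z.2.1.p (nq () true)) :
    wz z (deriv δ 0) (deriv δ' 0) ≠ 0 ∧
      (ch.sdN S Λ ν κ n).B z = ℂ ∙ wz z (deriv δ 0) (deriv δ' 0) :=
  B_eq hz (Submodule.subset_span ⟨δ, b.holo, b.mem, e, rfl⟩) (e ▸ Psi.notMem b)
    (Submodule.subset_span ⟨δ', b'.holo, b'.mem, e', rfl⟩) (e' ▸ Psi.notMem b')

omit hz in
theorem fac_deriv {M : ι → ℕ} {γ δ : ℂ → V M} (h : AnalyticAt ℂ γ 0) (f : Cv.Nrm.Fac γ δ) :
    ∃ (s t : ι → ℂ) (r : ℂ), (∀ i, s i ≠ 0) ∧ r ≠ 0 ∧ δ 0 = s • γ 0 ∧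
      deriv δ 0 = s • r • deriv γ 0 + t • γ 0 := by
  obtain ⟨s, φ, a1, a2, a3, a4, a5, a6⟩ := f
  have k := (hasDerivAt_smul' a1.differentiableAt.hasDerivAt (HasDerivAt.scomp_of_eq 0
    h.differentiableAt.hasDerivAt a2.differentiableAt.hasDerivAt a4.symm)).congr_of_eventuallyEq a6
  refine ⟨_, deriv s 0, _, a3, a5, by rw [a6.self_of_nhds, a4], k.deriv.trans ?_⟩
  rw [comp_apply, a4]

omit hz in
theorem exists_tan (hc : ch.Cuts) {ν' : Type} [Fintype ν'] {x : ch.W ν'} (hx : x ∈ ch.base ν')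
    (q : ν') : ∃ v : ch.W ν' → V ch.M, ContinuousAt v x ∧ ∀ᶠ y in 𝓝 x, y ∈ ch.base ν' →
      ∃ γ, IsBranch ch.o (crv y) γ ∧ γ 0 = y.p q ∧ deriv γ 0 = v y := by
  have h1 := hc.locFam ⟨x, hx⟩
  obtain ⟨v, v1, v2⟩ := (h1.smAt (hx.2.2.2.1 q).1 (hx.2.2.2.1 q).2).exists_tangent h1
  have hp : Continuous fun y : ch.W ν' => y.p q := continuous_iff_continuousAt.2 fun y =>
    (W.an_p analyticAt_id q).continuousAt
  refine ⟨fun y => v (y, y.p q), v1.continuousAt.comp_of_eq (continuous_id.prodMk hp).continuousAt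
    rfl, (Base.ev_sub' ((continuous_id.prodMk (hp.comp continuous_subtype_val)
      ).continuousAt.eventually v2)).mono fun y a b => a b (b.2.2.2.1 q).1⟩

end NrmA

variable (hn : ch.GN n Unit) {Z : Set (ch.WG n ν κ Unit Λ)} (hZ : Z ⊆ ch.allG Λ ν κ n)
include hn

set_option linter.unusedVariables false in
/-- the line is spanned by the tensor of any two branches -/
theorem sdN_B {z : ch.WG n ν κ Unit Λ} (hz : Gl z.1.2 z.2) {γ : Unit → Bool → ℂ → V ch.M}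
    (b : Brs z.2 γ) (e : γ () true 0 = γ () false 0) :
    wd4 (γ () false 0) (deriv (γ () false) 0) (deriv (γ () true) 0) ≠ 0 ∧ (ch.sdN S Λ ν κ n).B z =
      ℂ ∙ wd4 (γ () false 0) (deriv (γ () false) 0) (deriv (γ () true) 0) := by
  obtain ⟨δ, a1, a2, a3⟩ := b () false
  obtain ⟨δ', b1, b2, b3⟩ := b () true
  obtain ⟨s, t, r, a4, a5, a6, a7⟩ := fac_deriv (hz.isBranch a1).holo a3
  obtain ⟨s', t', r', b4, b5, b6, b7⟩ := fac_deriv (hz.isBranch b1).holo b3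
  obtain ⟨c1, c2⟩ := B_br (S := S) hz a1 a2 b1 b2
  rw [(GlP.hasDerivAt_apV _ a1.holo.differentiableAt.hasDerivAt).deriv, a2] at a7
  rw [(GlP.hasDerivAt_apV _ b1.holo.differentiableAt.hasDerivAt).deriv, b2, ← hz.node] at b7
  rw [a2] at a6
  have k : s ch.o ^ 2 * (s ch.o * r) * (s' ch.o * r') ≠ 0 :=
    mul_ne_zero (mul_ne_zero (pow_ne_zero _ (a4 _)) (mul_ne_zero (a4 _) a5)) (mul_ne_zero (b4 _) b5)
  have f : ∀ (s t : ι → ℂ) (r : ℂ) (v p : V ch.M), (s • r • v + t • p) ch.o =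
      (s ch.o * r) • v ch.o + t ch.o • p ch.o := fun s t r v p => by rw [mul_smul]; rfl
  rw [wd4_eq (congrFun a6 ch.o) ((congrFun a7 ch.o).trans (f _ _ _ _ _))
    ((congrFun b7 ch.o).trans (f _ _ _ _ _))]
  exact ⟨smul_ne_zero k c1, c2.trans (Submodule.span_singleton_smul_eq k.isUnit _).symm⟩

include hZ

theorem okN : (ch.sdN S Λ ν κ n).Ok (actG F) Z 1 0 := by
  have o := fun q => (hn.cuts'.okψ (S := S) (F := F) (Z := {x | x.2 ∈ (ch.re n).base _})
    (fun _ h => h) (q : Mk ν (κ ⊕ Unit))).famB.inv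
  refine ok_line (P := ch.N4) (fun a q q' => ContinuousLinearMap.ext fun μ => mul_add _ _ _)
    (fun a s q => ContinuousLinearMap.ext fun μ => mul_left_comm _ _ _)
    (fun q => ContinuousLinearMap.ext fun μ => (congrArg (· * _) (one_pow 4)).trans (one_mul _))
    (fun a b q => ContinuousLinearMap.ext fun μ => (congrArg (· * _) (mul_pow _ _ 4)).trans
      (mul_assoc _ _ _)) (fun q => continuous_clm_apply.2 fun μ => ?_) (fun z₀ => ?_) ?_
  · have c := Units.continuous_val (M := ch.AG n ν κ Unit S)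
    have d : Continuous fun g : HV ch.M ch.M => P269.pbT g fun _ : Fin 4 => ch.o :=
      continuous_iff_continuousAt.2 fun g => (GlA.an_pbT (φ := id) analyticAt_id _).continuousAt
    exact (((continuous_apply ch.o).comp ((continuous_apply ()).comp (continuous_snd.comp
      (continuous_snd.comp (continuous_snd.comp c))))).pow 4).mul (q.continuous.comp ((d.comp
        (continuous_fst.comp (continuous_snd.comp (continuous_fst.comp c)))).clm_apply
          continuous_const))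
  · obtain ⟨v, a, b⟩ := exists_tan hn.cuts' (hZ z₀.2).1.mem' (nq () false)
    obtain ⟨v', a', b'⟩ := exists_tan hn.cuts' (hZ z₀.2).1.mem' (nq () true)
    have c : ContinuousAt (fun z : Z => z.1.2.1) z₀ :=
      continuousAt_fst.comp (continuousAt_snd.comp continuousAt_subtype_val)
    refine ⟨fun z => wz z.1 (v z.1.2.1) (v' z.1.2.1), continuous_wz continuousAt_subtype_val
      (a.comp_of_eq c rfl) (a'.comp_of_eq c rfl), (c.eventually (b.and b')).mono fun z k => ?_⟩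
    obtain ⟨δ, a1, a2, a3⟩ := k.1 (hZ z.2).1.mem'
    obtain ⟨δ', b1, b2, b3⟩ := k.2 (hZ z.2).1.mem'
    have := B_br (S := S) (hZ z.2).1 a1 a2 b1 b2
    rwa [a3, b3] at this
  · rintro z hz a ha _ ⟨v, hv, v', hv', rfl⟩
    exact mem_of_eq_of_mem (wz_act (F := F) ha z v v').symm (wz_mem (S := S)
      (o _ (μG z) (hZ hz).1.mem' _ (isUnit_θG ha) v hv)
      (o _ (μG z) (hZ hz).1.mem' _ (isUnit_θG ha) v' hv'))

end Vale.Agent.P269.Ch
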