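import Vale.Agent.P269.LG.OpsB
import Vale.Agent.P269.LG.OpsC
import Vale.Agent.P269.LG.OpsD

/-! Edges under isomorphism, relabelling, cutting, splitting: all parts. -/
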