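import Vale.Agent.P269.LG.Hy
import Vale.Agent.P269.LG.TopB
import Vale.Agent.P269.LG.Alg
import Vale.Agent.P269.LG.Ops
import Vale.Agent.P269.Pt.Split

/-! Weights of the cotangent lines at fixed points, units, pull-back of insertions. -/

set_option linter.unusedSectionVars false

namespace Vale.Agent.P269.LG

open Set Function TensorProduct B Fock Finset Vale.Agent.P291Z

variable {V : Type} [AddCommGroup V] [Module ℂ V] {p : Fock.Par ℂ V} {ι : Type} [Fintype ι]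
  {fr : Fock.Frame p ι} {C : Type} [CommRing C] [Algebra ℂ C] {R J K : Type} [Fintype R]
  [Fintype J] [Fintype K] {X : Type} [TopologicalSpace X] {ac : Act fr C} [DecidableEq R] {r : ℕ}
  {P : PB R J K (Fin (r + 1))} {T : Th P X} {D : Dic ac X} {a : Fin (r + 1) → ℂ}
  {c : Fin (r + 1) → C} {ZV : Fin (r + 1) → (R → ℤ) → ℤ → ℕ → Fock.S (p.fs ℕ) →ₗ[ℂ] ℂ}
  {ZE : (Option R → ℤ) → ℤ → Fock.S ((p.pi (Fin (r + 1))).fs ℕ) →ₗ[ℂ] ℂ}
  {ZZ : ℕ → (Fin (r + 1) → R → ℤ) → ℤ → ℤ → S ((p.bc F).fs (Sym (Fin (r + 1)))) →ₗ[F] F}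
  {ν ν' : Type} [Fintype ν] [Fintype ν'] {g g' : ℤ} {d d' : Option R → ℤ}

namespace WtA

theorem tt_ne : tt ≠ 0 := fun h => by
  simpa [tt] using congrArg (fun x : F => x.co (-1)) h

theorem smul_tt (z : ℂ) : z • tt = algebraMap ℂ F z * tt := Algebra.smul_def z tt

theorem add_tt (z w : ℂ) : z • tt + w • tt = (z + w) • tt := (add_smul z w tt).symm

theorem sub_tt (z w : ℂ) : z • tt - w • tt = (z - w) • tt := (sub_smul z w tt).symm

theorem smul_tt_ne {z : ℂ} (hz : z ≠ 0) : z • tt ≠ 0 := by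
  rw [smul_tt]
  exact mul_ne_zero ((map_ne_zero _).2 hz) tt_ne

theorem comb_ne (ha : LinearIndependent ℚ a) {i l l' : Fin (r + 1)} (hl : l ≠ i) (hl' : l' ≠ i)
    {u v : ℚ} (huv : u + v ≠ 0) : (u : ℂ) * (a l - a i) + v * (a l' - a i) ≠ 0 := fun h => by
  have := linearIndependent_iff.1 ha
    (Finsupp.single l u + Finsupp.single l' v - Finsupp.single i (u + v)) (by
      simp only [map_sub, map_add, Finsupp.linearCombination_single, Rat.smul_def, Rat.cast_add]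
      linear_combination h)
  have := DFunLike.congr_fun this i
  simp [hl, hl'] at this
  exact huv (by linarith)

/-- the weight of an edge -/
noncomputable abbrev wt (a : Fin (r + 1) → ℂ) (e : Edge (Fin (r + 1))) : ℂ :=
  (a e.tgt - a e.src) / (e.deg + 1)

theorem wt_eq (e : Edge (Fin (r + 1))) :
    wt a e = ((1 / ((e.deg : ℚ) + 1) : ℚ) : ℂ) * (a e.tgt - a e.src) := by
  push_cast
  ring

theorem pos (e : Edge (Fin (r + 1))) : (0 : ℚ) < 1 / ((e.deg : ℚ) + 1) := by positivity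

theorem wt_ne (ha : LinearIndependent ℚ a) (e : Edge (Fin (r + 1))) : wt a e ≠ 0 := by
  simpa only [wt_eq, Rat.cast_zero, zero_mul, add_zero] using
    comb_ne ha e.ne.symm e.ne.symm (u := 1 / ((e.deg : ℚ) + 1)) (v := 0) (by linarith [pos e])

theorem wt_add_ne (ha : LinearIndependent ℚ a) {e e' : Edge (Fin (r + 1))} (he : e'.src = e.src) :
    wt a e' + wt a e ≠ 0 := by
  rw [wt_eq, wt_eq, he]
  exact comb_ne ha (he ▸ e'.ne.symm) e.ne.symm (by linarith [pos e, pos e'])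

theorem wt_rev (e : Edge (Fin (r + 1))) : wt a e.rev = -wt a e := by
  rw [wt, wt, ← neg_div, neg_sub]
  rfl

/-- scalars -/
noncomputable abbrev sc (C : Type) [CommRing C] [Algebra ℂ C] : F →ₐ[F] F ⊗[ℂ] C :=
  Algebra.TensorProduct.includeLeft

theorem pe_eq (e : Edge (Fin (r + 1))) : pe F (chi a c) e = sc C (wt a e • tt) +
    (1 : F) ⊗ₜ[ℂ] (((1 / ((e.deg : ℚ) + 1) : ℚ) : ℂ) • (c e.tgt - c e.src)) := by
  have : algebraMap ℚ F (1 / ((e.deg : ℚ) + 1)) =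
      algebraMap ℂ F ((1 / ((e.deg : ℚ) + 1) : ℚ) : ℂ) :=
    DFunLike.congr_fun (RingHom.ext_rat (algebraMap ℚ F) ((algebraMap ℂ F).comp (algebraMap ℚ ℂ))) _
  have u : ∀ (q : ℂ) (y : C), (1 : F) ⊗ₜ[ℂ] (q • y) = algebraMap ℂ F q • (1 : F) ⊗ₜ[ℂ] y :=
    fun q y => by rw [algebraMap_smul, tmul_smul]
  have v : ∀ z : ℂ, (z • tt) ⊗ₜ[ℂ] (1 : C) = sc C (z • tt) := fun _ => rfl
  rw [pe, this, u, wt_eq, chi, chi, v, v, add_sub_add_comm, ← map_sub, sub_tt, ← tmul_sub, smul_add,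
    ← map_smul, smul_eq_mul, smul_tt, smul_tt, map_mul (algebraMap ℂ F), mul_assoc]

theorem map_sc (f : F ⊗[ℂ] C →ₐ[F] F) (z : F) : f (sc C z) = z :=
  (f.comp (sc C)).commutes z

theorem nil_part (h : ∀ l, IsNilpotent (c l)) (z : ℂ) (l l' : Fin (r + 1)) :
    IsNilpotent ((1 : F) ⊗ₜ[ℂ] (z • (c l - c l'))) :=
  (((Commute.all _ _).isNilpotent_sub (h l) (h l')).smul z).map
    (Algebra.TensorProduct.includeRight (R := ℂ) (A := F) (B := C))

theorem map_rinv {k B G : Type} [CommSemiring k] [Semiring B] [Semiring G] [Algebra k B]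
    [Algebra k G] (f : B →ₐ[k] G) {x : B} (hx : IsUnit x) :
    f (Ring.inverse x) = Ring.inverse (f x) := by
  rw [← mul_one (Ring.inverse (f x)), ← map_one f, ← Ring.mul_inverse_cancel x hx, map_mul,
    Ring.inverse_mul_cancel_left _ _ (hx.map f)]

theorem map_npow {k B G : Type} [CommSemiring k] [Semiring B] [Semiring G] [Algebra k B]
    [Algebra k G] (f : B →ₐ[k] G) (x : B) (n : ℕ) : f (x ^ n) = f x ^ n := map_pow f x n

theorem map_nil {k B G : Type} [CommSemiring k] [Semiring B] [Semiring G] [Algebra k B]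
    [Algebra k G] (f : B →ₐ[k] G) {x : B} (hx : IsNilpotent x) : IsNilpotent (f x) := hx.map f

theorem sy_alg {B : Type} [CommRing B] {ε y : B} (hu : IsUnit (ε * y + 1 - ε)) (v : ε * ε = ε) :
    ε * Ring.inverse (ε * y + 1 - ε) * y = ε := by
  linear_combination ε * Ring.mul_inverse_cancel _ hu - (y - 1) * Ring.inverse (ε * y + 1 - ε) * v

theorem unit_alg {B : Type} [CommRing B] {u x : B} (hu : IsUnit u) (hx : IsNilpotent x) :
    IsUnit (u + x) := hx.isUnit_add_left_of_commute hu (Commute.all _ _)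

theorem nil_sub {B : Type} [CommRing B] {x y : B} (hx : IsNilpotent x) (hy : IsNilpotent y) :
    IsNilpotent (x - y) := (Commute.all _ _).isNilpotent_sub hx hy

theorem map_unit {k B G : Type} [CommSemiring k] [Semiring B] [Semiring G] [Algebra k B]
    [Algebra k G] (f : B →ₐ[k] G) {x : B} (hx : IsUnit x) : IsUnit (f x) := hx.map f

theorem unit_sc {z : ℂ} (hz : z ≠ 0) : IsUnit (sc C (z • tt)) :=
  map_unit (sc C) (smul_tt_ne hz).isUnit

section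

variable {A A' : Type} [TopologicalSpace A] [TopologicalSpace A']

theorem pbE_pow (φ : C(A', A)) (x : F ⊗[ℂ] Ch.Hev A) (k : ℕ) : pbE φ (x ^ k) = pbE φ x ^ k :=
  map_npow (pbE φ) x k

theorem pbE_one (φ : C(A', A)) : pbE φ 1 = 1 := (pbE φ).map_one

theorem pbE_rinv (φ : C(A', A)) {x : F ⊗[ℂ] Ch.Hev A} (hx : IsUnit x) :
    pbE φ (Ring.inverse x) = Ring.inverse (pbE φ x) := map_rinv (pbE φ) hx

theorem sy_alg' {ε y : F ⊗[ℂ] Ch.Hev A} (hu : IsUnit (ε * y + 1 - ε)) (v : ε * ε = ε) :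
    ε * Ring.inverse (ε * y + 1 - ε) * y = ε := sy_alg (B := F ⊗[ℂ] Ch.Hev A) hu v

end

/-- a homeomorphism transports the class of any function -/
theorem pbE_fnE_surj {A A' : Type} [TopologicalSpace A] [TopologicalSpace A'] [Nice A] [Nice A']
    [CompactSpace A'] {φ : C(A', A)} (hφ : Surjective φ) (u : A → ℂ) :
    pbE φ (fnE u) = fnE (u ∘ φ) := by
  by_cases hu : IsLocallyConstant u
  · exact pbE_fnE φ hu
  have hu' : ¬IsLocallyConstant (u ∘ φ) := fun h => hu fun s =>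
    (φ.continuous.isClosedMap.isQuotientMap φ.continuous hφ).isOpen_preimage.1 (h s)
  have z : ∀ {B : Type} [TopologicalSpace B] [Nice B] {v : B → ℂ}, ¬IsLocallyConstant v →
      fnE v = 0 := fun hv => inF_injective (by
    rw [inF_fnE, hcls, dif_neg (mt Orb.cocycle_fn.1 hv), tmul_zero, map_zero])
  rw [z hu, z hu', map_zero]

end WtA

open WtA

namespace Hy

variable (h : Hy T D a c ZV ZE)
include h

theorem clopen_cm (n : ν) (i) : IsClopen ((T ν g d).sel (Cm · n i)) := by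
  refine ⟨(T ν g d).cm n i, isClosed_compl_iff.1 ?_⟩
  have : ((T ν g d).sel (Cm · n i))ᶜ = ⋃ l ∈ {l | l ≠ i}, (T ν g d).sel (Cm · n l) := by
    ext x
    obtain ⟨m, hm⟩ := (T ν g d).ex x
    have f := (T ν g d).fx hm
    simp only [mem_compl_iff, mem_iUnion, (T ν g d).mem_sel (inv_cm n _) hm]
    refine ⟨fun u => ?_, fun ⟨l, hl, u⟩ v => hl (Ov.unique f.sol u v)⟩
    obtain ⟨l, hl⟩ := f.str.cm n
    exact ⟨l, fun e => u (e ▸ hl), hl⟩
  rw [this]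
  exact (toFinite _).isClosed_biUnion fun l _ => (T ν g d).cm n l

/-- reduction to the part of the curve that carries the marked point -/
theorem red {x : (T ν g d).A} {m} (hx : (T ν g d).Rp x m) {U : Set m.X} (hU : m.Sat U) {n : ν}
    (hn : m.p (.inl n) ∈ U) : ∃ (ν₁ : Type) (_ : Fintype ν₁) (g₁ : ℤ) (d₁ : Option R → ℤ)
      (x₁ : (T ν₁ g₁ d₁).A) (m₁ : AM0 R J _ ν₁) (f : ν₁ → ν) (ψ : Fin 0 → Fin 0) (j : m₁.X → m.X)
      (n₁ : ν₁), (T ν₁ g₁ d₁).Rp x₁ m₁ ∧ AM.Emb m₁ m f ψ j ∧ range j = U ∧ f n₁ = n ∧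
        ptE x ((T ν g d).ψ n) = ptE x₁ ((T ν₁ g₁ d₁).ψ n₁) := by
  classical
  let φ := Equiv.sumCompl fun n => m.p (.inl n) ∈ U
  obtain ⟨m₁, m₂, j₁, j₂, hs, hr⟩ := AM.exists_split hU φ e00 (forall_mk fun n => n.2)
    (forall_mk fun n => n.2)
  obtain ⟨g₁, d₁, ht⟩ : ∃ g₁ d₁, m₁.Typ g₁ d₁ := ⟨_, _, rfl, fun _ => rfl⟩
  have hg : g = g₁ + (g - g₁ + 1) - 1 := by ring
  have hd : d = d₁ + (d - d₁) := by abel
  obtain ⟨f, I, hS⟩ := h.hS ν _ _ φ g g₁ _ d d₁ _ hg hd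
  obtain ⟨f₁, f₂⟩ := Fx.split hs (hg ▸ hd ▸ (T ν g d).fx hx) ht
  obtain ⟨x₁, h₁⟩ := (T _ _ _).surj f₁
  obtain ⟨x₂, h₂⟩ := (T _ _ _).surj f₂
  refine ⟨_, inferInstance, g₁, d₁, x₁, m₁, _, _, j₁, ⟨n, hn⟩, h₁, hs.one, hr, rfl, ?_⟩
  rw [(T ν g d).inj hx (hS.pt _ _ _ _ _ _ _ h₁ h₂ hs), ← ptE_pbE]
  exact (congrArg _ (hS.ψ₁ ⟨n, hn⟩)).trans (ptE_pbE _ _ _)

theorem ptE_pe (x : X) (e : Edge (Fin (r + 1))) :
    ptE x (D.c (pe F (chi a c) e)) = ((a e.tgt - a e.src) / (e.deg + 1)) • tt := by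
  rw [pe_eq, map_add, map_add, (map_nil (ptE x) (map_nil D.c (nil_part h.nil _ _ _))).eq_zero,
    add_zero]
  exact map_sc ((ptE x).comp D.c) _

theorem ptE_aux (k : ℕ) : ∀ (ν : Type) [Fintype ν] (g : ℤ) (d : Option R → ℤ) (x : (T ν g d).A)
    (m : AM0 R J _ ν), (T ν g d).Rp x m → m.N.card = k → ∀ n,
      (∀ i, m.p (.inl n) ∈ Vx m i → ptE x ((T ν g d).ψ n) = 0) ∧
      ∀ e b, Eg m e (m.p (.inl n)) b → ptE x ((T ν g d).ψ n) = -(wt a e • tt) := by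
  induction k with
  | zero =>
    intro ν _ g d x m hx hk n
    have hN : ∀ z, Cv.Sm m.N z := fun z => by
      rw [Finset.card_eq_zero.1 hk]
      exact fun _ u => (Finset.notMem_empty _ u).elim
    refine ⟨fun i hi => ?_, fun e b he => ?_⟩
    · obtain ⟨ν₁, _, g₁, d₁, x₁, m₁, f, ψ, j, n₁, h₁, u, hr, -, v⟩ := h.red hx
        ⟨clopen_Vx m i, fun z _ y w => (Cv.sm_iff.1 (hN z) y w).elim⟩ hi
      obtain ⟨c₁, c₂, -⟩ := h.hV ν₁ g₁ d₁ i
      have := isNilpotent_iff.1 (c₂ n₁) x₁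
      rwa [map_mul, Md.id, ptE_idE_mem c₁ ⟨m₁, h₁, fun z => ⟨i, rfl,
        (tr_emb u).vx.1 (hr ▸ mem_range_self z)⟩⟩, one_mul, ← v] at this
    · obtain ⟨ν₁, _, g₁, d₁, x₁, m₁, f, ψ, j, n₁, h₁, u, hr, rfl, v⟩ := h.red hx
        (he.sat (hN _) (hN _)) mem_connectedComponent
      rw [← u.mark_inl] at he hr
      obtain ⟨b, rfl⟩ := emb_eg' u he
      have he₁ := (emb_eg u).1 he
      have hc : connectedComponent (m₁.p (.inl n₁)) = univ := by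
        rw [← u.inj.image_injective.eq_iff, ← (tr_emb u).cc, image_univ, hr]
      obtain ⟨t, ht, ht'⟩ := exists_end b
      have ed : Edg m₁ e (.mark n₁) t := ⟨_, b, he₁, rfl, ht, hc⟩
      have en : Ends (.mark n₁) t := by
        refine ⟨fun w => En.noConfusion rfl (heq_of_eq w), ?_, fun n' => ?_, ?_⟩
        · rintro rfl
          exact ht (u.sm.1 (hN _))
        · rcases he₁.spc (m₁.p (.inl n')) (hc ▸ mem_univ _) (.inl ⟨_, rfl⟩) with w | w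
          · exact .inl (congrArg _ (Sum.inl_injective (m₁.inj w)).symm)
          · exact .inr (ht' (.mark n') w).symm
        · rintro n' ⟨⟩ rfl
          exact he₁.ne ht
      have t₁ := ((T _ _ _).fx h₁).typ
      have t₂ := ed.typ en.src en.tgt
      obtain rfl : g₁ = 0 := t₁.1.symm.trans t₂.1
      obtain rfl : d₁ = edD R e := funext fun o => (t₁.2 o).symm.trans (t₂.2 o)
      obtain ⟨w, hw⟩ := h.hE ν₁ e _ t en
      obtain ⟨y, rfl⟩ : x₁ ∈ range w := hw.range ▸ ⟨m₁, h₁, ed⟩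
      rw [v, ← ptE_pbE, hw.src n₁ rfl, map_neg, h.ptE_pe]
  | succ k ih =>
    intro ν _ g d x m hx hk n
    obtain ⟨q, hq⟩ := Finset.card_pos.1 (k.succ_pos.trans_eq hk.symm)
    obtain ⟨n', hn', -⟩ := exists_nds (m := m) (z := q.1) fun u => (u q hq).1 rfl
    obtain ⟨A, _, _, _, φ, φ', hN⟩ := h.hN ν g (g - 1) d (by ring)
    obtain ⟨y, rfl, hy⟩ := hN.all x m n' hn' hx
    have := ih _ _ _ _ _ hy (by have := card_ctp hn'; omega) (.inl n)
    rw [← ptE_pbE, ← hN.ψ, ptE_pbE] at this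
    exact ⟨this.1, fun e b he => this.2 e b ((eg_ctp hn').2 he)⟩

theorem ptE_vx {x : (T ν g d).A} {m} (hx : (T ν g d).Rp x m) {n : ν} {i}
    (hn : m.p (.inl n) ∈ Vx m i) : ptE x ((T ν g d).ψ n) = 0 :=
  (h.ptE_aux _ ν g d x m hx rfl n).1 i hn

theorem ptE_eg {x : (T ν g d).A} {m} (hx : (T ν g d).Rp x m) {n : ν} {e b}
    (hn : Eg m e (m.p (.inl n)) b) :
    ptE x ((T ν g d).ψ n) = -(((a e.tgt - a e.src) / (e.deg + 1)) • tt) :=
  (h.ptE_aux _ ν g d x m hx rfl n).2 e b hn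

theorem isUnit_pe (e : Edge (Fin (r + 1))) : IsUnit (pe F (chi a c) e) := by
  rw [pe_eq]
  exact unit_alg (B := F ⊗[ℂ] C) (unit_sc (wt_ne h.ha e)) (nil_part h.nil _ _ _)

theorem isUnit_pe_sub {e e' : Edge (Fin (r + 1))} (he : e'.src = e.tgt) :
    IsUnit (pe F (chi a c) e - pe F (chi a c) e') := by
  rw [pe_eq, pe_eq, add_sub_add_comm, ← map_sub, sub_tt]
  refine unit_alg (B := F ⊗[ℂ] C) (unit_sc fun u => wt_add_ne h.ha (e := e.rev) he ?_)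
    (nil_sub (B := F ⊗[ℂ] C) (nil_part h.nil _ _ _) (nil_part h.nil _ _ _))
  rw [wt_rev]
  linear_combination -u

theorem isUnit_sy (n : ν) (e : Edge (Fin (r + 1))) : IsUnit ((T ν g d).id (Cm · n e.src) *
    ((T ν g d).ψ n - (T ν g d).evC D n (pe F (chi a c) e)) + 1 - (T ν g d).id (Cm · n e.src)) := by
  refine isUnit_piece (h.clopen_cm n e.src) ?_
  rintro x ⟨m, hm, hc⟩
  have f := (T ν g d).fx hm
  have u : ptE x ((T ν g d).evC D n (pe F (chi a c) e)) = wt a e • tt :=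
    (ptE_pbE _ _ _).trans (h.ptE_pe _ e)
  have v : ∀ e' b, Eg m e' (m.p (.inl n)) b →
      ptE x ((T ν g d).ψ n) - wt a e • tt ≠ 0 := fun e' b he => by
    rw [h.ptE_eg hm he, ← neg_add', add_tt, neg_ne_zero]
    exact smul_tt_ne (wt_add_ne h.ha (Ov.unique f.sol he.ov_src hc))
  rw [map_sub, u]
  rcases f.str (m.p (.inl n)) with ⟨i, hi⟩ | ⟨e', y, b, he, hy⟩
  · rw [h.ptE_vx hm hi, zero_sub, neg_ne_zero]
    exact smul_tt_ne (wt_ne h.ha e)
  · rcases he.spc _ hy (.inl ⟨_, rfl⟩) with rfl | rfl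
    exacts [v _ _ he, v _ _ he.rev]

theorem sy_mul (n : ν) (e : Edge (Fin (r + 1))) : (T ν g d).sy D (chi a c) n (.inr e) *
    ((T ν g d).ψ n - (T ν g d).evC D n (pe F (chi a c) e)) = (T ν g d).id (Cm · n e.src) :=
  sy_alg' (h.isUnit_sy n e) (idE_mul_self (h.clopen_cm n e.src))

theorem pb_sy {A : Type} [TopologicalSpace A] [Nice A] (φ : C(A, (T ν g d).A))
    (φ' : C(A, (T ν' g' d').A)) {n : ν} {n' : ν'}
    (h1 : pbE φ ((T ν g d).ψ n) = pbE φ' ((T ν' g' d').ψ n'))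
    (h2 : ((T ν g d).ev n).comp φ = ((T ν' g' d').ev n').comp φ')
    (h3 : ∀ i x, φ x ∈ (T ν g d).sel (Cm · n i) ↔ φ' x ∈ (T ν' g' d').sel (Cm · n' i)) (s) :
    pbE φ ((T ν g d).sy D (chi a c) n s) = pbE φ' ((T ν' g' d').sy D (chi a c) n' s) := by
  have u : ∀ i, pbE φ ((T ν g d).id (Cm · n i)) = pbE φ' ((T ν' g' d').id (Cm · n' i)) :=
    fun i => by
      rw [Md.id, Md.id, pbE_idE _ (h.clopen_cm n i), pbE_idE _ (h.clopen_cm n' i)]
      exact congrArg _ (Set.ext (h3 i))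
  rcases s with x | e
  · rw [Md.sy, Md.sy, map_mul, map_mul, pbE_pow, pbE_pow, u, h1]
  · rw [Md.sy, Md.sy, map_mul, map_mul, pbE_rinv _ (h.isUnit_sy n e),
      pbE_rinv _ (h.isUnit_sy n' e)]
    simp only [map_sub, map_add, map_mul, pbE_one, u, h1, Md.pbE_evC, h2]

theorem pb_ins {A : Type} [TopologicalSpace A] [Nice A] (φ : C(A, (T ν g d).A))
    (φ' : C(A, (T ν' g' d').A)) {n : ν} {n' : ν'}
    (h1 : pbE φ ((T ν g d).ψ n) = pbE φ' ((T ν' g' d').ψ n'))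
    (h2 : ((T ν g d).ev n).comp φ = ((T ν' g' d').ev n').comp φ')
    (h3 : ∀ i x, φ x ∈ (T ν g d).sel (Cm · n i) ↔ φ' x ∈ (T ν' g' d').sel (Cm · n' i)) (v) :
    pb F φ ((T ν g d).ins D (chi a c) n v) = pb F φ' ((T ν' g' d').ins D (chi a c) n' v) := by
  induction v using Finsupp.induction_linear with
  | zero => rw [map_zero, map_zero, map_zero, map_zero]
  | add x y hx hy => rw [map_add, map_add, map_add, map_add, hx, hy]
  | single s v =>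
    rw [Md.ins_single, Md.ins_single, map_mul, map_mul, pb_inF, pb_inF, h.pb_sy φ φ' h1 h2 h3,
      Md.pb_evH, Md.pb_evH, h2]

theorem nod_ins {A : Type} [TopologicalSpace A] [Nice A] {φ : C(A, (T ν g d).A)}
    {φ' : C(A, (T (ν ⊕ Unit × Bool) g' d).A)} (hN : Nod D (chi a c) _ _ φ φ') (n : ν) (v) :
    pb F φ ((T ν g d).ins D (chi a c) n v) =
      pb F φ' ((T (ν ⊕ Unit × Bool) g' d).ins D (chi a c) (.inl n) v) :=
  h.pb_ins φ φ' (hN.ψ n) (hN.ev n) (fun i x => by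
    obtain ⟨m, n', hn', u, u'⟩ := hN.pt x
    rw [Md.mem_sel _ (inv_cm _ _) u, Md.mem_sel _ (inv_cm _ _) u', cm_ctp]) v

theorem spl_ins {ν₁ ν₂ : Type} [Fintype ν₁] [Fintype ν₂] {φ : ν₁ ⊕ ν₂ ≃ ν} {g₁ g₂ d₁ d₂ f I}
    (hg : g = g₁ + g₂ - 1) (hd : d = d₁ + d₂)
    (hS : Spl φ (T ν g d) (T ν₁ g₁ d₁) (T ν₂ g₂ d₂) f I) :
    (∀ n v, pb F f ((T ν g d).ins D (chi a c) (φ (.inl n)) v) =
      pb F .fst ((T ν₁ g₁ d₁).ins D (chi a c) n v)) ∧
    ∀ n v, pb F f ((T ν g d).ins D (chi a c) (φ (.inr n)) v) =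
      pb F .snd ((T ν₂ g₂ d₂).ins D (chi a c) n v) := by
  have _ := hg
  have _ := hd
  have u : ∀ x : (T ν₁ g₁ d₁).A × (T ν₂ g₂ d₂).A, ∃ m m₁ m₂ j₁ j₂, (T ν g d).Rp (f x) m ∧
      (T ν₁ g₁ d₁).Rp x.1 m₁ ∧ (T ν₂ g₂ d₂).Rp x.2 m₂ ∧ AM.Split m m₁ m₂ φ e00 j₁ j₂ := fun x => by
    obtain ⟨m₁, h₁⟩ := (T ν₁ g₁ d₁).ex x.1
    obtain ⟨m₂, h₂⟩ := (T ν₂ g₂ d₂).ex x.2
    obtain ⟨m, j₁, j₂, hs⟩ := AM.exists_sum m₁ m₂ (funext fun q => q.elim) φ e00
    exact ⟨m, m₁, m₂, j₁, j₂, hS.pt _ _ _ _ _ _ _ h₁ h₂ hs, h₁, h₂, hs⟩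
  refine ⟨fun n => h.pb_ins f .fst (hS.ψ₁ n) (hS.ev₁ n) fun i x => ?_,
    fun n => h.pb_ins f .snd (hS.ψ₂ n) (hS.ev₂ n) fun i x => ?_⟩
  · obtain ⟨m, m₁, m₂, j₁, j₂, w, w₁, -, hs⟩ := u x
    exact (Md.mem_sel _ (inv_cm _ _) w).trans
      ((emb_cm hs.one n).trans (Md.mem_sel _ (inv_cm _ _) w₁).symm)
  · obtain ⟨m, m₁, m₂, j₁, j₂, w, -, w₂, hs⟩ := u x
    exact (Md.mem_sel _ (inv_cm _ _) w).trans
      ((emb_cm hs.two n).trans (Md.mem_sel _ (inv_cm _ _) w₂).symm)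

/-- relabelling of weighted correlators -/
theorem W_rl (φ : ν' ≃ ν) {w : AM0 R J _ ν → ℕ} {w' : AM0 R J _ ν' → ℕ}
    (hw' : ∀ k, Inv P (w' · = k)) (hw : ∀ m, w' (rl m φ) = w m) (L) :
    (T ν g d).W D (chi a c) w (L.map (Prod.map φ id)) = (T ν' g d).W D (chi a c) w' L := by
  obtain ⟨f, h1, h2, h3, h4⟩ := h.hR ν ν' φ g d
  have hf : Surjective f := fun x => by
    obtain ⟨m, hm⟩ := (T ν g d).ex x
    obtain ⟨y, hy⟩ := (T ν' g d).surj ((fx_rl φ).2 ((T ν g d).fx hm))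
    obtain ⟨m', hm'⟩ := (T ν g d).ex (f y)
    exact ⟨y, (T ν g d).inj (((T ν g d).iso hm').2 ((AM.iso_re φ (Equiv.refl _)).1
      (((T ν' g d).iso (h1 _ _ hm')).1 hy))) hm⟩
  have e1 : (T ν g d).cf w ∘ f = (T ν' g d).cf w' := funext fun y => by
    rw [Md.cf_eq _ hw' (h1 y _ ((T ν g d).ex (f y)).choose_spec), hw]
    rfl
  have e2 : ∀ n v, pb F f ((T ν g d).ins D (chi a c) (φ n) v) = (T ν' g d).ins D (chi a c) n v :=
    fun n v => (h.pb_ins f (.id _) ((h2 n).trans (pbE_id _).symm) (h3 n) (fun i y => by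
      obtain ⟨m, hm⟩ := (T ν g d).ex (f y)
      exact (Md.mem_sel _ (inv_cm _ _) hm).trans
        (Md.mem_sel _ (inv_cm _ _) (h1 _ _ hm)).symm) v).trans (pb_id _)
  rw [Md.W, Md.W, ← h4, map_mul, pb_inF, pbE_fnE_surj hf, e1, map_list_prod, List.map_map,
    List.map_map]
  congr 3
  exact List.map_congr_left fun x _ => e2 x.1 x.2

theorem exists_ZZ : ∃ ZZ, IsZZ T D (chi a c) ZZ := by
  classical
  have : ∀ k β e j, ∃ Z : S ((p.bc F).fs (Sym (Fin (r + 1)))) →ₗ[F] F,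
      ∀ (ν : Type) [Fintype ν] (L : List (ν × (Sym (Fin (r + 1)) →₀ F ⊗[ℂ] V))), Enum L →
        Z (mon _ L) = (T ν (j + 1) (totD P β e)).Wp D (chi a c) k β L := fun k β e j =>
    exists_fun (fun ν _ => (T ν (j + 1) (totD P β e)).Wp D (chi a c) k β)
      (fun ν _ => Md.sw_W D _ _) fun ν ν' _ _ φ L _ =>
        h.W_rl φ (inv_pcs.ite fun k => inv_const (1 = k)) (fun m => by simp only [pcs_rl]) L
  choose ZZ hZ using this
  exact ⟨ZZ, hZ⟩

end Hy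

end Vale.Agent.P269.LG
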